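import Mathlib

/-!
The gauge of a convex body and its gradient: the normal field of the boundary, written as a
`0`-homogeneous function, and the divergence theorem in that language.
-/

namespace Vale.Agent.P237.Quant

open MeasureTheory Set Filter Topology Module
open scoped RealInnerProductSpace Pointwise NNReal

variable {n : ℕ} {K : Set (EuclideanSpace ℝ (Fin n))}

/-- The gradient of the gauge at `x`: the outer normal of `K` at the boundary point on the ray of
`x`, scaled to pair to one with that point. -/
noncomputable def normalAt (K : Set (EuclideanSpace ℝ (Fin n))) (x : EuclideanSpace ℝ (Fin n)) :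
    EuclideanSpace ℝ (Fin n) :=
  gradient (gauge K) x

/-- The boundary point on the ray of `x`. -/
noncomputable def bdPoint (K : Set (EuclideanSpace ℝ (Fin n))) (x : EuclideanSpace ℝ (Fin n)) :
    EuclideanSpace ℝ (Fin n) :=
  (gauge K x)⁻¹ • x

theorem inner_normalAt (x v : EuclideanSpace ℝ (Fin n)) :
    ⟪normalAt K x, v⟫ = fderiv ℝ (gauge K) x v :=
  inner_gradient_left

theorem measurable_normalAt : Measurable (normalAt K) :=
  (InnerProductSpace.toDual ℝ (EuclideanSpace ℝ (Fin n))).symm.continuous.measurable.comp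
    (measurable_fderiv ℝ _)

theorem ae_differentiableAt_gauge (hcv : Convex ℝ K) (h0 : K ∈ 𝓝 0) :
    ∀ᵐ x : EuclideanSpace ℝ (Fin n), DifferentiableAt ℝ (gauge K) x :=
  (hcv.lipschitz_gauge h0).choose_spec.ae_differentiableAt

theorem exists_bound_normalAt (hcv : Convex ℝ K) (h0 : K ∈ 𝓝 0) :
    ∃ C : ℝ, ∀ x, ‖normalAt K x‖ ≤ C := by
  obtain ⟨L, hL⟩ := hcv.lipschitz_gauge h0
  refine ⟨L, fun x => ?_⟩
  rw [normalAt, gradient, LinearIsometryEquiv.norm_map]
  exact norm_fderiv_le_of_lipschitz ℝ hL

/-- The gauge is above each of its tangents. -/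
theorem inner_normalAt_le (hcv : Convex ℝ K) (h0 : K ∈ 𝓝 0) {x : EuclideanSpace ℝ (Fin n)}
    (hx : DifferentiableAt ℝ (gauge K) x) (v : EuclideanSpace ℝ (Fin n)) :
    ⟪normalAt K x, v⟫ ≤ gauge K v := by
  rw [inner_normalAt]
  refine le_of_tendsto (hx.hasFDerivAt.hasLineDerivAt v).tendsto_slope_zero_right ?_
  filter_upwards [self_mem_nhdsWithin] with t (ht : (0 : ℝ) < t)
  have h := gauge_add_le hcv (absorbent_nhds_zero h0) x (t • v)
  rw [gauge_smul_of_nonneg ht.le, smul_eq_mul] at h
  rw [smul_eq_mul, inv_mul_le_iff₀ ht]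
  linarith

/-- Euler's relation. -/
theorem inner_normalAt_self {x : EuclideanSpace ℝ (Fin n)}
    (hx : DifferentiableAt ℝ (gauge K) x) : ⟪normalAt K x, x⟫ = gauge K x := by
  rw [inner_normalAt]
  have h1 : HasDerivAt (fun t : ℝ => gauge K (x + t • x)) (fderiv ℝ (gauge K) x x) 0 :=
    hx.hasFDerivAt.hasLineDerivAt x
  have h2 : HasDerivAt (fun t : ℝ => (1 + t) * gauge K x) (gauge K x) 0 := by
    simpa using ((hasDerivAt_id (0 : ℝ)).const_add 1).mul_const (gauge K x)
  refine h1.unique (h2.congr_of_eventuallyEq ?_)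
  filter_upwards [Ioi_mem_nhds (show (-1 : ℝ) < 0 by norm_num)] with t ht
  rw [show x + t • x = (1 + t) • x by rw [add_smul, one_smul],
    gauge_smul_of_nonneg (by linarith [ht.out] : (0 : ℝ) ≤ 1 + t), smul_eq_mul]

theorem inner_normalAt_le_one (hcv : Convex ℝ K) (h0 : K ∈ 𝓝 0)
    (hsym : ∀ y ∈ K, -y ∈ K) {x v : EuclideanSpace ℝ (Fin n)}
    (hx : DifferentiableAt ℝ (gauge K) x) (hv : v ∈ K) : |⟪normalAt K x, v⟫| ≤ 1 := by
  rw [abs_le]
  have h1 := (inner_normalAt_le hcv h0 hx v).trans (gauge_le_one_of_mem hv)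
  have h2 := (inner_normalAt_le hcv h0 hx (-v)).trans (gauge_le_one_of_mem (hsym v hv))
  rw [inner_neg_right] at h2
  constructor <;> linarith

theorem bdPoint_smul {r : ℝ} (hr : 0 < r) (x : EuclideanSpace ℝ (Fin n)) :
    bdPoint K (r • x) = bdPoint K x := by
  rw [bdPoint, bdPoint, gauge_smul_of_nonneg hr.le, smul_eq_mul, mul_inv, smul_smul,
    show r⁻¹ * (gauge K x)⁻¹ * r = (gauge K x)⁻¹ by field_simp]

theorem differentiableAt_gauge_smul {r : ℝ} (hr : 0 < r) {x : EuclideanSpace ℝ (Fin n)}
    (hx : DifferentiableAt ℝ (gauge K) x) :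
    HasFDerivAt (gauge K) (fderiv ℝ (gauge K) x) (r • x) := by
  set e : EuclideanSpace ℝ (Fin n) →L[ℝ] EuclideanSpace ℝ (Fin n) :=
    r⁻¹ • ContinuousLinearMap.id ℝ _
  have he : e (r • x) = x := by simp [e, smul_smul, hr.ne']
  have h := ((he.symm ▸ hx.hasFDerivAt).comp (r • x) e.hasFDerivAt).const_smul r
  refine (h.congr_fderiv ?_).congr_of_eventuallyEq (Eventually.of_forall fun y => ?_)
  · ext v
    simp [e, smul_smul, hr.ne']
  · simp [e, gauge_smul_of_nonneg (inv_nonneg.2 hr.le), hr.ne']

theorem normalAt_smul {r : ℝ} (hr : 0 < r) (x : EuclideanSpace ℝ (Fin n)) :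
    normalAt K (r • x) = normalAt K x := by
  rw [normalAt, normalAt, gradient, gradient]
  by_cases hx : DifferentiableAt ℝ (gauge K) x
  · rw [(differentiableAt_gauge_smul hr hx).fderiv]
  · have hx' : ¬ DifferentiableAt ℝ (gauge K) (r • x) := fun h => hx <| by
      have h2 := (differentiableAt_gauge_smul (inv_pos.2 hr) h).differentiableAt
      rwa [smul_smul, inv_mul_cancel₀ hr.ne', one_smul] at h2
    rw [fderiv_zero_of_not_differentiableAt hx, fderiv_zero_of_not_differentiableAt hx']

theorem mem_smul_iff (hcv : Convex ℝ K) (cK : IsCompact K) (h0 : K ∈ 𝓝 0) {r : ℝ} (hr : 0 < r)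
    {x : EuclideanSpace ℝ (Fin n)} : x ∈ r • K ↔ gauge K x ≤ r := by
  rw [mem_smul_set_iff_inv_smul_mem₀ hr.ne', ← cK.isClosed.closure_eq,
    ← gauge_le_one_iff_mem_closure hcv h0, cK.isClosed.closure_eq,
    gauge_smul_of_nonneg (inv_nonneg.2 hr.le), smul_eq_mul, inv_mul_le_one₀ hr]

theorem mem_iff_gauge (hcv : Convex ℝ K) (cK : IsCompact K) (h0 : K ∈ 𝓝 0)
    {x : EuclideanSpace ℝ (Fin n)} : x ∈ K ↔ gauge K x ≤ 1 := by
  simpa using mem_smul_iff hcv cK h0 (x := x) one_pos

/-- Integration of a `0`-homogeneous function over a dilate. -/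
theorem setIntegral_smul {u : EuclideanSpace ℝ (Fin n) → ℝ}
    (hu : ∀ r : ℝ, 0 < r → ∀ x, u (r • x) = u x) {r : ℝ} (hr : 0 < r) :
    ∫ x in r • K, u x = r ^ n * ∫ x in K, u x := by
  have h := Measure.setIntegral_comp_smul_of_pos volume u hr (s := K)
  simp only [hu r hr, finrank_euclideanSpace_fin, smul_eq_mul] at h
  rw [h, ← mul_assoc, mul_inv_cancel₀ (pow_ne_zero _ hr.ne'), one_mul]

/-- The divergence theorem: the mean trace of the derivative of a field is `n` times the mean of
its normal component over the cone measure. -/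
theorem integral_trace_eq (hcv : Convex ℝ K) (cK : IsCompact K) (h0 : K ∈ 𝓝 0)
    {Y : EuclideanSpace ℝ (Fin n) → EuclideanSpace ℝ (Fin n)} (hY : ContDiff ℝ 1 Y) :
    ∫ x in K, LinearMap.trace ℝ (EuclideanSpace ℝ (Fin n))
        (fderiv ℝ Y x : _ →ₗ[ℝ] _) =
      n * ∫ x in K, ⟪normalAt K x, Y (bdPoint K x)⟫ := by
  classical
  obtain ⟨L, hL⟩ := hcv.lipschitz_gauge h0
  obtain ⟨C, hC⟩ := exists_bound_normalAt hcv h0
  have hC0 : 0 ≤ C := (norm_nonneg _).trans (hC 0)
  have hgc : Continuous (gauge K) := hL.continuous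
  have c2 : IsCompact ((2 : ℝ) • K) := cK.smul _
  obtain ⟨R, hR, hR2⟩ := c2.isBounded.subset_closedBall_lt 0 0
  set b : ContDiffBump (0 : EuclideanSpace ℝ (Fin n)) := ⟨R + 1, R + 2, by linarith, by linarith⟩
  set D : EuclideanSpace ℝ (Fin n) → ℝ := fun x =>
    LinearMap.trace ℝ (EuclideanSpace ℝ (Fin n)) (fderiv ℝ Y x : _ →ₗ[ℝ] _) with hD
  set B := EuclideanSpace.basisFun (Fin n) ℝ with hB
  have hDsum : ∀ x, D x = ∑ i, fderiv ℝ Y x (B i) i := fun x => by
    rw [hD]
    simp only [LinearMap.trace_eq_matrix_trace ℝ B.toBasis, Matrix.trace, Matrix.diag,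
      LinearMap.toMatrix_apply]
    simp [hB]
  have hDc : Continuous D := by
    have := hY.continuous_fderiv one_ne_zero
    rw [funext hDsum]
    fun_prop
  -- integration by parts against the cone cut off at height `r`
  have ibp : ∀ r : ℝ, 0 < r → r ≤ 2 →
      ∫ x in r • K, D x * (r - gauge K x) = ∫ x in r • K, ⟪normalAt K x, Y x⟫ := by
    intro r hr hr2
    set χ : EuclideanSpace ℝ (Fin n) → ℝ := fun x => max (r - gauge K x) 0 with hχ
    have hχL : LipschitzWith L χ := by
      refine LipschitzWith.max_const ?_ 0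
      exact LipschitzWith.of_dist_le_mul fun x y => by
        rw [dist_sub_left]
        exact hL.dist_le_mul x y
    have hsup : ∀ x, x ∉ r • K → χ x = 0 := fun x hx => by
      rw [mem_smul_iff hcv cK h0 hr, not_le] at hx
      simp [hχ, hx.le]
    have hcs : HasCompactSupport χ := HasCompactSupport.intro (cK.smul r) hsup
    have hball : r • K ⊆ Metric.closedBall 0 R := fun x hx => hR2 <| by
      rw [mem_smul_iff hcv cK h0 (by norm_num : (0 : ℝ) < 2)]
      exact ((mem_smul_iff hcv cK h0 hr).1 hx).trans hr2
    have hrK : MeasurableSet (r • K) := (cK.smul r).measurableSet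
    have hfr : ∀ᵐ x : EuclideanSpace ℝ (Fin n), x ∉ frontier (r • K) :=
      measure_eq_zero_iff_ae_notMem.1 ((hcv.smul r).addHaar_frontier volume)
    have hterm : ∀ i, ∫ x in r • K, fderiv ℝ Y x (B i) i * (r - gauge K x) =
        ∫ x in r • K, normalAt K x i * Y x i := by
      intro i
      set f : EuclideanSpace ℝ (Fin n) → ℝ := fun x => b x * Y x i with hf
      have hfd : ContDiff ℝ 1 f :=
        b.contDiff.mul ((EuclideanSpace.proj (𝕜 := ℝ) i).contDiff.comp hY)
      obtain ⟨Cf, (hfL : LipschitzWith Cf f)⟩ := ContDiff.lipschitzWith_of_hasCompactSupport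
        (b.hasCompactSupport.mul_right : HasCompactSupport f) hfd one_ne_zero
      have h := LipschitzWith.integral_lineDeriv_mul_eq (μ := volume) hfL hχL hcs (B i)
      have e1 : ∀ x, lineDeriv ℝ f x (B i) * χ x =
          (r • K).indicator (fun x => fderiv ℝ Y x (B i) i * (r - gauge K x)) x := by
        intro x
        by_cases hx : x ∈ r • K
        · rw [indicator_of_mem hx]
          have hg := (mem_smul_iff hcv cK h0 hr).1 hx
          have hev : f =ᶠ[𝓝 x] fun x => Y x i := by
            have : ∀ᶠ y in 𝓝 x, b y = 1 := by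
              filter_upwards [Metric.ball_mem_nhds x one_pos] with y hy
              refine b.one_of_mem_closedBall ?_
              have h1 := mem_closedBall_zero_iff.1 (hball hx)
              have h2 := Metric.mem_ball.1 hy
              rw [dist_eq_norm] at h2
              rw [mem_closedBall_zero_iff]
              have h3 := norm_le_insert' y x
              show ‖y‖ ≤ R + 1
              linarith
            filter_upwards [this] with y hy
            simp [hf, hy]
          have hd : HasFDerivAt (fun x => Y x i)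
              ((EuclideanSpace.proj i).comp (fderiv ℝ Y x)) x :=
            (EuclideanSpace.proj (𝕜 := ℝ) i).hasFDerivAt.comp x
              ((hY.differentiable one_ne_zero x).hasFDerivAt)
          rw [(hd.congr_of_eventuallyEq hev).hasLineDerivAt (B i) |>.lineDeriv]
          simp [hχ, hg]
        · rw [indicator_of_notMem hx, hsup x hx, mul_zero]
      have e2 : ∀ᵐ x : EuclideanSpace ℝ (Fin n), lineDeriv ℝ χ x (-(B i)) * f x =
          (r • K).indicator (fun x => normalAt K x i * Y x i) x := by
        filter_upwards [ae_differentiableAt_gauge hcv h0, hfr] with x hdx hx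
        rcases lt_trichotomy (gauge K x) r with hg | hg | hg
        · have hmem : x ∈ r • K := (mem_smul_iff hcv cK h0 hr).2 hg.le
          have hev : χ =ᶠ[𝓝 x] fun x => r - gauge K x := by
            filter_upwards [hgc.continuousAt.eventually_lt continuousAt_const hg] with y hy
            simp [hχ, hy.le]
          have hb1 : b x = 1 := b.one_of_mem_closedBall <| by
            have h1 := mem_closedBall_zero_iff.1 (hball hmem)
            rw [mem_closedBall_zero_iff]
            show ‖x‖ ≤ R + 1
            linarith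
          rw [((hdx.hasFDerivAt.const_sub r).congr_of_eventuallyEq hev).hasLineDerivAt
            (-(B i)) |>.lineDeriv, indicator_of_mem hmem]
          have hc : ⟪normalAt K x, B i⟫ = normalAt K x i := by
            simp only [hB, EuclideanSpace.basisFun_apply, EuclideanSpace.inner_single_right]
            simp
          simp [hf, hb1, ← hc, inner_normalAt]
        · exfalso
          refine hx ⟨subset_closure ((mem_smul_iff hcv cK h0 hr).2 hg.le), fun hint => ?_⟩
          have hcont : ContinuousAt (fun t : ℝ => t • x) 1 := by fun_prop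
          have hone : interior (r • K) ∈ 𝓝 ((1 : ℝ) • x) := by
            rw [one_smul]; exact isOpen_interior.mem_nhds hint
          obtain ⟨t, ht, ht1⟩ := ((Filter.Eventually.filter_mono nhdsWithin_le_nhds
            (hcont.preimage_mem_nhds hone)).and
              (self_mem_nhdsWithin (a := (1 : ℝ)) (s := Ioi 1))).exists
          have h2 := (mem_smul_iff hcv cK h0 hr).1 (interior_subset ht)
          rw [gauge_smul_of_nonneg (by linarith [(show (1 : ℝ) < t from ht1)] : (0 : ℝ) ≤ t), smul_eq_mul, hg] at h2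
          nlinarith [(show (1 : ℝ) < t from ht1)]
        · have hnm : x ∉ r • K := fun h => (hg.not_ge ((mem_smul_iff hcv cK h0 hr).1 h))
          have hev : χ =ᶠ[𝓝 x] fun _ => (0 : ℝ) := by
            filter_upwards [continuousAt_const.eventually_lt hgc.continuousAt hg] with y hy
            simp [hχ, hy.le]
          rw [((hasFDerivAt_const (0 : ℝ) x).congr_of_eventuallyEq hev).hasLineDerivAt
            (-(B i)) |>.lineDeriv, indicator_of_notMem hnm]
          simp
      rw [integral_congr_ae (Eventually.of_forall e1), integral_congr_ae e2,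
        integral_indicator hrK, integral_indicator hrK] at h
      exact h
    have hYi : ∀ i, Continuous fun x => Y x i := fun i =>
      (EuclideanSpace.proj i).continuous.comp hY.continuous
    have hDi : ∀ i, Continuous fun x => fderiv ℝ Y x (B i) i := fun i =>
      (EuclideanSpace.proj i).continuous.comp
        ((hY.continuous_fderiv one_ne_zero).clm_apply continuous_const)
    simp only [hDsum, Finset.sum_mul, PiLp.inner_apply, RCLike.inner_apply, conj_trivial]
    have i1 : ∀ i, IntegrableOn (fun x => fderiv ℝ Y x (B i) i * (r - gauge K x)) (r • K) :=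
      fun i => ((hDi i).mul (continuous_const.sub hgc)).continuousOn.integrableOn_compact (cK.smul r)
    have i2 : ∀ i, IntegrableOn (fun x => Y x i * normalAt K x i) (r • K) := fun i => by
      refine IntegrableOn.continuousOn_mul (hYi i).continuousOn ?_ (cK.smul r)
      refine IntegrableOn.of_bound (cK.smul r).measure_lt_top
        ((EuclideanSpace.proj i).continuous.measurable.comp
          measurable_normalAt).aestronglyMeasurable C
        (Eventually.of_forall fun x => (PiLp.norm_apply_le (normalAt K x) i).trans (hC x))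
    rw [integral_finsetSum _ fun i _ => i1 i, integral_finsetSum _ fun i _ => i2 i]
    exact Finset.sum_congr rfl fun i _ => by
      rw [hterm i]
      exact integral_congr_ae (Eventually.of_forall fun x => mul_comm _ _)
  set V := (volume K).toReal
  set u : EuclideanSpace ℝ (Fin n) → ℝ := fun x => ⟪normalAt K x, Y (bdPoint K x)⟫ with hu
  set v : EuclideanSpace ℝ (Fin n) → ℝ := fun x => ⟪normalAt K x, Y x⟫ with hv
  have hK2 : ∀ r : ℝ, 0 < r → r ≤ 2 → r • K ⊆ (2 : ℝ) • K := fun r hr hr2 x hx => by
    rw [mem_smul_iff hcv cK h0 (by norm_num : (0 : ℝ) < 2)]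
    exact ((mem_smul_iff hcv cK h0 hr).1 hx).trans hr2
  have hK1 : K = (1 : ℝ) • K := (one_smul ℝ K).symm
  have hi : ∀ r : ℝ, 0 < r → r ≤ 2 → ∫ x in r • K, D x * (r - gauge K x) =
      ∫ x in (2 : ℝ) • K, D x * max (r - gauge K x) 0 := by
    intro r hr hr2
    rw [← integral_indicator (cK.smul r).measurableSet, ← integral_indicator c2.measurableSet]
    refine integral_congr_ae (Eventually.of_forall fun x => ?_)
    by_cases hx : x ∈ r • K
    · rw [indicator_of_mem hx, indicator_of_mem (hK2 r hr hr2 hx),
        max_eq_left (by linarith [(mem_smul_iff hcv cK h0 hr).1 hx])]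
    · rw [indicator_of_notMem hx]
      rw [mem_smul_iff hcv cK h0 hr, not_le] at hx
      symm
      refine indicator_apply_eq_zero.2 fun _ => ?_
      rw [max_eq_right (by linarith), mul_zero]
  have hev : ∀ᶠ r in 𝓝[>] (1 : ℝ), 1 < r ∧ r ≤ 2 := by
    filter_upwards [Ioc_mem_nhdsGT (show (1 : ℝ) < 2 by norm_num)] with r hr using ⟨hr.1, hr.2⟩
  -- the left side
  have hfr : ∀ᵐ x : EuclideanSpace ℝ (Fin n), x ∉ frontier K :=
    measure_eq_zero_iff_ae_notMem.1 (hcv.addHaar_frontier volume)
  have hleft : Tendsto (fun r => ((∫ x in r • K, D x * (r - gauge K x)) -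
      ∫ x in (1 : ℝ) • K, D x * (1 - gauge K x)) / (r - 1)) (𝓝[>] 1) (𝓝 (∫ x in K, D x)) := by
    have hint : ∀ r : ℝ, IntegrableOn (fun x => D x * max (r - gauge K x) 0) ((2 : ℝ) • K) :=
      fun r => (hDc.mul ((continuous_const.sub hgc).max
        continuous_const)).continuousOn.integrableOn_compact c2
    have hlim : (∫ x in K, D x) = ∫ x in (2 : ℝ) • K, K.indicator D x := by
      rw [setIntegral_indicator cK.measurableSet, inter_eq_right.2 (by
        nth_rw 1 [hK1]; exact hK2 1 one_pos (by norm_num))]
    rw [hlim]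
    refine Tendsto.congr' (f₁ := fun r => ∫ x in (2 : ℝ) • K,
      D x * ((max (r - gauge K x) 0 - max (1 - gauge K x) 0) / (r - 1))) ?_ ?_
    · filter_upwards [hev] with r hr
      rw [hi r (by linarith) hr.2, hi 1 one_pos (by norm_num), ← integral_sub (hint r) (hint 1),
        ← integral_div]
      exact integral_congr_ae (Eventually.of_forall fun x => by ring)
    refine tendsto_integral_filter_of_dominated_convergence (fun x => |D x|) ?_ ?_
      (hDc.abs.continuousOn.integrableOn_compact c2) ?_
    · exact Eventually.of_forall fun r => (hDc.mul ((((continuous_const.sub hgc).max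
        continuous_const).sub ((continuous_const.sub hgc).max continuous_const)).div_const
          _)).aestronglyMeasurable
    · filter_upwards [hev] with r hr
      refine Eventually.of_forall fun x => ?_
      rw [Real.norm_eq_abs, abs_mul]
      refine mul_le_of_le_one_right (abs_nonneg _) ?_
      rw [abs_div, abs_of_pos (by linarith : (0 : ℝ) < r - 1), div_le_one (by linarith)]
      refine (abs_max_sub_max_le_abs _ _ _).trans (le_of_eq ?_)
      rw [show r - gauge K x - (1 - gauge K x) = r - 1 by ring, abs_of_pos (by linarith)]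
    · filter_upwards [ae_restrict_of_ae hfr] with x hx
      rcases lt_trichotomy (gauge K x) 1 with hg | hg | hg
      · rw [indicator_of_mem ((mem_iff_gauge hcv cK h0).2 hg.le)]
        refine Tendsto.congr' (f₁ := fun _ => D x) ?_ tendsto_const_nhds
        filter_upwards [hev] with r hr
        rw [max_eq_left (by linarith), max_eq_left (by linarith),
          show r - gauge K x - (1 - gauge K x) = r - 1 by ring,
          div_self (by linarith [hr.1] : r - 1 ≠ 0), mul_one]
      · exact absurd ((gauge_eq_one_iff_mem_frontier hcv h0).1 hg) hx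
      · rw [indicator_of_notMem fun h => hg.not_ge ((mem_iff_gauge hcv cK h0).1 h)]
        refine Tendsto.congr' (f₁ := fun _ => (0 : ℝ)) ?_ tendsto_const_nhds
        filter_upwards [Ioc_mem_nhdsGT hg] with r hr
        rw [max_eq_right (by linarith [hr.2]), max_eq_right (by linarith), sub_zero, zero_div,
          mul_zero]
  -- the right side
  obtain ⟨M, hM⟩ := LocallyLipschitzOn.exists_lipschitzOnWith_of_compact
    (isCompact_closedBall (0 : EuclideanSpace ℝ (Fin n)) R) hY.locallyLipschitz.locallyLipschitzOn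
  have hmb : Measurable (bdPoint K) := hgc.measurable.inv.smul measurable_id
  have hYb : Measurable fun x => Y (bdPoint K x) := hY.continuous.measurable.comp hmb
  obtain ⟨CY, hCY⟩ := c2.exists_bound_of_continuousOn hY.continuous.continuousOn
  have hbd2 : ∀ x, bdPoint K x ∈ (2 : ℝ) • K := fun x => by
    rw [mem_smul_iff hcv cK h0 (by norm_num : (0 : ℝ) < 2), bdPoint,
      gauge_smul_of_nonneg (inv_nonneg.2 (gauge_nonneg x)), smul_eq_mul]
    exact le_trans inv_mul_le_one (by norm_num)
  have iu : ∀ r : ℝ, IntegrableOn u (r • K) := fun r =>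
    IntegrableOn.of_bound (cK.smul r).measure_lt_top
      (measurable_normalAt.inner hYb).aestronglyMeasurable (C * CY)
      (Eventually.of_forall fun x => (norm_inner_le_norm _ _).trans
        (mul_le_mul (hC x) (hCY _ (hbd2 x)) (norm_nonneg _) hC0))
  have iv : ∀ r : ℝ, 0 < r → r ≤ 2 → IntegrableOn v (r • K) := fun r hr hr2 => by
    refine IntegrableOn.of_bound (cK.smul r).measure_lt_top
      (measurable_normalAt.inner hY.continuous.measurable).aestronglyMeasurable (C * CY) ?_
    filter_upwards [ae_restrict_mem (cK.smul r).measurableSet] with x hx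
    exact (norm_inner_le_norm _ _).trans
      (mul_le_mul (hC x) (hCY _ (hK2 r hr hr2 hx)) (norm_nonneg _) hC0)
  have hhom : ∀ r : ℝ, 0 < r → ∀ x, u (r • x) = u x := fun r hr x => by
    simp only [hu, normalAt_smul hr, bdPoint_smul hr]
  have hV : ∀ r : ℝ, 0 < r → volume.real (r • K) = r ^ n * V := fun r hr => by
    rw [measureReal_def, Measure.addHaar_smul, finrank_euclideanSpace_fin, ENNReal.toReal_mul,
      ENNReal.toReal_ofReal (abs_nonneg _), abs_of_pos (pow_pos hr n)]
  have hright : Tendsto (fun r => ((∫ x in r • K, v x) - ∫ x in (1 : ℝ) • K, v x) / (r - 1))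
      (𝓝[>] 1) (𝓝 (n * ∫ x in K, u x)) := by
    have hslope : Tendsto (fun r : ℝ => (r ^ n - 1) / (r - 1)) (𝓝[>] 1) (𝓝 (n : ℝ)) := by
      have h := hasDerivAt_iff_tendsto_slope.1 (hasDerivAt_pow n (1 : ℝ))
      simp only [one_pow, mul_one] at h
      refine (h.mono_left (nhdsWithin_mono _ fun r (hr : (1 : ℝ) < r) => ne_of_gt hr)).congr
        fun r => ?_
      rw [slope_def_field, one_pow]
    have hpow : Tendsto (fun r : ℝ => (C * M * R * V) * (r ^ n - 1)) (𝓝[>] 1) (𝓝 0) := by
      have h : Tendsto (fun r : ℝ => (C * M * R * V) * (r ^ n - 1)) (𝓝 1)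
          (𝓝 ((C * M * R * V) * (1 ^ n - 1))) :=
        (continuous_const.mul ((continuous_pow n).sub continuous_const)).tendsto 1
      rw [one_pow, sub_self, mul_zero] at h
      exact h.mono_left nhdsWithin_le_nhds
    have herr : Tendsto (fun r => ((∫ x in r • K, v x) - ∫ x in (1 : ℝ) • K, v x) / (r - 1) -
        (r ^ n - 1) / (r - 1) * ∫ x in K, u x) (𝓝[>] 1) (𝓝 0) := by
      refine squeeze_zero_norm' ?_ hpow
      filter_upwards [hev] with r hr
      have hr0 : 0 < r := by linarith
      have hsub : (1 : ℝ) • K ⊆ r • K := fun x hx => by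
        rw [mem_smul_iff hcv cK h0 hr0]
        exact ((mem_smul_iff hcv cK h0 one_pos).1 hx).trans hr.1.le
      have h1m : MeasurableSet ((1 : ℝ) • K) := (cK.smul 1).measurableSet
      have e1 : (r ^ n - 1) * ∫ x in K, u x = ∫ x in r • K \ (1 : ℝ) • K, u x := by
        rw [setIntegral_sdiff h1m (iu r) hsub, setIntegral_smul hhom hr0,
          setIntegral_smul hhom one_pos, one_pow]
        ring
      rw [div_mul_eq_mul_div, ← sub_div, e1, ← setIntegral_sdiff h1m (iv r hr0 hr.2) hsub,
        ← integral_sub ((iv r hr0 hr.2).mono_set sdiff_subset) ((iu r).mono_set sdiff_subset),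
        norm_div, Real.norm_of_nonneg (by linarith : (0 : ℝ) ≤ r - 1), div_le_iff₀ (by linarith)]
      have hvol : volume.real (r • K \ (1 : ℝ) • K) = (r ^ n - 1) * V := by
        rw [measureReal_sdiff hsub h1m (cK.smul r).measure_lt_top.ne, hV r hr0, hV 1 one_pos]
        ring
      refine (norm_setIntegral_le_of_norm_le_const (C := C * (M * (R * (r - 1))))
        ((measure_mono sdiff_subset).trans_lt (cK.smul r).measure_lt_top) ?_).trans
          (le_of_eq (by rw [hvol]; ring))
      rintro x ⟨hx, hx1⟩
      rw [mem_smul_iff hcv cK h0 one_pos, not_le] at hx1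
      have hxr := (mem_smul_iff hcv cK h0 hr0).1 hx
      simp only [hu, hv, ← inner_sub_right]
      refine (norm_inner_le_norm _ _).trans (mul_le_mul (hC x) ?_ (norm_nonneg _) hC0)
      refine (hM.norm_sub_le (hR2 (hK2 r hr0 hr.2 hx)) (hR2 (hbd2 x))).trans
        (mul_le_mul_of_nonneg_left ?_ M.2)
      rw [bdPoint, show x - (gauge K x)⁻¹ • x = (1 - (gauge K x)⁻¹) • x by
        rw [sub_smul, one_smul], norm_smul, Real.norm_eq_abs,
        abs_of_nonneg (sub_nonneg.2 (inv_le_one_of_one_le₀ hx1.le)), mul_comm]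
      refine mul_le_mul (mem_closedBall_zero_iff.1 (hR2 (hK2 r hr0 hr.2 hx))) ?_
        (sub_nonneg.2 (inv_le_one_of_one_le₀ hx1.le)) hR.le
      rw [sub_le_iff_le_add, inv_eq_one_div, ← sub_le_iff_le_add',
        le_div_iff₀ (by linarith : (0 : ℝ) < gauge K x)]
      nlinarith
    have := herr.add (hslope.mul_const (∫ x in K, u x))
    rw [zero_add] at this
    exact this.congr fun r => by ring
  refine tendsto_nhds_unique hleft (hright.congr' ?_)
  filter_upwards [hev] with r hr
  rw [ibp r (by linarith) hr.2, ibp 1 one_pos (by norm_num)]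

end Vale.Agent.P237.Quant
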