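import Mathlib

/-!
The one-variable lemma of the quantile route to Petty's inequality in every dimension. Dimension
`n = m + 1`; a profile is the `m`-th root of the section function, scaled to the slab `[-1, 1]`.
-/

namespace Vale.Agent.P237.Quant

open MeasureTheory Set

/-- A profile: even, concave and nonnegative on `[-1, 1]`, positive at the centre. -/
structure IsShape (φ : ℝ → ℝ) : Prop where
  concave : ConcaveOn ℝ (Icc (-1) 1) φ
  even : ∀ t, φ (-t) = φ t
  nonneg : ∀ t ∈ Icc (-1 : ℝ) 1, 0 ≤ φ t
  centre : 0 < φ 0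

/-- The profile of the ball. -/
noncomputable def ballShape (t : ℝ) : ℝ := √(1 - t ^ 2)

/-- The mass of the profile on `[0, c]`. -/
noncomputable def mass (m : ℕ) (φ : ℝ → ℝ) (c : ℝ) : ℝ := ∫ t in (0 : ℝ)..c, φ t ^ m

/-- The monotone transport from the law of the ball to that of the profile: the quantile of the
profile at the quantile level of `t`. -/
noncomputable def transport (m : ℕ) (φ : ℝ → ℝ) (t : ℝ) : ℝ :=
  sInf {c : ℝ | c ∈ Icc (0 : ℝ) 1 ∧
    mass m ballShape t / mass m ballShape 1 * mass m φ 1 ≤ mass m φ c}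

/-- The scale-free power integral of a profile. -/
noncomputable def powVal (m : ℕ) (φ : ℝ → ℝ) : ℝ :=
  (∫ t in (0 : ℝ)..1, φ t ^ (m - 1)) ^ m / mass m φ 1 ^ (m - 1)

/-- The power integral relative to that of the ball. -/
noncomputable def powRatio (m : ℕ) (φ : ℝ → ℝ) : ℝ := powVal m φ / powVal m ballShape

/-- The functional of the tangent datum for the function `-√(1 - a ^ 2)`, at its optimal field;
it vanishes at the ball. -/
noncomputable def tangentVal (m : ℕ) (φ : ℝ → ℝ) : ℝ :=
  (∫ t in (0 : ℝ)..1, (((m : ℝ) + 2) * ballShape t - 1 / ballShape t) * φ t ^ m -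
      m * φ t ^ (m - 1) * √((φ t - t * deriv φ t) ^ 2 - deriv φ t ^ 2)) / mass m φ 1

/-- The rearranged moment with weight `(t / √(1 - t²)) ^ 3` in the quantile scale of the ball. -/
noncomputable def quantileVal (m : ℕ) (φ : ℝ → ℝ) : ℝ :=
  (∫ t in (0 : ℝ)..1, (t / ballShape t) ^ 3 * transport m φ t * ballShape t ^ m) /
    mass m ballShape 1

/-- The weight of the data: `(m - 1) ∫ p ^ m / ∫ p ^ (m - 1)` for the ball profile `p`. -/
noncomputable def dataWeight (m : ℕ) : ℝ :=
  ((m : ℝ) - 1) * mass m ballShape 1 / mass (m - 1) ballShape 1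

/-- The deficit of the lemma, in dimension `n = m + 1`, with exponent `g`. -/
noncomputable def deficit (m g : ℕ) (φ : ℝ → ℝ) : ℝ :=
  (powRatio m φ ^ g - 1) / g + dataWeight m / (2 * m + 3) * tangentVal m φ -
    dataWeight m * ((m : ℝ) + 2) / (2 * m + 3) * (quantileVal m φ - quantileVal m ballShape)

/-- The lemma: a profile whose power integral is at most that of the ball has nonnegative
deficit, and zero only if it is a multiple of the ball's. -/
def QuantLemma (m g : ℕ) : Prop :=
  ∀ φ : ℝ → ℝ, IsShape φ → powRatio m φ ≤ 1 →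
    0 ≤ deficit m g φ ∧
      (deficit m g φ = 0 → ∀ t ∈ Ioo (0 : ℝ) 1, φ t = φ 0 * ballShape t)

end Vale.Agent.P237.Quant
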