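import Mathlib
import Vale.Agent.P237.Quant.Defs

/-!
One-variable calculus of an even concave profile on `[-1, 1]`: its derivative, and integration by
parts against a power of it.
-/

namespace Vale.Agent.P237.Quant

open MeasureTheory Set Filter Topology

variable {φ : ℝ → ℝ}

theorem shape_le_centre (hφ : IsShape φ) {t : ℝ} (ht : t ∈ Icc (-1 : ℝ) 1) : φ t ≤ φ 0 := by
  have ht' : -t ∈ Icc (-1 : ℝ) 1 := ⟨by linarith [ht.2], by linarith [ht.1]⟩
  have h := hφ.concave.2 ht ht' (show (0 : ℝ) ≤ 1 / 2 by norm_num)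
    (show (0 : ℝ) ≤ 1 / 2 by norm_num) (by norm_num)
  simp only [smul_eq_mul, hφ.even] at h
  rw [show 1 / 2 * t + 1 / 2 * (-t) = (0 : ℝ) by ring] at h
  linarith

theorem shape_continuousOn (hφ : IsShape φ) : ContinuousOn φ (Ioo (-1) 1) :=
  (hφ.concave.subset Ioo_subset_Icc_self (convex_Ioo _ _)).continuousOn isOpen_Ioo

theorem shape_antitoneOn (hφ : IsShape φ) : AntitoneOn φ (Icc 0 1) := by
  intro a ha b hb hab
  rcases hb.1.eq_or_lt with h0 | h0
  · obtain rfl : a = b := by linarith [ha.1]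
    rfl
  have h := hφ.concave.2 (show -b ∈ Icc (-1 : ℝ) 1 from ⟨by linarith [hb.2], by linarith⟩)
    (show b ∈ Icc (-1 : ℝ) 1 from ⟨by linarith, hb.2⟩)
    (show 0 ≤ (b - a) / (2 * b) from div_nonneg (by linarith) (by linarith))
    (show 0 ≤ (b + a) / (2 * b) from div_nonneg (by linarith [ha.1]) (by linarith))
    (by field_simp; ring)
  simp only [smul_eq_mul, hφ.even] at h
  rw [show (b - a) / (2 * b) * -b + (b + a) / (2 * b) * b = a by field_simp; ring,
    ← add_mul, show (b - a) / (2 * b) + (b + a) / (2 * b) = 1 by field_simp; ring, one_mul] at h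
  exact h

theorem shape_pos (hφ : IsShape φ) {t : ℝ} (ht : t ∈ Ioo (-1 : ℝ) 1) : 0 < φ t := by
  have key : ∀ s ∈ Ico (0 : ℝ) 1, 0 < φ s := fun s hs => by
    have h := hφ.concave.2 (show (0 : ℝ) ∈ Icc (-1 : ℝ) 1 by norm_num)
      (show (1 : ℝ) ∈ Icc (-1 : ℝ) 1 by norm_num) (show 0 ≤ 1 - s by linarith [hs.2]) hs.1 (by ring)
    simp only [smul_eq_mul, mul_zero, mul_one, zero_add] at h
    have h2 := mul_pos (show 0 < 1 - s by linarith [hs.2]) hφ.centre
    have h3 := mul_nonneg hs.1 (hφ.nonneg 1 (by norm_num))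
    linarith
  rcases le_total 0 t with h | h
  · exact key t ⟨h, ht.2⟩
  · rw [← hφ.even]
    exact key (-t) ⟨by linarith, by linarith [ht.1]⟩

theorem shape_deriv_neg (hφ : IsShape φ) (t : ℝ) : deriv φ (-t) = -deriv φ t := by
  have h : deriv (fun s => φ (-s)) t = -deriv φ (-t) := deriv_comp_neg φ t
  rw [show (fun s => φ (-s)) = φ from funext hφ.even] at h
  linarith

/-- At almost every interior point the profile is differentiable. -/
theorem shape_ae_differentiable (hφ : IsShape φ) :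
    ∀ᵐ t, t ∈ Ioo (-1 : ℝ) 1 → DifferentiableAt ℝ φ t := by
  have hm : MonotoneOn (fun t => -φ t) (Icc 0 1) := fun a ha b hb hab =>
    neg_le_neg (shape_antitoneOn hφ ha hb hab)
  have h1 := hm.ae_differentiableWithinAt_of_mem
  have h2 : ∀ᵐ t : ℝ, -t ∈ Ioo (0 : ℝ) 1 → DifferentiableWithinAt ℝ (fun t => -φ t) (Icc 0 1) (-t) :=
    (Measure.measurePreserving_neg (volume : Measure ℝ)).quasiMeasurePreserving.ae
      (h1.mono fun t ht (h : t ∈ Ioo (0 : ℝ) 1) => ht (Ioo_subset_Icc_self h))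
  filter_upwards [h1, h2, Measure.ae_ne volume (0 : ℝ)] with t ht ht' ht0 hmem
  have key : ∀ s ∈ Ioo (0 : ℝ) 1, DifferentiableWithinAt ℝ (fun t => -φ t) (Icc 0 1) s →
      DifferentiableAt ℝ φ s := fun s hs h => by
    simpa using (h.differentiableAt (Icc_mem_nhds hs.1 hs.2)).fun_neg
  rcases lt_or_gt_of_ne ht0 with h | h
  · have hd := key (-t) ⟨by linarith, by linarith [hmem.1]⟩ (ht' ⟨by linarith, by linarith [hmem.1]⟩)
    have := hd.comp t (differentiable_neg t)
    rwa [show φ ∘ Neg.neg = φ from funext hφ.even] at this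
  · exact key t ⟨h, hmem.2⟩ (ht ⟨h.le, hmem.2.le⟩)

/-- The right slope of the profile. -/
noncomputable def dright (φ : ℝ → ℝ) (t : ℝ) : ℝ := derivWithin φ (Ioi t) t

theorem hasDerivWithinAt_dright (hφ : IsShape φ) {t : ℝ} (ht : t ∈ Ioo (-1 : ℝ) 1) :
    HasDerivWithinAt φ (dright φ t) (Ioi t) t := by
  have h := (hφ.concave.neg.hasDerivWithinAt_rightDeriv_of_mem_interior
    (by rwa [interior_Icc])).neg
  simp only [neg_neg] at h
  exact h.differentiableWithinAt.hasDerivWithinAt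

theorem dright_ae (hφ : IsShape φ) :
    ∀ᵐ t, t ∈ Ioo (-1 : ℝ) 1 → dright φ t = deriv φ t := by
  filter_upwards [shape_ae_differentiable hφ] with t ht hmem
  exact (ht hmem).hasDerivAt.hasDerivWithinAt.derivWithin (uniqueDiffWithinAt_Ioi t)

theorem dright_nonpos (hφ : IsShape φ) {t : ℝ} (ht : t ∈ Ioo (0 : ℝ) 1) : dright φ t ≤ 0 := by
  have hd := hasDerivWithinAt_dright hφ (t := t) ⟨by linarith [ht.1], ht.2⟩
  refine le_of_tendsto ((hasDerivWithinAt_iff_tendsto_slope' self_notMem_Ioi).1 hd) ?_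
  filter_upwards [Ioo_mem_nhdsGT ht.2] with s hs
  rw [slope_def_field]
  refine div_nonpos_of_nonpos_of_nonneg (sub_nonpos.2 ?_) (by linarith [hs.1])
  exact shape_antitoneOn hφ ⟨ht.1.le, ht.2.le⟩ ⟨by linarith [ht.1, hs.1], hs.2.le⟩ hs.1.le

/-- The tangent lines stay nonnegative at both ends. -/
theorem shape_tangent_ends (hφ : IsShape φ) {t : ℝ} (ht : t ∈ Ioo (-1 : ℝ) 1)
    (hd : DifferentiableAt ℝ φ t) :
    0 ≤ φ t + (1 - t) * deriv φ t ∧ 0 ≤ φ t - (1 + t) * deriv φ t := by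
  have htI := Ioo_subset_Icc_self ht
  have h1 := hφ.concave.slope_le_deriv htI (show (1 : ℝ) ∈ Icc (-1 : ℝ) 1 by norm_num) ht.2 hd
  have h2 := hφ.concave.deriv_le_slope (show (-1 : ℝ) ∈ Icc (-1 : ℝ) 1 by norm_num) htI ht.1 hd
  rw [slope_def_field, div_le_iff₀ (by linarith [ht.2])] at h1
  rw [slope_def_field, le_div_iff₀ (by linarith [ht.1])] at h2
  have := hφ.nonneg 1 (by norm_num)
  have := hφ.nonneg (-1) (by norm_num)
  constructor <;> linarith

/-- The limit of the profile at the end of the interval. -/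
theorem shape_exists_limit (hφ : IsShape φ) :
    ∃ L, 0 ≤ L ∧ Tendsto φ (𝓝[<] 1) (𝓝 L) := by
  have hmono : MonotoneOn (fun t => -φ t) (Ioo 0 1) := fun a ha b hb hab =>
    neg_le_neg (shape_antitoneOn hφ (Ioo_subset_Icc_self ha) (Ioo_subset_Icc_self hb) hab)
  have hbdd : BddAbove ((fun t => -φ t) '' Ioo 0 1) := ⟨0, by
    rintro _ ⟨t, ht, rfl⟩
    exact neg_nonpos.2 (hφ.nonneg t ⟨by linarith [ht.1], ht.2.le⟩)⟩
  have h1 := (hmono.tendsto_nhdsWithin_Ioo_left (by norm_num) hbdd).neg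
  simp only [neg_neg] at h1
  refine ⟨_, ge_of_tendsto h1 ?_, h1⟩
  filter_upwards [Ioo_mem_nhdsLT (zero_lt_one (α := ℝ))] with t ht
  exact hφ.nonneg t ⟨by linarith [ht.1], ht.2.le⟩

theorem intervalIntegrable_shape_pow (hφ : IsShape φ) (k : ℕ) :
    IntervalIntegrable (fun t => φ t ^ k) volume (-1) 1 := by
  rw [intervalIntegrable_iff_integrableOn_Ioo_of_le (by norm_num)]
  refine IntegrableOn.of_bound (by simp)
    (((shape_continuousOn hφ).pow k).aestronglyMeasurable measurableSet_Ioo) (φ 0 ^ k) ?_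
  filter_upwards [ae_restrict_mem measurableSet_Ioo] with t ht
  rw [Real.norm_eq_abs, abs_pow, abs_of_nonneg (hφ.nonneg t (Ioo_subset_Icc_self ht))]
  exact pow_le_pow_left₀ (hφ.nonneg t (Ioo_subset_Icc_self ht))
    (shape_le_centre hφ (Ioo_subset_Icc_self ht)) k

/-- The derivative is integrable. -/
theorem intervalIntegrable_shape_deriv (hφ : IsShape φ) :
    IntervalIntegrable (deriv φ) volume (-1) 1 := by
  obtain ⟨L, -, hL⟩ := shape_exists_limit hφ
  classical
  set ψ : ℝ → ℝ := Function.update φ 1 L with hψ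
  have hev : ∀ t < (1 : ℝ), ψ =ᶠ[𝓝 t] φ := fun t ht => by
    filter_upwards [Iio_mem_nhds ht] with s hs
    exact Function.update_of_ne (ne_of_lt hs.out) _ _
  have hc : ContinuousOn (fun t => -ψ t) (Icc 0 1) := by
    refine ContinuousOn.neg fun t ht => ?_
    rcases ht.2.eq_or_lt with rfl | h1
    · rw [continuousWithinAt_update_same]
      exact hL.mono_left (nhdsWithin_mono _ fun s hs => lt_of_le_of_ne hs.1.2 hs.2)
    · exact (((shape_continuousOn hφ).continuousAt (Ioo_mem_nhds (by linarith [ht.1]) h1)).congr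
        (hev t h1).symm).continuousWithinAt
  have hint := intervalIntegral.integrableOn_deriv_right_of_nonneg hc
    (g' := fun t => -dright φ t) (fun t ht => ?_)
    (fun t ht => neg_nonneg.2 (dright_nonpos hφ ht))
  swap
  · exact ((hasDerivWithinAt_dright hφ ⟨by linarith [ht.1], ht.2⟩).congr_of_eventuallyEq
      ((hev t ht.2).filter_mono nhdsWithin_le_nhds)
      (hev t ht.2).self_of_nhds).neg
  have h01 : IntervalIntegrable (deriv φ) volume 0 1 := by
    rw [intervalIntegrable_iff_integrableOn_Ioc_of_le zero_le_one, integrableOn_Ioc_iff_integrableOn_Ioo]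
    rw [integrableOn_Ioc_iff_integrableOn_Ioo] at hint
    refine hint.neg.congr ?_
    filter_upwards [ae_restrict_of_ae (dright_ae hφ), ae_restrict_mem measurableSet_Ioo] with t ht hmem
    simp [ht ⟨by linarith [hmem.1], hmem.2⟩]
  have h10 : IntervalIntegrable (deriv φ) volume (-1) 0 := by
    have h := (IntervalIntegrable.iff_comp_neg (f := deriv φ) (a := 0) (b := 1)).1 h01
    simp only [shape_deriv_neg hφ, neg_zero] at h
    exact h.symm.neg.congr fun t _ => by simp
  exact h10.trans h01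

/-- Integration by parts: the derivative of `G` against `φ ^ (k + 1)`. -/
theorem shape_parts (hφ : IsShape φ) (k : ℕ) {G : ℝ → ℝ} (hG : ContDiff ℝ 1 G) {L : ℝ}
    (hL : Tendsto φ (𝓝[<] 1) (𝓝 L)) :
    (∫ t in (-1 : ℝ)..1, deriv G t * φ t ^ (k + 1)) =
      L ^ (k + 1) * (G 1 - G (-1)) -
        ∫ t in (-1 : ℝ)..1, G t * ((k + 1) * φ t ^ k * deriv φ t) := by
  have hdG : Continuous (deriv G) := hG.continuous_deriv le_rfl
  have i1 : IntervalIntegrable (fun t => deriv G t * φ t ^ (k + 1)) volume (-1) 1 :=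
    (intervalIntegrable_shape_pow hφ (k + 1)).continuousOn_mul hdG.continuousOn
  have hbd : IntervalIntegrable (fun t => φ t ^ k * deriv φ t) volume (-1) 1 := by
    rw [intervalIntegrable_iff_integrableOn_Ioo_of_le (by norm_num)]
    refine Integrable.bdd_mul (c := φ 0 ^ k)
      ((intervalIntegrable_iff_integrableOn_Ioo_of_le (by norm_num)).1
        (intervalIntegrable_shape_deriv hφ))
      (((shape_continuousOn hφ).pow k).aestronglyMeasurable measurableSet_Ioo) ?_
    filter_upwards [ae_restrict_mem measurableSet_Ioo] with t ht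
    rw [Real.norm_eq_abs, abs_pow, abs_of_nonneg (hφ.nonneg t (Ioo_subset_Icc_self ht))]
    exact pow_le_pow_left₀ (hφ.nonneg t (Ioo_subset_Icc_self ht))
      (shape_le_centre hφ (Ioo_subset_Icc_self ht)) k
  have i2 : IntervalIntegrable (fun t => G t * ((k + 1) * φ t ^ k * deriv φ t)) volume (-1) 1 :=
    ((hbd.const_mul ((k : ℝ) + 1)).continuousOn_mul hG.continuous.continuousOn).congr
      fun t _ => by ring
  set J : ℝ → ℝ := fun t => deriv G t * φ t ^ (k + 1) + G t * ((k + 1) * φ t ^ k * deriv φ t) with hJ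
  have iJ : IntervalIntegrable J volume (-1) 1 := i1.add i2
  have hfin : ∀ b ∈ Ioo (0 : ℝ) 1, (∫ t in (-b)..b, J t) =
      G b * φ b ^ (k + 1) - G (-b) * φ b ^ (k + 1) := by
    intro b hb
    have hsub : Icc (-b) b ⊆ Ioo (-1 : ℝ) 1 := fun t ht =>
      ⟨by linarith [ht.1, hb.2], by linarith [ht.2, hb.2]⟩
    have hsub' : uIcc (-b) b ⊆ uIcc (-1 : ℝ) 1 := by
      rw [uIcc_of_le (by linarith [hb.1]), uIcc_of_le (by norm_num)]
      exact Icc_subset_Icc (by linarith [hb.2]) hb.2.le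
    have hae : ∀ᵐ t, t ∈ uIoc (-b) b → J t =
        deriv G t * φ t ^ (k + 1) + G t * ((k + 1) * φ t ^ k * dright φ t) := by
      filter_upwards [dright_ae hφ] with t ht hmem
      rw [uIoc_of_le (by linarith [hb.1])] at hmem
      rw [hJ, ht (hsub (Ioc_subset_Icc_self hmem))]
    have hder : ∀ t ∈ Ioo (-b) b, HasDerivWithinAt (fun t => G t * φ t ^ (k + 1))
        (deriv G t * φ t ^ (k + 1) + G t * ((k + 1) * φ t ^ k * dright φ t)) (Ioi t) t := by
      intro t ht
      have h1 := ((hG.differentiable one_ne_zero t).hasDerivAt.hasDerivWithinAt (s := Ioi t)).mul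
        ((hasDerivWithinAt_dright hφ (hsub (Ioo_subset_Icc_self ht))).pow (k + 1))
      refine h1.congr_deriv ?_
      simp only [Pi.pow_apply]
      push_cast
      ring
    rw [intervalIntegral.integral_congr_ae hae,
      intervalIntegral.integral_eq_sub_of_hasDeriv_right_of_le (by linarith [hb.1])
        (f := fun t => G t * φ t ^ (k + 1))
        (hG.continuous.continuousOn.mul (((shape_continuousOn hφ).mono hsub).pow _))
        hder ((iJ.mono_set hsub').congr_ae ((ae_restrict_iff' measurableSet_uIoc).2 hae)),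
      hφ.even]
  have hlim : Tendsto (fun b => ∫ t in (-b)..b, J t) (𝓝[<] 1)
      (𝓝 (∫ t in (-1 : ℝ)..1, J t)) := by
    have hP := intervalIntegral.continuousOn_primitive_interval' iJ
      (show (0 : ℝ) ∈ uIcc (-1 : ℝ) 1 by rw [uIcc_of_le (by norm_num)]; norm_num)
    rw [uIcc_of_le (by norm_num : (-1 : ℝ) ≤ 1)] at hP
    have hb0 : ∀ a b : ℝ, a ∈ Icc (-1 : ℝ) 1 → b ∈ Icc (-1 : ℝ) 1 → (∫ t in a..b, J t) =
        (∫ t in (0 : ℝ)..b, J t) - ∫ t in (0 : ℝ)..a, J t := fun a b ha hb => by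
      have hsub : ∀ c ∈ Icc (-1 : ℝ) 1, IntervalIntegrable J volume 0 c := fun c hc =>
        iJ.mono_set (by
          rw [uIcc_of_le (by norm_num : (-1 : ℝ) ≤ 1)]
          exact uIcc_subset_Icc (by norm_num) hc)
      rw [intervalIntegral.integral_interval_sub_left (hsub b hb) (hsub a ha)]
    rw [hb0 _ _ (by norm_num) (by norm_num)]
    have hmem : ∀ᶠ b in 𝓝[<] (1 : ℝ), b ∈ Ioo (0 : ℝ) 1 := Ioo_mem_nhdsLT zero_lt_one
    refine Tendsto.congr' (f₁ := fun b => (∫ t in (0 : ℝ)..b, J t) - ∫ t in (0 : ℝ)..(-b), J t) ?_ ?_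
    · filter_upwards [hmem] with b hb
      rw [hb0 (-b) b ⟨by linarith [hb.2], by linarith [hb.1]⟩ ⟨by linarith [hb.1], hb.2.le⟩]
    · refine Tendsto.sub ((hP 1 (by norm_num)).tendsto.comp (tendsto_nhdsWithin_iff.2
        ⟨tendsto_id.mono_left nhdsWithin_le_nhds, ?_⟩))
        ((hP (-1) (by norm_num)).tendsto.comp (tendsto_nhdsWithin_iff.2
          ⟨(tendsto_neg (1 : ℝ)).mono_left nhdsWithin_le_nhds, ?_⟩))
      · filter_upwards [hmem] with b hb using ⟨by linarith [hb.1], hb.2.le⟩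
      · filter_upwards [hmem] with b hb using ⟨by linarith [hb.2], by linarith [hb.1]⟩
  have hrhs : Tendsto (fun b => G b * φ b ^ (k + 1) - G (-b) * φ b ^ (k + 1)) (𝓝[<] 1)
      (𝓝 (G 1 * L ^ (k + 1) - G (-1) * L ^ (k + 1))) :=
    ((hG.continuous.tendsto 1).mono_left nhdsWithin_le_nhds |>.mul (hL.pow _)).sub
      (((hG.continuous.comp continuous_neg).tendsto 1).mono_left nhdsWithin_le_nhds |>.mul
        (hL.pow _))
  have key := tendsto_nhds_unique hlim (hrhs.congr' (by
    filter_upwards [Ioo_mem_nhdsLT (zero_lt_one (α := ℝ))] with b hb using (hfin b hb).symm))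
  rw [hJ, intervalIntegral.integral_add i1 i2] at key
  linarith

end Vale.Agent.P237.Quant
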