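import Mathlib
import Vale.Agent.P237.Quant.Calc
import Vale.Agent.P237.Full.Brunn
import Vale.Agent.P237.Full.BallEq
import Vale.Agent.P237.Full.Moment

/-!
The profile of a symmetric body in the direction of a functional whose maximum on the body is one:
it is a shape, and it carries the law of that functional on the body.
-/

namespace Vale.Agent.P237.Quant

open MeasureTheory Set Filter Module Full
open scoped RealInnerProductSpace Pointwise Topology ENNReal

variable {m : ℕ} {K : Set (EuclideanSpace ℝ (Fin (m + 1)))}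
  {w v : EuclideanSpace ℝ (Fin (m + 1))}

/-- A symmetric convex body. -/
structure IsSymBody {n : ℕ} (K : Set (EuclideanSpace ℝ (Fin n))) : Prop where
  body : IsBody K
  symm : ∀ x ∈ K, -x ∈ K

theorem IsSymBody.zero_nhds {n : ℕ} {K : Set (EuclideanSpace ℝ (Fin n))} (hK : IsSymBody K) :
    K ∈ 𝓝 0 := by
  obtain ⟨x, hx⟩ := hK.body.2.2
  have hne : -x ∈ K := hK.symm x (interior_subset hx)
  have h := hK.body.1.combo_interior_self_mem_interior hx hne (show (0 : ℝ) < 1 / 2 by norm_num)
    (show (0 : ℝ) ≤ 1 / 2 by norm_num) (by norm_num)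
  rw [smul_neg, add_neg_cancel] at h
  exact mem_interior_iff_mem_nhds.1 h

/-- `w` has maximum one on `K`, attained at `v`. -/
structure IsTop {n : ℕ} (K : Set (EuclideanSpace ℝ (Fin n))) (w v : EuclideanSpace ℝ (Fin n)) :
    Prop where
  mem : v ∈ K
  le : ∀ y ∈ K, ⟪w, y⟫ ≤ 1
  eq : ⟪w, v⟫ = 1

/-- The profile of `K` along `w`. -/
noncomputable def profile (K : Set (EuclideanSpace ℝ (Fin (m + 1))))
    (w : EuclideanSpace ℝ (Fin (m + 1))) (s : ℝ) : ℝ :=
  (sect K (‖w‖⁻¹ • w) (s / ‖w‖) / kappa m) ^ ((m : ℝ)⁻¹)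

theorem IsTop.ne_zero (h : IsTop K w v) : w ≠ 0 := fun e => by simpa [e] using h.eq

theorem IsTop.abs_le (hK : IsSymBody K) (h : IsTop K w v) {y : EuclideanSpace ℝ (Fin (m + 1))}
    (hy : y ∈ K) : |⟪w, y⟫| ≤ 1 := by
  refine _root_.abs_le.2 ⟨?_, h.le y hy⟩
  have := h.le _ (hK.symm y hy)
  rw [inner_neg_right] at this
  linarith

theorem profile_nonneg (s : ℝ) : 0 ≤ profile K w s :=
  Real.rpow_nonneg (div_nonneg ENNReal.toReal_nonneg (kappa_pos m).le) _

theorem profile_pow (hm : 1 ≤ m) (s : ℝ) :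
    profile K w s ^ m = sect K (‖w‖⁻¹ • w) (s / ‖w‖) / kappa m :=
  Real.rpow_inv_natCast_pow (div_nonneg ENNReal.toReal_nonneg (kappa_pos m).le) (by omega)

/-- The slice of `K` at height `s` of `w`. -/
private def slice (K : Set (EuclideanSpace ℝ (Fin (m + 1)))) (u : EuclideanSpace ℝ (Fin (m + 1)))
    (t : ℝ) : Set ((ℝ ∙ u)ᗮ : Submodule ℝ (EuclideanSpace ℝ (Fin (m + 1)))) :=
  {y | (y : EuclideanSpace ℝ (Fin (m + 1))) + t • u ∈ K}

theorem IsTop.norm_pos (h : IsTop K w v) : 0 < ‖w‖ := norm_pos_iff.2 h.ne_zero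

theorem IsTop.norm_unit (h : IsTop K w v) : ‖‖w‖⁻¹ • w‖ = 1 :=
  norm_smul_inv_norm h.ne_zero

private lemma inner_slice (hw : w ≠ 0) (y : ((ℝ ∙ (‖w‖⁻¹ • w))ᗮ : Submodule ℝ _)) (t : ℝ) :
    ⟪w, (y : EuclideanSpace ℝ (Fin (m + 1))) + t • ‖w‖⁻¹ • w⟫ = t * ‖w‖ := by
  have h := Submodule.mem_orthogonal_singleton_iff_inner_right.1 y.2
  have hn : ‖w‖ ≠ 0 := norm_ne_zero_iff.2 hw
  rw [real_inner_smul_left, mul_eq_zero, inv_eq_zero] at h
  rw [inner_add_right, h.resolve_left hn, real_inner_smul_right, real_inner_smul_right,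
    real_inner_self_eq_norm_sq]
  field_simp
  ring

private lemma isCompact_slice' (hK : IsSymBody K) {u : EuclideanSpace ℝ (Fin (m + 1))}
    (hu : ‖u‖ = 1) (t : ℝ) : IsCompact (slice K u t) := by
  obtain ⟨e, -, -, -, hes, happ, -⟩ := exists_split hu
  refine (((hK.body.2.1.image hes).image continuous_snd)).of_isClosed_subset
    (hK.body.2.1.isClosed.preimage (by fun_prop)) fun y hy => ⟨(t, y), ⟨_, hy, ?_⟩, rfl⟩
  exact e.injective (by rw [e.apply_symm_apply, happ]; exact add_comm _ _)

private lemma slice_nonempty (hK : IsSymBody K) (h : IsTop K w v) {s : ℝ}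
    (hs : s ∈ Icc (-1 : ℝ) 1) : (slice K (‖w‖⁻¹ • w) (s / ‖w‖)).Nonempty := by
  have hsv : s • v ∈ K := by
    have := hK.body.1 h.mem (hK.symm v h.mem) (show 0 ≤ (1 + s) / 2 by linarith [hs.1])
      (show 0 ≤ (1 - s) / 2 by linarith [hs.2]) (by ring)
    convert this using 1
    module
  refine ⟨⟨s • v - (s / ‖w‖) • ‖w‖⁻¹ • w, ?_⟩, ?_⟩
  · have hn := h.norm_pos.ne'
    rw [Submodule.mem_orthogonal_singleton_iff_inner_right, real_inner_smul_left, inner_sub_right,
      real_inner_smul_right, h.eq, real_inner_smul_right, real_inner_smul_right,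
      real_inner_self_eq_norm_sq]
    field_simp
    ring
  · simpa [slice] using hsv

theorem isShape_profile (hm : 1 ≤ m) (hK : IsSymBody K) (h : IsTop K w v) :
    IsShape (profile K w) := by
  set u := ‖w‖⁻¹ • w with hu'
  have hu : ‖u‖ = 1 := h.norm_unit
  have hdim : finrank ℝ ((ℝ ∙ u)ᗮ : Submodule ℝ (EuclideanSpace ℝ (Fin (m + 1)))) = m :=
    finrank_compl (by simp) hu
  have : Nontrivial ((ℝ ∙ u)ᗮ : Submodule ℝ (EuclideanSpace ℝ (Fin (m + 1)))) :=
    Module.nontrivial_of_finrank_pos (R := ℝ) (by omega)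
  have cS := isCompact_slice' hK hu
  have convS : ∀ t, Convex ℝ (slice K u t) := by
    intro t x hx y hy a b ha hb hab
    have := hK.body.1 hx hy ha hb hab
    show ((a • x + b • y : ((ℝ ∙ u)ᗮ : Submodule ℝ _)) : EuclideanSpace ℝ (Fin (m + 1))) +
      t • u ∈ K
    convert this using 1
    obtain rfl : b = 1 - a := by linarith
    push_cast
    module
  have hsect : ∀ t, sect K u t = (volume (slice K u t)).toReal := fun t => rfl
  refine ⟨⟨convex_Icc _ _, fun x hx y hy a b ha hb hab => ?_⟩, fun s => ?_,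
    fun s _ => profile_nonneg s, ?_⟩
  · set p := x / ‖w‖ with hp
    set q := y / ‖w‖ with hq
    have hbm := brunn_minkowski hdim hm (convS p) (cS p) (slice_nonempty hK h hx) (convS q) (cS q)
      (slice_nonempty hK h hy) ha (show a ≤ 1 by linarith)
    rw [show 1 - a = b by linarith] at hbm
    have hsub : a • slice K u p + b • slice K u q ⊆ slice K u (a * p + b * q) := by
      rintro _ ⟨_, ⟨c, hc, rfl⟩, _, ⟨d, hd, rfl⟩, rfl⟩
      show ((a • c + b • d : ((ℝ ∙ u)ᗮ : Submodule ℝ _)) : EuclideanSpace ℝ (Fin (m + 1))) +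
        (a * p + b * q) • u ∈ K
      convert hK.body.1 hc hd ha hb hab using 1
      push_cast
      module
    have hmono := Real.rpow_le_rpow ENNReal.toReal_nonneg
      (ENNReal.toReal_mono ((cS (a * p + b * q)).measure_lt_top (μ := volume)).ne
        (measure_mono hsub)) (show (0 : ℝ) ≤ (m : ℝ)⁻¹ by positivity)
    simp only [smul_eq_mul, profile, ← hu', hsect]
    rw [show (a * x + b * y) / ‖w‖ = a * p + b * q by rw [hp, hq]; ring]
    simp only [Real.div_rpow ENNReal.toReal_nonneg (kappa_pos m).le]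
    rw [← mul_div_assoc, ← mul_div_assoc, ← add_div]
    exact div_le_div_of_nonneg_right (hbm.trans hmono) (Real.rpow_nonneg (kappa_pos m).le _)
  · have hneg : slice K u (-(s / ‖w‖)) = -slice K u (s / ‖w‖) := by
      ext y
      simp only [slice, Set.mem_neg, mem_ofPred_eq, Submodule.coe_neg]
      constructor <;> intro hy <;> have := hK.symm _ hy <;> (convert this using 1; module)
    simp only [profile, ← hu', hsect, neg_div, hneg, Measure.measure_neg]
  · obtain ⟨r, hr, hball⟩ := Metric.mem_nhds_iff.1 hK.zero_nhds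
    have hsub : Metric.ball (0 : ((ℝ ∙ u)ᗮ : Submodule ℝ _)) r ⊆ slice K u (0 / ‖w‖) :=
      fun y hy => hball (by simpa using hy)
    refine Real.rpow_pos_of_pos (div_pos ?_ (kappa_pos m)) _
    rw [← hu', hsect]
    exact ENNReal.toReal_pos
      ((Metric.measure_ball_pos volume _ hr).trans_le (measure_mono hsub)).ne'
      (cS _).measure_lt_top.ne

/-- The law of `w` on `K`. -/
theorem map_inner_eq (hm : 1 ≤ m) (hK : IsSymBody K) (h : IsTop K w v) :
    Measurable (profile K w) ∧
    (volume.restrict K).map (fun y => ⟪w, y⟫) = ENNReal.ofReal (kappa m / ‖w‖) •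
      (volume.restrict (Icc (-1 : ℝ) 1)).withDensity
        (fun s => ENNReal.ofReal (profile K w s ^ m)) := by
  set u := ‖w‖⁻¹ • w with hu'
  have hu : ‖u‖ = 1 := h.norm_unit
  have hn := h.norm_pos
  obtain ⟨e, he, -, hc, -, happ, -⟩ := exists_split hu
  have hKm : MeasurableSet (e ⁻¹' K) := (hK.body.2.1.isClosed.preimage hc).measurableSet
  have hS : ∀ t, Prod.mk t ⁻¹' (e ⁻¹' K) = slice K u t := fun t => by
    ext y; simp [slice, happ, add_comm]
  have hvm : Measurable fun t => volume (slice K u t) := by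
    simp only [← hS]
    exact measurable_measure_prodMk_left hKm
  have hpm : Measurable (profile K w) :=
    (((hvm.comp (measurable_id.div_const _)).ennreal_toReal).div_const _).pow_const _
  refine ⟨hpm, Measure.ext fun T hT => ?_⟩
  have hwm : Measurable fun y : EuclideanSpace ℝ (Fin (m + 1)) => ⟪w, y⟫ := by fun_prop
  rw [Measure.map_apply hwm hT, Measure.restrict_apply (hwm hT), Measure.smul_apply,
    withDensity_apply _ hT, Measure.restrict_restrict hT, smul_eq_mul,
    ← he.measure_preimage_equiv, Measure.volume_eq_prod,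
    Measure.prod_apply (e.measurable ((hwm hT).inter hK.body.2.1.measurableSet))]
  have hslab : ∀ s, s ∉ Icc (-1 : ℝ) 1 → slice K u (s / ‖w‖) = ∅ := fun s hs =>
    eq_empty_of_forall_notMem fun y hy => hs (_root_.abs_le.1 (by
      have := h.abs_le hK hy
      rwa [inner_slice h.ne_zero, div_mul_cancel₀ _ hn.ne'] at this))
  have key : ∀ t : ℝ, volume (Prod.mk t ⁻¹' (e ⁻¹' ((fun y => ⟪w, y⟫) ⁻¹' T ∩ K))) =
      T.indicator (fun s => volume (slice K u (s / ‖w‖))) (‖w‖ * t) := fun t => by
    have hmem : ∀ y, ⟪w, e (t, y)⟫ = ‖w‖ * t := fun y => by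
      rw [happ, show (t, y).1 • u + ((t, y).2 : EuclideanSpace ℝ (Fin (m + 1))) =
        (y : EuclideanSpace ℝ (Fin (m + 1))) + t • u from add_comm _ _,
        inner_slice h.ne_zero, mul_comm]
    by_cases ht : ‖w‖ * t ∈ T
    · rw [indicator_of_mem ht, mul_div_cancel_left₀ _ hn.ne', ← hS]
      congr 1
      ext y
      simp [hmem, ht]
    · rw [indicator_of_notMem ht, ← measure_empty (μ := (volume : Measure ((ℝ ∙ u)ᗮ : Submodule ℝ _)))]
      congr 1
      ext y
      simp [hmem, ht]
  simp only [key]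
  have hmap : Measure.map (fun t => ‖w‖ * t) volume = ENNReal.ofReal ‖w‖⁻¹ • (volume : Measure ℝ) := by
    rw [Real.map_volume_mul_left hn.ne', abs_inv, abs_norm]
  have hind : Measurable (T.indicator fun s => volume (slice K u (s / ‖w‖))) :=
    (hvm.comp (measurable_id.div_const _)).indicator hT
  rw [← lintegral_map hind (measurable_const_mul _), hmap, lintegral_smul_measure, smul_eq_mul,
    lintegral_indicator hT, ← lintegral_indicator (hT.inter measurableSet_Icc),
    ← lintegral_indicator hT, ← lintegral_const_mul _ hind, ← lintegral_const_mul _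
      ((hpm.pow_const m).ennreal_ofReal.indicator (hT.inter measurableSet_Icc))]
  refine lintegral_congr fun s => ?_
  by_cases hsT : s ∈ T
  swap
  · simp [hsT]
  by_cases hsI : s ∈ Icc (-1 : ℝ) 1
  · rw [indicator_of_mem hsT, indicator_of_mem (show s ∈ T ∩ Icc (-1 : ℝ) 1 from ⟨hsT, hsI⟩), profile_pow hm, ← ENNReal.ofReal_mul
      (div_nonneg (kappa_pos m).le hn.le), ← hu',
      ← ENNReal.ofReal_toReal (isCompact_slice' hK hu _).measure_lt_top.ne,
      ← ENNReal.ofReal_mul (by positivity)]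
    congr 1
    have := (kappa_pos m).ne'
    rw [show sect K u (s / ‖w‖) = (volume (slice K u (s / ‖w‖))).toReal from rfl]
    field_simp
  · simp [hsT, hsI, hslab s hsI]

/-- Integrals of functions of `w` over `K`. -/
theorem integral_inner_eq (hm : 1 ≤ m) (hK : IsSymBody K) (h : IsTop K w v) {g : ℝ → ℝ}
    (hg : Measurable g) :
    ∫ y in K, g ⟪w, y⟫ = kappa m / ‖w‖ * ∫ s in (-1 : ℝ)..1, g s * profile K w s ^ m := by
  obtain ⟨hpm, hmap⟩ := map_inner_eq hm hK h
  rw [← integral_map (φ := fun y => ⟪w, y⟫) (by fun_prop) hg.aestronglyMeasurable, hmap,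
    integral_smul_measure, ENNReal.toReal_ofReal (div_nonneg (kappa_pos m).le h.norm_pos.le),
    smul_eq_mul, intervalIntegral.integral_of_le (by norm_num), ← integral_Icc_eq_integral_Ioc]
  congr 1
  rw [show (fun s => ENNReal.ofReal (profile K w s ^ m)) =
    fun s => ((Real.toNNReal (profile K w s ^ m) : NNReal) : ℝ≥0∞) from rfl,
    integral_withDensity_eq_integral_smul (hpm.pow_const m).real_toNNReal]
  refine integral_congr_ae (Eventually.of_forall fun s => ?_)
  simp only [NNReal.smul_def, smul_eq_mul, Real.coe_toNNReal _ (pow_nonneg (profile_nonneg s) m)]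
  ring

/-- The volume. -/
theorem volume_eq_mass (hm : 1 ≤ m) (hK : IsSymBody K) (h : IsTop K w v) :
    (volume K).toReal = 2 * (kappa m / ‖w‖) * mass m (profile K w) 1 := by
  have hs := isShape_profile hm hK h
  have hi := intervalIntegrable_shape_pow hs m
  have h0 : (0 : ℝ) ∈ uIcc (-1 : ℝ) 1 := by rw [uIcc_of_le (by norm_num)]; norm_num
  have hneg : (∫ s in (-1 : ℝ)..0, profile K w s ^ m) = ∫ s in (0 : ℝ)..1, profile K w s ^ m := by
    have := intervalIntegral.integral_comp_neg (fun s => profile K w s ^ m) (a := -1) (b := 0)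
    simp only [hs.even, neg_zero, neg_neg] at this
    exact this
  have := integral_inner_eq hm hK h (g := fun _ => (1 : ℝ)) measurable_const
  simp only [setIntegral_const, measureReal_def, smul_eq_mul, mul_one, one_mul] at this
  rw [this, mass, ← intervalIntegral.integral_add_adjacent_intervals
    (hi.mono_set (uIcc_subset_uIcc_left h0)) (hi.mono_set (uIcc_subset_uIcc_right h0)), hneg]
  ring

/-- The power integral of the sections. -/
theorem sectPow_eq (hm : 2 ≤ m) (hK : IsSymBody K) (h : IsTop K w v) :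
    sectPow K (‖w‖⁻¹ • w) =
      2 / ‖w‖ * (volume K).toReal ^ (m - 1) * powVal m (profile K w) := by
  set u := ‖w‖⁻¹ • w with hu'
  have hu : ‖u‖ = 1 := h.norm_unit
  have hn := h.norm_pos
  have hk := kappa_pos m
  have hs := isShape_profile (by omega) hK h
  have hzero : ∀ s, s ∉ Icc (-1 : ℝ) 1 → sect K u (s / ‖w‖) = 0 := fun s hs' => by
    have : slice K u (s / ‖w‖) = ∅ := eq_empty_of_forall_notMem fun y hy => hs' (_root_.abs_le.1 (by
      have := h.abs_le hK hy
      rwa [inner_slice h.ne_zero, div_mul_cancel₀ _ hn.ne'] at this))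
    show (volume (slice K u (s / ‖w‖))).toReal = 0
    simp [this]
  set P : ℝ := (((m + 1 : ℕ) : ℝ) - 2) / (((m + 1 : ℕ) : ℝ) - 1) with hP
  have hPm : P = ((m - 1 : ℕ) : ℝ) * (m : ℝ)⁻¹ := by
    rw [hP, Nat.cast_sub (by omega)]
    push_cast
    ring
  have hkP : 0 < kappa m ^ P := Real.rpow_pos_of_pos hk _
  have hfun : (fun s => sect K u (s / ‖w‖) ^ P) =
      (Icc (-1 : ℝ) 1).indicator fun s => kappa m ^ P * profile K w s ^ (m - 1) := by
    funext s
    by_cases hs' : s ∈ Icc (-1 : ℝ) 1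
    · rw [indicator_of_mem hs']
      have e : sect K u (s / ‖w‖) = kappa m * profile K w s ^ m := by
        rw [profile_pow (by omega), ← hu', mul_div_cancel₀ _ hk.ne']
      rw [e, Real.mul_rpow hk.le (pow_nonneg (profile_nonneg _) _), hPm, mul_comm ((m - 1 : ℕ) : ℝ),
        Real.rpow_mul (pow_nonneg (profile_nonneg _) _),
        Real.pow_rpow_inv_natCast (profile_nonneg _) (by omega), Real.rpow_natCast]
    · have hP0 : P ≠ 0 := by
        rw [hPm]
        exact mul_ne_zero (Nat.cast_ne_zero.2 (by omega))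
          (inv_ne_zero (Nat.cast_ne_zero.2 (by omega)))
      rw [indicator_of_notMem hs', hzero s hs', Real.zero_rpow hP0]
  have hint : (∫ t, sect K u t ^ P) =
      2 / ‖w‖ * kappa m ^ P * ∫ s in (0 : ℝ)..1, profile K w s ^ (m - 1) := by
    have h1 := Measure.integral_comp_div (fun t => sect K u t ^ P) ‖w‖
    rw [hfun, integral_indicator measurableSet_Icc, integral_Icc_eq_integral_Ioc,
      ← intervalIntegral.integral_of_le (by norm_num), intervalIntegral.integral_const_mul,
      abs_of_pos hn, smul_eq_mul] at h1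
    have hi := intervalIntegrable_shape_pow hs (m - 1)
    have h0 : (0 : ℝ) ∈ uIcc (-1 : ℝ) 1 := by rw [uIcc_of_le (by norm_num)]; norm_num
    have hneg : (∫ s in (-1 : ℝ)..0, profile K w s ^ (m - 1)) =
        ∫ s in (0 : ℝ)..1, profile K w s ^ (m - 1) := by
      have := intervalIntegral.integral_comp_neg (fun s => profile K w s ^ (m - 1))
        (a := -1) (b := 0)
      simp only [hs.even, neg_zero, neg_neg] at this
      exact this
    rw [← intervalIntegral.integral_add_adjacent_intervals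
      (hi.mono_set (uIcc_subset_uIcc_left h0)) (hi.mono_set (uIcc_subset_uIcc_right h0)), hneg] at h1
    field_simp
    linarith
  have hV := volume_eq_mass (by omega) hK h
  have hkpow : (kappa m ^ P) ^ m = kappa m ^ (m - 1) := by
    rw [← Real.rpow_natCast (kappa m ^ P) m, ← Real.rpow_mul hk.le, hPm, mul_assoc,
      inv_mul_cancel₀ (Nat.cast_ne_zero.2 (by omega)), mul_one, Real.rpow_natCast]
  have hmass : 0 < mass m (profile K w) 1 :=
    intervalIntegral.intervalIntegral_pos_of_pos_on
      ((intervalIntegrable_shape_pow hs m).mono_set (by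
        rw [uIcc_of_le zero_le_one, uIcc_of_le (by norm_num : (-1 : ℝ) ≤ 1)]
        exact Icc_subset_Icc (by norm_num) le_rfl))
      (fun s hs' => pow_pos (shape_pos hs ⟨by linarith [hs'.1], hs'.2⟩) m) zero_lt_one
  rw [sectPow, Nat.add_sub_cancel, ← hP, hint, powVal, hV, mul_pow, mul_pow, mul_pow, hkpow,
    mul_pow, div_pow]
  obtain ⟨k, hk'⟩ : ∃ k, m = k + 1 := ⟨m - 1, by omega⟩
  simp only [show m - 1 = k by omega, show (2 : ℝ) ^ m = 2 ^ k * 2 by rw [hk', pow_succ],
    show ‖w‖ ^ m = ‖w‖ ^ k * ‖w‖ by rw [← pow_succ, ← hk']]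
  rw [div_pow]
  field_simp

end Vale.Agent.P237.Quant
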