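import Mathlib
import Vale.Agent.P237.Quant.Gauge
import Vale.Agent.P237.Quant.Shape

/-!
The tangent datum. For a functional `w` with maximum one on `K` at `v`, the divergence theorem
identifies the law of `⟪w, ·⟫` on the boundary weighted by `1 ± ⟪normal, v⟫`; with the arithmetic
geometric mean inequality this bounds the mean of `√(1 - ⟪normal, v⟫ ^ 2)` by the profile.
-/

namespace Vale.Agent.P237.Quant

open MeasureTheory Set Filter Topology Full
open scoped RealInnerProductSpace ENNReal

variable {m : ℕ} {K : Set (EuclideanSpace ℝ (Fin (m + 1)))}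
  {w v : EuclideanSpace ℝ (Fin (m + 1))} {φ : ℝ → ℝ}

theorem gauge_pos_of_ne {n : ℕ} {K : Set (EuclideanSpace ℝ (Fin n))} (hK : IsSymBody K)
    {x : EuclideanSpace ℝ (Fin n)} (hx : x ≠ 0) : 0 < gauge K x :=
  (gauge_pos (absorbent_nhds_zero hK.zero_nhds)
    ((NormedSpace.isVonNBounded_iff ℝ).2 hK.body.2.1.isBounded)).2 hx

theorem bdPoint_mem {n : ℕ} {K : Set (EuclideanSpace ℝ (Fin n))} (hK : IsSymBody K)
    (x : EuclideanSpace ℝ (Fin n)) : bdPoint K x ∈ K := by
  rw [mem_iff_gauge hK.body.1 hK.body.2.1 hK.zero_nhds, bdPoint,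
    gauge_smul_of_nonneg (inv_nonneg.2 (gauge_nonneg x)), smul_eq_mul]
  exact inv_mul_le_one_of_le₀ le_rfl (gauge_nonneg x)

/-- Almost every point gives a functional with maximum one at its boundary point. -/
theorem isTop_ae {n : ℕ} [NeZero n] {K : Set (EuclideanSpace ℝ (Fin n))} (hK : IsSymBody K) :
    ∀ᵐ x, DifferentiableAt ℝ (gauge K) x ∧ IsTop K (normalAt K x) (bdPoint K x) := by
  have : Nonempty (Fin n) := ⟨0⟩
  filter_upwards [ae_differentiableAt_gauge hK.body.1 hK.zero_nhds,
    Measure.ae_ne volume (0 : EuclideanSpace ℝ (Fin n))] with x hd hx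
  refine ⟨hd, bdPoint_mem hK x, fun y hy => (le_abs_self _).trans
    (inner_normalAt_le_one hK.body.1 hK.zero_nhds hK.symm hd hy), ?_⟩
  rw [bdPoint, real_inner_smul_right, inner_normalAt_self hd,
    inv_mul_cancel₀ (gauge_pos_of_ne hK hx).ne']

theorem measurable_bdPoint {n : ℕ} {K : Set (EuclideanSpace ℝ (Fin n))} (hK : IsSymBody K) :
    Measurable (bdPoint K) :=
  (continuous_gauge hK.body.1 hK.zero_nhds).measurable.inv.smul measurable_id

/-- One side of the tangent density: `e` is `1` or `-1`. -/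
noncomputable def side (m : ℕ) (φ : ℝ → ℝ) (e s : ℝ) : ℝ :=
  max (m * φ s ^ (m - 1) * (φ s - (e + s) * deriv φ s)) 0

theorem measurable_side (hφ : Measurable φ) (e : ℝ) : Measurable (side m φ e) := by
  have := measurable_deriv φ
  unfold side
  fun_prop

theorem side_nonneg (e s : ℝ) : 0 ≤ side m φ e s := le_max_right _ _

theorem side_ae (hφ : IsShape φ) {e : ℝ} (he : e = 1 ∨ e = -1) :
    ∀ᵐ s ∂volume.restrict (Ioo (-1 : ℝ) 1),
      side m φ e s = m * φ s ^ (m - 1) * (φ s - (e + s) * deriv φ s) := by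
  filter_upwards [ae_restrict_of_ae (shape_ae_differentiable hφ),
    ae_restrict_mem measurableSet_Ioo] with s hd hs
  have hφ0 := hφ.nonneg s (Ioo_subset_Icc_self hs)
  have h2 := shape_tangent_ends hφ hs (hd hs)
  refine max_eq_left (mul_nonneg (by positivity) ?_)
  rcases he with rfl | rfl <;> linarith [h2.1, h2.2]

theorem intervalIntegrable_shape_slope (hφ : IsShape φ) (k : ℕ) {G : ℝ → ℝ}
    (hG : Continuous G) :
    IntervalIntegrable (fun s => G s * (φ s ^ k * deriv φ s)) volume (-1) 1 := by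
  refine IntervalIntegrable.continuousOn_mul ?_ hG.continuousOn
  rw [intervalIntegrable_iff_integrableOn_Ioo_of_le (by norm_num)]
  refine Integrable.bdd_mul (c := φ 0 ^ k)
    ((intervalIntegrable_iff_integrableOn_Ioo_of_le (by norm_num)).1
      (intervalIntegrable_shape_deriv hφ))
    (((shape_continuousOn hφ).pow k).aestronglyMeasurable measurableSet_Ioo) ?_
  filter_upwards [ae_restrict_mem measurableSet_Ioo] with t ht
  rw [Real.norm_eq_abs, abs_pow, abs_of_nonneg (hφ.nonneg t (Ioo_subset_Icc_self ht))]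
  exact pow_le_pow_left₀ (hφ.nonneg t (Ioo_subset_Icc_self ht))
    (shape_le_centre hφ (Ioo_subset_Icc_self ht)) k

theorem integrableOn_side (hφ : IsShape φ) (hm : 1 ≤ m) {e : ℝ} (he : e = 1 ∨ e = -1) :
    IntegrableOn (side m φ e) (Ioo (-1) 1) := by
  have h : IntervalIntegrable (fun s => (m : ℝ) * φ s ^ m -
      (m * (e + s)) * (φ s ^ (m - 1) * deriv φ s)) volume (-1) 1 :=
    ((intervalIntegrable_shape_pow hφ m).const_mul _).sub
      (intervalIntegrable_shape_slope hφ (m - 1) (by fun_prop))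
  refine ((intervalIntegrable_iff_integrableOn_Ioo_of_le (by norm_num)).1 h).congr ?_
  filter_upwards [side_ae hφ he] with s hs
  rw [hs]
  obtain ⟨k, rfl⟩ : ∃ k, m = k + 1 := ⟨m - 1, by omega⟩
  simp only [Nat.add_sub_cancel, pow_succ]
  ring

theorem contDiff_eval (P : Polynomial ℝ) : ContDiff ℝ 1 fun s => P.eval s := by
  simpa using P.contDiff_aeval (R := ℝ) (𝕜 := ℝ) 1

/-- Polynomial test: the divergence theorem on the two fields. -/
theorem side_test (hm : 1 ≤ m) (hK : IsSymBody K) (h : IsTop K w v) {L : ℝ}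
    (hL : Tendsto (profile K w) (𝓝[<] 1) (𝓝 L)) {e : ℝ} (he : e = 1 ∨ e = -1)
    (P : Polynomial ℝ) :
    ((m + 1 : ℕ) : ℝ) * (∫ y in K, (1 + e * ⟪normalAt K y, v⟫) * P.eval ⟪w, bdPoint K y⟫) =
      kappa m / ‖w‖ * ((∫ s in (-1 : ℝ)..1, P.eval s * side m (profile K w) e s) +
        2 * L ^ m * P.eval e) := by
  have hφ := isShape_profile hm hK h
  set φ := profile K w with hφdef
  set c := kappa m / ‖w‖ with hc
  have hFd : ContDiff ℝ 1 fun s => P.eval s := contDiff_eval P
  have hP : ∀ s, HasDerivAt (fun s => P.eval s) (P.derivative.eval s) s := fun s =>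
    P.hasDerivAt s
  set iw := innerSL ℝ w with hiw
  have hder : ∀ (z : EuclideanSpace ℝ (Fin (m + 1))),
      HasFDerivAt (fun y => P.eval ⟪w, y⟫) (P.derivative.eval ⟪w, z⟫ • iw) z := fun z =>
    HasDerivAt.comp_hasFDerivAt (f := fun y => ⟪w, y⟫) z (hP _) iw.hasFDerivAt
  have hYc : ContDiff ℝ 1 fun y : EuclideanSpace ℝ (Fin (m + 1)) => P.eval ⟪w, y⟫ :=
    hFd.comp iw.contDiff
  have hv := integral_trace_eq hK.body.1 hK.body.2.1 hK.zero_nhds
    (Y := fun y => P.eval ⟪w, y⟫ • v) (hYc.smul contDiff_const)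
  have hx := integral_trace_eq hK.body.1 hK.body.2.1 hK.zero_nhds
    (Y := fun y => P.eval ⟪w, y⟫ • y) (hYc.smul contDiff_id)
  have tv : ∀ z, LinearMap.trace ℝ (EuclideanSpace ℝ (Fin (m + 1)))
      (fderiv ℝ (fun y => P.eval ⟪w, y⟫ • v) z : _ →ₗ[ℝ] _) = P.derivative.eval ⟪w, z⟫ := by
    intro z
    rw [((hder z).smul_const v).fderiv]
    refine (LinearMap.trace_smulRight _ _).trans ?_
    simp [hiw, h.eq]
  have tx : ∀ z, LinearMap.trace ℝ (EuclideanSpace ℝ (Fin (m + 1)))
      (fderiv ℝ (fun y => P.eval ⟪w, y⟫ • y) z : _ →ₗ[ℝ] _) =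
      ((m + 1 : ℕ) : ℝ) * P.eval ⟪w, z⟫ + P.derivative.eval ⟪w, z⟫ * ⟪w, z⟫ := by
    intro z
    have hd : HasFDerivAt (fun y => P.eval ⟪w, y⟫ • y) _ z := (hder z).fun_smul (hasFDerivAt_id z)
    rw [hd.fderiv, ContinuousLinearMap.toLinearMap_add, ContinuousLinearMap.toLinearMap_smul,
      map_add, map_smul, ContinuousLinearMap.coe_id, LinearMap.trace_id, finrank_euclideanSpace_fin]
    rw [show ∀ (f : EuclideanSpace ℝ (Fin (m + 1)) →L[ℝ] ℝ) x,
      ((f.smulRight x : EuclideanSpace ℝ (Fin (m + 1)) →L[ℝ] EuclideanSpace ℝ (Fin (m + 1))) :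
        EuclideanSpace ℝ (Fin (m + 1)) →ₗ[ℝ] EuclideanSpace ℝ (Fin (m + 1))) =
      (f : EuclideanSpace ℝ (Fin (m + 1)) →ₗ[ℝ] ℝ).smulRight x from fun _ _ => rfl,
      LinearMap.trace_smulRight]
    simp [hiw]
    ring
  simp only [tv] at hv
  simp only [tx] at hx
  obtain ⟨C, hC⟩ := exists_bound_normalAt hK.body.1 hK.zero_nhds
  obtain ⟨B, hB⟩ := (isCompact_Icc (a := (-1 : ℝ)) (b := 1)).exists_bound_of_continuousOn
    P.continuous.continuousOn
  have hint : ∀ z : EuclideanSpace ℝ (Fin (m + 1)), IntegrableOn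
      (fun y => ⟪normalAt K y, z⟫ * P.eval ⟪w, bdPoint K y⟫) K := fun z => by
    refine IntegrableOn.of_bound hK.body.2.1.measure_lt_top
      ((measurable_normalAt.inner measurable_const).mul
        (P.continuous.measurable.comp
          (measurable_const.inner (measurable_bdPoint hK)))).aestronglyMeasurable (C * ‖z‖ * B) ?_
    refine Eventually.of_forall fun y => ?_
    rw [norm_mul, Real.norm_eq_abs]
    exact mul_le_mul ((abs_real_inner_le_norm _ _).trans
        (mul_le_mul_of_nonneg_right (hC y) (norm_nonneg _)))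
      (hB _ (_root_.abs_le.1 (h.abs_le hK (bdPoint_mem hK y)))) (norm_nonneg _)
      (mul_nonneg ((norm_nonneg _).trans (hC 0)) (norm_nonneg _))
  have hint1 : IntegrableOn (fun y => P.eval ⟪w, bdPoint K y⟫) K :=
    IntegrableOn.of_bound hK.body.2.1.measure_lt_top
      (P.continuous.measurable.comp
        (measurable_const.inner (measurable_bdPoint hK))).aestronglyMeasurable B
      (Eventually.of_forall fun y => hB _ (_root_.abs_le.1 (h.abs_le hK (bdPoint_mem hK y))))
  have e1 : ∫ y in K, ⟪normalAt K y, P.eval ⟪w, bdPoint K y⟫ • bdPoint K y⟫ =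
      ∫ y in K, P.eval ⟪w, bdPoint K y⟫ := by
    refine integral_congr_ae (ae_restrict_of_ae ?_)
    filter_upwards [isTop_ae hK] with y hy
    rw [real_inner_smul_right, hy.2.eq, mul_one]
  have e2 : ∫ y in K, ⟪normalAt K y, P.eval ⟪w, bdPoint K y⟫ • v⟫ =
      ∫ y in K, ⟪normalAt K y, v⟫ * P.eval ⟪w, bdPoint K y⟫ :=
    integral_congr_ae (Eventually.of_forall fun y => by
      simp only [real_inner_smul_right, mul_comm])
  rw [e2, integral_inner_eq hm hK h P.derivative.continuous.measurable] at hv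
  rw [e1, integral_inner_eq hm hK h
    (g := fun s => ((m + 1 : ℕ) : ℝ) * P.eval s + P.derivative.eval s * s)
    (by fun_prop)] at hx
  have hlhs : (∫ y in K, (1 + e * ⟪normalAt K y, v⟫) * P.eval ⟪w, bdPoint K y⟫) =
      (∫ y in K, P.eval ⟪w, bdPoint K y⟫) +
        e * ∫ y in K, ⟪normalAt K y, v⟫ * P.eval ⟪w, bdPoint K y⟫ := by
    rw [← integral_const_mul, ← integral_add hint1 ((hint v).const_mul e)]
    exact integral_congr_ae (Eventually.of_forall fun y => by ring)
  rw [hlhs, mul_add, ← hx, mul_left_comm, ← hv, ← mul_assoc e, mul_comm e c, mul_assoc c e,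
    ← mul_add]
  congr 1
  obtain ⟨k, hk⟩ : ∃ k, m = k + 1 := ⟨m - 1, by omega⟩
  have hpb : ∀ Q : Polynomial ℝ, IntervalIntegrable (fun s => Q.eval s * φ s ^ m) volume (-1) 1 :=
    fun Q => (intervalIntegrable_shape_pow hφ m).continuousOn_mul Q.continuous.continuousOn
  have hq : ∀ Q : Polynomial ℝ, (∫ s in (-1 : ℝ)..1, Q.derivative.eval s * φ s ^ m) =
      L ^ m * (Q.eval 1 - Q.eval (-1)) -
        ∫ s in (-1 : ℝ)..1, Q.eval s * (m * φ s ^ (m - 1) * deriv φ s) := by
    intro Q
    have := shape_parts hφ k (G := fun s => Q.eval s) (contDiff_eval Q) hL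
    simp only [Polynomial.deriv] at this
    simp only [hk, Nat.add_sub_cancel]
    push_cast
    exact this
  have hs : (∫ s in (-1 : ℝ)..1, P.eval s * side m φ e s) =
      (m : ℝ) * (∫ s in (-1 : ℝ)..1, P.eval s * φ s ^ m) -
        ∫ s in (-1 : ℝ)..1, ((Polynomial.C e + Polynomial.X) * P).eval s *
          (m * φ s ^ (m - 1) * deriv φ s) := by
    rw [← intervalIntegral.integral_const_mul, ← intervalIntegral.integral_sub
      ((hpb P).const_mul _) ((intervalIntegrable_shape_slope hφ (m - 1)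
        (((Polynomial.C e + Polynomial.X) * P).continuous.mul continuous_const
          (g := fun _ => (m : ℝ)))).congr fun s _ => by simp only [Pi.mul_apply]; ring)]
    refine intervalIntegral.integral_congr_ae_restrict ?_
    rw [uIoc_of_le (by norm_num : (-1 : ℝ) ≤ 1), ← Measure.restrict_congr_set Ioo_ae_eq_Ioc]
    filter_upwards [side_ae hφ he] with s hs
    rw [hs, hk]
    simp [pow_succ]
    ring
  have hd := hq ((Polynomial.C e + Polynomial.X) * P)
  rw [hs]
  set J := ∫ s in (-1 : ℝ)..1, ((Polynomial.C e + Polynomial.X) * P).eval s *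
    (m * φ s ^ (m - 1) * deriv φ s)
  have hd2 : (∫ s in (-1 : ℝ)..1,
        ((Polynomial.C e + Polynomial.X) * P).derivative.eval s * φ s ^ m) =
      ((∫ s in (-1 : ℝ)..1, (((m + 1 : ℕ) : ℝ) * P.eval s + P.derivative.eval s * s) * φ s ^ m) -
        (m : ℝ) * ∫ s in (-1 : ℝ)..1, P.eval s * φ s ^ m) +
        e * ∫ s in (-1 : ℝ)..1, P.derivative.eval s * φ s ^ m := by
    have i1 : IntervalIntegrable
        (fun s => (((m + 1 : ℕ) : ℝ) * P.eval s + P.derivative.eval s * s) * φ s ^ m)
        volume (-1) 1 :=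
      (intervalIntegrable_shape_pow hφ m).continuousOn_mul (by fun_prop)
    rw [← intervalIntegral.integral_const_mul, ← intervalIntegral.integral_const_mul,
      ← intervalIntegral.integral_sub i1 ((hpb P).const_mul _),
      ← intervalIntegral.integral_add (i1.sub ((hpb P).const_mul _)) ((hpb _).const_mul _)]
    refine intervalIntegral.integral_congr fun s _ => ?_
    simp [Polynomial.derivative_mul]
    ring
  rw [hd2] at hd
  have hend : ((Polynomial.C e + Polynomial.X) * P).eval 1 -
      ((Polynomial.C e + Polynomial.X) * P).eval (-1) = 2 * P.eval e := by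
    rcases he with rfl | rfl <;>
      simp only [Polynomial.eval_mul, Polynomial.eval_add, Polynomial.eval_C, Polynomial.eval_X] <;>
      ring
  rw [hend] at hd
  linarith

/-- Two finite measures on `[-1, 1]` with the same moments are equal. -/
theorem measure_eq_of_poly {μ ν : Measure ℝ} [IsFiniteMeasure μ] [IsFiniteMeasure ν]
    (hμ : μ (Icc (-1) 1)ᶜ = 0) (hν : ν (Icc (-1) 1)ᶜ = 0)
    (h : ∀ P : Polynomial ℝ, ∫ x, P.eval x ∂μ = ∫ x, P.eval x ∂ν) : μ = ν := by
  refine ext_of_forall_integral_eq_of_IsFiniteMeasure fun g => ?_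
  refine sub_eq_zero.1 (abs_eq_zero.1 (le_antisymm (le_of_forall_pos_le_add fun ε hε => ?_)
    (abs_nonneg _)))
  set T := μ.real univ + ν.real univ + 1 with hT
  have hT0 : 0 < T := by positivity
  obtain ⟨P, hP⟩ := exists_polynomial_near_of_continuousOn (-1) 1 g g.continuous.continuousOn
    (ε / T) (div_pos hε hT0)
  have key : ∀ (ρ : Measure ℝ) [IsFiniteMeasure ρ], ρ (Icc (-1) 1)ᶜ = 0 →
      |(∫ x, g x ∂ρ) - ∫ x, P.eval x ∂ρ| ≤ ε / T * ρ.real univ := by
    intro ρ _ hρ
    have hin : ∀ᵐ x ∂ρ, x ∈ Icc (-1 : ℝ) 1 := by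
      rw [ae_iff]
      exact hρ
    have hi : Integrable (fun x => P.eval x) ρ := by
      rw [← Measure.restrict_eq_self_of_ae_mem hin]
      exact P.continuous.continuousOn.integrableOn_compact isCompact_Icc
    rw [← integral_sub (g.integrable ρ) hi, ← Real.norm_eq_abs]
    refine norm_integral_le_of_norm_le_const (hin.mono fun x hx => ?_)
    rw [Real.norm_eq_abs, abs_sub_comm]
    exact (hP x hx).le
  have h1 := key μ hμ
  have h2 := key ν hν
  rw [h P] at h1
  have h3 : ε / T * (μ.real univ + ν.real univ) ≤ ε := by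
    rw [div_mul_eq_mul_div, div_le_iff₀ hT0]
    exact mul_le_mul_of_nonneg_left (by linarith) hε.le
  have := abs_sub_le (∫ x, g x ∂μ) (∫ x, P.eval x ∂ν) (∫ x, g x ∂ν)
  rw [abs_sub_comm (∫ x, P.eval x ∂ν)] at this
  linarith

/-- The weighted law of `⟪w, ·⟫` on the boundary. -/
theorem side_law (hm : 1 ≤ m) (hK : IsSymBody K) (h : IsTop K w v) {L : ℝ} (hL0 : 0 ≤ L)
    (hL : Tendsto (profile K w) (𝓝[<] 1) (𝓝 L)) {e : ℝ} (he : e = 1 ∨ e = -1)
    {f : ℝ → ℝ≥0∞} (hf : Measurable f) :
    ∫⁻ y in K, ENNReal.ofReal (((m + 1 : ℕ) : ℝ) * (1 + e * ⟪normalAt K y, v⟫)) *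
        f ⟪w, bdPoint K y⟫ =
      ENNReal.ofReal (kappa m / ‖w‖) *
        ((∫⁻ s in Ioo (-1 : ℝ) 1, ENNReal.ofReal (side m (profile K w) e s) * f s) +
          ENNReal.ofReal (2 * L ^ m) * f e) := by
  have hφ := isShape_profile hm hK h
  have hpm := (map_inner_eq hm hK h).1
  set φ := profile K w with hφdef
  set c := kappa m / ‖w‖ with hc
  have hc0 : 0 ≤ c := div_nonneg (kappa_pos m).le (norm_nonneg w)
  have he1 : e ∈ Icc (-1 : ℝ) 1 := by rcases he with rfl | rfl <;> simp
  set d : EuclideanSpace ℝ (Fin (m + 1)) → ℝ := fun y =>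
    ((m + 1 : ℕ) : ℝ) * (1 + e * ⟪normalAt K y, v⟫) with hd
  have hdm : Measurable d :=
    (((measurable_normalAt.inner measurable_const).const_mul e).const_add 1).const_mul _
  obtain ⟨C, hC⟩ := exists_bound_normalAt hK.body.1 hK.zero_nhds
  have hdi : IntegrableOn d K := IntegrableOn.of_bound hK.body.2.1.measure_lt_top
    hdm.aestronglyMeasurable (((m + 1 : ℕ) : ℝ) * (1 + C * ‖v‖)) (Eventually.of_forall fun y => by
      have h1 := (abs_real_inner_le_norm (normalAt K y) v).trans
        (mul_le_mul_of_nonneg_right (hC y) (norm_nonneg v))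
      have h2 : |e * ⟪normalAt K y, v⟫| ≤ C * ‖v‖ := by
        rcases he with rfl | rfl <;> simpa using h1
      rw [Real.norm_eq_abs, hd, abs_mul, abs_of_nonneg (Nat.cast_nonneg _)]
      refine mul_le_mul_of_nonneg_left ?_ (Nat.cast_nonneg _)
      exact (abs_add_le _ _).trans (by rw [abs_one]; linarith))
  have hd0 : ∀ᵐ y ∂volume.restrict K, 0 ≤ d y := by
    refine ae_restrict_of_ae ?_
    filter_upwards [isTop_ae hK] with y hy
    have h1 := _root_.abs_le.1 (hy.2.abs_le hK h.mem)
    refine mul_nonneg (Nat.cast_nonneg _) ?_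
    rcases he with rfl | rfl <;> linarith [h1.1, h1.2]
  set μ : Measure ℝ := ((volume.restrict K).withDensity fun y => ENNReal.ofReal (d y)).map
    (fun y => ⟪w, bdPoint K y⟫) with hμ
  set ν : Measure ℝ := ENNReal.ofReal c • ((volume.restrict (Ioo (-1 : ℝ) 1)).withDensity
      (fun s => ENNReal.ofReal (side m φ e s)) + ENNReal.ofReal (2 * L ^ m) • Measure.dirac e)
    with hν
  have hσ : Measurable fun y => ⟪w, bdPoint K y⟫ := measurable_const.inner (measurable_bdPoint hK)
  have hsm := measurable_side (m := m) hpm e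
  have hsi := integrableOn_side hφ hm he
  have : IsFiniteMeasure ((volume.restrict K).withDensity fun y => ENNReal.ofReal (d y)) :=
    isFiniteMeasure_withDensity_ofReal hdi.hasFiniteIntegral
  have : IsFiniteMeasure ((volume.restrict (Ioo (-1 : ℝ) 1)).withDensity
      fun s => ENNReal.ofReal (side m φ e s)) :=
    isFiniteMeasure_withDensity_ofReal hsi.hasFiniteIntegral
  have : IsFiniteMeasure (ENNReal.ofReal (2 * L ^ m) • (Measure.dirac e : Measure ℝ)) :=
    Measure.smul_finite _ ENNReal.ofReal_ne_top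
  have : IsFiniteMeasure ν := Measure.smul_finite _ ENNReal.ofReal_ne_top
  have hI : MeasurableSet (Icc (-1 : ℝ) 1) := measurableSet_Icc
  have hμ0 : μ (Icc (-1) 1)ᶜ = 0 := by
    rw [hμ, Measure.map_apply hσ hI.compl]
    refine measure_mono_null (fun y hy => ?_) (measure_empty (μ := _))
    exact absurd (_root_.abs_le.1 (h.abs_le hK (bdPoint_mem hK y))) hy
  have hν0 : ν (Icc (-1) 1)ᶜ = 0 := by
    rw [hν, Measure.smul_apply, Measure.add_apply, Measure.smul_apply,
      Measure.dirac_apply' _ hI.compl, withDensity_apply _ hI.compl,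
      Measure.restrict_restrict hI.compl, show (Icc (-1 : ℝ) 1)ᶜ ∩ Ioo (-1) 1 = ∅ from
        eq_empty_of_forall_notMem fun s hs => hs.1 (Ioo_subset_Icc_self hs.2)]
    simp [he1]
  have heq : μ = ν := by
    refine measure_eq_of_poly hμ0 hν0 fun P => ?_
    have hPm : Measurable fun x => P.eval x := P.continuous.measurable
    have iP1 : Integrable (fun x => P.eval x) ((volume.restrict (Ioo (-1 : ℝ) 1)).withDensity
        fun s => ENNReal.ofReal (side m φ e s)) := by
      rw [← Measure.restrict_eq_self_of_ae_mem (show ∀ᵐ x ∂((volume.restrict (Ioo (-1 : ℝ) 1))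
        |>.withDensity fun s => ENNReal.ofReal (side m φ e s)), x ∈ Icc (-1 : ℝ) 1 from
          (withDensity_absolutelyContinuous _ _).ae_le
            ((ae_restrict_mem measurableSet_Ioo).mono fun s hs => Ioo_subset_Icc_self hs))]
      exact P.continuous.continuousOn.integrableOn_compact isCompact_Icc
    have iP2 : Integrable (fun x => P.eval x)
        (ENNReal.ofReal (2 * L ^ m) • (Measure.dirac e : Measure ℝ)) :=
      (integrable_dirac (enorm_lt_top)).smul_measure ENNReal.ofReal_ne_top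
    rw [hμ, integral_map hσ.aemeasurable hPm.aestronglyMeasurable, hν, integral_smul_measure,
      integral_add_measure iP1 iP2, integral_smul_measure, integral_dirac,
      ENNReal.toReal_ofReal hc0, ENNReal.toReal_ofReal (by positivity)]
    simp only [ENNReal.ofReal, smul_eq_mul]
    rw [integral_withDensity_eq_integral_smul hdm.real_toNNReal,
      integral_withDensity_eq_integral_smul hsm.real_toNNReal]
    have e1 : (∫ y in K, (d y).toNNReal • P.eval ⟪w, bdPoint K y⟫) =
        ((m + 1 : ℕ) : ℝ) *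
          ∫ y in K, (1 + e * ⟪normalAt K y, v⟫) * P.eval ⟪w, bdPoint K y⟫ := by
      rw [← integral_const_mul]
      refine integral_congr_ae ?_
      filter_upwards [hd0] with y hy
      rw [NNReal.smul_def, Real.coe_toNNReal _ hy, smul_eq_mul, hd]
      ring
    have e2 : (∫ s in Ioo (-1 : ℝ) 1, (side m φ e s).toNNReal • P.eval s) =
        ∫ s in (-1 : ℝ)..1, P.eval s * side m φ e s := by
      rw [intervalIntegral.integral_of_le (by norm_num), integral_Ioc_eq_integral_Ioo]
      refine integral_congr_ae (Eventually.of_forall fun s => ?_)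
      simp only [NNReal.smul_def, Real.coe_toNNReal _ (side_nonneg e s), smul_eq_mul, mul_comm]
    rw [e1, e2, side_test hm hK h hL he P]
  have h2 := congrArg (fun ρ => ∫⁻ s, f s ∂ρ) heq
  simp only [hμ, hν, lintegral_map hf hσ, lintegral_smul_measure, lintegral_add_measure,
    lintegral_dirac' _ hf, smul_eq_mul] at h2
  rw [lintegral_withDensity_eq_lintegral_mul _ hdm.ennreal_ofReal
      (show Measurable fun y => f ⟪w, bdPoint K y⟫ from hf.comp hσ),
    lintegral_withDensity_eq_lintegral_mul _ hsm.ennreal_ofReal hf] at h2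
  exact h2

/-- The profile form of the bound. -/
theorem sqrt_side_ae (hφ : IsShape φ) :
    ∀ᵐ s ∂volume.restrict (Ioo (-1 : ℝ) 1), √(side m φ 1 s * side m φ (-1) s) =
      m * φ s ^ (m - 1) * √((φ s - s * deriv φ s) ^ 2 - deriv φ s ^ 2) := by
  filter_upwards [side_ae (m := m) hφ (Or.inl rfl), side_ae (m := m) hφ (Or.inr rfl),
    ae_restrict_mem measurableSet_Ioo] with s h1 h2 hs
  have h0 : 0 ≤ (m : ℝ) * φ s ^ (m - 1) :=
    mul_nonneg (Nat.cast_nonneg m) (pow_nonneg (hφ.nonneg s (Ioo_subset_Icc_self hs)) _)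
  rw [h1, h2, show (m : ℝ) * φ s ^ (m - 1) * (φ s - (1 + s) * deriv φ s) *
      (m * φ s ^ (m - 1) * (φ s - (-1 + s) * deriv φ s)) =
      (m * φ s ^ (m - 1)) ^ 2 * ((φ s - s * deriv φ s) ^ 2 - deriv φ s ^ 2) by ring,
    Real.sqrt_mul (sq_nonneg _), Real.sqrt_sq h0]

theorem integrableOn_root (hφ : IsShape φ) (hφm : Measurable φ) (hm : 1 ≤ m) :
    IntegrableOn (fun s => √(side m φ 1 s * side m φ (-1) s)) (Ioo (-1) 1) := by
  refine Integrable.mono' ((integrableOn_side hφ hm (Or.inl rfl)).add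
    (integrableOn_side hφ hm (Or.inr rfl)))
    ((measurable_side hφm 1).mul (measurable_side hφm (-1))).sqrt.aestronglyMeasurable
    (Eventually.of_forall fun s => ?_)
  have h1 := side_nonneg (m := m) (φ := φ) 1 s
  have h2 := side_nonneg (m := m) (φ := φ) (-1) s
  rw [Real.norm_eq_abs, abs_of_nonneg (Real.sqrt_nonneg _), Pi.add_apply,
    Real.sqrt_le_left (by positivity)]
  nlinarith

/-- The tangent bound. -/
theorem tangent_bound (hm : 1 ≤ m) (hK : IsSymBody K) (h : IsTop K w v) :
    ((m + 1 : ℕ) : ℝ) * (∫ y in K, ballShape ⟪normalAt K y, v⟫) ≤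
      kappa m / ‖w‖ * (2 * ∫ s in (0 : ℝ)..1, m * profile K w s ^ (m - 1) *
        √((profile K w s - s * deriv (profile K w) s) ^ 2 - deriv (profile K w) s ^ 2)) := by
  have hφ := isShape_profile hm hK h
  have hpm := (map_inner_eq hm hK h).1
  obtain ⟨L, hL0, hL⟩ := shape_exists_limit hφ
  set φ := profile K w with hφdef
  set c := kappa m / ‖w‖ with hc
  have hc0 : 0 ≤ c := div_nonneg (kappa_pos m).le (norm_nonneg w)
  have hside1 := integrableOn_side hφ hm (e := 1) (Or.inl rfl)
  have hside2 := integrableOn_side hφ hm (e := -1) (Or.inr rfl)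
  have hroot := integrableOn_root hφ hpm hm
  set B := ∫ s in Ioo (-1 : ℝ) 1, (2 + side m φ 1 s + side m φ (-1) s) with hB
  have hX : ∀ δ ∈ Ioo (0 : ℝ) 1,
      ((m + 1 : ℕ) : ℝ) * (∫ y in K, ballShape ⟪normalAt K y, v⟫) ≤
      c * ((∫ s in Ioo (-1 : ℝ) 1, √(side m φ 1 s * side m φ (-1) s)) +
        √δ * (B + 2) + 2 * δ * L ^ m) := by
    intro δ hδ
    set l : ℝ → ℝ := fun s => if s = 1 then δ else if s = -1 then δ⁻¹ else
      √((side m φ (-1) s + δ) / (side m φ 1 s + δ)) with hl
    have hlm : Measurable l := Measurable.ite (measurableSet_singleton _) measurable_const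
      (Measurable.ite (measurableSet_singleton _) measurable_const
        (((measurable_side hpm _).add_const _).div ((measurable_side hpm _).add_const _)).sqrt)
    have hlpos : ∀ s, 0 < l s := fun s => by
      have h1 := side_nonneg (m := m) (φ := φ) 1 s
      have h2 := side_nonneg (m := m) (φ := φ) (-1) s
      simp only [hl]
      split_ifs
      · exact hδ.1
      · exact inv_pos.2 hδ.1
      · exact Real.sqrt_pos.2 (div_pos (by linarith [hδ.1]) (by linarith [hδ.1]))
    have hpt : ∀ᵐ y ∂volume.restrict K,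
        ENNReal.ofReal (((m + 1 : ℕ) : ℝ) * ballShape ⟪normalAt K y, v⟫) ≤
        ENNReal.ofReal (((m + 1 : ℕ) : ℝ) * (1 + 1 * ⟪normalAt K y, v⟫)) *
            ENNReal.ofReal (l ⟪w, bdPoint K y⟫ / 2) +
          ENNReal.ofReal (((m + 1 : ℕ) : ℝ) * (1 + -1 * ⟪normalAt K y, v⟫)) *
            ENNReal.ofReal (1 / (2 * l ⟪w, bdPoint K y⟫)) := by
      refine ae_restrict_of_ae ?_
      filter_upwards [isTop_ae hK] with y hy
      have h1 := _root_.abs_le.1 (hy.2.abs_le hK h.mem)
      set a := ⟪normalAt K y, v⟫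
      set q := l ⟪w, bdPoint K y⟫
      have hq : 0 < q := hlpos _
      have hn : (0 : ℝ) ≤ ((m + 1 : ℕ) : ℝ) := Nat.cast_nonneg _
      rw [← ENNReal.ofReal_mul (mul_nonneg hn (by linarith)),
        ← ENNReal.ofReal_mul (mul_nonneg hn (by linarith)),
        ← ENNReal.ofReal_add (mul_nonneg (mul_nonneg hn (by linarith)) (by positivity))
          (mul_nonneg (mul_nonneg hn (by linarith)) (by positivity))]
      refine ENNReal.ofReal_le_ofReal ?_
      have key : ballShape a ≤ (1 + a) * (q / 2) + (1 - a) * (1 / (2 * q)) := by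
        rw [ballShape, Real.sqrt_le_left (add_nonneg (mul_nonneg (by linarith) (by positivity))
          (mul_nonneg (by linarith) (by positivity)))]
        have e : (1 + a) * (q / 2) * ((1 - a) * (1 / (2 * q))) = (1 - a ^ 2) / 4 := by
          field_simp
          ring
        nlinarith [sq_nonneg ((1 + a) * (q / 2) - (1 - a) * (1 / (2 * q)))]
      have := mul_le_mul_of_nonneg_left key hn
      linarith
    have hm1 : Measurable fun y =>
        ENNReal.ofReal (((m + 1 : ℕ) : ℝ) * (1 + 1 * ⟪normalAt K y, v⟫)) *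
          ENNReal.ofReal (l ⟪w, bdPoint K y⟫ / 2) :=
      ((((measurable_normalAt.inner measurable_const).const_mul _).const_add 1).const_mul
        _).ennreal_ofReal.mul
        ((hlm.comp (measurable_const.inner (measurable_bdPoint hK))).div_const 2).ennreal_ofReal
    have hi := lintegral_mono_ae hpt
    rw [lintegral_add_left hm1,
      side_law hm hK h hL0 hL (Or.inl rfl) (f := fun s => ENNReal.ofReal (l s / 2))
        (hlm.div_const 2).ennreal_ofReal,
      side_law hm hK h hL0 hL (Or.inr rfl) (f := fun s => ENNReal.ofReal (1 / (2 * l s)))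
        ((measurable_const.div (hlm.const_mul 2)).ennreal_ofReal)] at hi
    rw [← mul_add] at hi
    have hl1 : l 1 = δ := by simp [hl]
    have hlm1 : l (-1) = δ⁻¹ := by simp [hl]; norm_num
    have hint2 : IntegrableOn (fun s => √(side m φ 1 s * side m φ (-1) s) +
        √δ * (2 + side m φ 1 s + side m φ (-1) s + 1)) (Ioo (-1) 1) :=
      hroot.add (((((integrableOn_const (C := (2 : ℝ)) (by simp)).add hside1).add hside2).add
        (integrableOn_const (C := (1 : ℝ)) (by simp))).const_mul _)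
    have hmid : (∫⁻ s in Ioo (-1 : ℝ) 1,
          ENNReal.ofReal (side m φ 1 s) * ENNReal.ofReal (l s / 2)) +
        (∫⁻ s in Ioo (-1 : ℝ) 1,
          ENNReal.ofReal (side m φ (-1) s) * ENNReal.ofReal (1 / (2 * l s))) ≤
        ENNReal.ofReal (∫ s in Ioo (-1 : ℝ) 1, (√(side m φ 1 s * side m φ (-1) s) +
          √δ * (2 + side m φ 1 s + side m φ (-1) s + 1))) := by
      rw [← lintegral_add_left ((measurable_side hpm _).ennreal_ofReal.fun_mul
          (hlm.div_const 2).ennreal_ofReal),
        ofReal_integral_eq_lintegral_ofReal hint2 (Eventually.of_forall fun s => by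
          have h1 := side_nonneg (m := m) (φ := φ) 1 s
          have h2 := side_nonneg (m := m) (φ := φ) (-1) s
          positivity)]
      refine setLIntegral_mono' measurableSet_Ioo fun s hs => ?_
      have h1 := side_nonneg (m := m) (φ := φ) 1 s
      have h2 := side_nonneg (m := m) (φ := φ) (-1) s
      have hq := hlpos s
      rw [← ENNReal.ofReal_mul h1, ← ENNReal.ofReal_mul h2,
        ← ENNReal.ofReal_add (by positivity) (by positivity)]
      refine ENNReal.ofReal_le_ofReal ?_
      have hls : l s = √((side m φ (-1) s + δ) / (side m φ 1 s + δ)) := by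
        simp [hl, hs.2.ne, hs.1.ne']
      set A := side m φ 1 s
      set D := side m φ (-1) s
      rw [hls]
      set a := √(A + δ) with ha
      set b := √(D + δ) with hb
      have ha0 : 0 < a := Real.sqrt_pos.2 (by linarith [hδ.1])
      have hb0 : 0 < b := Real.sqrt_pos.2 (by linarith [hδ.1])
      have ha2 : a ^ 2 = A + δ := Real.sq_sqrt (by linarith [hδ.1])
      have hb2 : b ^ 2 = D + δ := Real.sq_sqrt (by linarith [hδ.1])
      rw [Real.sqrt_div (by linarith [hδ.1]), ← ha, ← hb]
      have e1 : A * (b / a / 2) ≤ a * b / 2 := by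
        rw [show a * b / 2 = (A + δ) * (b / a / 2) by rw [← ha2]; field_simp]
        exact mul_le_mul_of_nonneg_right (by linarith [hδ.1]) (by positivity)
      have e2 : D * (1 / (2 * (b / a))) ≤ a * b / 2 := by
        rw [show a * b / 2 = (D + δ) * (1 / (2 * (b / a))) by rw [← hb2]; field_simp]
        exact mul_le_mul_of_nonneg_right (by linarith [hδ.1]) (by positivity)
      have e3 : a * b ≤ √(A * D) + √δ * (2 + A + D + 1) := by
        have hd2 : √δ ^ 2 = δ := Real.sq_sqrt hδ.1.le
        have hd0 := Real.sqrt_nonneg δ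
        have hd1 : √δ ≤ 1 := Real.sqrt_le_one.2 hδ.2.le
        have hr2 : √(A * D) ^ 2 = A * D := Real.sq_sqrt (mul_nonneg h1 h2)
        rw [ha, hb, ← Real.sqrt_mul (by linarith [hδ.1]), Real.sqrt_le_left (by positivity)]
        nlinarith [mul_nonneg (Real.sqrt_nonneg (A * D)) (mul_nonneg hd0
          (show 0 ≤ 2 + A + D + 1 by linarith)), mul_nonneg hδ.1.le (mul_nonneg h1 h2),
          mul_nonneg hδ.1.le h1, mul_nonneg hδ.1.le h2, mul_nonneg hδ.1.le (sq_nonneg A),
          mul_nonneg hδ.1.le (sq_nonneg D), mul_le_mul_of_nonneg_left hδ.2.le hδ.1.le]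
      linarith
    have hrest : 0 ≤ ∫ s in Ioo (-1 : ℝ) 1, (√(side m φ 1 s * side m φ (-1) s) +
        √δ * (2 + side m φ 1 s + side m φ (-1) s + 1)) :=
      integral_nonneg fun s => by
        have h1 := side_nonneg (m := m) (φ := φ) 1 s
        have h2 := side_nonneg (m := m) (φ := φ) (-1) s
        positivity
    have hLm : 0 ≤ L ^ m := pow_nonneg hL0 m
    have hi2 : (∫⁻ y in K, ENNReal.ofReal (((m + 1 : ℕ) : ℝ) * ballShape ⟪normalAt K y, v⟫)) ≤
        ENNReal.ofReal (c * ((∫ s in Ioo (-1 : ℝ) 1, (√(side m φ 1 s * side m φ (-1) s) +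
          √δ * (2 + side m φ 1 s + side m φ (-1) s + 1))) + 2 * δ * L ^ m)) := by
      refine hi.trans ?_
      rw [ENNReal.ofReal_mul hc0, ENNReal.ofReal_add hrest
        (mul_nonneg (mul_nonneg two_pos.le hδ.1.le) hLm)]
      refine mul_le_mul_right ?_ _
      rw [add_add_add_comm]
      refine add_le_add hmid (le_of_eq ?_)
      rw [hl1, hlm1, ← ENNReal.ofReal_mul (by positivity), ← ENNReal.ofReal_mul (by positivity),
        ← ENNReal.ofReal_add (mul_nonneg (by positivity) (by linarith [hδ.1]))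
          (mul_nonneg (by positivity) (by have := hδ.1; positivity))]
      congr 1
      field_simp
      ring
    have hpn : ∀ᵐ y ∂volume.restrict K, 0 ≤ ((m + 1 : ℕ) : ℝ) * ballShape ⟪normalAt K y, v⟫ :=
      Eventually.of_forall fun y => mul_nonneg (Nat.cast_nonneg _) (Real.sqrt_nonneg _)
    have hpi : IntegrableOn (fun y => ((m + 1 : ℕ) : ℝ) * ballShape ⟪normalAt K y, v⟫) K :=
      IntegrableOn.of_bound hK.body.2.1.measure_lt_top
        (((measurable_const.sub
          ((measurable_normalAt.inner measurable_const).pow_const 2)).sqrt).const_mul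
          _).aestronglyMeasurable (((m + 1 : ℕ) : ℝ) * 1)
        (Eventually.of_forall fun y => by
          rw [Real.norm_eq_abs, ballShape,
            abs_of_nonneg (mul_nonneg (Nat.cast_nonneg _) (Real.sqrt_nonneg _))]
          refine mul_le_mul_of_nonneg_left (Real.sqrt_le_one.2 ?_) (Nat.cast_nonneg _)
          nlinarith [sq_nonneg ⟪normalAt K y, v⟫])
    rw [← ofReal_integral_eq_lintegral_ofReal hpi hpn, integral_const_mul,
      ENNReal.ofReal_le_ofReal_iff (mul_nonneg hc0 (add_nonneg hrest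
        (mul_nonneg (mul_nonneg two_pos.le hδ.1.le) hLm)))] at hi2
    refine hi2.trans (le_of_eq ?_)
    have j3 : IntegrableOn (fun s => 2 + side m φ 1 s + side m φ (-1) s) (Ioo (-1) 1) :=
      ((integrableOn_const (C := (2 : ℝ)) (by simp)).add hside1).add hside2
    have j1 : IntegrableOn (fun _ : ℝ => (1 : ℝ)) (Ioo (-1) 1) :=
      integrableOn_const (C := (1 : ℝ)) (by simp)
    have j4 : IntegrableOn
        (fun s => √δ * (2 + side m φ 1 s + side m φ (-1) s + 1)) (Ioo (-1) 1) :=
      (j3.add j1).const_mul _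
    rw [integral_add hroot j4, integral_const_mul, integral_add j3 j1, ← hB, setIntegral_const]
    norm_num [measureReal_def]
  have hlim : Tendsto (fun δ : ℝ => c * ((∫ s in Ioo (-1 : ℝ) 1,
      √(side m φ 1 s * side m φ (-1) s)) + √δ * (B + 2) + 2 * δ * L ^ m)) (𝓝[>] 0)
      (𝓝 (c * ∫ s in Ioo (-1 : ℝ) 1, √(side m φ 1 s * side m φ (-1) s))) :=
    (Continuous.tendsto' (by fun_prop) _ _ (by simp)).mono_left nhdsWithin_le_nhds
  refine (ge_of_tendsto hlim ?_).trans (le_of_eq ?_)
  · filter_upwards [Ioo_mem_nhdsGT (zero_lt_one (α := ℝ))] with δ hδ using hX δ hδ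
  congr 1
  set R : ℝ → ℝ := fun s => m * φ s ^ (m - 1) *
    √((φ s - s * deriv φ s) ^ 2 - deriv φ s ^ 2) with hR
  have hev : ∀ s, R (-s) = R s := fun s => by
    simp only [hR, hφ.even, shape_deriv_neg hφ, neg_mul_neg, neg_sq]
  have hRi : IntervalIntegrable R volume (-1) 1 :=
    (intervalIntegrable_iff_integrableOn_Ioo_of_le (by norm_num)).2
      (hroot.congr (sqrt_side_ae hφ))
  rw [setIntegral_congr_ae measurableSet_Ioo ((ae_restrict_iff' measurableSet_Ioo).1
      (sqrt_side_ae hφ)), ← integral_Ioc_eq_integral_Ioo,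
    ← intervalIntegral.integral_of_le (by norm_num)]
  show (∫ s in (-1 : ℝ)..1, R s) = 2 * ∫ s in (0 : ℝ)..1, R s
  have h0 : (0 : ℝ) ∈ uIcc (-1 : ℝ) 1 := by rw [uIcc_of_le (by norm_num)]; norm_num
  rw [← intervalIntegral.integral_add_adjacent_intervals
    (hRi.mono_set (uIcc_subset_uIcc_left h0)) (hRi.mono_set (uIcc_subset_uIcc_right h0))]
  have hneg := intervalIntegral.integral_comp_neg R (a := -1) (b := 0)
  simp only [hev, neg_zero, neg_neg] at hneg
  rw [hneg]
  ring

end Vale.Agent.P237.Quant
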