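import Mathlib
import Vale.Agent.P237.Quant.Tangent

/-!
The tangent datum for an even convex function `G`: the mean of `G` of the products of a normal
with the boundary points, against that with the roles exchanged, is at least a functional of the
profile alone. The weights at the two ends cancel.
-/

namespace Vale.Agent.P237.Quant

open MeasureTheory Set Filter Topology Full
open scoped RealInnerProductSpace ENNReal

variable {m : ℕ} {K : Set (EuclideanSpace ℝ (Fin (m + 1)))}
  {w v : EuclideanSpace ℝ (Fin (m + 1))} {φ G : ℝ → ℝ}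

/-- An even convex function, continuous on the line and convex on `[-1, 1]`. -/
structure IsWeight (G : ℝ → ℝ) : Prop where
  cont : Continuous G
  convex : ConvexOn ℝ (Icc (-1) 1) G
  even : ∀ s, G (-s) = G s

/-- The functional of the tangent datum of `G` at its best field. -/
noncomputable def convexVal (m : ℕ) (G φ : ℝ → ℝ) : ℝ :=
  (∫ t in (0 : ℝ)..1, m * φ t ^ (m - 1) * (φ t - t * deriv φ t) *
    (G (-deriv φ t / (φ t - t * deriv φ t)) - G t)) / mass m φ 1

/-- The slack of the datum of `G`. -/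
noncomputable def convexSlack (G : ℝ → ℝ) (K : Set (EuclideanSpace ℝ (Fin (m + 1))))
    (w v : EuclideanSpace ℝ (Fin (m + 1))) : ℝ :=
  ((m + 1 : ℕ) : ℝ) * ((∫ y in K, G ⟪normalAt K y, v⟫) - ∫ y in K, G ⟪w, bdPoint K y⟫)

/-- The right slope of `G`. -/
noncomputable def slopeAt (G : ℝ → ℝ) (z : ℝ) : ℝ := derivWithin G (Ioi z) z

theorem slopeAt_support (hG : IsWeight G) {z : ℝ} (hz : z ∈ Ioo (-1 : ℝ) 1) {a : ℝ}
    (ha : a ∈ Icc (-1 : ℝ) 1) : G z + slopeAt G z * (a - z) ≤ G a := by
  have hi : z ∈ interior (Icc (-1 : ℝ) 1) := by rwa [interior_Icc]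
  rcases lt_trichotomy a z with h | rfl | h
  · have h1 := (hG.convex.slope_le_leftDeriv ha (Ioo_subset_Icc_self hz) h
      (hG.convex.differentiableWithinAt_Iio_of_mem_interior hi)).trans
      (hG.convex.leftDeriv_le_rightDeriv_of_mem_interior hi)
    rw [slope_def_field, div_le_iff₀ (sub_pos.2 h)] at h1
    unfold slopeAt
    linarith
  · simp
  · have h1 := hG.convex.rightDeriv_le_slope_of_mem_interior hi ha h
    rw [slope_def_field, le_div_iff₀ (sub_pos.2 h)] at h1
    unfold slopeAt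
    linarith

theorem slopeAt_sign (hG : IsWeight G) {z : ℝ} (hz : z ∈ Ioo (-1 : ℝ) 1) :
    0 ≤ z * slopeAt G z := by
  have h := slopeAt_support hG hz (a := -z) ⟨by linarith [hz.2], by linarith [hz.1]⟩
  rw [hG.even] at h
  nlinarith

theorem slopeAt_bound (hG : IsWeight G) {r : ℝ} (hr : r ∈ Ioo (0 : ℝ) 1) :
    ∃ B, ∀ z ∈ Icc (-r) r, |slopeAt G z| ≤ B := by
  refine ⟨(|G 1| + |G (-1)| + 2 * (|G 0|)) / (1 - r), fun z hz => ?_⟩
  have hzI : z ∈ Ioo (-1 : ℝ) 1 := ⟨by linarith [hz.1, hr.2], by linarith [hz.2, hr.2]⟩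
  have h1 := slopeAt_support hG hzI (a := 1) (right_mem_Icc.2 (by norm_num))
  have h2 := slopeAt_support hG hzI (a := -1) (left_mem_Icc.2 (by norm_num))
  have h3 : G 0 ≤ G z := by
    have h := hG.convex.2 (Ioo_subset_Icc_self hzI)
      (show -z ∈ Icc (-1 : ℝ) 1 from ⟨by linarith [hzI.2], by linarith [hzI.1]⟩)
      (show (0 : ℝ) ≤ 1 / 2 by norm_num) (show (0 : ℝ) ≤ 1 / 2 by norm_num) (by norm_num)
    simp only [smul_eq_mul, hG.even] at h
    rw [show 1 / 2 * z + 1 / 2 * -z = (0 : ℝ) by ring] at h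
    linarith
  set s := slopeAt G z
  set B := |G 1| + |G (-1)| + 2 * |G 0|
  have hB : 0 ≤ B := by positivity
  rw [le_div_iff₀ (by linarith [hr.2])]
  rcases le_total 0 s with hs | hs
  · rw [abs_of_nonneg hs]
    have := mul_le_mul_of_nonneg_left (show 1 - r ≤ 1 - z by linarith [hz.2]) hs
    linarith [le_abs_self (G 1), neg_le_abs (G 0), abs_nonneg (G (-1)), abs_nonneg (G 0)]
  · rw [abs_of_nonpos hs]
    have := mul_le_mul_of_nonneg_left (show 1 - r ≤ 1 + z by linarith [hz.1]) (neg_nonneg.2 hs)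
    linarith [le_abs_self (G (-1)), neg_le_abs (G 0), abs_nonneg (G 1), abs_nonneg (G 0)]

/-- The boundary law against a bounded measurable function. -/
theorem side_integral (hm : 1 ≤ m) (hK : IsSymBody K) (h : IsTop K w v) {L : ℝ} (hL0 : 0 ≤ L)
    (hL : Tendsto (profile K w) (𝓝[<] 1) (𝓝 L)) {e : ℝ} (he : e = 1 ∨ e = -1)
    {f : ℝ → ℝ} (hf : Measurable f) {B : ℝ} (hB : ∀ s, |f s| ≤ B) :
    ((m + 1 : ℕ) : ℝ) * (∫ y in K, (1 + e * ⟪normalAt K y, v⟫) * f ⟪w, bdPoint K y⟫) =
      kappa m / ‖w‖ * ((∫ s in Ioo (-1 : ℝ) 1, side m (profile K w) e s * f s) +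
        2 * L ^ m * f e) := by
  have hφ := isShape_profile hm hK h
  have hpm := (map_inner_eq hm hK h).1
  set φ := profile K w with hφdef
  set c := kappa m / ‖w‖ with hc
  have hc0 : 0 ≤ c := div_nonneg (kappa_pos m).le (norm_nonneg w)
  set n : ℝ := ((m + 1 : ℕ) : ℝ) with hn
  have hn0 : (0 : ℝ) ≤ n := Nat.cast_nonneg _
  have hσ : Measurable fun y => ⟪w, bdPoint K y⟫ := measurable_const.inner (measurable_bdPoint hK)
  have hwv : Measurable fun y => ⟪normalAt K y, v⟫ := measurable_normalAt.inner measurable_const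
  obtain ⟨C, hC⟩ := exists_bound_normalAt hK.body.1 hK.zero_nhds
  have hLm : 0 ≤ 2 * L ^ m := by positivity
  have pos : ∀ {u : ℝ → ℝ}, Measurable u → ∀ {D : ℝ}, (∀ s, 0 ≤ u s ∧ u s ≤ D) →
      IntegrableOn (fun y => n * (1 + e * ⟪normalAt K y, v⟫) * u ⟪w, bdPoint K y⟫) K ∧
      IntegrableOn (fun s => side m φ e s * u s) (Ioo (-1) 1) ∧
      ∫ y in K, n * (1 + e * ⟪normalAt K y, v⟫) * u ⟪w, bdPoint K y⟫ =
        c * ((∫ s in Ioo (-1 : ℝ) 1, side m φ e s * u s) + 2 * L ^ m * u e) := by
    intro u hu D hD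
    have i1 : IntegrableOn (fun y => n * (1 + e * ⟪normalAt K y, v⟫) * u ⟪w, bdPoint K y⟫) K := by
      refine IntegrableOn.of_bound hK.body.2.1.measure_lt_top
        ((((hwv.const_mul e).const_add 1).const_mul n).mul (hu.comp hσ)).aestronglyMeasurable
        (n * (1 + C * ‖v‖) * D) (Eventually.of_forall fun y => ?_)
      have h1 := (abs_real_inner_le_norm (normalAt K y) v).trans
        (mul_le_mul_of_nonneg_right (hC y) (norm_nonneg v))
      have h2 : |1 + e * ⟪normalAt K y, v⟫| ≤ 1 + C * ‖v‖ := by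
        refine (abs_add_le _ _).trans ?_
        rw [abs_one, add_le_add_iff_left]
        rcases he with rfl | rfl <;> simpa using h1
      rw [Real.norm_eq_abs, abs_mul, abs_mul, abs_of_nonneg hn0, abs_of_nonneg (hD _).1]
      exact mul_le_mul (mul_le_mul_of_nonneg_left h2 hn0) (hD _).2 (hD _).1
        (mul_nonneg hn0 ((abs_nonneg _).trans h2))
    have i2 : IntegrableOn (fun s => side m φ e s * u s) (Ioo (-1) 1) :=
      (integrableOn_side hφ hm he).mul_bdd (c := D) hu.aestronglyMeasurable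
        (Eventually.of_forall fun s => by rw [Real.norm_eq_abs, abs_of_nonneg (hD s).1]; exact (hD s).2)
    refine ⟨i1, i2, ?_⟩
    have hd0 : ∀ᵐ y ∂volume.restrict K, 0 ≤ n * (1 + e * ⟪normalAt K y, v⟫) := by
      refine ae_restrict_of_ae ?_
      filter_upwards [isTop_ae hK] with y hy
      have h1 := _root_.abs_le.1 (hy.2.abs_le hK h.mem)
      refine mul_nonneg hn0 ?_
      rcases he with rfl | rfl <;> linarith [h1.1, h1.2]
    have hl := side_law hm hK h hL0 hL he (f := fun s => ENNReal.ofReal (u s)) hu.ennreal_ofReal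
    have e1 : ∫⁻ y in K, ENNReal.ofReal (n * (1 + e * ⟪normalAt K y, v⟫)) *
        ENNReal.ofReal (u ⟪w, bdPoint K y⟫) =
        ENNReal.ofReal (∫ y in K, n * (1 + e * ⟪normalAt K y, v⟫) * u ⟪w, bdPoint K y⟫) := by
      rw [ofReal_integral_eq_lintegral_ofReal i1 (hd0.mono fun y hy => mul_nonneg hy (hD _).1)]
      exact lintegral_congr_ae (hd0.mono fun y hy => (ENNReal.ofReal_mul hy).symm)
    have e2 : ∫⁻ s in Ioo (-1 : ℝ) 1, ENNReal.ofReal (side m φ e s) * ENNReal.ofReal (u s) =
        ENNReal.ofReal (∫ s in Ioo (-1 : ℝ) 1, side m φ e s * u s) := by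
      rw [ofReal_integral_eq_lintegral_ofReal i2
        (Eventually.of_forall fun s => mul_nonneg (side_nonneg _ _) (hD s).1)]
      exact lintegral_congr fun s => (ENNReal.ofReal_mul (side_nonneg _ _)).symm
    have hs0 : 0 ≤ ∫ s in Ioo (-1 : ℝ) 1, side m φ e s * u s :=
      integral_nonneg fun s => mul_nonneg (side_nonneg _ _) (hD s).1
    rw [← hn, e1, e2, ← ENNReal.ofReal_mul hLm,
      ← ENNReal.ofReal_add hs0 (mul_nonneg hLm (hD e).1), ← ENNReal.ofReal_mul hc0,
      ENNReal.ofReal_eq_ofReal_iff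
        (integral_nonneg_of_ae (hd0.mono fun y hy => mul_nonneg hy (hD _).1))
        (mul_nonneg hc0 (add_nonneg hs0 (mul_nonneg hLm (hD e).1)))] at hl
    exact hl
  obtain ⟨a1, a2, a3⟩ := pos (u := fun s => f s + B) (hf.add_const B) (D := 2 * B) fun s =>
    ⟨by linarith [(abs_le.1 (hB s)).1], by linarith [(abs_le.1 (hB s)).2]⟩
  obtain ⟨b1, b2, b3⟩ := pos (u := fun _ => B) measurable_const (D := B) fun s =>
    ⟨(abs_nonneg _).trans (hB 0), le_rfl⟩
  have e1 : ∫ y in K, n * (1 + e * ⟪normalAt K y, v⟫) * f ⟪w, bdPoint K y⟫ =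
      (∫ y in K, n * (1 + e * ⟪normalAt K y, v⟫) * (f ⟪w, bdPoint K y⟫ + B)) -
        ∫ y in K, n * (1 + e * ⟪normalAt K y, v⟫) * B := by
    rw [← integral_sub a1 b1]
    exact integral_congr_ae (Eventually.of_forall fun y => by ring)
  have e2 : (∫ s in Ioo (-1 : ℝ) 1, side m φ e s * f s) =
      (∫ s in Ioo (-1 : ℝ) 1, side m φ e s * (f s + B)) -
        ∫ s in Ioo (-1 : ℝ) 1, side m φ e s * B := by
    rw [← integral_sub a2 b2]
    exact integral_congr_ae (Eventually.of_forall fun s => by ring)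
  rw [← integral_const_mul, e2]
  simp only [← mul_assoc]
  rw [e1, a3, b3]
  ring

theorem integrableOn_side_mul (hm : 1 ≤ m) (hφ : IsShape φ) {e : ℝ} (he : e = 1 ∨ e = -1)
    {f : ℝ → ℝ} (hf : Measurable f) {B : ℝ} (hB : ∀ s, |f s| ≤ B) :
    IntegrableOn (fun s => side m φ e s * f s) (Ioo (-1) 1) :=
  (integrableOn_side hφ hm he).mul_bdd (c := B) hf.aestronglyMeasurable
    (Eventually.of_forall fun s => by rw [Real.norm_eq_abs]; exact hB s)

theorem neg_deriv_div_bound (hφ : IsShape φ) {s : ℝ} (hs : s ∈ Ioo (-1 : ℝ) 1)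
    (hd : DifferentiableAt ℝ φ s) :
    0 < φ s - s * deriv φ s ∧ |-deriv φ s / (φ s - s * deriv φ s)| ≤ 1 := by
  obtain ⟨h1, h2⟩ := shape_tangent_ends hφ hs hd
  have h0 := shape_pos hφ hs
  have hpos : 0 < φ s - s * deriv φ s := by
    by_cases hd0 : deriv φ s = 0
    · simp [hd0, h0]
    · rcases lt_or_gt_of_ne hd0 with hlt | hgt <;> linarith
  refine ⟨hpos, ?_⟩
  rw [abs_div, abs_of_pos hpos, div_le_one hpos, abs_neg, _root_.abs_le]
  constructor <;> linarith

/-- The slack is at least the volume times the functional of the profile. -/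
theorem convexSlack_ge (hG : IsWeight G) (hm : 1 ≤ m) (hK : IsSymBody K) (h : IsTop K w v) :
    (volume K).toReal * convexVal m G (profile K w) ≤ convexSlack G K w v := by
  have hφ := isShape_profile hm hK h
  have hpm := (map_inner_eq hm hK h).1
  obtain ⟨L, hL0, hL⟩ := shape_exists_limit hφ
  have hM : 0 < mass m (profile K w) 1 :=
    intervalIntegral.intervalIntegral_pos_of_pos_on
      ((intervalIntegrable_shape_pow hφ m).mono_set (by
        rw [uIcc_of_le zero_le_one, uIcc_of_le (by norm_num : (-1 : ℝ) ≤ 1)]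
        exact Icc_subset_Icc (by norm_num) le_rfl))
      (fun s hs' => pow_pos (shape_pos hφ ⟨by linarith [hs'.1], hs'.2⟩) m) zero_lt_one
  set φ := profile K w with hφdef
  set c := kappa m / ‖w‖ with hc
  have hc0 : 0 ≤ c := div_nonneg (kappa_pos m).le (norm_nonneg w)
  set n : ℝ := ((m + 1 : ℕ) : ℝ) with hn
  set Gc : ℝ → ℝ := fun s => G (max (-1) (min 1 s)) with hGc
  have hGcc : Continuous Gc := hG.cont.comp (by fun_prop)
  obtain ⟨B, hB⟩ := (isCompact_Icc (a := (-1 : ℝ)) (b := 1)).exists_bound_of_continuousOn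
    hG.cont.continuousOn
  have hclip : ∀ s : ℝ, max (-1) (min 1 s) ∈ Icc (-1 : ℝ) 1 := fun s =>
    ⟨le_max_left _ _, max_le (by norm_num) (min_le_left _ _)⟩
  have hGB : ∀ s, |Gc s| ≤ B := fun s => hB _ (hclip s)
  have hGceq : ∀ {s : ℝ}, s ∈ Icc (-1 : ℝ) 1 → Gc s = G s := fun {s} hs => by
    simp only [hGc, min_eq_right hs.2, max_eq_right hs.1]
  have hside : ∀ e, Measurable (side m φ e) := fun e => measurable_side hpm e
  set Z : ℝ → ℝ := fun s =>
    (side m φ 1 s - side m φ (-1) s) / (side m φ 1 s + side m φ (-1) s) with hZ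
  have hZb : ∀ s, |Z s| ≤ 1 := fun s => by
    have h1 := side_nonneg (m := m) (φ := φ) 1 s
    have h2 := side_nonneg (m := m) (φ := φ) (-1) s
    simp only [hZ, abs_div, abs_of_nonneg (add_nonneg h1 h2)]
    refine div_le_one_of_le₀ (abs_le.2 ⟨by linarith, by linarith⟩) (add_nonneg h1 h2)
  have hσ : Measurable fun y => ⟪w, bdPoint K y⟫ := measurable_const.inner (measurable_bdPoint hK)
  have hwv : Measurable fun y => ⟪normalAt K y, v⟫ := measurable_normalAt.inner measurable_const
  have hσI : ∀ y, ⟪w, bdPoint K y⟫ ∈ Icc (-1 : ℝ) 1 := fun y =>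
    _root_.abs_le.1 (h.abs_le hK (bdPoint_mem hK y))
  have hfin : volume K < ⊤ := hK.body.2.1.measure_lt_top
  have hd1 : (1 : ℝ) ∈ Icc (-1 : ℝ) 1 := right_mem_Icc.2 (by norm_num)
  have first : 2 * n * (∫ y in K, G ⟪w, bdPoint K y⟫) =
      c * ((∫ s in Ioo (-1 : ℝ) 1, (side m φ 1 s + side m φ (-1) s) * Gc s) + 4 * L ^ m * G 1) := by
    have p := side_integral hm hK h hL0 hL (Or.inl rfl) hGcc.measurable hGB
    have q := side_integral hm hK h hL0 hL (Or.inr rfl) hGcc.measurable hGB
    obtain ⟨C, hC⟩ := exists_bound_normalAt hK.body.1 hK.zero_nhds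
    have hi : ∀ e : ℝ, IntegrableOn
        (fun y => (1 + e * ⟪normalAt K y, v⟫) * Gc ⟪w, bdPoint K y⟫) K := fun e => by
      refine IntegrableOn.of_bound hfin (((hwv.const_mul e).const_add 1).mul
        (hGcc.measurable.comp hσ)).aestronglyMeasurable ((1 + |e| * (C * ‖v‖)) * B)
        (Eventually.of_forall fun y => ?_)
      have h1 := (abs_real_inner_le_norm (normalAt K y) v).trans
        (mul_le_mul_of_nonneg_right (hC y) (norm_nonneg v))
      rw [Real.norm_eq_abs, abs_mul]
      refine mul_le_mul ((abs_add_le _ _).trans ?_) (hGB _) (abs_nonneg _) ?_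
      · rw [abs_one, abs_mul]
        linarith [mul_le_mul_of_nonneg_left h1 (abs_nonneg e)]
      · linarith [mul_nonneg (abs_nonneg e) ((abs_nonneg _).trans h1)]
    have e1 : (∫ y in K, (1 + 1 * ⟪normalAt K y, v⟫) * Gc ⟪w, bdPoint K y⟫) +
        (∫ y in K, (1 + -1 * ⟪normalAt K y, v⟫) * Gc ⟪w, bdPoint K y⟫) =
        2 * ∫ y in K, G ⟪w, bdPoint K y⟫ := by
      rw [← integral_add (hi 1) (hi (-1)), ← integral_const_mul]
      refine integral_congr_ae (Eventually.of_forall fun y => ?_)
      dsimp only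
      rw [hGceq (hσI y)]
      ring
    have e2 : (∫ s in Ioo (-1 : ℝ) 1, (side m φ 1 s + side m φ (-1) s) * Gc s) =
        (∫ s in Ioo (-1 : ℝ) 1, side m φ 1 s * Gc s) +
          ∫ s in Ioo (-1 : ℝ) 1, side m φ (-1) s * Gc s := by
      rw [← integral_add (integrableOn_side_mul hm hφ (Or.inl rfl) hGcc.measurable hGB)
        (integrableOn_side_mul hm hφ (Or.inr rfl) hGcc.measurable hGB)]
      exact integral_congr_ae (Eventually.of_forall fun s => by ring)
    rw [hGceq hd1] at p
    rw [hGceq (left_mem_Icc.2 (by norm_num)), hG.even] at q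
    rw [mul_comm 2 n, mul_assoc, ← e1, mul_add, p, q, e2]
    ring
  have second : ∀ δ ∈ Ioo (0 : ℝ) 1,
      c * ((∫ s in Ioo (-1 : ℝ) 1, (side m φ 1 s + side m φ (-1) s) *
          Gc (max (-(1 - δ)) (min (1 - δ) (Z s)))) + 4 * L ^ m * G (1 - δ)) ≤
      2 * n * ∫ y in K, G ⟪normalAt K y, v⟫ := by
    intro δ hδ
    set r := 1 - δ with hr
    have hr0 : r ∈ Ioo (0 : ℝ) 1 := ⟨by linarith [hδ.2], by linarith [hδ.1]⟩
    set zd : ℝ → ℝ := fun s => if s = 1 then r else if s = -1 then -r else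
      max (-r) (min r (Z s)) with hzd
    have hzdm : Measurable zd := Measurable.ite (measurableSet_singleton _) measurable_const
      (Measurable.ite (measurableSet_singleton _) measurable_const
        (measurable_const.max (measurable_const.min
          (((hside 1).sub (hside (-1))).div ((hside 1).add (hside (-1)))))))
    have hzdI : ∀ s, zd s ∈ Icc (-r) r := fun s => by
      simp only [hzd]
      split_ifs
      · exact ⟨by linarith [hr0.1], le_rfl⟩
      · exact ⟨le_rfl, by linarith [hr0.1]⟩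
      · exact ⟨le_max_left _ _, max_le (by linarith [hr0.1]) (min_le_left _ _)⟩
    have hzdO : ∀ s, zd s ∈ Ioo (-1 : ℝ) 1 := fun s =>
      ⟨by linarith [(hzdI s).1, hr0.2], by linarith [(hzdI s).2, hr0.2]⟩
    obtain ⟨D, hD⟩ := slopeAt_bound hG hr0
    have hD0 : 0 ≤ D := (abs_nonneg _).trans (hD 0 ⟨by linarith [hr0.1], hr0.1.le⟩)
    set f1 : ℝ → ℝ := fun s => G (zd s) - slopeAt G (zd s) * zd s with hf1
    set f2 : ℝ → ℝ := fun s => slopeAt G (zd s) with hf2
    have hsm : Measurable (slopeAt G) := measurable_derivWithin_Ioi G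
    have hf2m : Measurable f2 := hsm.comp hzdm
    have hf1m : Measurable f1 := (hG.cont.measurable.comp hzdm).sub (hf2m.mul hzdm)
    have hf2B : ∀ s, |f2 s| ≤ D := fun s => hD _ (hzdI s)
    have hf1B : ∀ s, |f1 s| ≤ B + D := fun s => by
      refine (abs_sub _ _).trans (add_le_add (hB _ (Ioo_subset_Icc_self (hzdO s))) ?_)
      rw [abs_mul]
      exact (mul_le_of_le_one_right (abs_nonneg _)
        (_root_.abs_le.2 ⟨by linarith [(hzdO s).1], by linarith [(hzdO s).2]⟩)).trans (hf2B s)
    have p1 := side_integral hm hK h hL0 hL (Or.inl rfl) hf1m hf1B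
    have p2 := side_integral hm hK h hL0 hL (Or.inr rfl) hf1m hf1B
    have q1 := side_integral hm hK h hL0 hL (Or.inl rfl) hf2m hf2B
    have q2 := side_integral hm hK h hL0 hL (Or.inr rfl) hf2m hf2B
    obtain ⟨C, hC⟩ := exists_bound_normalAt hK.body.1 hK.zero_nhds
    have hav : ∀ y, |⟪normalAt K y, v⟫| ≤ C * ‖v‖ := fun y =>
      (abs_real_inner_le_norm (normalAt K y) v).trans
        (mul_le_mul_of_nonneg_right (hC y) (norm_nonneg v))
    have i1 : IntegrableOn (fun y => f1 ⟪w, bdPoint K y⟫) K :=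
      IntegrableOn.of_bound hfin (hf1m.comp hσ).aestronglyMeasurable (B + D)
        (Eventually.of_forall fun y => hf1B _)
    have i2 : IntegrableOn (fun y => ⟪normalAt K y, v⟫ * f2 ⟪w, bdPoint K y⟫) K :=
      IntegrableOn.of_bound hfin (hwv.mul (hf2m.comp hσ)).aestronglyMeasurable (C * ‖v‖ * D)
        (Eventually.of_forall fun y => by
          rw [Real.norm_eq_abs, abs_mul]
          exact mul_le_mul (hav y) (hf2B _) (abs_nonneg _) ((abs_nonneg _).trans (hav y)))
    have i3 : IntegrableOn (fun y => ⟪normalAt K y, v⟫ * f1 ⟪w, bdPoint K y⟫) K :=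
      IntegrableOn.of_bound hfin (hwv.mul (hf1m.comp hσ)).aestronglyMeasurable (C * ‖v‖ * (B + D))
        (Eventually.of_forall fun y => by
          rw [Real.norm_eq_abs, abs_mul]
          exact mul_le_mul (hav y) (hf1B _) (abs_nonneg _) ((abs_nonneg _).trans (hav y)))
    have i4 : IntegrableOn (fun y => f2 ⟪w, bdPoint K y⟫) K :=
      IntegrableOn.of_bound hfin (hf2m.comp hσ).aestronglyMeasurable D
        (Eventually.of_forall fun y => hf2B _)
    have expand : ∀ (f : ℝ → ℝ), IntegrableOn (fun y => f ⟪w, bdPoint K y⟫) K →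
        IntegrableOn (fun y => ⟪normalAt K y, v⟫ * f ⟪w, bdPoint K y⟫) K → ∀ e : ℝ,
        (∫ y in K, (1 + e * ⟪normalAt K y, v⟫) * f ⟪w, bdPoint K y⟫) =
          (∫ y in K, f ⟪w, bdPoint K y⟫) + e * ∫ y in K, ⟪normalAt K y, v⟫ * f ⟪w, bdPoint K y⟫ := by
      intro f j1 j2 e
      rw [← integral_const_mul, ← integral_add j1 (j2.const_mul e)]
      exact integral_congr_ae (Eventually.of_forall fun y => by ring)
    rw [expand f1 i1 i3] at p1 p2
    rw [expand f2 i4 i2] at q1 q2
    have hlow : (∫ y in K, f1 ⟪w, bdPoint K y⟫) +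
        (∫ y in K, ⟪normalAt K y, v⟫ * f2 ⟪w, bdPoint K y⟫) ≤
        ∫ y in K, G ⟪normalAt K y, v⟫ := by
      rw [← integral_add i1 i2]
      refine integral_mono_ae (i1.add i2) ?_ ?_
      · refine IntegrableOn.of_bound hfin (hG.cont.measurable.comp hwv).aestronglyMeasurable B ?_
        refine ae_restrict_of_ae ?_
        filter_upwards [isTop_ae hK] with y hy
        exact hB _ (_root_.abs_le.1 (hy.2.abs_le hK h.mem))
      · refine ae_restrict_of_ae ?_
        filter_upwards [isTop_ae hK] with y hy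
        have := slopeAt_support hG (hzdO ⟪w, bdPoint K y⟫)
          (_root_.abs_le.1 (hy.2.abs_le hK h.mem))
        simp only [hf1, hf2]
        linarith
    have hI1 := integrableOn_side_mul hm hφ (Or.inl rfl) hf1m hf1B
    have hI2 := integrableOn_side_mul hm hφ (Or.inr rfl) hf1m hf1B
    have hJ1 := integrableOn_side_mul hm hφ (Or.inl rfl) hf2m hf2B
    have hJ2 := integrableOn_side_mul hm hφ (Or.inr rfl) hf2m hf2B
    have hint : (∫ s in Ioo (-1 : ℝ) 1,
          (side m φ 1 s + side m φ (-1) s) * Gc (max (-r) (min r (Z s)))) ≤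
        (∫ s in Ioo (-1 : ℝ) 1, side m φ 1 s * f1 s) + (∫ s in Ioo (-1 : ℝ) 1, side m φ (-1) s * f1 s) +
          ((∫ s in Ioo (-1 : ℝ) 1, side m φ 1 s * f2 s) -
            ∫ s in Ioo (-1 : ℝ) 1, side m φ (-1) s * f2 s) := by
      have k1 : IntegrableOn (fun s => side m φ 1 s * f1 s + side m φ (-1) s * f1 s) (Ioo (-1) 1) :=
        hI1.add hI2
      have k2 : IntegrableOn (fun s => side m φ 1 s * f2 s - side m φ (-1) s * f2 s) (Ioo (-1) 1) :=
        hJ1.sub hJ2
      rw [← integral_add hI1 hI2, ← integral_sub hJ1 hJ2, ← integral_add k1 k2]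
      refine setIntegral_mono_on ?_ (k1.add k2) measurableSet_Ioo fun s hs => ?_
      · exact ((integrableOn_side hφ hm (Or.inl rfl)).add
          (integrableOn_side hφ hm (Or.inr rfl))).mul_bdd (c := B)
          (hGcc.measurable.comp (measurable_const.max (measurable_const.min
            (((hside 1).sub (hside (-1))).div ((hside 1).add (hside (-1))))))).aestronglyMeasurable
          (Eventually.of_forall fun s => hGB _)
      have h1 := side_nonneg (m := m) (φ := φ) 1 s
      have h2 := side_nonneg (m := m) (φ := φ) (-1) s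
      have hz : zd s = max (-r) (min r (Z s)) := by simp [hzd, hs.1.ne', hs.2.ne]
      rw [← hz, hGceq (Ioo_subset_Icc_self (hzdO s))]
      simp only [hf1, hf2]
      have hsl : 0 ≤ slopeAt G (zd s) * (Z s - zd s) := by
        have hsg := slopeAt_sign hG (hzdO s)
        rcases le_or_gt (Z s) (-r) with hlo | hlo
        · have hz' : zd s = -r := by
            rw [hz, min_eq_right (hlo.trans (by linarith [hr0.1])), max_eq_left hlo]
          rw [hz'] at hsg ⊢
          exact mul_nonneg_of_nonpos_of_nonpos (nonpos_of_mul_nonneg_right hsg (by linarith [hr0.1]))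
            (by linarith)
        rcases le_or_gt r (Z s) with hhi | hhi
        · have hz' : zd s = r := by rw [hz, min_eq_left hhi, max_eq_right (by linarith [hr0.1])]
          rw [hz'] at hsg ⊢
          exact mul_nonneg ((mul_nonneg_iff_of_pos_left hr0.1).1 hsg) (by linarith)
        · simp [hz, min_eq_right hhi.le, max_eq_right hlo.le]
      have hZS : (side m φ 1 s + side m φ (-1) s) * Z s = side m φ 1 s - side m φ (-1) s := by
        rcases (add_nonneg h1 h2).eq_or_lt with h0 | h0
        · rw [← h0]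
          linarith
        · simp only [hZ]
          field_simp
      have hZS' := congrArg (fun x => slopeAt G (zd s) * x) hZS
      linarith [mul_nonneg (add_nonneg h1 h2) hsl]
    have hends : 4 * G r ≤ 2 * f1 1 + 2 * f1 (-1) + (2 * f2 1 - 2 * f2 (-1)) := by
      have e1 : zd 1 = r := by simp [hzd]
      have e2 : zd (-1) = -r := by simp [hzd]; norm_num
      simp only [hf1, hf2, e1, e2, hG.even]
      have s1 := slopeAt_sign hG (z := r) ⟨by linarith [hr0.1], hr0.2⟩
      have s2 := slopeAt_sign hG (z := -r) ⟨by linarith [hr0.2], by linarith [hr0.1]⟩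
      have t1 : 0 ≤ slopeAt G r := (mul_nonneg_iff_of_pos_left hr0.1).1 s1
      have t2 : slopeAt G (-r) ≤ 0 := by nlinarith [hr0.1]
      nlinarith [hr0.2]
    have hbig := mul_le_mul_of_nonneg_left
      (add_le_add hint (mul_le_mul_of_nonneg_left hends (pow_nonneg hL0 m))) hc0
    have hn0 : (0 : ℝ) ≤ n := Nat.cast_nonneg _
    have hlow2 := mul_le_mul_of_nonneg_left hlow (mul_nonneg two_pos.le hn0)
    linarith
  have hsum : IntegrableOn (fun s => side m φ 1 s + side m φ (-1) s) (Ioo (-1) 1) :=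
    (integrableOn_side hφ hm (Or.inl rfl)).add (integrableOn_side hφ hm (Or.inr rfl))
  have hlim : Tendsto (fun δ : ℝ => c * ((∫ s in Ioo (-1 : ℝ) 1, (side m φ 1 s + side m φ (-1) s) *
      Gc (max (-(1 - δ)) (min (1 - δ) (Z s)))) + 4 * L ^ m * G (1 - δ))) (𝓝[>] 0)
      (𝓝 (c * ((∫ s in Ioo (-1 : ℝ) 1, (side m φ 1 s + side m φ (-1) s) * Gc (Z s)) +
        4 * L ^ m * G 1))) := by
    refine ((Tendsto.add ?_ ((((hG.cont.comp (continuous_const.sub continuous_id)).tendsto' 0 _
      (by simp)).mono_left nhdsWithin_le_nhds).const_mul _))).const_mul c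
    refine tendsto_integral_filter_of_dominated_convergence
      (fun s => (side m φ 1 s + side m φ (-1) s) * B) (Eventually.of_forall fun δ => ?_)
      (Eventually.of_forall fun δ => Eventually.of_forall fun s => ?_) (hsum.mul_const B) ?_
    · exact (((hside 1).add (hside (-1))).mul (hGcc.measurable.comp (measurable_const.max
        (measurable_const.min
          (((hside 1).sub (hside (-1))).div ((hside 1).add (hside (-1)))))))).aestronglyMeasurable
    · rw [norm_mul, Real.norm_of_nonneg (add_nonneg (side_nonneg _ _) (side_nonneg _ _))]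
      exact mul_le_mul_of_nonneg_left (hGB _) (add_nonneg (side_nonneg _ _) (side_nonneg _ _))
    · refine Eventually.of_forall fun s => ((hGcc.tendsto _).comp ?_).const_mul _
      refine ((by fun_prop : Continuous fun δ : ℝ => max (-(1 - δ)) (min (1 - δ) (Z s))).tendsto'
        0 _ ?_).mono_left nhdsWithin_le_nhds
      have := abs_le.1 (hZb s)
      simp [min_eq_right this.2, max_eq_right this.1]
  have hsec := le_of_tendsto hlim
    ((Ioo_mem_nhdsGT (zero_lt_one (α := ℝ))) |> fun hmem =>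
      (eventually_of_mem hmem fun δ hδ => second δ hδ))
  set R : ℝ → ℝ := fun s => m * φ s ^ (m - 1) * (φ s - s * deriv φ s) *
    (G (-deriv φ s / (φ s - s * deriv φ s)) - G s) with hR
  have hdiff : ∀ᵐ s ∂volume.restrict (Ioo (-1 : ℝ) 1),
      (side m φ 1 s + side m φ (-1) s) * Gc (Z s) - (side m φ 1 s + side m φ (-1) s) * Gc s =
        2 * R s := by
    filter_upwards [side_ae (m := m) hφ (Or.inl rfl), side_ae (m := m) hφ (Or.inr rfl),
      ae_restrict_of_ae (shape_ae_differentiable hφ), ae_restrict_mem measurableSet_Ioo]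
      with s h1 h2 hd hs
    obtain ⟨hpos, hbd⟩ := neg_deriv_div_bound hφ hs (hd hs)
    have hA : 0 < (m : ℝ) * φ s ^ (m - 1) :=
      mul_pos (Nat.cast_pos.2 (by omega)) (pow_pos (shape_pos hφ hs) _)
    have eS : side m φ 1 s + side m φ (-1) s =
        2 * (m * φ s ^ (m - 1) * (φ s - s * deriv φ s)) := by rw [h1, h2]; ring
    have eZ : Z s = -deriv φ s / (φ s - s * deriv φ s) := by
      simp only [hZ]
      rw [eS, show side m φ 1 s - side m φ (-1) s =
        2 * (m * φ s ^ (m - 1)) * -deriv φ s by rw [h1, h2]; ring,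
        ← mul_assoc 2 ((m : ℝ) * φ s ^ (m - 1)) (φ s - s * deriv φ s),
        mul_div_mul_left _ _ (mul_pos two_pos hA).ne']
    rw [eS, eZ, hGceq (abs_le.1 hbd), hGceq (Ioo_subset_Icc_self hs), hR]
    ring
  have iZ : IntegrableOn (fun s => (side m φ 1 s + side m φ (-1) s) * Gc (Z s)) (Ioo (-1) 1) :=
    hsum.mul_bdd (c := B) (hGcc.measurable.comp
      (((hside 1).sub (hside (-1))).div ((hside 1).add (hside (-1))))).aestronglyMeasurable
      (Eventually.of_forall fun s => hGB _)
  have iS : IntegrableOn (fun s => (side m φ 1 s + side m φ (-1) s) * Gc s) (Ioo (-1) 1) :=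
    hsum.mul_bdd (c := B) hGcc.measurable.aestronglyMeasurable (Eventually.of_forall fun s => hGB _)
  have hev : ∀ s, R (-s) = R s := fun s => by
    simp only [hR, hφ.even, shape_deriv_neg hφ, neg_mul_neg, neg_neg, hG.even]
    rw [neg_div (φ s - s * deriv φ s) (deriv φ s), hG.even]
  have hRi : IntervalIntegrable R volume (-1) 1 :=
    (intervalIntegrable_iff_integrableOn_Ioo_of_le (by norm_num)).2
      ((Integrable.congr (iZ.sub iS) hdiff).const_mul (1 / 2) |>.congr
        (Eventually.of_forall fun s => by ring))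
  have hval : (∫ s in Ioo (-1 : ℝ) 1, (side m φ 1 s + side m φ (-1) s) * Gc (Z s)) -
      (∫ s in Ioo (-1 : ℝ) 1, (side m φ 1 s + side m φ (-1) s) * Gc s) =
      4 * ∫ s in (0 : ℝ)..1, R s := by
    rw [← integral_sub iZ iS, integral_congr_ae hdiff, integral_const_mul,
      ← integral_Ioc_eq_integral_Ioo, ← intervalIntegral.integral_of_le (by norm_num)]
    have h0 : (0 : ℝ) ∈ uIcc (-1 : ℝ) 1 := by rw [uIcc_of_le (by norm_num)]; norm_num
    rw [← intervalIntegral.integral_add_adjacent_intervals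
      (hRi.mono_set (uIcc_subset_uIcc_left h0)) (hRi.mono_set (uIcc_subset_uIcc_right h0))]
    have hneg := intervalIntegral.integral_comp_neg R (a := -1) (b := 0)
    simp only [hev, neg_zero, neg_neg] at hneg
    rw [hneg]
    ring
  rw [volume_eq_mass hm hK h, convexVal, convexSlack, ← hc, ← hn, ← hφdef,
    show 2 * c * mass m φ 1 * ((∫ t in (0 : ℝ)..1, m * φ t ^ (m - 1) * (φ t - t * deriv φ t) *
      (G (-deriv φ t / (φ t - t * deriv φ t)) - G t)) / mass m φ 1) =
      2 * c * ∫ t in (0 : ℝ)..1, R t by rw [hR]; field_simp]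
  have := congrArg (fun x => c * x) hval
  simp only [mul_sub] at this
  linarith

end Vale.Agent.P237.Quant
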