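import Mathlib
import Vale.Agent.P237.Quant.Convex

/-!
The even convex weight whose datum has the first variation of the power integral, and the
one-variable lemma for it.
-/

namespace Vale.Agent.P237.Quant

open MeasureTheory Set Filter Topology

variable {m : ℕ}

/-- The ratio of the masses of the ball profile at the powers `m - 1` and `m`. -/
noncomputable def ballRatio (m : ℕ) : ℝ := mass (m - 1) ballShape 1 / mass m ballShape 1

/-- The primitive of `ρ p ^ m - p ^ (m - 1)`. -/
noncomputable def pureInner (m : ℕ) (s : ℝ) : ℝ :=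
  ∫ t in (0 : ℝ)..s, (ballRatio m * ballShape t ^ m - ballShape t ^ (m - 1))

/-- The slope of the weight. -/
noncomputable def pureSlope (m : ℕ) (s : ℝ) : ℝ :=
  if |s| < 1 then pureInner m s / ballShape s ^ (m + 2) else 0

/-- The weight. -/
noncomputable def pureG (m : ℕ) (s : ℝ) : ℝ := ∫ t in (0 : ℝ)..s, pureSlope m t

/-- The profile lemma for this weight, in dimension `m + 1`. -/
def PureLemma (m : ℕ) : Prop :=
  ∀ φ : ℝ → ℝ, IsShape φ → powRatio m φ ≤ 1 →
    0 ≤ convexVal m (pureG m) φ ∧
      (convexVal m (pureG m) φ = 0 → ∀ t ∈ Ioo (0 : ℝ) 1, φ t = φ 0 * ballShape t)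

theorem cont_ball : Continuous ballShape := by
  unfold ballShape
  fun_prop

theorem cont_pow (k : ℕ) : Continuous fun t => ballShape t ^ k := cont_ball.pow k

theorem ball_pos {s : ℝ} (hs : s ∈ Ioo (-1 : ℝ) 1) : 0 < ballShape s :=
  Real.sqrt_pos.2 (by nlinarith [hs.1, hs.2])

theorem ball_sq {s : ℝ} (hs : s ∈ Icc (-1 : ℝ) 1) : ballShape s ^ 2 = 1 - s ^ 2 :=
  Real.sq_sqrt (by nlinarith [hs.1, hs.2])

theorem hasDerivAt_ball {s : ℝ} (hs : s ∈ Ioo (-1 : ℝ) 1) :
    HasDerivAt ballShape (-s / ballShape s) s := by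
  refine (((hasDerivAt_pow 2 s).const_sub 1).sqrt (by nlinarith [hs.1, hs.2])).congr_deriv ?_
  have := (ball_pos hs).ne'
  simp only [ballShape] at this ⊢
  field_simp
  ring

theorem ball_mass_pos (k : ℕ) : 0 < mass k ballShape 1 :=
  intervalIntegral.intervalIntegral_pos_of_pos_on ((cont_pow k).intervalIntegrable _ _)
    (fun t ht => pow_pos (ball_pos ⟨by linarith [ht.1], ht.2⟩) k) zero_lt_one

theorem ball_mass_rec (k : ℕ) :
    ((k : ℝ) + 3) * mass (k + 2) ballShape 1 = ((k : ℝ) + 2) * mass k ballShape 1 := by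
  have h : (∫ t in (0 : ℝ)..1,
      (((k : ℝ) + 3) * ballShape t ^ (k + 2) - ((k : ℝ) + 2) * ballShape t ^ k)) = 0 := by
    rw [intervalIntegral.integral_eq_sub_of_hasDerivAt_of_le zero_le_one
      (f := fun t => t * ballShape t ^ (k + 2)) ((continuous_id.mul (cont_pow _)).continuousOn)
      (fun t ht => ?_) (show IntervalIntegrable (fun t => ((k : ℝ) + 3) * ballShape t ^ (k + 2) -
          ((k : ℝ) + 2) * ballShape t ^ k) volume 0 1 from
        (((cont_pow _).const_mul _).sub ((cont_pow _).const_mul _)).intervalIntegrable _ _)]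
    · simp [ballShape]
    · have hI : t ∈ Ioo (-1 : ℝ) 1 := ⟨by linarith [ht.1], ht.2⟩
      refine ((hasDerivAt_id' t).mul ((hasDerivAt_ball hI).pow (k + 2))).congr_deriv ?_
      have hs := ball_sq (Ioo_subset_Icc_self hI)
      have := (ball_pos hI).ne'
      simp only [Pi.pow_apply, show k + 2 - 1 = k + 1 from by omega, pow_succ]
      push_cast
      field_simp
      linear_combination (-((k : ℝ) + 2)) * hs
  rw [intervalIntegral.integral_sub
    (show IntervalIntegrable (fun t => ((k : ℝ) + 3) * ballShape t ^ (k + 2)) volume 0 1 from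
      ((cont_pow _).const_mul _).intervalIntegrable _ _)
    (show IntervalIntegrable (fun t => ((k : ℝ) + 2) * ballShape t ^ k) volume 0 1 from
      ((cont_pow _).const_mul _).intervalIntegrable _ _),
    intervalIntegral.integral_const_mul, intervalIntegral.integral_const_mul] at h
  rw [mass, mass]
  linarith

theorem ballRatio_lt (hm : 1 ≤ m) : ((m : ℝ) + 2) * ballRatio m < (m : ℝ) + 3 := by
  obtain ⟨k, rfl⟩ : ∃ k, m = k + 1 := ⟨m - 1, by omega⟩
  have h0 := ball_mass_rec k
  have h1 := ball_mass_rec (k + 1)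
  set A := mass k ballShape 1
  set B := mass (k + 1) ballShape 1 with hBdef
  set C := mass (k + 2) ballShape 1 with hCdef
  set D := mass (k + 3) ballShape 1 with hDdef
  have hB : 0 < B := ball_mass_pos _
  have hA : 0 < A := ball_mass_pos _
  have hC : 0 < C := ball_mass_pos _
  set l := C / B with hl
  have hl0 : 0 < l := div_pos hC hB
  have hcs : C ≤ (l * B + D / l) / 2 := by
    rw [hCdef, hBdef, hDdef, mass, mass, mass, ← intervalIntegral.integral_const_mul,
      ← intervalIntegral.integral_div, ← intervalIntegral.integral_add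
        (((cont_pow (k + 1)).const_mul l).intervalIntegrable _ _)
        (((cont_pow (k + 3)).div_const l).intervalIntegrable _ _),
      ← intervalIntegral.integral_div]
    refine intervalIntegral.integral_mono_on zero_le_one ((cont_pow _).intervalIntegrable _ _)
      ((((cont_pow (k + 1)).const_mul l).add ((cont_pow (k + 3)).div_const l)).div_const 2
        |>.intervalIntegrable _ _) fun t _ => ?_
    have hp : 0 ≤ ballShape t ^ (k + 1) := pow_nonneg (Real.sqrt_nonneg _) _
    have key : 0 ≤ ballShape t ^ (k + 1) * (l - ballShape t) ^ 2 / (2 * l) :=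
      div_nonneg (mul_nonneg hp (sq_nonneg _)) (by positivity)
    have e : ballShape t ^ (k + 1) * (l - ballShape t) ^ 2 / (2 * l) =
        (l * ballShape t ^ (k + 1) + ballShape t ^ (k + 3) / l) / 2 - ballShape t ^ (k + 2) := by
      field_simp
      ring
    linarith
  have hCBD : C ^ 2 ≤ B * D := by
    rw [hl] at hcs
    field_simp at hcs
    nlinarith
  rw [show ballRatio (k + 1) = A / B from rfl, ← mul_div_assoc, div_lt_iff₀ hB]
  push_cast at h1 ⊢
  have e1 : A = ((k : ℝ) + 3) / ((k : ℝ) + 2) * C := by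
    field_simp
    linarith
  have hD' : D = ((k : ℝ) + 3) / ((k : ℝ) + 4) * B := by
    field_simp
    linarith
  have h2 : C ^ 2 ≤ ((k : ℝ) + 3) / ((k : ℝ) + 4) * B ^ 2 := by rw [hD'] at hCBD; nlinarith
  rw [e1]
  refine lt_of_pow_lt_pow_left₀ 2 (by positivity) ?_
  calc (((k : ℝ) + 1 + 2) * (((k : ℝ) + 3) / ((k : ℝ) + 2) * C)) ^ 2
      = (((k : ℝ) + 3) ^ 2 / ((k : ℝ) + 2)) ^ 2 * C ^ 2 := by ring
    _ ≤ (((k : ℝ) + 3) ^ 2 / ((k : ℝ) + 2)) ^ 2 * (((k : ℝ) + 3) / ((k : ℝ) + 4) * B ^ 2) :=
        mul_le_mul_of_nonneg_left h2 (sq_nonneg _)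
    _ < (((k : ℝ) + 1 + 3) * B) ^ 2 := by
        rw [mul_pow, show ((k : ℝ) + 1 + 3) = (k : ℝ) + 4 by ring]
        have hk : (0 : ℝ) ≤ k := Nat.cast_nonneg k
        have : ((((k : ℝ) + 3) ^ 2 / ((k : ℝ) + 2)) ^ 2 * (((k : ℝ) + 3) / ((k : ℝ) + 4))) <
            ((k : ℝ) + 4) ^ 2 := by
          rw [div_pow, div_mul_div_comm, div_lt_iff₀ (by positivity)]
          nlinarith [pow_nonneg hk 2, pow_nonneg hk 3, pow_nonneg hk 4]
        nlinarith [mul_lt_mul_of_pos_right this (pow_pos hB 2)]

theorem cont_integrand : Continuous fun t =>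
    ballRatio m * ballShape t ^ m - ballShape t ^ (m - 1) :=
  ((cont_pow m).const_mul _).sub (cont_pow _)

theorem hasDerivAt_inner (s : ℝ) :
    HasDerivAt (pureInner m) (ballRatio m * ballShape s ^ m - ballShape s ^ (m - 1)) s :=
  (cont_integrand (m := m)).integral_hasStrictDerivAt 0 s |>.hasDerivAt

theorem inner_one (m : ℕ) : pureInner m 1 = 0 := by
  rw [pureInner, intervalIntegral.integral_sub
    (show IntervalIntegrable (fun t => ballRatio m * ballShape t ^ m) volume 0 1 from
      ((cont_pow m).const_mul _).intervalIntegrable _ _)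
    (show IntervalIntegrable (fun t => ballShape t ^ (m - 1)) volume 0 1 from
      (cont_pow _).intervalIntegrable _ _), intervalIntegral.integral_const_mul, ballRatio]
  show mass (m - 1) ballShape 1 / mass m ballShape 1 * mass m ballShape 1 -
    mass (m - 1) ballShape 1 = 0
  rw [div_mul_cancel₀ _ (ball_mass_pos m).ne', sub_self]

theorem inner_neg (s : ℝ) : pureInner m (-s) = -pureInner m s := by
  have h := intervalIntegral.integral_comp_neg
    (fun t => ballRatio m * ballShape t ^ m - ballShape t ^ (m - 1)) (a := 0) (b := s)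
  have hb : ∀ t, ballShape (-t) = ballShape t := fun t => by simp [ballShape]
  simp only [hb, neg_zero] at h
  rw [pureInner, pureInner, intervalIntegral.integral_symm, ← h]

theorem slope_neg (s : ℝ) : pureSlope m (-s) = -pureSlope m s := by
  simp only [pureSlope, abs_neg, inner_neg, ballShape, neg_sq, neg_div]
  split_ifs <;> simp

theorem slope_le (hm : 1 ≤ m) (s : ℝ) : |pureSlope m s| ≤ (|ballRatio m| + 1) * (1 / ballShape s) := by
  have hc : 0 ≤ |ballRatio m| + 1 := by positivity
  by_cases hs : |s| < 1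
  swap
  · simp only [pureSlope, hs, if_false, abs_zero]
    exact mul_nonneg hc (one_div_nonneg.2 (Real.sqrt_nonneg _))
  have hev : ballShape s = ballShape |s| := by simp [ballShape, sq_abs]
  have hI : |pureInner m s| = |pureInner m (|s|)| := by
    rcases abs_choice s with h | h <;> rw [h]
    rw [inner_neg, abs_neg]
  have ht : |s| ∈ Ico (0 : ℝ) 1 := ⟨abs_nonneg s, hs⟩
  set t := |s|
  have hp : 0 < ballShape t := ball_pos ⟨by linarith [ht.1], ht.2⟩
  have hbnd : |pureInner m t| ≤ (|ballRatio m| + 1) * ballShape t ^ (m + 1) := by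
    have h1 := intervalIntegral.integral_add_adjacent_intervals
      ((cont_integrand (m := m)).intervalIntegrable (μ := volume) 0 t)
      ((cont_integrand (m := m)).intervalIntegrable (μ := volume) t 1)
    have h2 : pureInner m t =
        -∫ u in t..1, (ballRatio m * ballShape u ^ m - ballShape u ^ (m - 1)) := by
      have := inner_one m
      rw [pureInner] at this ⊢
      linarith
    have h3 : ‖∫ u in t..1, (ballRatio m * ballShape u ^ m - ballShape u ^ (m - 1))‖ ≤
        (|ballRatio m| + 1) * ballShape t ^ (m - 1) * |1 - t| := by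
      refine intervalIntegral.norm_integral_le_of_norm_le_const fun u hu => ?_
      rw [uIoc_of_le ht.2.le] at hu
      have hu0 : 0 ≤ ballShape u := Real.sqrt_nonneg _
      have hut : ballShape u ≤ ballShape t := Real.sqrt_le_sqrt (by nlinarith [hu.1, ht.1])
      have hu1 : ballShape u ≤ 1 := Real.sqrt_le_one.2 (by nlinarith)
      have e1 : ballShape u ^ m ≤ ballShape u ^ (m - 1) :=
        pow_le_pow_of_le_one hu0 hu1 (Nat.sub_le _ _)
      have e2 : ballShape u ^ (m - 1) ≤ ballShape t ^ (m - 1) := pow_le_pow_left₀ hu0 hut _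
      rw [Real.norm_eq_abs]
      refine (abs_sub _ _).trans ?_
      rw [abs_mul, abs_of_nonneg (pow_nonneg hu0 m), abs_of_nonneg (pow_nonneg hu0 (m - 1))]
      have := mul_le_mul_of_nonneg_left (e1.trans e2) (abs_nonneg (ballRatio m))
      linarith
    rw [h2, abs_neg]
    refine h3.trans ?_
    rw [mul_assoc, show m + 1 = m - 1 + 2 by omega, pow_add]
    refine mul_le_mul_of_nonneg_left (mul_le_mul_of_nonneg_left ?_ (pow_nonneg hp.le _)) hc
    rw [abs_of_nonneg (by linarith [ht.2]), ball_sq ⟨by linarith [ht.1], ht.2.le⟩]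
    nlinarith [ht.1, ht.2]
  rw [pureSlope, if_pos (show |s| < 1 from hs), abs_div, hI, hev, abs_pow, abs_of_pos hp]
  rw [div_le_iff₀ (pow_pos hp _)]
  refine hbnd.trans (le_of_eq ?_)
  rw [pow_succ' (ballShape t) (m + 1)]
  field_simp

theorem integrable_slope (hm : 1 ≤ m) : Integrable (pureSlope m) := by
  have hmeas : Measurable (pureSlope m) :=
    Measurable.ite (measurableSet_lt measurable_id.abs measurable_const)
      ((continuous_iff_continuousAt.2 fun s => (hasDerivAt_inner s).continuousAt).measurable.div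
        (cont_pow _).measurable) measurable_const
  have hsupp : ∀ s, pureSlope m s ≠ 0 → s ∈ Ioo (-1 : ℝ) 1 := fun s h => by
    by_contra hs
    apply h
    rw [pureSlope, if_neg]
    exact fun habs => hs (abs_lt.1 habs)
  have hinv : IntegrableOn (fun s => 1 / ballShape s) (Ioo (-1) 1) := by
    have h1 : IntervalIntegrable (fun s => 1 / ballShape s) volume 0 1 := by
      rw [intervalIntegrable_iff_integrableOn_Ioc_of_le zero_le_one]
      exact intervalIntegral.integrableOn_deriv_of_nonneg Real.continuous_arcsin.continuousOn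
        (fun x hx => Real.hasDerivAt_arcsin (by linarith [hx.1]) hx.2.ne)
        (fun x _ => one_div_nonneg.2 (Real.sqrt_nonneg _))
    have h2 := (IntervalIntegrable.iff_comp_neg (f := fun s => 1 / ballShape s) (a := 0) (b := 1)).1 h1
    simp only [ballShape, neg_sq, neg_zero] at h2
    exact (intervalIntegrable_iff_integrableOn_Ioo_of_le (by norm_num)).1 (h2.symm.trans h1)
  refine (integrableOn_iff_integrable_of_support_subset fun s hs => hsupp s hs).1 ?_
  exact Integrable.mono' (hinv.const_mul (|ballRatio m| + 1)) hmeas.aestronglyMeasurable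
    (Eventually.of_forall fun s => by rw [Real.norm_eq_abs]; exact slope_le hm s)

theorem continuous_pureG (hm : 1 ≤ m) : Continuous (pureG m) :=
  intervalIntegral.continuous_primitive (fun _ _ => (integrable_slope hm).intervalIntegrable) 0

theorem pureG_neg (s : ℝ) : pureG m (-s) = pureG m s := by
  have h := intervalIntegral.integral_comp_neg (pureSlope m) (a := 0) (b := s)
  simp only [slope_neg, intervalIntegral.integral_neg, neg_zero] at h
  rw [pureG, pureG, intervalIntegral.integral_symm, ← h, neg_neg]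

/-- The numerator of the derivative of the slope is nonnegative. -/
theorem key_nonneg (hm : 3 ≤ m) {s : ℝ} (hs : s ∈ Icc (0 : ℝ) 1) :
    0 ≤ ((m : ℝ) + 2) * (s * pureInner m s) +
      (ballRatio m * ballShape s ^ (m + 2) - ballShape s ^ (m + 1)) := by
  obtain ⟨k, rfl⟩ : ∃ k, m = k + 3 := ⟨m - 3, by omega⟩
  set a : ℝ := ((k + 3 : ℕ) : ℝ) + 2 with ha
  set r := ballRatio (k + 3) with hr
  set F : ℝ → ℝ := fun s => a * (s * pureInner (k + 3) s) +
    (r * ballShape s ^ (k + 3 + 2) - ballShape s ^ (k + 3 + 1)) with hF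
  set q : ℝ → ℝ := fun s => a * pureInner (k + 3) s - s * ballShape s ^ (k + 3 - 1) with hq
  have hIc : Continuous (pureInner (k + 3)) :=
    continuous_iff_continuousAt.2 fun s => (hasDerivAt_inner s).continuousAt
  have hFc : Continuous F := ((continuous_id.mul hIc).const_mul _).add
    (((cont_pow _).const_mul _).sub (cont_pow _))
  have hqc : Continuous q := (hIc.const_mul _).sub (continuous_id.mul (cont_pow _))
  have hFd : ∀ t ∈ Ioo (0 : ℝ) 1, HasDerivAt F (q t) t := fun t ht => by
    have hI : t ∈ Ioo (-1 : ℝ) 1 := ⟨by linarith [ht.1], ht.2⟩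
    refine ((((hasDerivAt_id' t).mul (hasDerivAt_inner (m := k + 3) t)).const_mul a).add
      ((((hasDerivAt_ball hI).pow (k + 3 + 2)).const_mul r).sub
        ((hasDerivAt_ball hI).pow (k + 3 + 1)))).congr_deriv ?_
    have := (ball_pos hI).ne'
    simp only [hq, ← hr, show k + 3 + 2 - 1 = k + 4 from rfl, show k + 3 + 1 - 1 = k + 3 from rfl,
      show k + 3 - 1 = k + 2 from rfl, ha]
    push_cast
    simp only [pow_succ]
    field_simp
    ring
  have hqd : ∀ t ∈ Ioo (0 : ℝ) 1, HasDerivAt q (ballShape t ^ k *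
      (a * r * ballShape t ^ 3 - (2 * a - 2) * ballShape t ^ 2 + (a - 3))) t := fun t ht => by
    have hI : t ∈ Ioo (-1 : ℝ) 1 := ⟨by linarith [ht.1], ht.2⟩
    refine (((hasDerivAt_inner (m := k + 3) t).const_mul a).sub
      ((hasDerivAt_id' t).mul ((hasDerivAt_ball hI).pow (k + 3 - 1)))).congr_deriv ?_
    have hs2 := ball_sq (Ioo_subset_Icc_self hI)
    have := (ball_pos hI).ne'
    simp only [← hr, show k + 3 - 1 = k + 2 from rfl, show k + 2 - 1 = k + 1 from rfl, ha,
      Pi.pow_apply]
    push_cast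
    simp only [pow_succ]
    field_simp
    linear_combination (((k : ℝ) + 2)) * hs2
  have hq0 : q 0 = 0 := by simp [hq, pureInner]
  have hq1 : q 1 = 0 := by simp [hq, inner_one, ballShape]
  have hc1 : a * r - (2 * a - 2) + (a - 3) < 0 := by
    have := ballRatio_lt (m := k + 3) (by omega)
    rw [← hr, ← ha] at this
    linarith
  have hqneg : ∀ t ∈ Ioo (0 : ℝ) 1, q t ≤ 0 := fun t ht => by
    by_contra hpos
    push Not at hpos
    obtain ⟨u, hu, hu'⟩ := exists_hasDerivAt_eq_slope q _ ht.1 hqc.continuousOn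
      fun x hx => hqd x ⟨hx.1, hx.2.trans ht.2⟩
    obtain ⟨z, hz, hz'⟩ := exists_hasDerivAt_eq_slope q _ ht.2 hqc.continuousOn
      fun x hx => hqd x ⟨ht.1.trans hx.1, hx.2⟩
    rw [hq0, sub_zero, sub_zero] at hu'
    rw [hq1] at hz'
    have hu0 : 0 < q t / t := div_pos hpos ht.1
    have hz0 : (0 - q t) / (1 - t) < 0 := div_neg_of_neg_of_pos (by linarith) (by linarith [ht.2])
    rw [← hu'] at hu0
    rw [← hz'] at hz0
    have hu1 : 0 < ballShape u := ball_pos ⟨by linarith [hu.1], hu.2.trans ht.2⟩
    have hz1 : 0 < ballShape z := ball_pos ⟨by linarith [hz.1, ht.1], hz.2⟩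
    have c1 := (mul_pos_iff_of_pos_left (pow_pos hu1 k)).1 hu0
    have c2 := neg_of_mul_neg_right hz0 (pow_pos hz1 k).le
    have hzu : ballShape z < ballShape u := Real.sqrt_lt_sqrt
      (by nlinarith [hz.1, hz.2, ht.1]) (by nlinarith [hu.1, hu.2, hz.1, ht.1])
    have hu2 : ballShape u ≤ 1 := Real.sqrt_le_one.2 (by nlinarith)
    set p := ballShape u
    set l := ballShape z
    have ha3 : 0 ≤ a - 3 := by rw [ha]; push_cast; linarith [(Nat.cast_nonneg k : (0 : ℝ) ≤ k)]
    have key : (1 - p) * p ^ 2 * (a * r * l ^ 3 - (2 * a - 2) * l ^ 2 + (a - 3)) +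
        (p - l) * p ^ 2 * l ^ 2 * (a * r - (2 * a - 2) + (a - 3)) -
        (1 - l) * l ^ 2 * (a * r * p ^ 3 - (2 * a - 2) * p ^ 2 + (a - 3)) =
        (a - 3) * ((p - l) * (1 - p) * (1 - l) * (p + l + p * l)) := by ring
    have hR : 0 ≤ (a - 3) * ((p - l) * (1 - p) * (1 - l) * (p + l + p * l)) :=
      mul_nonneg ha3 (mul_nonneg (mul_nonneg (mul_nonneg (by linarith) (by linarith))
        (by linarith)) (by positivity))
    have t1 : (1 - p) * p ^ 2 * (a * r * l ^ 3 - (2 * a - 2) * l ^ 2 + (a - 3)) ≤ 0 :=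
      mul_nonpos_of_nonneg_of_nonpos (mul_nonneg (by linarith) (sq_nonneg p)) c2.le
    have t2 : (p - l) * p ^ 2 * l ^ 2 * (a * r - (2 * a - 2) + (a - 3)) < 0 :=
      mul_neg_of_pos_of_neg (mul_pos (mul_pos (by linarith) (by positivity)) (by positivity)) hc1
    have t3 : 0 ≤ (1 - l) * l ^ 2 * (a * r * p ^ 3 - (2 * a - 2) * p ^ 2 + (a - 3)) :=
      mul_nonneg (mul_nonneg (by linarith) (sq_nonneg l)) c1.le
    linarith
  have hanti : AntitoneOn F (Icc 0 1) := by
    refine antitoneOn_of_deriv_nonpos (convex_Icc _ _) hFc.continuousOn ?_ ?_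
    · rw [interior_Icc]
      exact fun t ht => (hFd t ht).differentiableAt.differentiableWithinAt
    · intro t ht
      rw [interior_Icc] at ht
      rw [(hFd t ht).deriv]
      exact hqneg t ht
  have hF1 : F 1 = 0 := by simp [hF, inner_one, ballShape]
  have h := hanti hs (right_mem_Icc.2 zero_le_one) hs.2
  rw [hF1] at h
  exact h

theorem hasDerivAt_pureG (hm : 1 ≤ m) {s : ℝ} (hs : s ∈ Ioo (-1 : ℝ) 1) :
    HasDerivAt (pureG m) (pureInner m s / ballShape s ^ (m + 2)) s := by
  have hev : pureSlope m =ᶠ[𝓝 s] fun t => pureInner m t / ballShape t ^ (m + 2) := by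
    filter_upwards [Ioo_mem_nhds hs.1 hs.2] with t ht
    rw [pureSlope, if_pos (abs_lt.2 ht)]
  have hc : ContinuousAt (pureSlope m) s :=
    (((hasDerivAt_inner (m := m) s).continuousAt).div (cont_pow _).continuousAt
      (pow_pos (ball_pos hs) _).ne').congr hev.symm
  have h := intervalIntegral.integral_hasDerivAt_right ((integrable_slope hm).intervalIntegrable
    (a := 0) (b := s)) (integrable_slope hm).aestronglyMeasurable.stronglyMeasurableAtFilter hc
  rwa [hev.self_of_nhds] at h

theorem isWeight_pureG (hm : 3 ≤ m) : IsWeight (pureG m) where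
  cont := continuous_pureG (by omega)
  even := pureG_neg
  convex := by
    refine MonotoneOn.convexOn_of_deriv (convex_Icc _ _) (continuous_pureG (by omega)).continuousOn
      ?_ ?_
    · rw [interior_Icc]
      exact fun s hs => (hasDerivAt_pureG (by omega) hs).differentiableAt.differentiableWithinAt
    rw [interior_Icc]
    have hd : ∀ s ∈ Ioo (-1 : ℝ) 1,
        HasDerivAt (fun t => pureInner m t / ballShape t ^ (m + 2))
          ((((m : ℝ) + 2) * (s * pureInner m s) +
            (ballRatio m * ballShape s ^ (m + 2) - ballShape s ^ (m + 1))) / ballShape s ^ (m + 4)) s := by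
      intro s hs
      refine ((hasDerivAt_inner (m := m) s).div ((hasDerivAt_ball hs).pow (m + 2))
        (pow_pos (ball_pos hs) _).ne').congr_deriv ?_
      obtain ⟨k, rfl⟩ : ∃ k, m = k + 1 := ⟨m - 1, by omega⟩
      have := (ball_pos hs).ne'
      simp only [Pi.pow_apply, show k + 1 + 2 - 1 = k + 2 from rfl, Nat.add_sub_cancel]
      push_cast
      simp only [pow_succ]
      field_simp
      ring
    have hmono : MonotoneOn (fun t => pureInner m t / ballShape t ^ (m + 2)) (Ioo (-1 : ℝ) 1) := by
      refine monotoneOn_of_deriv_nonneg (convex_Ioo _ _)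
        (fun s hs => (hd s hs).continuousAt.continuousWithinAt) ?_ ?_
      · rw [interior_Ioo]
        exact fun s hs => (hd s hs).differentiableAt.differentiableWithinAt
      intro s hs
      rw [interior_Ioo] at hs
      rw [(hd s hs).deriv]
      refine div_nonneg ?_ (pow_nonneg (ball_pos hs).le _)
      rcases le_total 0 s with h | h
      · exact key_nonneg hm ⟨h, hs.2.le⟩
      · have := key_nonneg hm (s := -s) ⟨by linarith, by linarith [hs.1]⟩
        simp only [inner_neg, ballShape, neg_sq, neg_mul_neg] at this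
        exact this
    intro x hx y hy hxy
    rw [(hasDerivAt_pureG (by omega) hx).deriv, (hasDerivAt_pureG (by omega) hy).deriv]
    exact hmono hx hy hxy

end Vale.Agent.P237.Quant
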