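import Mathlib
import Vale.Agent.P237.Quant.Pure

/-!
The least spread companion of a profile at an interior point: a flat top cut by the line to the end
of the slab, then one segment, with the same value there and the same two masses. It has the larger
integral against every monotone weight.
-/

namespace Vale.Agent.P237.Quant

open MeasureTheory Set Filter Topology

variable {φ : ℝ → ℝ}

/-- The flat top cut by a line through the end of the slab, followed by a segment. -/
noncomputable def flatTopShape (H M a k s : ℝ) (t : ℝ) : ℝ :=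
  if |t| ≤ s then min H (M * (1 - |t|)) else a - k * (|t| - s)

/-- One crossing: moving mass to the right raises the integral against a monotone weight. -/
theorem integral_mul_le_of_crossing {f h g : ℝ → ℝ} {a b : ℝ} (hab : a ≤ b)
    (hg : MonotoneOn g (Ioo a b))
    (hD : ∀ t ∈ Ioo a b, h t < f t → ∀ t' ∈ Ioo a b, t' ≤ t → h t' ≤ f t')
    (if₀ : IntervalIntegrable f volume a b) (ih₀ : IntervalIntegrable h volume a b)
    (if₁ : IntervalIntegrable (fun t => g t * f t) volume a b)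
    (ih₁ : IntervalIntegrable (fun t => g t * h t) volume a b)
    (he : (∫ t in a..b, f t) = ∫ t in a..b, h t) :
    (∫ t in a..b, g t * f t) ≤ ∫ t in a..b, g t * h t := by
  have eq_of_order : ∀ {p q : ℝ → ℝ}, (∀ t ∈ Ioo a b, p t ≤ q t) →
      IntervalIntegrable p volume a b → IntervalIntegrable q volume a b →
      (∫ t in a..b, p t) = (∫ t in a..b, q t) →
      (∫ t in a..b, g t * p t) = ∫ t in a..b, g t * q t := by
    intro p q hle ip iq hpq
    have hnn : 0 ≤ᵐ[volume.restrict (Ioc a b)] fun t => q t - p t := by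
      rw [← restrict_Ioo_eq_restrict_Ioc]
      filter_upwards [ae_restrict_mem measurableSet_Ioo] with t ht
      exact sub_nonneg.2 (hle t ht)
    have hz := (intervalIntegral.integral_eq_zero_iff_of_le_of_nonneg_ae hab hnn (iq.sub ip)).1
      (by rw [intervalIntegral.integral_sub iq ip, hpq, sub_self])
    refine intervalIntegral.integral_congr_ae ?_
    rw [uIoc_of_le hab, ← ae_restrict_iff' measurableSet_Ioc]
    filter_upwards [hz] with t ht
    rw [sub_eq_zero.1 ht]
  set D := {t | t ∈ Ioo a b ∧ h t < f t} with hDdef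
  rcases D.eq_empty_or_nonempty with hempty | hne
  · exact (eq_of_order (fun t ht => le_of_not_gt fun hlt =>
      (Set.eq_empty_iff_forall_notMem.1 hempty) t ⟨ht, hlt⟩) if₀ ih₀ he).le
  obtain ⟨d, hd⟩ := hne
  have hbdd : BddAbove D := ⟨b, fun t ht => ht.1.2.le⟩
  set c := sSup D with hc
  have hdc : d ≤ c := le_csSup hbdd hd
  have hcb : c ≤ b := csSup_le ⟨d, hd⟩ fun t ht => ht.1.2.le
  have hleft : ∀ t ∈ Ioo a b, t < c → h t ≤ f t := fun t ht htc => by
    obtain ⟨t', ht', htt⟩ := exists_lt_of_lt_csSup ⟨d, hd⟩ htc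
    exact hD t' ht'.1 ht'.2 t ht htt.le
  rcases hcb.eq_or_lt with hcb | hcb
  · exact (eq_of_order (fun t ht => hleft t ht (hcb ▸ ht.2)) ih₀ if₀ he.symm).ge
  have hcI : c ∈ Ioo a b := ⟨hd.1.1.trans_le hdc, hcb⟩
  have key : ∀ᵐ t ∂volume.restrict (Icc a b),
      g c * (h t - f t) ≤ g t * h t - g t * f t := by
    rw [← restrict_Ioo_eq_restrict_Icc]
    filter_upwards [ae_restrict_mem measurableSet_Ioo,
      ae_restrict_of_ae (Measure.ae_ne volume c)] with t ht htc
    rw [← mul_sub]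
    rcases lt_or_gt_of_ne htc with hlt | hlt
    · exact mul_le_mul_of_nonpos_right (hg ht hcI hlt.le) (sub_nonpos.2 (hleft t ht hlt))
    · refine mul_le_mul_of_nonneg_right (hg hcI ht hlt.le) (sub_nonneg.2 ?_)
      exact le_of_not_gt fun hh => (le_csSup hbdd ⟨ht, hh⟩).not_gt hlt
  have hI := intervalIntegral.integral_mono_ae_restrict hab ((ih₀.sub if₀).const_mul _)
    (ih₁.sub if₁) key
  rw [intervalIntegral.integral_const_mul, intervalIntegral.integral_sub ih₀ if₀,
    intervalIntegral.integral_sub ih₁ if₁, he, sub_self, mul_zero] at hI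
  linarith

private lemma convex_between (hφ : IsShape φ) {x y z : ℝ} (hx : -1 ≤ x) (hxy : x ≤ y) (hyz : y ≤ z)
    (hz : z ≤ 1) : (z - y) * φ x + (y - x) * φ z ≤ (z - x) * φ y := by
  rcases (hxy.trans hyz).eq_or_lt with h | h
  · obtain rfl : x = y := le_antisymm hxy (hyz.trans h.ge)
    obtain rfl : x = z := h
    simp
  have := hφ.concave.2 (show x ∈ Icc (-1 : ℝ) 1 from ⟨hx, h.le.trans hz⟩)
    (show z ∈ Icc (-1 : ℝ) 1 from ⟨hx.trans h.le, hz⟩)
    (show 0 ≤ (z - y) / (z - x) from div_nonneg (sub_nonneg.2 hyz) (sub_pos.2 h).le)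
    (show 0 ≤ (y - x) / (z - x) from div_nonneg (sub_nonneg.2 hxy) (sub_pos.2 h).le)
    (by rw [← add_div, show z - y + (y - x) = z - x by ring, div_self (sub_pos.2 h).ne'])
  simp only [smul_eq_mul] at this
  rw [show (z - y) / (z - x) * x + (y - x) / (z - x) * z = y by
    field_simp [(sub_pos.2 h).ne']; ring, div_mul_eq_mul_div, div_mul_eq_mul_div, ← add_div,
    div_le_iff₀ (sub_pos.2 h)] at this
  linarith

/-- The line from the end of the slab through the point is above the profile before it and below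
after it. -/
theorem end_line (hφ : IsShape φ) {s : ℝ} (hs : s ∈ Ioo (0 : ℝ) 1) :
    (∀ t ∈ Icc 0 s, φ t ≤ φ s / (1 - s) * (1 - t)) ∧
      ∀ t ∈ Icc s 1, φ s / (1 - s) * (1 - t) ≤ φ t := by
  have h1 := hφ.nonneg 1 (by norm_num)
  refine ⟨fun t ht => ?_, fun t ht => ?_⟩
  · have := convex_between hφ (show -1 ≤ t by linarith [ht.1]) ht.2 hs.2.le le_rfl
    rw [div_mul_eq_mul_div, le_div_iff₀ (by linarith [hs.2])]
    nlinarith [ht.2]
  · have := convex_between hφ (show -1 ≤ s by linarith [hs.1]) ht.1 ht.2 le_rfl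
    rw [div_mul_eq_mul_div, div_le_iff₀ (by linarith [hs.2])]
    nlinarith [ht.1]

/-- Every profile has a flat-top companion at each interior point. -/
theorem exists_flatTop {m : ℕ} (hφ : IsShape φ) {s : ℝ} (hs : s ∈ Ioo (0 : ℝ) 1) :
    ∃ H k, φ s ≤ H ∧ H ≤ φ s / (1 - s) ∧ 0 ≤ k ∧ k ≤ φ s / (1 - s) ∧
      mass m (flatTopShape H (φ s / (1 - s)) (φ s) k s) s = mass m φ s ∧
      mass m (flatTopShape H (φ s / (1 - s)) (φ s) k s) 1 = mass m φ 1 ∧
      ∀ g : ℝ → ℝ, MonotoneOn g (Ioo 0 1) →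
        IntervalIntegrable (fun t => g t * φ t ^ m) volume 0 1 →
        IntervalIntegrable (fun t => g t * flatTopShape H (φ s / (1 - s)) (φ s) k s t ^ m)
          volume 0 1 →
        (∫ t in (0 : ℝ)..1, g t * φ t ^ m) ≤
          ∫ t in (0 : ℝ)..1, g t * flatTopShape H (φ s / (1 - s)) (φ s) k s t ^ m := by
  obtain ⟨hup, hlow⟩ := end_line hφ hs
  obtain ⟨hs0, hs1⟩ := hs
  have hapos : 0 < φ s := shape_pos hφ ⟨by linarith, hs1⟩
  have hanti := shape_antitoneOn hφ
  set a := φ s with ha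
  set M := a / (1 - s) with hM
  have hM0 : 0 < M := div_pos hapos (by linarith)
  have haM : a ≤ M := le_div_self hapos.le (by linarith) (by linarith)
  have hMs : M * (1 - s) = a := div_mul_cancel₀ _ (by linarith)
  have hi : ∀ x y : ℝ, 0 ≤ x → x ≤ y → y ≤ 1 →
      IntervalIntegrable (fun t => φ t ^ m) volume x y := fun x y hx hxy hy =>
    (intervalIntegrable_shape_pow hφ m).mono_set (by
      rw [uIcc_of_le hxy, uIcc_of_le (by norm_num : (-1 : ℝ) ≤ 1)]
      exact Icc_subset_Icc (by linarith) hy)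
  have hnn : ∀ t ∈ Icc (0 : ℝ) 1, 0 ≤ φ t := fun t ht => hφ.nonneg t ⟨by linarith [ht.1], ht.2⟩
  -- the head
  have hch : Continuous fun H => ∫ t in (0 : ℝ)..s, min H (M * (1 - t)) ^ m :=
    intervalIntegral.continuous_parametric_intervalIntegral_of_continuous' (by fun_prop) 0 s
  have hih : ∀ H, IntervalIntegrable (fun t => min H (M * (1 - t)) ^ m) volume 0 s := fun H =>
    (by fun_prop : Continuous fun t => min H (M * (1 - t)) ^ m).intervalIntegrable _ _
  have hMt : ∀ t ∈ Icc (0 : ℝ) s, a ≤ M * (1 - t) ∧ M * (1 - t) ≤ M := fun t ht =>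
    ⟨hMs ▸ mul_le_mul_of_nonneg_left (by linarith [ht.2]) hM0.le,
      mul_le_of_le_one_right hM0.le (by linarith [ht.1])⟩
  have hmh : mass m φ s ∈ Icc (∫ t in (0 : ℝ)..s, min a (M * (1 - t)) ^ m)
      (∫ t in (0 : ℝ)..s, min M (M * (1 - t)) ^ m) := by
    refine ⟨intervalIntegral.integral_mono_on hs0.le (hih a) (hi 0 s le_rfl hs0.le hs1.le)
      fun t ht => ?_, intervalIntegral.integral_mono_on hs0.le (hi 0 s le_rfl hs0.le hs1.le) (hih M)
      fun t ht => ?_⟩
    · rw [min_eq_left (hMt t ht).1]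
      exact pow_le_pow_left₀ hapos.le
        (hanti ⟨ht.1, ht.2.trans hs1.le⟩ ⟨hs0.le, hs1.le⟩ ht.2) m
    · rw [min_eq_right (hMt t ht).2]
      exact pow_le_pow_left₀ (hnn t ⟨ht.1, ht.2.trans hs1.le⟩) (hup t ht) m
  obtain ⟨H, hH, hHe⟩ := intermediate_value_Icc haM hch.continuousOn hmh
  -- the tail
  have hct : Continuous fun k => ∫ t in s..1, (a - k * (t - s)) ^ m :=
    intervalIntegral.continuous_parametric_intervalIntegral_of_continuous' (by fun_prop) s 1
  have hit : ∀ k, IntervalIntegrable (fun t => (a - k * (t - s)) ^ m) volume s 1 := fun k =>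
    (by fun_prop : Continuous fun t => (a - k * (t - s)) ^ m).intervalIntegrable _ _
  have hlineM : ∀ t, a - M * (t - s) = M * (1 - t) := fun t => by rw [← hMs]; ring
  have hmt : (∫ t in s..1, φ t ^ m) ∈ Icc (∫ t in s..1, (a - M * (t - s)) ^ m)
      (∫ t in s..1, (a - 0 * (t - s)) ^ m) := by
    refine ⟨intervalIntegral.integral_mono_on hs1.le (hit M) (hi s 1 hs0.le hs1.le le_rfl)
      fun t ht => ?_, intervalIntegral.integral_mono_on hs1.le (hi s 1 hs0.le hs1.le le_rfl) (hit 0)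
      fun t ht => ?_⟩
    · rw [hlineM]
      exact pow_le_pow_left₀ (mul_nonneg hM0.le (sub_nonneg.2 ht.2)) (hlow t ht) m
    · rw [zero_mul, sub_zero]
      exact pow_le_pow_left₀ (hnn t ⟨hs0.le.trans ht.1, ht.2⟩)
        (hanti ⟨hs0.le, hs1.le⟩ ⟨hs0.le.trans ht.1, ht.2⟩ ht.1) m
  obtain ⟨k, hk, hke⟩ := intermediate_value_Icc' hM0.le hct.continuousOn hmt
  set ψ := flatTopShape H M a k s with hψ
  have hhead : ∀ t ∈ Icc 0 s, ψ t = min H (M * (1 - t)) := fun t ht => by
    rw [hψ, flatTopShape, abs_of_nonneg ht.1, if_pos ht.2]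
  have htail : ∀ t ∈ Icc s 1, ψ t = a - k * (t - s) := fun t ht => by
    rw [hψ, flatTopShape, abs_of_nonneg (hs0.le.trans ht.1)]
    rcases ht.1.eq_or_lt with h | h
    · subst h
      rw [if_pos le_rfl, hMs, min_eq_right hH.1]
      ring
    · rw [if_neg (not_le.2 h)]
  have e0 : (∫ t in (0 : ℝ)..s, ψ t ^ m) = ∫ t in (0 : ℝ)..s, φ t ^ m := by
    refine Eq.trans ?_ hHe
    refine intervalIntegral.integral_congr fun t ht => ?_
    rw [uIcc_of_le hs0.le] at ht
    simp only [hhead t ht]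
  have e1 : (∫ t in s..1, ψ t ^ m) = ∫ t in s..1, φ t ^ m := by
    refine Eq.trans ?_ hke
    refine intervalIntegral.integral_congr fun t ht => ?_
    rw [uIcc_of_le hs1.le] at ht
    simp only [htail t ht]
  have j0 : IntervalIntegrable (fun t => ψ t ^ m) volume 0 s :=
    ((hih H).congr fun t ht => by
      rw [uIoc_of_le hs0.le] at ht
      simp only [hhead t (Ioc_subset_Icc_self ht)])
  have j1 : IntervalIntegrable (fun t => ψ t ^ m) volume s 1 :=
    ((hit k).congr fun t ht => by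
      rw [uIoc_of_le hs1.le] at ht
      simp only [htail t (Ioc_subset_Icc_self ht)])
  refine ⟨H, k, hH.1, hH.2, hk.1, hk.2, e0, ?_, fun g hg ig ig' => ?_⟩
  · unfold mass
    rw [← intervalIntegral.integral_add_adjacent_intervals j0 j1,
      ← intervalIntegral.integral_add_adjacent_intervals (hi 0 s le_rfl hs0.le hs1.le)
        (hi s 1 hs0.le hs1.le le_rfl), e0, e1]
  have hsub : ∀ {x y : ℝ}, 0 ≤ x → x ≤ y → y ≤ 1 → uIcc x y ⊆ uIcc (0 : ℝ) 1 :=
    fun hx hxy hy => by
      rw [uIcc_of_le hxy, uIcc_of_le zero_le_one]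
      exact Icc_subset_Icc hx hy
  rw [← intervalIntegral.integral_add_adjacent_intervals
      (ig.mono_set (hsub le_rfl hs0.le hs1.le)) (ig.mono_set (hsub hs0.le hs1.le le_rfl)),
    ← intervalIntegral.integral_add_adjacent_intervals
      (ig'.mono_set (hsub le_rfl hs0.le hs1.le)) (ig'.mono_set (hsub hs0.le hs1.le le_rfl))]
  refine add_le_add
    (integral_mul_le_of_crossing hs0.le (hg.mono (Ioo_subset_Ioo_right hs1.le)) ?_
      (hi 0 s le_rfl hs0.le hs1.le) j0 (ig.mono_set (hsub le_rfl hs0.le hs1.le))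
      (ig'.mono_set (hsub le_rfl hs0.le hs1.le)) e0.symm)
    (integral_mul_le_of_crossing hs1.le (hg.mono (Ioo_subset_Ioo_left hs0.le)) ?_
      (hi s 1 hs0.le hs1.le le_rfl) j1 (ig.mono_set (hsub hs0.le hs1.le le_rfl))
      (ig'.mono_set (hsub hs0.le hs1.le le_rfl)) e1.symm)
  · intro t ht hlt t' ht' htt
    have hψt : ψ t < φ t := by
      by_contra! hle
      exact (pow_le_pow_left₀ (hnn t ⟨ht.1.le, ht.2.le.trans hs1.le⟩) hle m).not_gt hlt
    rw [hhead t (Ioo_subset_Icc_self ht), min_lt_iff] at hψt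
    have hH' : H < φ t := hψt.resolve_right (not_lt.2 (hup t (Ioo_subset_Icc_self ht)))
    show ψ t' ^ m ≤ φ t' ^ m
    rw [hhead t' (Ioo_subset_Icc_self ht')]
    refine pow_le_pow_left₀ (le_min (hapos.le.trans hH.1)
      (mul_nonneg hM0.le (by linarith [ht'.2]))) ((min_le_left _ _).trans (hH'.le.trans ?_)) m
    exact hanti ⟨ht'.1.le, ht'.2.le.trans hs1.le⟩ ⟨ht.1.le, ht.2.le.trans hs1.le⟩ htt
  · intro t ht hlt t' ht' htt
    have hψt : ψ t < φ t := by
      by_contra! hle
      exact (pow_le_pow_left₀ (hnn t ⟨hs0.le.trans ht.1.le, ht.2.le⟩) hle m).not_gt hlt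
    rw [htail t (Ioo_subset_Icc_self ht)] at hψt
    have h3 := convex_between hφ (show -1 ≤ s by linarith) ht'.1.le htt ht.2.le
    show ψ t' ^ m ≤ φ t' ^ m
    rw [htail t' (Ioo_subset_Icc_self ht')]
    refine pow_le_pow_left₀ ?_ ?_ m
    · have := mul_le_mul hk.2 (show t' - s ≤ 1 - s by linarith [ht'.2]) (by linarith [ht'.1]) hM0.le
      linarith
    · have h4 := mul_le_mul_of_nonneg_left hψt.le (sub_nonneg.2 ht'.1.le)
      refine le_of_mul_le_mul_left ?_ (sub_pos.2 ht.1)
      rw [← ha] at h3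
      linarith

/-- The segment from the centre with the same mass has the larger integral against a monotone
weight. -/
theorem exists_centre_line {m : ℕ} (hφ : IsShape φ) :
    ∃ k, 0 ≤ k ∧ k ≤ φ 0 ∧ (∫ t in (0 : ℝ)..1, (φ 0 - k * t) ^ m) = mass m φ 1 ∧
      ∀ g : ℝ → ℝ, MonotoneOn g (Ioo 0 1) →
        IntervalIntegrable (fun t => g t * φ t ^ m) volume 0 1 →
        IntervalIntegrable (fun t => g t * (φ 0 - k * t) ^ m) volume 0 1 →
        (∫ t in (0 : ℝ)..1, g t * φ t ^ m) ≤ ∫ t in (0 : ℝ)..1, g t * (φ 0 - k * t) ^ m := by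
  have hnn : ∀ t ∈ Icc (0 : ℝ) 1, 0 ≤ φ t := fun t ht => hφ.nonneg t ⟨by linarith [ht.1], ht.2⟩
  have hi : IntervalIntegrable (fun t => φ t ^ m) volume 0 1 :=
    (intervalIntegrable_shape_pow hφ m).mono_set (by
      rw [uIcc_of_le zero_le_one, uIcc_of_le (by norm_num : (-1 : ℝ) ≤ 1)]
      exact Icc_subset_Icc (by norm_num) le_rfl)
  have hit : ∀ k, IntervalIntegrable (fun t => (φ 0 - k * t) ^ m) volume 0 1 := fun k =>
    (by fun_prop : Continuous fun t => (φ 0 - k * t) ^ m).intervalIntegrable _ _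
  have hc : Continuous fun k => ∫ t in (0 : ℝ)..1, (φ 0 - k * t) ^ m :=
    intervalIntegral.continuous_parametric_intervalIntegral_of_continuous' (by fun_prop) 0 1
  have hmem : mass m φ 1 ∈ Icc (∫ t in (0 : ℝ)..1, (φ 0 - φ 0 * t) ^ m)
      (∫ t in (0 : ℝ)..1, (φ 0 - 0 * t) ^ m) := by
    refine ⟨intervalIntegral.integral_mono_on zero_le_one (hit _) hi fun t ht => ?_,
      intervalIntegral.integral_mono_on zero_le_one hi (hit _) fun t ht => ?_⟩
    · have h := convex_between hφ (show (-1 : ℝ) ≤ 0 by norm_num) ht.1 ht.2 le_rfl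
      have := mul_nonneg ht.1 (hφ.nonneg 1 (by norm_num))
      refine pow_le_pow_left₀ ?_ (by linarith) m
      have := mul_le_of_le_one_right hφ.centre.le ht.2
      linarith
    · rw [zero_mul, sub_zero]
      exact pow_le_pow_left₀ (hnn t ht) (shape_le_centre hφ ⟨by linarith [ht.1], ht.2⟩) m
  obtain ⟨k, hk, hke⟩ := intermediate_value_Icc' hφ.centre.le hc.continuousOn hmem
  refine ⟨k, hk.1, hk.2, hke, fun g hg ig ig' => ?_⟩
  refine integral_mul_le_of_crossing zero_le_one hg (fun t ht hlt t' ht' htt => ?_) hi (hit k) ig ig'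
    hke.symm
  have hψt : φ 0 - k * t < φ t := by
    by_contra! hle
    exact (pow_le_pow_left₀ (hnn t (Ioo_subset_Icc_self ht)) hle m).not_gt hlt
  have h3 := convex_between hφ (show (-1 : ℝ) ≤ 0 by norm_num) ht'.1.le htt ht.2.le
  refine pow_le_pow_left₀ ?_ ?_ m
  · have := mul_le_mul hk.2 ht'.2.le ht'.1.le hφ.centre.le
    linarith
  · have h4 := mul_le_mul_of_nonneg_left hψt.le ht'.1.le
    refine le_of_mul_le_mul_left ?_ ht.1
    linarith

theorem flatTop_bounds {s t : ℝ} (hs : s ≤ 1) {H M a k : ℝ} (hH : a ≤ H) (ha : M * (1 - s) = a)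
    (hM : 0 ≤ M) (hk : 0 ≤ k) (hkM : k ≤ M) (ht : t ∈ Icc (-1 : ℝ) 1) :
    0 ≤ flatTopShape H M a k s t ∧ flatTopShape H M a k s t ≤ H := by
  have h1 : |t| ≤ 1 := abs_le.2 ht
  have ha0 : M * (1 - |t|) ≥ 0 := mul_nonneg hM (sub_nonneg.2 h1)
  unfold flatTopShape
  split_ifs with h
  · refine ⟨le_min (le_trans ?_ hH) ha0, min_le_left _ _⟩
    rw [← ha]
    exact mul_nonneg hM (by linarith)
  · push Not at h
    constructor
    · have := mul_le_mul hkM (show |t| - s ≤ 1 - s by linarith) (by linarith) hM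
      linarith
    · have := mul_nonneg hk (sub_nonneg.2 h.le)
      linarith

/-- The companion does not lower the integral against the reciprocal of the ball profile. -/
theorem exists_flatTop_div {m : ℕ} (hφ : IsShape φ) {s : ℝ} (hs : s ∈ Ioo (0 : ℝ) 1) :
    ∃ H k, φ s ≤ H ∧ H ≤ φ s / (1 - s) ∧ 0 ≤ k ∧ k ≤ φ s / (1 - s) ∧
      mass m (flatTopShape H (φ s / (1 - s)) (φ s) k s) s = mass m φ s ∧
      mass m (flatTopShape H (φ s / (1 - s)) (φ s) k s) 1 = mass m φ 1 ∧
      (∫ t in (0 : ℝ)..1, φ t ^ m / ballShape t) ≤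
        ∫ t in (0 : ℝ)..1, flatTopShape H (φ s / (1 - s)) (φ s) k s t ^ m / ballShape t := by
  obtain ⟨H, k, h1, h2, h3, h4, h5, h6, h7⟩ := exists_flatTop (m := m) hφ hs
  refine ⟨H, k, h1, h2, h3, h4, h5, h6, ?_⟩
  have hsub : Ioo (0 : ℝ) 1 ⊆ Ioo (-1) 1 := Ioo_subset_Ioo (by norm_num) le_rfl
  have hg : MonotoneOn (fun t => 1 / ballShape t) (Ioo (0 : ℝ) 1) := fun x hx y hy hxy =>
    one_div_le_one_div_of_le (ball_pos (hsub hy))
      (Real.sqrt_le_sqrt (by nlinarith [hx.1, hy.2]))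
  have hbase : IntegrableOn (fun s => 1 / ballShape s) (Ioo (0 : ℝ) 1) :=
    (intervalIntegral.integrableOn_deriv_of_nonneg Real.continuous_arcsin.continuousOn
      (fun x hx => Real.hasDerivAt_arcsin (by linarith [hx.1]) hx.2.ne)
      (fun x _ => one_div_nonneg.2 (Real.sqrt_nonneg _))).mono_set Ioo_subset_Ioc_self
  have hint : ∀ {f : ℝ → ℝ} {C : ℝ}, AEStronglyMeasurable f (volume.restrict (Ioo (0 : ℝ) 1)) →
      (∀ t ∈ Ioo (0 : ℝ) 1, |f t| ≤ C) →
      IntervalIntegrable (fun t => 1 / ballShape t * f t) volume 0 1 := fun {f C} hf hC => by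
    rw [intervalIntegrable_iff_integrableOn_Ioo_of_le zero_le_one]
    refine Integrable.mul_bdd (c := C) hbase hf ?_
    filter_upwards [ae_restrict_mem measurableSet_Ioo] with t ht
    exact hC t ht
  have hbd : φ s / (1 - s) * (1 - s) = φ s := div_mul_cancel₀ _ (by linarith [hs.2])
  have h := h7 _ hg
    (hint (C := φ 0 ^ m) ((((shape_continuousOn hφ).mono hsub).pow m).aestronglyMeasurable
      measurableSet_Ioo) fun t ht => by
        have hI : t ∈ Icc (-1 : ℝ) 1 := ⟨by linarith [ht.1], ht.2.le⟩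
        rw [abs_pow, abs_of_nonneg (hφ.nonneg t hI)]
        exact pow_le_pow_left₀ (hφ.nonneg t hI) (shape_le_centre hφ hI) m)
    (hint (C := H ^ m) (Measurable.aestronglyMeasurable ((Measurable.ite
        (measurableSet_le measurable_id.abs measurable_const) (by fun_prop) (by fun_prop)).pow_const m))
      fun t ht => by
        obtain ⟨b1, b2⟩ := flatTop_bounds hs.2.le h1 hbd (div_nonneg (hφ.nonneg s
          ⟨by linarith [hs.1], hs.2.le⟩) (by linarith [hs.2])) h3 h4
          (t := t) ⟨by linarith [ht.1], ht.2.le⟩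
        show |flatTopShape H (φ s / (1 - s)) (φ s) k s t ^ m| ≤ H ^ m
        rw [abs_pow, abs_of_nonneg b1]
        exact pow_le_pow_left₀ b1 b2 m)
  simp only [one_div_mul_eq_div] at h
  exact h

end Vale.Agent.P237.Quant
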