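import Mathlib
import Vale.Agent.P237.Quant.Pure

/-!
The value of the pure weight at a profile, split exactly into two moments and the remainder of the
convexity inequality.
-/

namespace Vale.Agent.P237.Quant

open MeasureTheory Set Filter Topology

variable {m : ℕ} {φ : ℝ → ℝ}

/-- The logarithmic derivative of `φ / p` for the ball profile `p`, times `1 - t ^ 2`. -/
noncomputable def shapeRho (φ : ℝ → ℝ) (t : ℝ) : ℝ := t + (1 - t ^ 2) * dright φ t / φ t

/-- The remainder of the convexity inequality of the pure weight. -/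
noncomputable def pureBreg (m : ℕ) (t r : ℝ) : ℝ :=
  (1 - t * r) * (pureG m ((t - r) / (1 - t * r)) - pureG m t) + r * pureInner m t / ballShape t ^ m

theorem shapeRho_ae (hφ : IsShape φ) : ∀ᵐ t, t ∈ Ioo (0 : ℝ) 1 →
    DifferentiableAt ℝ φ t ∧ shapeRho φ t = t + (1 - t ^ 2) * deriv φ t / φ t ∧
      shapeRho φ t ∈ Icc (-1 : ℝ) 1 := by
  filter_upwards [dright_ae hφ, shape_ae_differentiable hφ] with t hd hdiff ht
  have hI : t ∈ Ioo (-1 : ℝ) 1 := ⟨by linarith [ht.1], ht.2⟩
  have hpos := shape_pos hφ hI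
  obtain ⟨h1, h2⟩ := shape_tangent_ends hφ hI (hdiff hI)
  have e : shapeRho φ t = t + (1 - t ^ 2) * deriv φ t / φ t := by rw [shapeRho, hd hI]
  refine ⟨hdiff hI, e, ?_, ?_⟩
  · rw [e, ← sub_le_iff_le_add', le_div_iff₀ hpos]
    nlinarith [mul_nonneg (show 0 ≤ 1 + t by linarith [ht.1]) h1]
  · rw [e, ← le_sub_iff_add_le', div_le_iff₀ hpos]
    nlinarith [mul_nonneg (show 0 ≤ 1 - t by linarith [ht.2]) h2]

theorem abs_pureInner_le (hm : 1 ≤ m) {s : ℝ} (hs : s ∈ Ico (0 : ℝ) 1) :
    |pureInner m s| ≤ (|ballRatio m| + 1) * ballShape s ^ (m + 1) := by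
  have hp : 0 < ballShape s := ball_pos ⟨by linarith [hs.1], hs.2⟩
  have h := slope_le hm s
  rw [pureSlope, if_pos (abs_lt.2 ⟨by linarith [hs.1], hs.2⟩), abs_div, abs_pow, abs_of_pos hp,
    div_le_iff₀ (pow_pos hp _)] at h
  refine h.trans (le_of_eq ?_)
  rw [pow_succ _ (m + 1)]
  field_simp

theorem intervalIntegrable_pow_div (hφ : IsShape φ) (k : ℕ) :
    IntervalIntegrable (fun t => φ t ^ k / ballShape t) volume 0 1 := by
  rw [intervalIntegrable_iff_integrableOn_Ioo_of_le zero_le_one]
  have h1 : IntegrableOn (fun s => 1 / ballShape s) (Ioo (0 : ℝ) 1) :=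
    (intervalIntegral.integrableOn_deriv_of_nonneg Real.continuous_arcsin.continuousOn
      (fun x hx => Real.hasDerivAt_arcsin (by linarith [hx.1]) hx.2.ne)
      (fun x _ => one_div_nonneg.2 (Real.sqrt_nonneg _))).mono_set Ioo_subset_Ioc_self
  refine (Integrable.bdd_mul h1 (f := fun t => φ t ^ k) (c := φ 0 ^ k) ?_ ?_).congr
    (Eventually.of_forall fun t => mul_one_div _ _)
  · exact (((shape_continuousOn hφ).mono (Ioo_subset_Ioo (by norm_num) le_rfl)).pow k)
      |>.aestronglyMeasurable measurableSet_Ioo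
  · filter_upwards [ae_restrict_mem measurableSet_Ioo] with t ht
    have hI : t ∈ Icc (-1 : ℝ) 1 := ⟨by linarith [ht.1], ht.2.le⟩
    rw [Real.norm_eq_abs, abs_pow, abs_of_nonneg (hφ.nonneg t hI)]
    exact pow_le_pow_left₀ (hφ.nonneg t hI) (shape_le_centre hφ hI) k

/-- The integrand of the linear part is integrable. -/
theorem intervalIntegrable_linear (hm : 1 ≤ m) (hφ : IsShape φ) :
    IntervalIntegrable (fun t => m * φ t ^ m / ballShape t ^ 2 *
      (shapeRho φ t * pureInner m t / ballShape t ^ m)) volume 0 1 := by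
  rw [intervalIntegrable_iff_integrableOn_Ioo_of_le zero_le_one]
  have hsub : Ioo (0 : ℝ) 1 ⊆ Ioo (-1) 1 := Ioo_subset_Ioo (by norm_num) le_rfl
  have hc : ContinuousOn φ (Ioo 0 1) := (shape_continuousOn hφ).mono hsub
  have hb : ∀ k : ℕ, ∀ t ∈ Ioo (0 : ℝ) 1, |φ t ^ k| ≤ φ 0 ^ k := fun k t ht => by
    have hI : t ∈ Icc (-1 : ℝ) 1 := ⟨by linarith [ht.1], ht.2.le⟩
    rw [abs_pow, abs_of_nonneg (hφ.nonneg t hI)]
    exact pow_le_pow_left₀ (hφ.nonneg t hI) (shape_le_centre hφ hI) k
  have hS : IntegrableOn (fun t => pureSlope m t * (m * t * φ t ^ m)) (Ioo (0 : ℝ) 1) := by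
    refine Integrable.mul_bdd (c := m * φ 0 ^ m) (integrable_slope hm).integrableOn
      ((((continuous_const.mul continuous_id).continuousOn).mul (hc.pow m)).aestronglyMeasurable
        measurableSet_Ioo) ?_
    filter_upwards [ae_restrict_mem measurableSet_Ioo] with t ht
    rw [Real.norm_eq_abs, abs_mul, abs_mul, Nat.abs_cast, abs_of_pos ht.1]
    exact mul_le_mul (mul_le_of_le_one_right (Nat.cast_nonneg _) ht.2.le) (hb m t ht)
      (abs_nonneg _) (Nat.cast_nonneg _)
  have hD : IntegrableOn (fun t =>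
      (m * φ t ^ (m - 1) * (pureSlope m t * (1 - t ^ 2))) * deriv φ t) (Ioo (0 : ℝ) 1) := by
    refine Integrable.bdd_mul (c := m * φ 0 ^ (m - 1) * (|ballRatio m| + 1))
      ((intervalIntegrable_iff_integrableOn_Ioo_of_le zero_le_one).1
        ((intervalIntegrable_shape_deriv hφ).mono_set (by
          rw [uIcc_of_le zero_le_one, uIcc_of_le (by norm_num : (-1 : ℝ) ≤ 1)]
          exact Icc_subset_Icc (by norm_num) le_rfl))) ?_ ?_
    · exact ((continuousOn_const.mul (hc.pow _)).aestronglyMeasurable measurableSet_Ioo).mul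
        ((integrable_slope hm).aestronglyMeasurable.restrict.mul
          (Continuous.aestronglyMeasurable (by fun_prop)))
    filter_upwards [ae_restrict_mem measurableSet_Ioo] with t ht
    have hI : t ∈ Ioo (-1 : ℝ) 1 := hsub ht
    have hp := ball_pos hI
    have hp1 : ballShape t ≤ 1 := Real.sqrt_le_one.2 (by nlinarith [ht.1])
    have hs := slope_le hm t
    rw [Real.norm_eq_abs, abs_mul, abs_mul, abs_mul, Nat.abs_cast,
      ← ball_sq (Ioo_subset_Icc_self hI), abs_pow, abs_pow, abs_of_pos hp]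
    refine mul_le_mul (mul_le_mul_of_nonneg_left ?_ (Nat.cast_nonneg _)) ?_
      (mul_nonneg (abs_nonneg _) (sq_nonneg _))
      (mul_nonneg (Nat.cast_nonneg _) (pow_nonneg hφ.centre.le _))
    · have := hb (m - 1) t ht
      rwa [abs_pow] at this
    · refine (mul_le_mul_of_nonneg_right hs (sq_nonneg _)).trans ?_
      rw [mul_assoc]
      refine mul_le_of_le_one_right (by positivity) ?_
      rw [one_div, inv_mul_le_iff₀ hp]
      nlinarith
  refine (Integrable.add hS hD).congr ?_
  filter_upwards [ae_restrict_of_ae (shapeRho_ae hφ), ae_restrict_mem measurableSet_Ioo] with t h ht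
  have hI : t ∈ Ioo (-1 : ℝ) 1 := hsub ht
  have hpos := (shape_pos hφ hI).ne'
  have hp := (ball_pos hI).ne'
  obtain ⟨k, rfl⟩ : ∃ k, m = k + 1 := ⟨m - 1, by omega⟩
  simp only [Pi.add_apply, pureSlope, if_pos (abs_lt.2 hI), (h ht).2.1, Nat.add_sub_cancel,
    pow_succ _ (k + 1 + 1)]
  field_simp
  ring

/-- The linear part is the difference of the two moments. -/
theorem linear_part (hm : 1 ≤ m) (hφ : IsShape φ) :
    (∫ t in (0 : ℝ)..1, m * φ t ^ m / ballShape t ^ 2 *
      (shapeRho φ t * pureInner m t / ballShape t ^ m)) =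
      (∫ t in (0 : ℝ)..1, φ t ^ m / ballShape t) - ballRatio m * mass m φ 1 := by
  set P : ℝ → ℝ := fun t => pureInner m t / ballShape t ^ m * φ t ^ m with hP
  have hp1 : ballShape 1 = 0 := by simp [ballShape]
  have hIc : Continuous (pureInner m) :=
    continuous_iff_continuousAt.2 fun s => (hasDerivAt_inner s).continuousAt
  have hcont : ContinuousOn P (Icc 0 1) := by
    intro t ht
    rcases ht.2.eq_or_lt with rfl | h1
    · have hP1 : P 1 = 0 := by simp [hP, inner_one]
      rw [ContinuousWithinAt, hP1]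
      refine squeeze_zero_norm' (a := fun t => (|ballRatio m| + 1) * φ 0 ^ m * ballShape t) ?_ ?_
      · filter_upwards [self_mem_nhdsWithin] with s hs
        rcases hs.2.eq_or_lt with rfl | h2
        · simp [hP1, hp1]
        have hI : s ∈ Icc (-1 : ℝ) 1 := ⟨by linarith [hs.1], hs.2⟩
        have hp : 0 < ballShape s := ball_pos ⟨by linarith [hs.1], h2⟩
        have hin := abs_pureInner_le hm ⟨hs.1, h2⟩
        simp only [hP, Real.norm_eq_abs, abs_mul, abs_div, abs_pow, abs_of_pos hp,
          abs_of_nonneg (hφ.nonneg s hI)]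
        rw [mul_right_comm (|ballRatio m| + 1)]
        refine mul_le_mul ?_ (pow_le_pow_left₀ (hφ.nonneg s hI) (shape_le_centre hφ hI) m)
          (pow_nonneg (hφ.nonneg s hI) _) (by positivity)
        rw [div_le_iff₀ (pow_pos hp _)]
        exact hin.trans (le_of_eq (by ring))
      · exact ((continuous_const.mul cont_ball).tendsto' 1 _ (by simp [hp1])).mono_left
          nhdsWithin_le_nhds
    · have hI : t ∈ Ioo (-1 : ℝ) 1 := ⟨by linarith [ht.1], h1⟩
      exact ((hIc.continuousAt.div (cont_pow m).continuousAt (pow_pos (ball_pos hI) m).ne').mul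
        (((shape_continuousOn hφ).continuousAt (isOpen_Ioo.mem_nhds hI)).pow m)).continuousWithinAt
  set D : ℝ → ℝ := fun t => ballRatio m * φ t ^ m - φ t ^ m / ballShape t +
    m * φ t ^ m / ballShape t ^ 2 * (shapeRho φ t * pureInner m t / ballShape t ^ m) with hD
  have i0 : IntervalIntegrable (fun t => φ t ^ m) volume 0 1 :=
    (intervalIntegrable_shape_pow hφ m).mono_set (by
      rw [uIcc_of_le zero_le_one, uIcc_of_le (by norm_num : (-1 : ℝ) ≤ 1)]
      exact Icc_subset_Icc (by norm_num) le_rfl)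
  have i1 := intervalIntegrable_pow_div hφ m
  have i2 := intervalIntegrable_linear hm hφ
  have hder : ∀ t ∈ Ioo (0 : ℝ) 1, HasDerivWithinAt P (D t) (Ioi t) t := by
    intro t ht
    have hI : t ∈ Ioo (-1 : ℝ) 1 := ⟨by linarith [ht.1], ht.2⟩
    have hp := (ball_pos hI).ne'
    have hpos := (shape_pos hφ hI).ne'
    refine (((hasDerivAt_inner (m := m) t).div ((hasDerivAt_ball hI).pow m)
      (pow_ne_zero _ hp)).hasDerivWithinAt.mul
      ((hasDerivWithinAt_dright hφ hI).pow m)).congr_deriv ?_
    obtain ⟨k, rfl⟩ : ∃ k, m = k + 1 := ⟨m - 1, by omega⟩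
    simp only [hD, shapeRho, Pi.pow_apply, Pi.div_apply, Nat.add_sub_cancel,
      ← ball_sq (Ioo_subset_Icc_self hI)]
    push_cast
    field_simp
    ring
  have h := intervalIntegral.integral_eq_sub_of_hasDeriv_right_of_le zero_le_one hcont hder
    (((i0.const_mul _).sub i1).add i2)
  have hP0 : P 0 = 0 := by simp [hP, pureInner]
  have hP1 : P 1 = 0 := by simp [hP, inner_one]
  rw [hP0, hP1, sub_zero, hD, intervalIntegral.integral_add ((i0.const_mul _).sub i1) i2,
    intervalIntegral.integral_sub (i0.const_mul _) i1, intervalIntegral.integral_const_mul] at h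
  rw [mass]
  linarith

/-- The value of the pure weight, split exactly. -/
theorem convexVal_pureG_eq (hm : 1 ≤ m) (hφ : IsShape φ) :
    IntervalIntegrable (fun t => m * φ t ^ m / ballShape t ^ 2 * pureBreg m t (shapeRho φ t))
        volume 0 1 ∧
      convexVal m (pureG m) φ * mass m φ 1 =
        ballRatio m * mass m φ 1 - (∫ t in (0 : ℝ)..1, φ t ^ m / ballShape t) +
          ∫ t in (0 : ℝ)..1, m * φ t ^ m / ballShape t ^ 2 * pureBreg m t (shapeRho φ t) := by
  set R : ℝ → ℝ := fun t => m * φ t ^ (m - 1) * (φ t - t * deriv φ t) *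
    (pureG m (-deriv φ t / (φ t - t * deriv φ t)) - pureG m t) with hR
  have hM : 0 < mass m φ 1 :=
    intervalIntegral.intervalIntegral_pos_of_pos_on
      ((intervalIntegrable_shape_pow hφ m).mono_set (by
        rw [uIcc_of_le zero_le_one, uIcc_of_le (by norm_num : (-1 : ℝ) ≤ 1)]
        exact Icc_subset_Icc (by norm_num) le_rfl))
      (fun s hs' => pow_pos (shape_pos hφ ⟨by linarith [hs'.1], hs'.2⟩) m) zero_lt_one
  have hsub : Ioo (0 : ℝ) 1 ⊆ Ioo (-1) 1 := Ioo_subset_Ioo (by norm_num) le_rfl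
  have hc : ContinuousOn φ (Ioo 0 1) := (shape_continuousOn hφ).mono hsub
  have hid : IntegrableOn (deriv φ) (Ioo (0 : ℝ) 1) :=
    ((intervalIntegrable_iff_integrableOn_Ioo_of_le (by norm_num)).1
      (intervalIntegrable_shape_deriv hφ)).mono_set hsub
  have iR : IntervalIntegrable R volume 0 1 := by
    rw [intervalIntegrable_iff_integrableOn_Ioo_of_le zero_le_one]
    obtain ⟨B, hB⟩ := (isCompact_Icc (a := (-1 : ℝ)) (b := 1)).exists_bound_of_continuousOn
      (continuous_pureG hm).continuousOn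
    have i1 : IntegrableOn (fun t => φ t - t * deriv φ t) (Ioo (0 : ℝ) 1) :=
      (((intervalIntegrable_iff_integrableOn_Ioo_of_le (by norm_num)).1
        ((intervalIntegrable_shape_pow hφ 1).congr fun t _ => pow_one _)).mono_set hsub).sub
        (Integrable.bdd_mul (c := 1) hid continuous_id.aestronglyMeasurable (by
          filter_upwards [ae_restrict_mem measurableSet_Ioo] with t ht
          rw [Real.norm_eq_abs, abs_of_pos ht.1]
          exact ht.2.le))
    refine (i1.bdd_mul (f := fun t => m * φ t ^ (m - 1) *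
      (pureG m (-deriv φ t / (φ t - t * deriv φ t)) - pureG m t))
      (c := m * φ 0 ^ (m - 1) * (B + B)) ?_ ?_).congr (Eventually.of_forall fun t => ?_)
    · refine ((continuousOn_const.mul (hc.pow _)).aestronglyMeasurable measurableSet_Ioo).mul
        (((continuous_pureG hm).comp_aestronglyMeasurable ?_).sub
          (continuous_pureG hm).aestronglyMeasurable)
      exact ((measurable_deriv φ).neg.aemeasurable.div ((hc.aemeasurable measurableSet_Ioo).sub
        (measurable_id.aemeasurable.mul (measurable_deriv φ).aemeasurable))).aestronglyMeasurable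
    · filter_upwards [ae_restrict_of_ae (shape_ae_differentiable hφ),
        ae_restrict_mem measurableSet_Ioo] with t hd ht
      have hI := hsub ht
      have hb := (neg_deriv_div_bound hφ hI (hd hI)).2
      rw [Real.norm_eq_abs, abs_mul, abs_mul, Nat.abs_cast, abs_pow,
        abs_of_nonneg (hφ.nonneg t (Ioo_subset_Icc_self hI))]
      exact mul_le_mul (mul_le_mul_of_nonneg_left (pow_le_pow_left₀
          (hφ.nonneg t (Ioo_subset_Icc_self hI)) (shape_le_centre hφ (Ioo_subset_Icc_self hI)) _)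
          (Nat.cast_nonneg _))
        ((abs_sub _ _).trans (add_le_add (hB _ (_root_.abs_le.1 hb)) (hB _ (Ioo_subset_Icc_self hI))))
        (abs_nonneg _) (mul_nonneg (Nat.cast_nonneg _) (pow_nonneg hφ.centre.le _))
    · simp only [hR]
      ring
  have i2 := intervalIntegrable_linear hm hφ
  have hae : ∀ᵐ t, t ∈ uIoc (0 : ℝ) 1 →
      m * φ t ^ m / ballShape t ^ 2 * pureBreg m t (shapeRho φ t) =
        R t + m * φ t ^ m / ballShape t ^ 2 * (shapeRho φ t * pureInner m t / ballShape t ^ m) := by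
    filter_upwards [shapeRho_ae hφ, Measure.ae_ne volume (1 : ℝ)] with t h h1 ht
    rw [uIoc_of_le zero_le_one] at ht
    have hI : t ∈ Ioo (-1 : ℝ) 1 := ⟨by linarith [ht.1], lt_of_le_of_ne ht.2 h1⟩
    obtain ⟨hd, e, hb⟩ := h ⟨ht.1, hI.2⟩
    have hpos := (shape_pos hφ hI)
    obtain ⟨hA, -⟩ := neg_deriv_div_bound hφ hI hd
    have hp : ballShape t ^ 2 ≠ 0 := pow_ne_zero _ (ball_pos hI).ne'
    have hsq := ball_sq (Ioo_subset_Icc_self hI)
    have e1 : 1 - t * shapeRho φ t = ballShape t ^ 2 * (φ t - t * deriv φ t) / φ t := by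
      rw [e, hsq]
      field_simp
      ring
    have e2 : (t - shapeRho φ t) / (1 - t * shapeRho φ t) =
        -deriv φ t / (φ t - t * deriv φ t) := by
      rw [e1, show t - shapeRho φ t = ballShape t ^ 2 * -deriv φ t / φ t by rw [e, hsq]; ring,
        div_div_div_cancel_right₀ hpos.ne', mul_div_mul_left _ _ hp]
    obtain ⟨k, rfl⟩ : ∃ k, m = k + 1 := ⟨m - 1, by omega⟩
    simp only [pureBreg, hR, Nat.add_sub_cancel]
    rw [e2, e1]
    have := (ball_pos hI).ne'
    field_simp
    ring
  refine ⟨(iR.add i2).congr_ae ?_, ?_⟩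
  · rw [EventuallyEq, ae_restrict_iff' measurableSet_uIoc]
    filter_upwards [hae] with t h ht
    exact (h ht).symm
  · rw [intervalIntegral.integral_congr_ae hae, intervalIntegral.integral_add iR i2,
      linear_part hm hφ, convexVal, div_mul_cancel₀ _ hM.ne']
    ring

end Vale.Agent.P237.Quant
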