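import Mathlib
import Vale.Agent.P237.Quant.Bregman

/-!
The pure lemma follows from two linear weighted Poincaré inequalities in `u = √((φ / p) ^ m)`,
given bounds on the excess of the power constraint over its linearisation.
-/

namespace Vale.Agent.P237.Quant

open MeasureTheory Set Filter Topology

variable {m : ℕ} {φ : ℝ → ℝ} {Q U Phi W : ℝ → ℝ}

/-- The mean for the weight `p ^ (m - 1)` on `[0, 1]`. -/
noncomputable def specMean (m : ℕ) (g : ℝ → ℝ) : ℝ :=
  (∫ t in (0 : ℝ)..1, ballShape t ^ (m - 1) * g t) / mass (m - 1) ballShape 1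

/-- The square root of the density of a profile against that of the ball. -/
noncomputable def specU (m : ℕ) (φ : ℝ → ℝ) (t : ℝ) : ℝ := √((φ t / ballShape t) ^ m)

/-- The right derivative of `specU`. -/
noncomputable def specU' (m : ℕ) (φ : ℝ → ℝ) (t : ℝ) : ℝ :=
  (m : ℝ) / 2 * specU m φ t * shapeRho φ t / ballShape t ^ 2

/-- The mean of `specU`. -/
noncomputable def specM (m : ℕ) (φ : ℝ → ℝ) : ℝ := specMean m (specU m φ)

/-- The relative fluctuation of `specU`. -/
noncomputable def specV (m : ℕ) (φ : ℝ → ℝ) (t : ℝ) : ℝ := specU m φ t / specM m φ - 1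

/-- The energy, for a lower bound `Q t * r ^ 2` of the Bregman remainder. -/
noncomputable def specEnergy (m : ℕ) (Q w : ℝ → ℝ) : ℝ :=
  (∫ t in (0 : ℝ)..1, 4 / m * Q t * ballShape t ^ (m + 2) * w t ^ 2) / mass (m - 1) ballShape 1

/-- The linear term. -/
noncomputable def specLin (m : ℕ) (v : ℝ → ℝ) : ℝ :=
  specMean m fun t => 2 * (ballRatio m * ballShape t - 1) * v t

/-- A quadratic form with potential `W`. -/
noncomputable def specQuad (m : ℕ) (W v : ℝ → ℝ) : ℝ := specMean m fun t => W t * v t ^ 2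

/-- The quadratic bound on the positive side. -/
noncomputable def specA2 (m : ℕ) (v : ℝ → ℝ) : ℝ :=
  specQuad m (fun t => max (1 - ballRatio m * ballShape t) 0) v

/-- The lower bound of the value, in `specU`. -/
noncomputable def specGoal (m : ℕ) (Q φ : ℝ → ℝ) : ℝ :=
  specMean m (fun t => (ballRatio m * ballShape t - 1) * specU m φ t ^ 2) +
    specEnergy m Q (specU' m φ)

/-- The gap between the second and the `2 - 2 / m` norm of `specU`, relative to its mean. -/
noncomputable def specExcess (m : ℕ) (φ : ℝ → ℝ) : ℝ :=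
  (specMean m (fun t => specU m φ t ^ 2) -
    specMean m (fun t => specU m φ t ^ (2 - 2 / (m : ℝ))) ^ ((m : ℝ) / (m - 1))) / specM m φ ^ 2

/-- The surplus of the value over its lower bound, relative to the mean. -/
noncomputable def specSurplus (m : ℕ) (Q φ : ℝ → ℝ) : ℝ :=
  (convexVal m (pureG m) φ * mass m φ 1 / mass (m - 1) ballShape 1 - specGoal m Q φ) /
    specM m φ ^ 2

/-- The functions on which the linear inequalities are needed. -/
structure IsSpecTest (m : ℕ) (Q v v' : ℝ → ℝ) : Prop where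
  cont : ContinuousOn v (Ico 0 1)
  deriv : ∀ t ∈ Ioo (0 : ℝ) 1, HasDerivWithinAt v (v' t) (Ioi t) t
  deriv_int : ∀ b ∈ Ico (0 : ℝ) 1, IntervalIntegrable v' volume 0 b
  growth : ∃ C, ∀ t ∈ Ico (0 : ℝ) 1, ballShape t ^ m * v t ^ 2 ≤ C
  energy : IntervalIntegrable (fun t => 4 / m * Q t * ballShape t ^ (m + 2) * v' t ^ 2) volume 0 1
  mean : ∫ t in (0 : ℝ)..1, ballShape t ^ (m - 1) * v t = 0
  range : ∀ t ∈ Ioo (0 : ℝ) 1, -1 ≤ v t

theorem specU_pos (hφ : IsShape φ) {t : ℝ} (ht : t ∈ Ioo (-1 : ℝ) 1) : 0 < specU m φ t :=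
  Real.sqrt_pos.2 (pow_pos (div_pos (shape_pos hφ ht) (ball_pos ht)) m)

theorem specU_sq (hφ : IsShape φ) {t : ℝ} (ht : t ∈ Ioo (-1 : ℝ) 1) :
    specU m φ t ^ 2 = (φ t / ballShape t) ^ m :=
  Real.sq_sqrt (pow_pos (div_pos (shape_pos hφ ht) (ball_pos ht)) m).le

theorem continuousOn_specU (hφ : IsShape φ) : ContinuousOn (specU m φ) (Ioo (-1) 1) :=
  ((((shape_continuousOn hφ).div cont_ball.continuousOn fun _ ht => (ball_pos ht).ne')).pow m).sqrt

theorem hasDeriv_specU (hm : 1 ≤ m) (hφ : IsShape φ) {t : ℝ} (ht : t ∈ Ioo (-1 : ℝ) 1) :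
    HasDerivWithinAt (specU m φ) (specU' m φ t) (Ioi t) t := by
  have hp := ball_pos ht
  have hpos := shape_pos hφ ht
  have hq : 0 < (φ t / ballShape t) ^ m := pow_pos (div_pos hpos hp) m
  refine ((((hasDerivWithinAt_dright hφ ht).div (hasDerivAt_ball ht).hasDerivWithinAt hp.ne').pow
    m).sqrt hq.ne').congr_deriv ?_
  have hs : specU m φ t ≠ 0 := (specU_pos hφ ht).ne'
  have hsq := specU_sq (m := m) hφ ht
  obtain ⟨k, rfl⟩ : ∃ k, m = k + 1 := ⟨m - 1, by omega⟩
  simp only [Pi.pow_apply, Pi.div_apply, Nat.add_sub_cancel]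
  change _ / (2 * specU (k + 1) φ t) = _
  rw [specU', shapeRho, div_eq_iff (mul_ne_zero two_ne_zero hs)]
  rw [show ((k + 1 : ℕ) : ℝ) / 2 * specU (k + 1) φ t * (t + (1 - t ^ 2) * dright φ t / φ t) /
      ballShape t ^ 2 * (2 * specU (k + 1) φ t) = ((k + 1 : ℕ) : ℝ) * specU (k + 1) φ t ^ 2 *
      (t + (1 - t ^ 2) * dright φ t / φ t) / ballShape t ^ 2 by ring, hsq,
    ← ball_sq (Ioo_subset_Icc_self ht), div_pow, div_pow, pow_succ (φ t), pow_succ (ballShape t)]
  field_simp
  ring

theorem intervalIntegrable_shape_pow01 (hφ : IsShape φ) (k : ℕ) :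
    IntervalIntegrable (fun t => φ t ^ k) volume 0 1 :=
  (intervalIntegrable_shape_pow hφ k).mono_set (by
    rw [uIcc_of_le zero_le_one, uIcc_of_le (by norm_num : (-1 : ℝ) ≤ 1)]
    exact Icc_subset_Icc (by norm_num) le_rfl)

theorem weight_sq (hm : 1 ≤ m) (hφ : IsShape φ) {t : ℝ} (ht : t ∈ Ioo (-1 : ℝ) 1) :
    ballShape t ^ (m - 1) * specU m φ t ^ 2 = φ t ^ m / ballShape t := by
  obtain ⟨k, rfl⟩ : ∃ k, m = k + 1 := ⟨m - 1, by omega⟩
  have := (ball_pos ht).ne'
  rw [specU_sq hφ ht, div_pow, Nat.add_sub_cancel, pow_succ (ballShape t)]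
  field_simp

/-- The right exponent turns `specU` into a power of the density. -/
theorem specU_rpow (hm : 1 ≤ m) (hφ : IsShape φ) {t : ℝ} (ht : t ∈ Ioo (-1 : ℝ) 1) :
    specU m φ t ^ (2 - 2 / (m : ℝ)) = (φ t / ballShape t) ^ (m - 1) := by
  have hq := (div_pos (shape_pos hφ ht) (ball_pos ht)).le
  rw [specU, Real.sqrt_eq_rpow, ← Real.rpow_natCast (φ t / ballShape t) m, ← Real.rpow_mul hq,
    ← Real.rpow_mul hq, ← Real.rpow_natCast (φ t / ballShape t) (m - 1)]
  congr 1
  have : (m : ℝ) ≠ 0 := Nat.cast_ne_zero.2 (by omega)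
  push_cast [Nat.cast_sub hm]
  field_simp

/-- A Bernoulli inequality between the powers `k` and `k + 1`. -/
theorem pow_le_pow_succ_of_bernoulli {k : ℕ} (hk : 1 ≤ k) {Y : ℝ}
    (hY : 0 ≤ 1 + ((k : ℝ) + 1) / k * Y) :
    0 ≤ 1 + Y ∧ (1 + ((k : ℝ) + 1) / k * Y) ^ k ≤ (1 + Y) ^ (k + 1) := by
  have hk0 : (1 : ℝ) ≤ k := by exact_mod_cast hk
  set a := 1 + ((k : ℝ) + 1) / k * Y with ha
  have hb : 1 + Y = ((k : ℝ) * a + 1) / (k + 1) := by rw [ha]; field_simp; ring
  have hb0 : 0 < 1 + Y := by rw [hb]; positivity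
  refine ⟨hb0.le, ?_⟩
  rcases hY.eq_or_lt with h0 | hpos
  · rw [← h0, zero_pow (by omega)]
    positivity
  have h := one_add_mul_le_pow (a := (1 + Y) / a - 1)
    (by linarith [div_pos hb0 hpos]) (k + 1)
  rw [show 1 + ((1 + Y) / a - 1) = (1 + Y) / a by ring, div_pow, le_div_iff₀ (pow_pos hpos _)] at h
  refine le_trans (le_of_eq ?_) h
  rw [hb, pow_succ a k]
  push_cast
  field_simp
  ring

theorem integral_congr01 {f g : ℝ → ℝ} (h : ∀ t ∈ Ioo (0 : ℝ) 1, f t = g t) :
    ∫ t in (0 : ℝ)..1, f t = ∫ t in (0 : ℝ)..1, g t := by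
  refine intervalIntegral.integral_congr_ae ?_
  filter_upwards [Measure.ae_ne volume (1 : ℝ)] with t h1 ht
  rw [uIoc_of_le zero_le_one] at ht
  exact h t ⟨ht.1, lt_of_le_of_ne ht.2 h1⟩

theorem interval_iff01 {f : ℝ → ℝ} :
    IntervalIntegrable f volume 0 1 ↔ IntegrableOn f (Ioo (0 : ℝ) 1) :=
  intervalIntegrable_iff_integrableOn_Ioo_of_le zero_le_one

theorem sub01 : Ioo (0 : ℝ) 1 ⊆ Ioo (-1) 1 := Ioo_subset_Ioo (by norm_num) le_rfl

theorem intervalIntegrable_wu2 (hm : 1 ≤ m) (hφ : IsShape φ) :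
    IntervalIntegrable (fun t => ballShape t ^ (m - 1) * specU m φ t ^ 2) volume 0 1 := by
  refine interval_iff01.2 ((interval_iff01.1 (intervalIntegrable_pow_div hφ m)).congr_fun
    (fun t ht => ?_) measurableSet_Ioo)
  exact (weight_sq hm hφ (sub01 ht)).symm

theorem intervalIntegrable_wpu2 (hm : 1 ≤ m) (hφ : IsShape φ) :
    IntervalIntegrable (fun t => ballShape t ^ (m - 1) * (ballShape t * specU m φ t ^ 2))
        volume 0 1 ∧
      ∫ t in (0 : ℝ)..1, ballShape t ^ (m - 1) * (ballShape t * specU m φ t ^ 2) = mass m φ 1 := by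
  have e : ∀ t ∈ Ioo (0 : ℝ) 1,
      φ t ^ m = ballShape t ^ (m - 1) * (ballShape t * specU m φ t ^ 2) := fun t ht => by
    rw [mul_left_comm, weight_sq hm hφ (sub01 ht), mul_div_cancel₀ _ (ball_pos (sub01 ht)).ne']
  exact ⟨interval_iff01.2 ((interval_iff01.1 (intervalIntegrable_shape_pow01 hφ m)).congr_fun e
    measurableSet_Ioo), integral_congr01 fun t ht => (e t ht).symm⟩

theorem intervalIntegrable_wu (hm : 1 ≤ m) (hφ : IsShape φ) :
    IntervalIntegrable (fun t => ballShape t ^ (m - 1) * specU m φ t) volume 0 1 := by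
  refine interval_iff01.2 (Integrable.mono' (interval_iff01.1 (((cont_pow (m - 1)).intervalIntegrable
      (μ := volume) 0 1).add (intervalIntegrable_wu2 hm hφ)))
    (((cont_pow _).continuousOn.mul ((continuousOn_specU hφ).mono sub01)).aestronglyMeasurable
      measurableSet_Ioo) ?_)
  filter_upwards [ae_restrict_mem measurableSet_Ioo] with t ht
  have hw : 0 ≤ ballShape t ^ (m - 1) := pow_nonneg (Real.sqrt_nonneg _) _
  have h0 := (specU_pos (m := m) hφ (sub01 ht)).le
  have : specU m φ t ≤ 1 + specU m φ t ^ 2 := by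
    nlinarith [sq_nonneg (specU m φ t - 1), sq_nonneg (specU m φ t)]
  rw [Real.norm_eq_abs, abs_of_nonneg (mul_nonneg hw h0)]
  linarith [mul_le_mul_of_nonneg_left this hw]

theorem specM_mul (m : ℕ) (φ : ℝ → ℝ) :
    (∫ t in (0 : ℝ)..1, ballShape t ^ (m - 1) * specU m φ t) =
      specM m φ * mass (m - 1) ballShape 1 := by
  rw [specM, specMean, div_mul_cancel₀ _ (ball_mass_pos _).ne']

theorem specM_pos (hm : 1 ≤ m) (hφ : IsShape φ) : 0 < specM m φ :=
  div_pos (intervalIntegral.intervalIntegral_pos_of_pos_on (intervalIntegrable_wu hm hφ)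
    (fun _ ht => mul_pos (pow_pos (ball_pos (sub01 ht)) _) (specU_pos hφ (sub01 ht))) zero_lt_one)
    (ball_mass_pos _)

theorem specU_eq (hm : 1 ≤ m) (hφ : IsShape φ) (t : ℝ) :
    specU m φ t = specM m φ * (1 + specV m φ t) := by
  have := (specM_pos hm hφ).ne'
  simp only [specV]
  field_simp
  ring

theorem intervalIntegrable_wv (hm : 1 ≤ m) (hφ : IsShape φ) :
    IntervalIntegrable (fun t => ballShape t ^ (m - 1) * specV m φ t) volume 0 1 :=
  (((intervalIntegrable_wu hm hφ).div_const (specM m φ)).sub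
    ((cont_pow (m - 1)).intervalIntegrable _ _)).congr fun t _ => by simp only [specV]; ring

theorem mean_specV (hm : 1 ≤ m) (hφ : IsShape φ) :
    ∫ t in (0 : ℝ)..1, ballShape t ^ (m - 1) * specV m φ t = 0 := by
  rw [integral_congr01 (g := fun t => ballShape t ^ (m - 1) * specU m φ t / specM m φ -
      ballShape t ^ (m - 1)) (fun t _ => by simp only [specV]; ring),
    intervalIntegral.integral_sub ((intervalIntegrable_wu hm hφ).div_const _)
      ((cont_pow (m - 1)).intervalIntegrable _ _),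
    intervalIntegral.integral_div, specM_mul, mul_div_cancel_left₀ _ (specM_pos hm hφ).ne']
  exact sub_self _

theorem intervalIntegrable_wv2 (hm : 1 ≤ m) (hφ : IsShape φ) :
    IntervalIntegrable (fun t => ballShape t ^ (m - 1) * specV m φ t ^ 2) volume 0 1 :=
  ((((intervalIntegrable_wu2 hm hφ).div_const (specM m φ ^ 2)).sub
    ((intervalIntegrable_wu hm hφ).const_mul (2 / specM m φ))).add
    ((cont_pow (m - 1)).intervalIntegrable _ _)).congr fun t _ => by simp only [specV]; ring

theorem intervalIntegrable_quad (hm : 1 ≤ m) (hφ : IsShape φ) {g : ℝ → ℝ} (hg : Measurable g)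
    {C : ℝ} (hC : ∀ t ∈ Ioo (0 : ℝ) 1, |g t| ≤ C) :
    IntervalIntegrable (fun t => ballShape t ^ (m - 1) * (g t * specV m φ t ^ 2)) volume 0 1 := by
  refine interval_iff01.2 (((interval_iff01.1 (intervalIntegrable_wv2 hm hφ)).bdd_mul (c := C)
    hg.aestronglyMeasurable ?_).congr (Eventually.of_forall fun t => by ring))
  filter_upwards [ae_restrict_mem measurableSet_Ioo] with t ht
  exact hC t ht

theorem intervalIntegrable_lin (hm : 1 ≤ m) (hφ : IsShape φ) :
    IntervalIntegrable (fun t => ballShape t ^ (m - 1) *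
      (2 * (ballRatio m * ballShape t - 1) * specV m φ t)) volume 0 1 :=
  ((intervalIntegrable_wv hm hφ).continuousOn_mul
    (g := fun t => 2 * (ballRatio m * ballShape t - 1))
    ((((cont_ball.const_smul (ballRatio m)).sub continuous_const).const_smul (2 : ℝ)).continuousOn)
    ).congr fun t _ => by ring

theorem ball_le_one (t : ℝ) : ballShape t ≤ 1 := Real.sqrt_le_one.2 (by nlinarith)

theorem ballRatio_pos (m : ℕ) : 0 < ballRatio m := div_pos (ball_mass_pos _) (ball_mass_pos _)

theorem ball_bound (m : ℕ) {t : ℝ} : |ballRatio m * ballShape t| ≤ ballRatio m := by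
  rw [abs_of_nonneg (mul_nonneg (ballRatio_pos m).le (show 0 ≤ ballShape t from Real.sqrt_nonneg _))]
  exact mul_le_of_le_one_right (ballRatio_pos m).le (ball_le_one t)

theorem mass_expand (hm : 1 ≤ m) (hφ : IsShape φ) :
    ballRatio m * mass m φ 1 / specM m φ ^ 2 = mass (m - 1) ballShape 1 +
      specLin m (specV m φ) * mass (m - 1) ballShape 1 +
      ∫ t in (0 : ℝ)..1, ballShape t ^ (m - 1) *
        (ballRatio m * ballShape t * specV m φ t ^ 2) := by
  have hM := (specM_pos hm hφ).ne'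
  have j1 := intervalIntegrable_wv hm hφ
  have kL := intervalIntegrable_lin hm hφ
  have kb0 : IntervalIntegrable (fun t => ballRatio m * ballShape t ^ m) volume 0 1 :=
    ((cont_pow m).const_smul (ballRatio m)).intervalIntegrable _ _
  have kq := intervalIntegrable_quad hm hφ (g := fun t => ballRatio m * ballShape t)
    (cont_ball.const_smul (ballRatio m)).measurable (C := ballRatio m) fun t _ => ball_bound m
  rw [← (intervalIntegrable_wpu2 hm hφ).2, ← intervalIntegral.integral_const_mul,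
    ← intervalIntegral.integral_div,
    integral_congr01 (g := fun t => ballRatio m * ballShape t ^ m +
      (ballShape t ^ (m - 1) * (2 * (ballRatio m * ballShape t - 1) * specV m φ t) +
        2 * (ballShape t ^ (m - 1) * specV m φ t)) +
      ballShape t ^ (m - 1) * (ballRatio m * ballShape t * specV m φ t ^ 2)) (fun t _ => by
        rw [specU_eq hm hφ t, show ballShape t ^ m = ballShape t ^ (m - 1) * ballShape t by
          rw [← pow_succ, Nat.sub_add_cancel hm]]
        field_simp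
        ring)]
  rw [intervalIntegral.integral_add (kb0.add (kL.add (j1.const_mul 2))) kq,
    intervalIntegral.integral_add kb0 (kL.add (j1.const_mul 2)),
    intervalIntegral.integral_add kL (j1.const_mul 2), intervalIntegral.integral_const_mul,
    intervalIntegral.integral_const_mul, mean_specV hm hφ, specLin, specMean,
    div_mul_cancel₀ _ (ball_mass_pos _).ne']
  rw [show ballRatio m * (∫ t in (0 : ℝ)..1, ballShape t ^ m) = mass (m - 1) ballShape 1 from
    div_mul_cancel₀ _ (ball_mass_pos m).ne']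
  ring

theorem sq_expand (hm : 1 ≤ m) (hφ : IsShape φ) :
    (∫ t in (0 : ℝ)..1, φ t ^ m / ballShape t) / specM m φ ^ 2 = mass (m - 1) ballShape 1 +
      ∫ t in (0 : ℝ)..1, ballShape t ^ (m - 1) * specV m φ t ^ 2 := by
  have hM := (specM_pos hm hφ).ne'
  have i0 : IntervalIntegrable (fun t => ballShape t ^ (m - 1)) volume 0 1 :=
    (cont_pow _).intervalIntegrable _ _
  have j1 := intervalIntegrable_wv hm hφ
  rw [← integral_congr01 (fun t ht => weight_sq hm hφ (sub01 ht)), ← intervalIntegral.integral_div,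
    integral_congr01 (g := fun t => ballShape t ^ (m - 1) +
      2 * (ballShape t ^ (m - 1) * specV m φ t) + ballShape t ^ (m - 1) * specV m φ t ^ 2)
      (fun t _ => by
        rw [specU_eq hm hφ t]
        field_simp
        ring),
    intervalIntegral.integral_add (i0.add (j1.const_mul 2)) (intervalIntegrable_wv2 hm hφ),
    intervalIntegral.integral_add i0 (j1.const_mul 2), intervalIntegral.integral_const_mul,
    mean_specV hm hφ, mul_zero, add_zero]
  rfl

/-- The value is at least the goal, and the energy of `specU` is finite. -/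
theorem goal_le_value (hm : 1 ≤ m) (hφ : IsShape φ) (hQ0 : ∀ t ∈ Ioo (0 : ℝ) 1, 0 ≤ Q t)
    (hQm : Measurable Q)
    (hQ : ∀ t ∈ Ioo (0 : ℝ) 1, ∀ r ∈ Icc (-1 : ℝ) 1, Q t * r ^ 2 ≤ pureBreg m t r) :
    IntervalIntegrable (fun t => 4 / m * Q t * ballShape t ^ (m + 2) * specU' m φ t ^ 2) volume 0 1 ∧
    0 ≤ specEnergy m Q (specU' m φ) ∧
    specGoal m Q φ * mass (m - 1) ballShape 1 = ballRatio m * mass m φ 1 -
      (∫ t in (0 : ℝ)..1, φ t ^ m / ballShape t) +
      specEnergy m Q (specU' m φ) * mass (m - 1) ballShape 1 ∧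
    specGoal m Q φ * mass (m - 1) ballShape 1 ≤ convexVal m (pureG m) φ * mass m φ 1 := by
  have hP0 := (ball_mass_pos (m - 1)).ne'
  obtain ⟨iB, hval⟩ := convexVal_pureG_eq hm hφ
  set En : ℝ → ℝ := fun t => 4 / m * Q t * ballShape t ^ (m + 2) * specU' m φ t ^ 2 with hEn
  have hEnB : ∀ᵐ t ∂volume.restrict (Ioo (0 : ℝ) 1), 0 ≤ En t ∧
      En t ≤ m * φ t ^ m / ballShape t ^ 2 * pureBreg m t (shapeRho φ t) := by
    filter_upwards [ae_restrict_of_ae (shapeRho_ae hφ), ae_restrict_mem measurableSet_Ioo]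
      with t h ht
    have hp := ball_pos (sub01 ht)
    refine ⟨mul_nonneg (mul_nonneg (mul_nonneg (by positivity) (hQ0 t ht)) (pow_nonneg hp.le _))
      (sq_nonneg _), ?_⟩
    have e : En t = m * φ t ^ m / ballShape t ^ 2 * (Q t * shapeRho φ t ^ 2) := by
      simp only [hEn, specU']
      rw [show ∀ a b c d : ℝ, (a / 2 * b * c / d) ^ 2 = a ^ 2 / 4 * b ^ 2 * c ^ 2 / d ^ 2 by
        intros; ring, specU_sq hφ (sub01 ht), div_pow, pow_add]
      have : (m : ℝ) ≠ 0 := Nat.cast_ne_zero.2 (by omega)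
      have := hp.ne'
      field_simp
    rw [e]
    exact mul_le_mul_of_nonneg_left (hQ t ht _ (h ht).2.2)
      (div_nonneg (mul_nonneg (Nat.cast_nonneg _)
        (pow_nonneg (shape_pos hφ (sub01 ht)).le _)) (sq_nonneg _))
  have hu'm : AEStronglyMeasurable (specU' m φ) (volume.restrict (Ioo (0 : ℝ) 1)) := by
    have hρ : AEMeasurable (shapeRho φ) (volume.restrict (Ioo (0 : ℝ) 1)) :=
      measurable_id.aemeasurable.add (((measurable_const.sub (measurable_id.pow_const 2)).mul
        (measurable_derivWithin_Ioi φ)).aemeasurable.div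
        (((shape_continuousOn hφ).mono sub01).aemeasurable measurableSet_Ioo))
    exact (((aemeasurable_const.mul
      (((continuousOn_specU hφ).mono sub01).aemeasurable measurableSet_Ioo)).mul hρ).div
      (cont_pow 2).measurable.aemeasurable).aestronglyMeasurable
  have iEn : IntervalIntegrable En volume 0 1 := by
    refine interval_iff01.2 (Integrable.mono' (interval_iff01.1 iB) ?_ ?_)
    · exact ((hQm.const_mul _).mul (cont_pow _).measurable).aestronglyMeasurable.mul (hu'm.pow 2)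
    · filter_upwards [hEnB] with t ht
      rw [Real.norm_eq_abs, abs_of_nonneg ht.1]
      exact ht.2
  have hres := restrict_Ioo_eq_restrict_Icc (μ := volume) (a := (0 : ℝ)) (b := 1)
  rw [hres] at hEnB
  have hEB := intervalIntegral.integral_mono_ae_restrict zero_le_one iEn iB
    (hEnB.mono fun t ht => ht.2)
  have hE0 := intervalIntegral.integral_nonneg_of_ae_restrict (f := En) zero_le_one
    (hEnB.mono fun t ht => ht.1)
  obtain ⟨i3, hBu⟩ := intervalIntegrable_wpu2 hm hφ
  have i2 := intervalIntegrable_wu2 hm hφ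
  have hgoal : specGoal m Q φ * mass (m - 1) ballShape 1 = ballRatio m * mass m φ 1 -
      (∫ t in (0 : ℝ)..1, φ t ^ m / ballShape t) + ∫ t in (0 : ℝ)..1, En t := by
    rw [specGoal, specEnergy, specMean, ← add_div, div_mul_cancel₀ _ hP0, ← hBu,
      ← integral_congr01 (fun t ht => weight_sq hm hφ (sub01 ht)),
      ← intervalIntegral.integral_const_mul,
      ← intervalIntegral.integral_sub (i3.const_mul (ballRatio m)) i2]
    congr 1
    exact integral_congr01 fun t _ => by ring
  refine ⟨iEn, div_nonneg hE0 (ball_mass_pos _).le, ?_, ?_⟩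
  · rw [hgoal, specEnergy, div_mul_cancel₀ _ hP0]
  · rw [hgoal, hval]
    linarith

theorem mean_rpow (hm : 1 ≤ m) (hφ : IsShape φ) :
    specMean m (fun t => specU m φ t ^ (2 - 2 / (m : ℝ))) =
      (∫ t in (0 : ℝ)..1, φ t ^ (m - 1)) / mass (m - 1) ballShape 1 := by
  unfold specMean
  congr 1
  refine integral_congr01 fun t ht => ?_
  dsimp only
  rw [specU_rpow hm hφ (sub01 ht), div_pow,
    mul_div_cancel₀ _ (pow_ne_zero _ (ball_pos (sub01 ht)).ne')]

/-- The power constraint, exactly. -/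
theorem excess_lower (hm : 2 ≤ m) (hφ : IsShape φ) (hx : powRatio m φ ≤ 1) :
    0 ≤ specLin m (specV m φ) +
      specQuad m (fun t => ballRatio m * ballShape t - 1) (specV m φ) + specExcess m φ := by
  obtain ⟨k, rfl⟩ : ∃ k, m = k + 1 := ⟨m - 1, by omega⟩
  have hm1 : 1 ≤ k + 1 := by omega
  have hS0 := ball_mass_pos (k + 1)
  have hM0 := specM_pos hm1 hφ
  have hMφ : 0 < mass (k + 1) φ 1 :=
    intervalIntegral.intervalIntegral_pos_of_pos_on (intervalIntegrable_shape_pow01 hφ (k + 1))
      (fun s hs' => pow_pos (shape_pos hφ (sub01 hs')) (k + 1)) zero_lt_one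
  set P := mass (k + 1 - 1) ballShape 1 with hPdef
  have hP0 : 0 < P := ball_mass_pos _
  set S := mass (k + 1) ballShape 1 with hSdef
  set X := (∫ t in (0 : ℝ)..1, φ t ^ (k + 1 - 1)) / P with hXdef
  have hX0 : 0 ≤ X := div_nonneg (intervalIntegral.integral_nonneg_of_ae_restrict zero_le_one
    ((ae_restrict_mem measurableSet_Icc).mono fun t ht =>
      pow_nonneg (hφ.nonneg t ⟨by linarith [ht.1], ht.2⟩) _)) hP0.le
  have hXB : X ^ (k + 1) ≤ (mass (k + 1) φ 1 / S) ^ k := by
    have hb' : powVal (k + 1) ballShape = P ^ (k + 1) / S ^ k := rfl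
    have h := hx
    rw [powRatio, div_le_one (hb' ▸ div_pos (pow_pos hP0 _) (pow_pos hS0 _))] at h
    have hk : powVal (k + 1) φ =
        (∫ t in (0 : ℝ)..1, φ t ^ k) ^ (k + 1) / mass (k + 1) φ 1 ^ k := rfl
    rw [hk, hb', div_le_div_iff₀ (pow_pos hMφ _) (pow_pos hS0 _)] at h
    rw [hXdef, Nat.add_sub_cancel, div_pow, div_pow,
      div_le_div_iff₀ (pow_pos hP0 _) (pow_pos hS0 _)]
    linarith
  have hN : X ^ (((k + 1 : ℕ) : ℝ) / (((k + 1 : ℕ) : ℝ) - 1)) ≤ mass (k + 1) φ 1 / S := by
    refine le_of_pow_le_pow_left₀ (n := k) (by omega) (div_pos hMφ hS0).le ?_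
    rw [← Real.rpow_natCast, ← Real.rpow_mul hX0,
      show ((k + 1 : ℕ) : ℝ) / (((k + 1 : ℕ) : ℝ) - 1) * (k : ℝ) = ((k + 1 : ℕ) : ℝ) by
        have : (k : ℝ) ≠ 0 := Nat.cast_ne_zero.2 (by omega)
        push_cast
        rw [add_sub_cancel_right, div_mul_cancel₀ _ this], Real.rpow_natCast]
    exact hXB
  have h1 := intervalIntegrable_quad hm1 hφ (g := fun t => ballRatio (k + 1) * ballShape t)
    (cont_ball.const_smul (ballRatio (k + 1))).measurable (C := ballRatio (k + 1))
    fun t _ => ball_bound (k + 1)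
  have h2 := intervalIntegrable_wv2 hm1 hφ
  have eB : mass (k + 1) φ 1 / S / specM (k + 1) φ ^ 2 = 1 + specLin (k + 1) (specV (k + 1) φ) +
      (∫ t in (0 : ℝ)..1, ballShape t ^ (k + 1 - 1) *
        (ballRatio (k + 1) * ballShape t * specV (k + 1) φ t ^ 2)) / P := by
    have h := congrArg (fun z => z / P) (mass_expand hm1 hφ)
    simp only [← hPdef] at h
    rw [show ballRatio (k + 1) = P / S from rfl] at h ⊢
    field_simp at h ⊢
    linarith
  have eA : specMean (k + 1) (fun t => specU (k + 1) φ t ^ 2) / specM (k + 1) φ ^ 2 =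
      1 + (∫ t in (0 : ℝ)..1, ballShape t ^ (k + 1 - 1) * specV (k + 1) φ t ^ 2) / P := by
    rw [specMean, integral_congr01 (fun t ht => weight_sq hm1 hφ (sub01 ht)), div_right_comm,
      sq_expand hm1 hφ, ← hPdef, add_div, div_self hP0.ne']
  have e : specQuad (k + 1) (fun t => ballRatio (k + 1) * ballShape t - 1) (specV (k + 1) φ) =
      (∫ t in (0 : ℝ)..1, ballShape t ^ (k + 1 - 1) *
        (ballRatio (k + 1) * ballShape t * specV (k + 1) φ t ^ 2)) / P -
      (∫ t in (0 : ℝ)..1, ballShape t ^ (k + 1 - 1) * specV (k + 1) φ t ^ 2) / P := by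
    rw [specQuad, specMean, ← sub_div, ← intervalIntegral.integral_sub h1 h2]
    congr 1
    exact integral_congr01 fun t _ => by ring
  have hd := div_le_div_of_nonneg_right hN (sq_nonneg (specM (k + 1) φ))
  rw [specExcess, mean_rpow hm1 hφ, ← hPdef, ← hXdef, e, sub_div, eA]
  linarith

/-- A pointwise second-order lower bound of the power bounds the excess. -/
theorem excess_le (hm : 2 ≤ m) (hφ : IsShape φ) {g : ℝ → ℝ}
    (hgi : IntervalIntegrable (fun t => ballShape t ^ (m - 1) * g t) volume 0 1)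
    (hg : ∀ t ∈ Ioo (0 : ℝ) 1,
      1 + (2 - 2 / (m : ℝ)) * specV m φ t + g t ≤ (specU m φ t / specM m φ) ^ (2 - 2 / (m : ℝ))) :
    specExcess m φ ≤ specQuad m (fun _ => 1) (specV m φ) - m / (m - 1) * specMean m g := by
  obtain ⟨k, rfl⟩ : ∃ k, m = k + 1 := ⟨m - 1, by omega⟩
  have hm1 : 1 ≤ k + 1 := by omega
  have hk : (k : ℝ) ≠ 0 := Nat.cast_ne_zero.2 (by omega)
  have hM0 := specM_pos hm1 hφ
  set q : ℝ := 2 - 2 / ((k + 1 : ℕ) : ℝ) with hq
  set P := mass (k + 1 - 1) ballShape 1 with hPdef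
  have hP0 : 0 < P := ball_mass_pos _
  set Y := specMean (k + 1) g with hY
  set M := specM (k + 1) φ with hMdef
  set X := (∫ t in (0 : ℝ)..1, φ t ^ (k + 1 - 1)) / P with hXdef
  have i0 : IntervalIntegrable (fun t => ballShape t ^ (k + 1 - 1)) volume 0 1 :=
    (cont_pow _).intervalIntegrable _ _
  have j1 := intervalIntegrable_wv hm1 hφ
  have hX : M ^ q * (1 + Y) ≤ X := by
    rw [hXdef, le_div_iff₀ hP0, mul_assoc, one_add_mul, hY, specMean, ← hPdef,
      div_mul_cancel₀ _ hP0.ne']
    have e : P + (∫ t in (0 : ℝ)..1, ballShape t ^ (k + 1 - 1) * g t) =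
        ∫ t in (0 : ℝ)..1, ballShape t ^ (k + 1 - 1) +
          q * (ballShape t ^ (k + 1 - 1) * specV (k + 1) φ t) +
          ballShape t ^ (k + 1 - 1) * g t := by
      rw [intervalIntegral.integral_add (i0.add (j1.const_mul q)) hgi,
        intervalIntegral.integral_add i0 (j1.const_mul q), intervalIntegral.integral_const_mul,
        mean_specV hm1 hφ, mul_zero, add_zero]
      rfl
    rw [e, ← intervalIntegral.integral_const_mul]
    refine intervalIntegral.integral_mono_on_of_le_Ioo zero_le_one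
      (((i0.add (j1.const_mul q)).add hgi).const_mul _) (intervalIntegrable_shape_pow01 hφ _)
      fun t ht => ?_
    have hu0 := (specU_pos (m := k + 1) hφ (sub01 ht)).le
    have h := hg t ht
    rw [Real.div_rpow hu0 hM0.le, specU_rpow hm1 hφ (sub01 ht),
      le_div_iff₀ (Real.rpow_pos_of_pos hM0 _), div_pow,
      le_div_iff₀ (pow_pos (ball_pos (sub01 ht)) _)] at h
    linarith
  have hc : ((k + 1 : ℕ) : ℝ) / (((k + 1 : ℕ) : ℝ) - 1) = ((k : ℝ) + 1) / k := by push_cast; ring
  have hX0 : 0 ≤ X := div_nonneg (intervalIntegral.integral_nonneg_of_ae_restrict zero_le_one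
    ((ae_restrict_mem measurableSet_Icc).mono fun t ht =>
      pow_nonneg (hφ.nonneg t ⟨by linarith [ht.1], ht.2⟩) _)) hP0.le
  have hN : M ^ 2 * (1 + ((k : ℝ) + 1) / k * Y) ≤ X ^ (((k : ℝ) + 1) / k) := by
    rcases le_or_gt 0 (1 + ((k : ℝ) + 1) / k * Y) with h0 | h0
    swap
    · exact (mul_nonpos_of_nonneg_of_nonpos (sq_nonneg _) h0.le).trans (Real.rpow_nonneg hX0 _)
    obtain ⟨hY1, hbern⟩ := pow_le_pow_succ_of_bernoulli (by omega) h0
    have hMq : (M ^ q) ^ (k + 1) = (M ^ 2) ^ k := by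
      rw [← Real.rpow_natCast (M ^ q), ← Real.rpow_mul hM0.le, ← pow_mul,
        ← Real.rpow_natCast M (2 * k)]
      congr 1
      rw [hq]
      push_cast
      field_simp
      ring
    refine le_of_pow_le_pow_left₀ (n := k) (by omega) (Real.rpow_nonneg hX0 _) ?_
    rw [← Real.rpow_natCast (X ^ _) k, ← Real.rpow_mul hX0, div_mul_cancel₀ _ hk,
      show (k : ℝ) + 1 = ((k + 1 : ℕ) : ℝ) by push_cast; rfl, Real.rpow_natCast]
    rw [show ((k + 1 : ℕ) : ℝ) = (k : ℝ) + 1 by push_cast; rfl]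
    calc (M ^ 2 * (1 + ((k : ℝ) + 1) / k * Y)) ^ k
        = (M ^ 2) ^ k * (1 + ((k : ℝ) + 1) / k * Y) ^ k := mul_pow _ _ _
      _ ≤ (M ^ q) ^ (k + 1) * (1 + Y) ^ (k + 1) := by
          rw [hMq]; exact mul_le_mul_of_nonneg_left hbern (pow_nonneg (sq_nonneg _) _)
      _ = (M ^ q * (1 + Y)) ^ (k + 1) := (mul_pow _ _ _).symm
      _ ≤ X ^ (k + 1) := pow_le_pow_left₀ (mul_nonneg (Real.rpow_nonneg hM0.le _) hY1) hX _
  have eA : specMean (k + 1) (fun t => specU (k + 1) φ t ^ 2) / M ^ 2 =
      1 + specQuad (k + 1) (fun _ => 1) (specV (k + 1) φ) := by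
    rw [specMean, integral_congr01 (fun t ht => weight_sq hm1 hφ (sub01 ht)), div_right_comm,
      sq_expand hm1 hφ, ← hPdef, add_div, div_self hP0.ne', specQuad, specMean]
    congr 2
    exact integral_congr01 fun t _ => by rw [one_mul]
  have hd : 1 + ((k : ℝ) + 1) / k * Y ≤ X ^ (((k : ℝ) + 1) / k) / M ^ 2 := by
    rw [le_div_iff₀ (pow_pos hM0 2)]
    linarith
  rw [specExcess, mean_rpow hm1 hφ, ← hPdef, ← hXdef, hc, ← hMdef, sub_div, eA]
  linarith

/-- The potential of a pointwise upper bound `U` of `specU / M`. -/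
theorem excess_le_pot (hm : 2 ≤ m) (hφ : IsShape φ)
    (hPm : Measurable Phi) (hPb : ∀ t ∈ Ioo (0 : ℝ) 1, Phi t ∈ Icc (0 : ℝ) 1)
    (hP : ∀ t ∈ Ioo (0 : ℝ) 1, ∀ x ∈ Icc (0 : ℝ) (U t),
      1 + (2 - 2 / (m : ℝ)) * (x - 1) + Phi t * (x - 1) ^ 2 ≤ x ^ (2 - 2 / (m : ℝ)))
    (hUle : ∀ t ∈ Ioo (0 : ℝ) 1, specU m φ t ≤ specM m φ * U t) :
    specExcess m φ ≤ specQuad m (fun t => 1 - m / (m - 1) * Phi t) (specV m φ) := by
  have hm1 : 1 ≤ m := by omega
  have kF := intervalIntegrable_quad hm1 hφ hPm (C := 1)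
    fun t ht => abs_le.2 ⟨by linarith [(hPb t ht).1], (hPb t ht).2⟩
  have hM0 := specM_pos hm1 hφ
  refine (excess_le hm hφ kF fun t ht => ?_).trans (le_of_eq ?_)
  · exact hP t ht _ ⟨div_nonneg (specU_pos hφ (sub01 ht)).le hM0.le,
      (div_le_iff₀ hM0).2 (by linarith [hUle t ht])⟩
  · rw [specQuad, specQuad, specMean, specMean, specMean, ← mul_div_assoc, ← sub_div,
      ← intervalIntegral.integral_const_mul, ← intervalIntegral.integral_sub
        ((intervalIntegrable_wv2 hm1 hφ).congr fun t _ => by ring) (kF.const_mul _)]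
    congr 1
    exact integral_congr01 fun t _ => by ring

/-- An upper bound of the excess bounds the linear term from below. -/
theorem neg_lin_le (hm : 2 ≤ m) (hφ : IsShape φ) (hx : powRatio m φ ≤ 1)
    (hWm : Measurable W) {C : ℝ} (hWb : ∀ t ∈ Ioo (0 : ℝ) 1, |W t| ≤ C)
    (h : specExcess m φ ≤ specQuad m W (specV m φ)) :
    -specLin m (specV m φ) ≤
      specQuad m (fun t => max (ballRatio m * ballShape t - 1 + W t) 0) (specV m φ) := by
  have hm1 : 1 ≤ m := by omega
  have mb : Measurable fun t => ballRatio m * ballShape t - 1 :=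
    ((cont_ball.const_smul (ballRatio m)).measurable).sub_const 1
  have bb : ∀ t, |ballRatio m * ballShape t - 1| ≤ ballRatio m + 1 := fun t =>
    (abs_sub _ _).trans (add_le_add (ball_bound m) (le_of_eq abs_one))
  have k1 := intervalIntegrable_quad hm1 hφ mb (C := ballRatio m + 1) fun t _ => bb t
  have k2 := intervalIntegrable_quad hm1 hφ hWm hWb
  have k3 := intervalIntegrable_quad hm1 hφ
    (g := fun t => max (ballRatio m * ballShape t - 1 + W t) 0) ((mb.add hWm).max measurable_const)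
    (C := ballRatio m + 1 + C) fun t ht => by
      rw [abs_of_nonneg (le_max_right _ _)]
      exact max_le ((le_abs_self _).trans ((abs_add_le _ _).trans (add_le_add (bb t) (hWb t ht))))
        (by linarith [(abs_nonneg (W t)).trans (hWb t ht), ballRatio_pos m])
  have h0 := excess_lower hm hφ hx
  have hs : specQuad m (fun t => ballRatio m * ballShape t - 1) (specV m φ) +
      specQuad m W (specV m φ) ≤
      specQuad m (fun t => max (ballRatio m * ballShape t - 1 + W t) 0) (specV m φ) := by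
    simp only [specQuad, specMean, ← add_div]
    refine div_le_div_of_nonneg_right ?_ (ball_mass_pos _).le
    rw [← intervalIntegral.integral_add k1 k2]
    refine intervalIntegral.integral_mono_on_of_le_Ioo zero_le_one (k1.add k2) k3 fun t _ => ?_
    rw [← mul_add, ← add_mul]
    exact mul_le_mul_of_nonneg_left (mul_le_mul_of_nonneg_right (le_max_left _ _) (sq_nonneg _))
      (pow_nonneg (Real.sqrt_nonneg _) _)
  linarith

/-- The fluctuation of a profile is a test function. -/
theorem isSpecTest_specV (hm : 1 ≤ m) (hφ : IsShape φ)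
    (iEn : IntervalIntegrable (fun t => 4 / m * Q t * ballShape t ^ (m + 2) * specU' m φ t ^ 2)
      volume 0 1) :
    IsSpecTest m Q (specV m φ) (fun t => specU' m φ t / specM m φ) := by
  have hM0 := specM_pos hm hφ
  have hud : ∀ b ∈ Ico (0 : ℝ) 1, IntervalIntegrable (specU' m φ) volume 0 b := fun b hb => by
    have hI : ∀ t ∈ uIcc 0 b, t ∈ Ioo (-1 : ℝ) 1 := fun t ht => by
      rw [uIcc_of_le hb.1] at ht
      exact ⟨by linarith [ht.1], by linarith [ht.2, hb.2]⟩
    have hd : IntervalIntegrable (dright φ) volume 0 b :=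
      ((intervalIntegrable_shape_deriv hφ).mono_set (by
        rw [uIcc_of_le hb.1, uIcc_of_le (by norm_num : (-1 : ℝ) ≤ 1)]
        exact Icc_subset_Icc (by norm_num) hb.2.le)).congr_ae (by
          rw [EventuallyEq, ae_restrict_iff' measurableSet_uIoc]
          filter_upwards [dright_ae hφ] with t h ht
          exact (h (hI t (uIoc_subset_uIcc ht))).symm)
    have c1 : ContinuousOn (fun t => (m : ℝ) / 2 * specU m φ t / ballShape t ^ 2) (uIcc 0 b) :=
      (continuousOn_const.mul ((continuousOn_specU hφ).mono hI)).div (cont_pow 2).continuousOn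
        fun t ht => pow_ne_zero _ (ball_pos (hI t ht)).ne'
    have c2 : ContinuousOn (fun t => (1 - t ^ 2) / φ t) (uIcc 0 b) :=
      (Continuous.continuousOn (by fun_prop)).div ((shape_continuousOn hφ).mono hI)
        fun t ht => (shape_pos hφ (hI t ht)).ne'
    refine (((continuous_id.intervalIntegrable 0 b).add (hd.continuousOn_mul c2)).continuousOn_mul
      c1).congr fun t _ => ?_
    simp only [id, specU', shapeRho]
    ring
  refine ⟨?_, fun t ht => ?_, fun b hb => (hud b hb).div_const _, ?_, ?_, mean_specV hm hφ,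
    fun t ht => ?_⟩
  · exact (((continuousOn_specU hφ).mono fun t ht => ⟨by linarith [ht.1], ht.2⟩).div_const _).sub
      continuousOn_const
  · exact ((hasDeriv_specU hm hφ (sub01 ht)).div_const (specM m φ)).sub_const 1
  · refine ⟨2 * φ 0 ^ m / specM m φ ^ 2 + 2, fun t ht => ?_⟩
    have hI : t ∈ Ioo (-1 : ℝ) 1 := ⟨by linarith [ht.1], ht.2⟩
    have hp := ball_pos hI
    have h1 : ballShape t ^ m * specU m φ t ^ 2 = φ t ^ m := by
      rw [specU_sq hφ hI, div_pow, mul_div_cancel₀ _ (pow_ne_zero _ hp.ne')]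
    have h2 : φ t ^ m ≤ φ 0 ^ m := pow_le_pow_left₀ (shape_pos hφ hI).le
      (shape_le_centre hφ (Ioo_subset_Icc_self hI)) m
    have h3 : ballShape t ^ m ≤ 1 := pow_le_one₀ hp.le (ball_le_one t)
    have h4 : specV m φ t ^ 2 ≤ 2 * (specU m φ t / specM m φ) ^ 2 + 2 := by
      simp only [specV]
      nlinarith [sq_nonneg (specU m φ t / specM m φ + 1)]
    calc ballShape t ^ m * specV m φ t ^ 2
        ≤ ballShape t ^ m * (2 * (specU m φ t / specM m φ) ^ 2 + 2) :=
          mul_le_mul_of_nonneg_left h4 (pow_nonneg hp.le _)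
      _ = 2 * φ t ^ m / specM m φ ^ 2 + 2 * ballShape t ^ m := by rw [← h1]; ring
      _ ≤ _ := add_le_add (div_le_div_of_nonneg_right (by linarith) (sq_nonneg _)) (by linarith)
  · exact (iEn.div_const (specM m φ ^ 2)).congr fun t _ => by ring
  · simp only [specV]
    linarith [div_nonneg (specU_pos (m := m) hφ (sub01 ht)).le hM0.le]

/-- Vanishing fluctuation means a ball profile. -/
theorem eq_ball_of_specV (hm : 1 ≤ m) (hφ : IsShape φ)
    (hv0 : ∀ t ∈ Ioo (0 : ℝ) 1, specV m φ t = 0) : ∀ t ∈ Ioo (0 : ℝ) 1, φ t = φ 0 * ballShape t := by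
  have hc' : ContinuousAt (fun t => φ t / ballShape t) 0 :=
    ((shape_continuousOn hφ).continuousAt (isOpen_Ioo.mem_nhds (by norm_num))).div
      cont_ball.continuousAt (by simp [ballShape])
  intro t ht
  have key : ∀ s ∈ Ioo (0 : ℝ) 1, φ s / ballShape s = φ t / ballShape t := by
    intro s hs
    have h1 : specU m φ s ^ 2 = specU m φ t ^ 2 := by
      rw [specU_eq hm hφ s, specU_eq hm hφ t, hv0 s hs, hv0 t ht]
    rw [specU_sq hφ (sub01 hs), specU_sq hφ (sub01 ht)] at h1
    exact (pow_left_inj₀ (div_pos (shape_pos hφ (sub01 hs)) (ball_pos (sub01 hs))).le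
      (div_pos (shape_pos hφ (sub01 ht)) (ball_pos (sub01 ht))).le (by omega)).1 h1
  have hlim : φ t / ballShape t = φ 0 / ballShape 0 := by
    refine tendsto_nhds_unique (tendsto_const_nhds.congr' ?_)
      (hc'.tendsto.mono_left (nhdsWithin_le_nhds (s := Ioi 0)))
    filter_upwards [Ioo_mem_nhdsGT zero_lt_one] with s hs
    exact (key s hs).symm
  rw [show ballShape 0 = 1 by simp [ballShape], div_one,
    div_eq_iff (ball_pos (sub01 ht)).ne'] at hlim
  exact hlim

/-- The exact facts: on a profile with nonpositive value the fluctuation is a test function that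
makes the lower bound of the value nonpositive and respects the power constraint. If this forces it
to vanish, the pure lemma holds. -/
theorem pureLemma_of_fluctuation (hm : 3 ≤ m)
    (hQ0 : ∀ t ∈ Ioo (0 : ℝ) 1, 0 ≤ Q t) (hQm : Measurable Q)
    (hQ : ∀ t ∈ Ioo (0 : ℝ) 1, ∀ r ∈ Icc (-1 : ℝ) 1, Q t * r ^ 2 ≤ pureBreg m t r)
    (H : ∀ φ, IsShape φ → powRatio m φ ≤ 1 → convexVal m (pureG m) φ ≤ 0 →
      IsSpecTest m Q (specV m φ) (fun t => specU' m φ t / specM m φ) →
      0 ≤ specEnergy m Q (fun t => specU' m φ t / specM m φ) →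
      0 ≤ specSurplus m Q φ →
      specLin m (specV m φ) + specQuad m (fun t => ballRatio m * ballShape t - 1) (specV m φ) +
        specEnergy m Q (fun t => specU' m φ t / specM m φ) + specSurplus m Q φ ≤ 0 →
      0 ≤ specLin m (specV m φ) +
        specQuad m (fun t => ballRatio m * ballShape t - 1) (specV m φ) + specExcess m φ →
      ∀ t ∈ Ioo (0 : ℝ) 1, specV m φ t = 0) :
    PureLemma m := by
  intro φ hφ hx
  have hm1 : 1 ≤ m := by omega
  set P := mass (m - 1) ballShape 1 with hPdef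
  have hP0 : 0 < P := ball_mass_pos _
  have hMφ : 0 < mass m φ 1 :=
    intervalIntegral.intervalIntegral_pos_of_pos_on (intervalIntegrable_shape_pow01 hφ m)
      (fun s hs' => pow_pos (shape_pos hφ (sub01 hs')) m) zero_lt_one
  obtain ⟨iEn, hE0', hgoal, hle⟩ := goal_le_value hm1 hφ hQ0 hQm hQ
  by_cases hV : 0 < convexVal m (pureG m) φ
  · exact ⟨hV.le, fun h => absurd h hV.ne'⟩
  push Not at hV
  have hlow := excess_lower (by omega) hφ hx
  have htest := isSpecTest_specV hm1 hφ iEn
  have hM0 : 0 < specM m φ := specM_pos hm1 hφ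
  set r := ballRatio m with hr
  set M := specM m φ with hMdef
  set v := specV m φ with hv
  set L := specLin m v with hL
  set R := specQuad m (fun t => r * ballShape t - 1) v with hR
  set E := specEnergy m Q (fun t => specU' m φ t / M) with hEdef
  have hEP : E = specEnergy m Q (specU' m φ) / M ^ 2 := by
    rw [hEdef, specEnergy, specEnergy, div_right_comm _ _ (M ^ 2)]
    congr 1
    rw [← intervalIntegral.integral_div]
    exact integral_congr01 fun t _ => by ring
  have hE0 : 0 ≤ E := hEP ▸ div_nonneg hE0' (sq_nonneg _)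
  have kb := intervalIntegrable_quad hm1 hφ (g := fun t => r * ballShape t)
    (cont_ball.const_smul r).measurable (C := r) fun t _ => ball_bound m
  have kR := intervalIntegrable_quad hm1 hφ (g := fun t => r * ballShape t - 1)
    ((cont_ball.const_smul r).measurable.sub_const 1) (C := r + 1)
    fun t _ => (abs_sub _ _).trans (add_le_add (ball_bound m) (le_of_eq abs_one))
  have hGv : specGoal m Q φ / M ^ 2 = L + R + E := by
    have hRP : R * P = (∫ t in (0 : ℝ)..1, ballShape t ^ (m - 1) * (r * ballShape t * v t ^ 2)) -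
        ∫ t in (0 : ℝ)..1, ballShape t ^ (m - 1) * v t ^ 2 := by
      rw [hR, specQuad, specMean, ← hPdef, div_mul_cancel₀ _ hP0.ne',
        ← intervalIntegral.integral_sub kb (intervalIntegrable_wv2 hm1 hφ)]
      exact integral_congr01 fun t _ => by ring
    refine mul_right_cancel₀ hP0.ne' ?_
    rw [div_mul_eq_mul_div, hgoal, add_div, sub_div, mass_expand hm1 hφ, sq_expand hm1 hφ,
      add_mul (L + R), add_mul L, hRP, hEP]
    ring
  have hsum : L + R + E + specSurplus m Q φ ≤ 0 := by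
    rw [← hGv, specSurplus, ← hMdef, ← add_div, add_sub_cancel, ← hPdef]
    exact div_nonpos_of_nonpos_of_nonneg
      (div_nonpos_of_nonpos_of_nonneg (mul_nonpos_of_nonpos_of_nonneg hV hMφ.le) hP0.le)
      (sq_nonneg _)
  have hS0 : 0 ≤ specSurplus m Q φ := by
    refine div_nonneg (sub_nonneg.2 ?_) (sq_nonneg _)
    rw [le_div_iff₀ hP0]
    exact hle
  have hv0 : ∀ t ∈ Ioo (0 : ℝ) 1, v t = 0 := H φ hφ hx hV htest hE0 hS0 hsum hlow
  have hzero : ∀ {g : ℝ → ℝ}, (∀ t ∈ Ioo (0 : ℝ) 1, g t = 0) → ∫ t in (0 : ℝ)..1, g t = 0 :=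
    fun {g} h => (integral_congr01 h).trans intervalIntegral.integral_zero
  have hG0 : 0 ≤ specGoal m Q φ := by
    have h : 0 ≤ specGoal m Q φ / M ^ 2 := by
      rw [hGv, hR, hL, specLin, specQuad, specMean, specMean,
        hzero fun t ht => by simp [hv0 t ht], hzero fun t ht => by simp [hv0 t ht]]
      simpa using hE0
    have := mul_nonneg h (sq_nonneg M)
    rwa [div_mul_cancel₀ _ (pow_ne_zero _ hM0.ne')] at this
  exact ⟨nonneg_of_mul_nonneg_left ((mul_nonneg hG0 hP0.le).trans hle) hMφ,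
    fun _ => eq_ball_of_specV hm1 hφ hv0⟩


/-- The reduction. On a profile with nonpositive value the potential `W` has to pay the excess, up
to the surplus and a share `η` of the energy, `W₁` has to bound the negative linear term, and the
linear term has to lie in `[-e₁, e₂]`; two linear inequalities then force the fluctuation to
vanish. -/
theorem pureLemma_of_spectral (hm : 3 ≤ m) {W₁ : ℝ → ℝ} {e₁ e₂ μ₁ μ₂ η : ℝ}
    (hQ0 : ∀ t ∈ Ioo (0 : ℝ) 1, 0 ≤ Q t) (hQm : Measurable Q)
    (hQ : ∀ t ∈ Ioo (0 : ℝ) 1, ∀ r ∈ Icc (-1 : ℝ) 1, Q t * r ^ 2 ≤ pureBreg m t r)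
    (hμ₁ : 0 ≤ μ₁) (hμ₂ : 0 ≤ μ₂)
    (hX : ∀ φ, IsShape φ → powRatio m φ ≤ 1 → convexVal m (pureG m) φ ≤ 0 →
      specExcess m φ ≤ specQuad m W (specV m φ) + specSurplus m Q φ +
        η * specEnergy m Q (fun t => specU' m φ t / specM m φ))
    (hA₁ : ∀ φ, IsShape φ → powRatio m φ ≤ 1 → convexVal m (pureG m) φ ≤ 0 →
      specLin m (specV m φ) < 0 →
      -specLin m (specV m φ) ≤ specQuad m W₁ (specV m φ) ∧ -specLin m (specV m φ) ≤ e₁)
    (hA₂ : ∀ φ, IsShape φ → powRatio m φ ≤ 1 → convexVal m (pureG m) φ ≤ 0 →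
      0 ≤ specLin m (specV m φ) → specLin m (specV m φ) ≤ e₂)
    (hneg : ∀ v v', IsSpecTest m Q v v' → specLin m v < 0 →
      (1 - η) * specEnergy m Q v' - specQuad m W v + μ₁ * (specLin m v ^ 2 - e₁ * specQuad m W₁ v) ≤ 0 →
      ∀ t ∈ Ioo (0 : ℝ) 1, v t = 0)
    (hpos : ∀ v v', IsSpecTest m Q v v' → 0 ≤ specLin m v →
      (1 - η + μ₂ * e₂) * specEnergy m Q v' - specQuad m W v +
        μ₂ * (specLin m v ^ 2 - e₂ * specA2 m v) ≤ 0 →
      ∀ t ∈ Ioo (0 : ℝ) 1, v t = 0) :
    PureLemma m := by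
  refine pureLemma_of_fluctuation hm hQ0 hQm hQ fun φ hφ hx hV htest hE0 hS0 hsum hlow => ?_
  have hm1 : 1 ≤ m := by omega
  have hexc := hX φ hφ hx hV
  set r := ballRatio m with hr
  set v := specV m φ with hv
  set L := specLin m v with hL
  set R := specQuad m (fun t => r * ballShape t - 1) v with hR
  set E := specEnergy m Q (fun t => specU' m φ t / specM m φ) with hEdef
  have hdiff : (1 - η) * E ≤ specQuad m W v := by linarith
  have kR := intervalIntegrable_quad hm1 hφ (g := fun t => r * ballShape t - 1)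
    ((cont_ball.const_smul r).measurable.sub_const 1) (C := r + 1)
    fun t _ => (abs_sub _ _).trans (add_le_add (ball_bound m) (le_of_eq abs_one))
  set A' := specA2 m v with hA'def
  have hLA' : L ≤ A' - E := by
    have hm' : -R ≤ A' := by
      rw [hR, hA'def, specA2, specQuad, specQuad, specMean, specMean, ← neg_div,
        ← intervalIntegral.integral_neg]
      refine div_le_div_of_nonneg_right ?_ (ball_mass_pos _).le
      refine intervalIntegral.integral_mono_on_of_le_Ioo zero_le_one kR.neg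
        (intervalIntegrable_quad hm1 hφ (g := fun t => max (1 - r * ballShape t) 0)
          ((measurable_const.sub (cont_ball.const_smul r).measurable).max measurable_const) (C := 1)
          fun t _ => ?_) fun t _ => ?_
      · rw [abs_of_nonneg (le_max_right _ _)]
        have := mul_nonneg (ballRatio_pos m).le (show 0 ≤ ballShape t from Real.sqrt_nonneg _)
        exact max_le (by linarith) zero_le_one
      rw [show -(ballShape t ^ (m - 1) * ((r * ballShape t - 1) * v t ^ 2)) =
        ballShape t ^ (m - 1) * ((1 - r * ballShape t) * v t ^ 2) by ring]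
      exact mul_le_mul_of_nonneg_left (mul_le_mul_of_nonneg_right (le_max_left _ _) (sq_nonneg _))
        (pow_nonneg (Real.sqrt_nonneg _) _)
    linarith
  rcases lt_or_ge L 0 with hneg' | hpos'
  · obtain ⟨h1, h2⟩ := hA₁ φ hφ hx hV hneg'
    rw [← hv, ← hL] at h1
    refine hneg v _ htest hneg' ?_
    have hA : L ^ 2 ≤ e₁ * specQuad m W₁ v := by
      calc L ^ 2 = (-L) * (-L) := by ring
        _ ≤ e₁ * specQuad m W₁ v := mul_le_mul h2 h1 (by linarith) (by linarith)
    linarith [mul_nonpos_of_nonneg_of_nonpos hμ₁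
      (show L ^ 2 - e₁ * specQuad m W₁ v ≤ 0 by linarith)]
  · have h2 := hA₂ φ hφ hx hV hpos'
    refine hpos v _ htest hpos' ?_
    have hA : L ^ 2 ≤ e₂ * (A' - E) := by
      calc L ^ 2 = L * L := by ring
        _ ≤ e₂ * (A' - E) := mul_le_mul h2 hLA' hpos' (hpos'.trans h2)
    linarith [mul_nonpos_of_nonneg_of_nonpos hμ₂ (show L ^ 2 - e₂ * (A' - E) ≤ 0 by linarith)]

end Vale.Agent.P237.Quant
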