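/-!
Subdivisions of a rectangle.
-/

namespace Vale.Agent.P237.Quant.WeightCert

/-- A subdivision of a rectangle. -/
inductive Tree where
  | leaf : Tree
  | cutT : Int → Tree → Tree → Tree
  | cutY : Int → Tree → Tree → Tree

end Vale.Agent.P237.Quant.WeightCert
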