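import Mathlib
import Vale.Agent.P237.Four.Checker
import Vale.Agent.P237.Quant.CertTree

/-!
A lower bound, free of the dimension, for the second derivative of the perspective of the weight:
with `weightLim` below the scaled curvature `(1 - s²)^(3/2) G''` of the weight, its product with
the cube of the hyperbolic cosine of the shift stays above `weightLow`. In half-angle variables
this is the nonnegativity of one polynomial on the square, checked on twenty-four boxes.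
-/

namespace Vale.Agent.P237.Quant

open Four.Checker

/-- The limit of the scaled curvature of the weight, as a function of the ball profile. -/
noncomputable def weightLim (c : ℝ) : ℝ := 1 - c ^ 2 / (1 + c)

/-- The lower bound for the shifted curvature. -/
noncomputable def weightLow (c : ℝ) : ℝ :=
  weightLim c - 7 / 25 * (c ^ 2 * (1 - c) * (1 + 9 * c) / 10)

namespace WeightCert

def rP : P2 := [[1, -1]]
def aP : P2 := [[], [], [1]]
def oAP : P2 := [[1], [], [1]]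
def oP : P2 := [[1], [], [0, -1]]
def o2P : P2 := mul2 oP oP
def q2P : P2 := mul2 aP (mul2 rP rP)
def sumP : P2 := add2 o2P q2P
def oA3P : P2 := mul2 oAP (mul2 oAP oAP)
def dP : P2 := smul2 28 (mul2 [[1], [], [-2], [], [1]] [[5], [], [-4]])

def xP : P2 :=
  add2 (mul2 dP (mul2 sumP o2P))
    (smul2 (-125) (mul2 (mul2 (add2 o2P (smul2 (-1) (mul2 rP rP)))
      (add2 (smul2 4 o2P) (smul2 (-1) (mul2 oAP sumP)))) oA3P))

def yP : P2 :=
  add2 (smul2 625 (mul2
      (add2 (mul2 o2P o2P) (add2 (smul2 4 (mul2 q2P o2P)) (smul2 (-1) (mul2 q2P q2P))))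
      (mul2 oAP oA3P)))
    (mul2 (add2 (smul2 125 (mul2 [[1], [], [4], [], [-1]] oA3P)) (smul2 (-1) (mul2 aP dP)))
      (mul2 sumP o2P))

/-- The polynomial to be nonnegative. -/
def poly : P2 := add2 xP (mul2 [[0, 0, 1]] yP)

/-- The checks on a subdivided rectangle. -/
def check (B : Box) : Tree → Bool
  | .leaf => nonnegOn B poly
  | .cutT m a b => check { B with tb := m } a && check { B with ta := m } b
  | .cutY m a b => check { B with yb := m } a && check { B with ya := m } b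

theorem check_sound : ∀ (T : Tree) (B : Box), check B T = true → ∀ {t y : ℝ}, B.mem t y →
    0 ≤ ev2 poly t y
  | .leaf, B, h, _, _, hm => nonnegOn_sound h hm
  | .cutT m a b, B, h, t, y, hm => by
      simp only [check, Bool.and_eq_true] at h
      obtain ⟨hD, h1, h2, h3, h4⟩ := hm
      rcases lt_or_ge (t * B.D) (m : ℝ) with hc | hc
      · exact check_sound a _ h.1 ⟨hD, h1, hc, h3, h4⟩
      · exact check_sound b _ h.2 ⟨hD, hc, h2, h3, h4⟩
  | .cutY m a b, B, h, t, y, hm => by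
      simp only [check, Bool.and_eq_true] at h
      obtain ⟨hD, h1, h2, h3, h4⟩ := hm
      rcases lt_or_ge (y * B.D) (m : ℝ) with hc | hc
      · exact check_sound a _ h.1 ⟨hD, h1, h2, h3, hc⟩
      · exact check_sound b _ h.2 ⟨hD, h1, h2, hc, h4⟩

/-- The subdivision. -/
def tree : Tree :=
  (.cutT 128 (.cutY 128 (.cutT 64 (.cutY 64 .leaf .leaf) (.cutY 64 .leaf (.cutT 96 .leaf .leaf))) .leaf) (.cutY 128 (.cutT 192 (.cutY 64 (.cutT 160 .leaf (.cutY 32 .leaf .leaf)) .leaf) (.cutY 64 (.cutT 224 (.cutY 32 (.cutT 208 .leaf (.cutY 16 .leaf .leaf)) .leaf) (.cutY 32 (.cutT 240 (.cutY 16 .leaf .leaf) (.cutY 16 (.cutT 248 (.cutY 8 .leaf .leaf) (.cutY 8 .leaf .leaf)) .leaf)) .leaf)) .leaf)) .leaf))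

theorem check_tree : check ⟨256, 0, 256, 0, 256⟩ tree = true := by decide +kernel

theorem poly_nonneg {t y : ℝ} (ht : 0 ≤ t) (ht1 : t < 1) (hy : 0 ≤ y) (hy1 : y < 1) :
    0 ≤ ev2 poly t y := by
  refine check_sound tree _ check_tree ⟨by norm_num, ?_, ?_, ?_, ?_⟩ <;> push_cast <;> linarith

theorem ev2_poly (a w : ℝ) : ev2 poly a w =
    28 * (1 - a ^ 2) ^ 2 * (5 - 4 * a ^ 2) *
        (((1 - a ^ 2 * w) ^ 2 + a ^ 2 * (1 - w) ^ 2) * (1 - a ^ 2 * w) ^ 2) -
      125 * (((1 - a ^ 2 * w) ^ 2 - (1 - w) ^ 2) *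
        (4 * (1 - a ^ 2 * w) ^ 2 -
          (1 + a ^ 2) * ((1 - a ^ 2 * w) ^ 2 + a ^ 2 * (1 - w) ^ 2)) * (1 + a ^ 2) ^ 3) +
      w ^ 2 * (625 * (((1 - a ^ 2 * w) ^ 4 + 4 * (a ^ 2 * (1 - w) ^ 2) * (1 - a ^ 2 * w) ^ 2 -
          (a ^ 2 * (1 - w) ^ 2) ^ 2) * (1 + a ^ 2) ^ 4) +
        (125 * ((1 + 4 * a ^ 2 - a ^ 4) * (1 + a ^ 2) ^ 3) -
            a ^ 2 * (28 * (1 - a ^ 2) ^ 2 * (5 - 4 * a ^ 2))) *
          (((1 - a ^ 2 * w) ^ 2 + a ^ 2 * (1 - w) ^ 2) * (1 - a ^ 2 * w) ^ 2)) := by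
  simp only [poly, xP, yP, dP, oA3P, sumP, q2P, o2P, oP, oAP, aP, rP, ev2_add2, ev2_mul2,
    ev2_smul2, ev2, ev]
  push_cast
  ring

end WeightCert

/-- The half-angle form of the inequality. -/
theorem half_angle {a b : ℝ} (hb : 0 ≤ b) (hba : b ≤ a) (ha : a < 1) :
    weightLow ((1 - a ^ 2) / (1 + a ^ 2)) * ((1 - a * b) ^ 2 - (a - b) ^ 2) ≤
      weightLim ((1 - b ^ 2) / (1 + b ^ 2)) * ((1 - a * b) ^ 2 + 5 * (a - b) ^ 2) := by
  rcases eq_or_lt_of_le (hb.trans hba) with h0 | h0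
  · obtain rfl : b = a := le_antisymm hba (h0 ▸ hb)
    subst h0
    norm_num [weightLow, weightLim]
  have hA : (0 : ℝ) < 1 + a ^ 2 := by positivity
  have hB : (0 : ℝ) < 1 + b ^ 2 := by positivity
  have hlim : ∀ x : ℝ, weightLim ((1 - x ^ 2) / (1 + x ^ 2)) =
      (1 + 4 * x ^ 2 - x ^ 4) / (2 * (1 + x ^ 2)) := fun x => by
    have : (1 : ℝ) + x ^ 2 ≠ 0 := by positivity
    have : (1 : ℝ) + x ^ 2 + (1 - x ^ 2) ≠ 0 := by norm_num
    rw [weightLim]
    field_simp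
    ring
  have hlow : weightLow ((1 - a ^ 2) / (1 + a ^ 2)) = (1 + 4 * a ^ 2 - a ^ 4) / (2 * (1 + a ^ 2)) -
      28 * a ^ 2 * (1 - a ^ 2) ^ 2 * (5 - 4 * a ^ 2) / (250 * (1 + a ^ 2) ^ 4) := by
    rw [weightLow, hlim]
    field_simp
    ring
  have hd : (0 : ℝ) < 1 - a * b := by nlinarith
  rw [hlow, hlim]
  rcases eq_or_lt_of_le hb with hb0 | hb0
  · subst hb0
    have h1 : 0 ≤ 28 * a ^ 2 * (1 - a ^ 2) ^ 2 * (5 - 4 * a ^ 2) / (250 * (1 + a ^ 2) ^ 4) :=
      div_nonneg (mul_nonneg (by positivity) (by nlinarith)) (by positivity)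
    have h2 : (1 + 4 * a ^ 2 - a ^ 4) / (2 * (1 + a ^ 2)) * (1 - a ^ 2) ≤
        1 / 2 * (1 + 5 * a ^ 2) := by
      rw [div_mul_eq_mul_div, div_le_iff₀ (by positivity)]
      nlinarith [sq_nonneg a, pow_pos h0 4, mul_nonneg (pow_pos h0 4).le
        (show (0 : ℝ) ≤ 1 - a ^ 2 by nlinarith)]
    norm_num at h2 ⊢
    nlinarith [mul_nonneg h1 (show (0 : ℝ) ≤ 1 - a ^ 2 by nlinarith)]
  set w := (a - b) / (a * (1 - a * b)) with hw
  have hw0 : 0 ≤ w := div_nonneg (by linarith) (by positivity)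
  have hw1 : w < 1 := by
    rw [hw, div_lt_one (by positivity)]
    nlinarith [mul_pos hb0 (show (0 : ℝ) < 1 - a ^ 2 by nlinarith)]
  have e1 : 1 - a ^ 2 * w = (1 - a ^ 2) / (1 - a * b) := by
    rw [hw]; field_simp; ring
  have e2 : 1 - w = b * (1 - a ^ 2) / (a * (1 - a * b)) := by
    rw [hw]; field_simp; ring
  have e3 : w ^ 2 = (a - b) ^ 2 / (a ^ 2 * (1 - a * b) ^ 2) := by
    rw [hw, div_pow, mul_pow]
  have key := WeightCert.poly_nonneg h0.le ha hw0 hw1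
  rw [WeightCert.ev2_poly, e1, e2, e3] at key
  have : (0 : ℝ) < 1 - a ^ 2 := by nlinarith
  field_simp at key ⊢
  have key' := nonneg_of_mul_nonneg_right (le_of_eq_of_le (by ring) key) (pow_pos this 4)
  linarith [key']

end Vale.Agent.P237.Quant
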