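import Mathlib
import Vale.Agent.P237.Quant.Pure
import Vale.Agent.P237.Quant.WeightBound

/-!
The curvature of the weight: `n (1 - s²)^(3/2) G''(s)` is at least `weightLim √(1 - s²)`, and so
the second derivative of the perspective of `G` at any shift is at least `weightLow / n`.
-/

namespace Vale.Agent.P237.Quant

open MeasureTheory Set Filter Topology

variable {m : ℕ}

theorem one_le_ballRatio (m : ℕ) : 1 ≤ ballRatio m := by
  rw [ballRatio, le_div_iff₀ (ball_mass_pos m), one_mul]
  refine intervalIntegral.integral_mono_on zero_le_one ((cont_pow _).intervalIntegrable _ _)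
    ((cont_pow _).intervalIntegrable _ _) fun t ht => ?_
  exact pow_le_pow_of_le_one (Real.sqrt_nonneg _)
    (Real.sqrt_le_one.2 (by nlinarith [ht.1])) (Nat.sub_le _ _)

theorem ballRatio_add_two (hm : 1 ≤ m) :
    ballRatio (m + 2) = ((m : ℝ) + 1) * ((m : ℝ) + 3) / ((m : ℝ) + 2) ^ 2 * ballRatio m := by
  obtain ⟨k, rfl⟩ : ∃ k, m = k + 1 := ⟨m - 1, by omega⟩
  have h0 := ball_mass_rec k
  have h1 := ball_mass_rec (k + 1)
  have e1 : ballRatio (k + 1) = mass k ballShape 1 / mass (k + 1) ballShape 1 := rfl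
  have e3 : ballRatio (k + 1 + 2) = mass (k + 2) ballShape 1 / mass (k + 3) ballShape 1 := rfl
  have := ball_mass_pos (k + 1)
  have := ball_mass_pos (k + 3)
  rw [e1, e3]
  push_cast at h1 ⊢
  rw [show k + 1 + 2 = k + 3 from rfl] at h1
  field_simp
  linear_combination ((k : ℝ) + 3) * mass (k + 1) ballShape 1 * h0 -
    ((k : ℝ) + 2) * mass k ballShape 1 * h1

/-- `r ≥ 1 + 1/(2n)`. -/
theorem half_le_ballRatio (hm : 1 ≤ m) :
    2 * ((m : ℝ) + 1) + 1 ≤ 2 * ((m : ℝ) + 1) * ballRatio m := by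
  by_contra h
  push Not at h
  set S : ℕ → ℝ := fun k => (2 * ((k : ℝ) + 1) + 1) / (2 * ((k : ℝ) + 1)) with hS
  have hSpos : ∀ k, 0 < S k := fun k => by positivity
  set θ := ballRatio m / S m with hθ
  have hθ1 : θ < 1 := by
    rw [hθ, div_lt_one (hSpos m), hS, lt_div_iff₀ (by positivity)]
    linarith
  have hθ0 : 0 ≤ θ := div_nonneg (zero_le_one.trans (one_le_ballRatio m)) (hSpos m).le
  have hind : ∀ j, ballRatio (m + 2 * j) ≤ θ * S (m + 2 * j) := by
    intro j
    induction j with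
    | zero => simp [hθ, div_mul_cancel₀ _ (hSpos m).ne']
    | succ j ih =>
      rw [show m + 2 * (j + 1) = (m + 2 * j) + 2 by ring, ballRatio_add_two (by omega)]
      set k := m + 2 * j
      have hk : (0 : ℝ) ≤ k := Nat.cast_nonneg k
      calc ((k : ℝ) + 1) * ((k : ℝ) + 3) / ((k : ℝ) + 2) ^ 2 * ballRatio k
          ≤ ((k : ℝ) + 1) * ((k : ℝ) + 3) / ((k : ℝ) + 2) ^ 2 * (θ * S k) :=
            mul_le_mul_of_nonneg_left ih (by positivity)
        _ ≤ θ * S (k + 2) := by
            rw [mul_left_comm]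
            refine mul_le_mul_of_nonneg_left ?_ hθ0
            simp only [hS]
            push_cast
            rw [div_mul_div_comm, div_le_div_iff₀ (by positivity) (by positivity)]
            nlinarith [pow_nonneg hk 2, pow_nonneg hk 3]
  obtain ⟨j, hj⟩ := exists_nat_gt (θ / (1 - θ))
  have h1 := (one_le_ballRatio _).trans (hind j)
  rw [hS, ← mul_div_assoc, le_div_iff₀ (by positivity)] at h1
  rw [div_lt_iff₀ (by linarith)] at hj
  push_cast at h1
  have hm0 : (0 : ℝ) ≤ m := Nat.cast_nonneg m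
  have hj0 : (0 : ℝ) ≤ j := Nat.cast_nonneg j
  nlinarith [mul_nonneg (show (0 : ℝ) ≤ 2 * m + 2 + 3 * j by positivity)
    (show (0 : ℝ) ≤ 1 - θ by linarith)]

/-- The numerator of the derivative of the slope of the weight. -/
noncomputable def pureNum (m : ℕ) (s : ℝ) : ℝ :=
  ((m : ℝ) + 2) * (s * pureInner m s) +
    (ballRatio m * ballShape s ^ (m + 2) - ballShape s ^ (m + 1))

theorem pureNum_neg (s : ℝ) : pureNum m (-s) = pureNum m s := by
  simp only [pureNum, inner_neg, ballShape, neg_sq, neg_mul_neg]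

theorem hasDerivAt_slope (hm : 1 ≤ m) {s : ℝ} (hs : s ∈ Ioo (-1 : ℝ) 1) :
    HasDerivAt (fun t => pureInner m t / ballShape t ^ (m + 2))
      (pureNum m s / ballShape s ^ (m + 4)) s := by
  refine ((hasDerivAt_inner (m := m) s).div ((hasDerivAt_ball hs).pow (m + 2))
    (pow_pos (ball_pos hs) _).ne').congr_deriv ?_
  obtain ⟨k, rfl⟩ : ∃ k, m = k + 1 := ⟨m - 1, by omega⟩
  have := (ball_pos hs).ne'
  simp only [pureNum, Pi.pow_apply, show k + 1 + 2 - 1 = k + 2 from rfl, Nat.add_sub_cancel]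
  push_cast
  simp only [pow_succ]
  field_simp
  ring

theorem weightLim_le_pureNum (hm : 1 ≤ m) {s : ℝ} (hs : s ∈ Icc (0 : ℝ) 1) :
    weightLim (ballShape s) * ballShape s ^ (m + 1) ≤ ((m : ℝ) + 1) * pureNum m s := by
  set r := ballRatio m with hr
  have hn := half_le_ballRatio hm
  set D : ℝ → ℝ := fun s => ((m : ℝ) + 1) * pureNum m s -
    weightLim (ballShape s) * ballShape s ^ (m + 1) with hD
  have hp : ∀ t, 0 ≤ ballShape t := fun t => Real.sqrt_nonneg _
  have hc : Continuous D := by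
    refine (((continuous_const.mul (continuous_id.mul ?_)).add
      (((cont_pow _).const_mul _).sub (cont_pow _))).const_mul _).sub
      ((continuous_const.sub ((cont_pow 2).div (continuous_const.add cont_ball)
        fun t h => by simp only [Pi.add_apply] at h; linarith [hp t])).mul (cont_pow _))
    exact continuous_iff_continuousAt.2 fun s => (hasDerivAt_inner s).continuousAt
  obtain ⟨u, hu, humin⟩ := isCompact_Icc.exists_isMinOn (nonempty_Icc.2 zero_le_one) hc.continuousOn
  by_contra hneg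
  push Not at hneg
  have hDu : D u < 0 := (humin hs).trans_lt (by simp only [hD]; linarith)
  have h0 : 0 ≤ D 0 := by
    simp [hD, pureNum, pureInner, ballShape, weightLim]
    linarith
  have h1 : D 1 = 0 := by simp [hD, pureNum, inner_one, ballShape]
  have hu0 : 0 < u := lt_of_le_of_ne hu.1 fun h => by subst h; linarith
  have hu1 : u < 1 := lt_of_le_of_ne hu.2 fun h => by subst h; linarith
  have hI : u ∈ Ioo (-1 : ℝ) 1 := ⟨by linarith, hu1⟩
  have hpu : 0 < ballShape u := ball_pos hI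
  have hp2 := ball_sq (Ioo_subset_Icc_self hI)
  set p := ballShape u with hpdef
  have hd1 := ((((hasDerivAt_id' u).mul (hasDerivAt_inner (m := m) u)).const_mul ((m : ℝ) + 2)).add
    ((((hasDerivAt_ball hI).pow (m + 2)).const_mul r).sub
      ((hasDerivAt_ball hI).pow (m + 1)))).const_mul ((m : ℝ) + 1)
  have hd2 := ((((hasDerivAt_ball hI).pow 2).div ((hasDerivAt_ball hI).const_add 1)
    (by rw [← hpdef]; positivity)).const_sub 1).mul ((hasDerivAt_ball hI).pow (m + 1))
  have hd := hd1.sub hd2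
  have hval := (humin.isLocalMin (Icc_mem_nhds hu0 hu1)).hasDerivAt_eq_zero hd
  obtain ⟨k, rfl⟩ : ∃ k, m = k + 1 := ⟨m - 1, by omega⟩
  simp only [Pi.pow_apply, Pi.div_apply, ← hpdef, show k + 1 + 2 - 1 = k + 2 from rfl, Nat.add_sub_cancel,
    ← hr, show k + 1 + 1 = k + 2 from rfl, show (2 : ℕ) - 1 = 1 from rfl] at hval
  simp only [hD, pureNum, weightLim, ← hpdef, ← hr] at hDu
  push_cast at hval hDu hn
  simp only [pow_succ, pow_zero, one_mul] at hval hDu
  set Q := p ^ k * (p * p) with hQ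
  set a : ℝ := (k : ℝ) + 2
  have key : u * (0 : ℝ) = (a * ((a + 1) * (u * pureInner (k + 1) u) +
      (r * (Q * p) - Q)) - (1 - p * p / (1 + p)) * Q) +
      p ^ k * p * ((2 * p - 1) - a * (r - 1) * p * (1 + p)) * p / (1 + p) := by
    rw [← hval, hQ]
    simp only [a]
    field_simp
    ring_nf
    linear_combination (-(p ^ k * (((k : ℝ) + 4) * p ^ 2 + ((k : ℝ) + 3) * p ^ 3))) * hp2
  have hbr : (2 * p - 1) - a * (r - 1) * p * (1 + p) < 0 := by
    have hp1 : p < 1 := by nlinarith
    have : 1 / 2 ≤ a * (r - 1) := by simp only [a]; linarith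
    nlinarith [mul_le_mul_of_nonneg_right this (show 0 ≤ p * (1 + p) by positivity),
      mul_pos (sub_pos.2 hp1) (show (0 : ℝ) < 2 - p by linarith)]
  have hneg2 : p ^ k * p * ((2 * p - 1) - a * (r - 1) * p * (1 + p)) * p / (1 + p) < 0 :=
    div_neg_of_neg_of_pos (mul_neg_of_neg_of_pos (mul_neg_of_pos_of_neg (by positivity) hbr) hpu)
      (by positivity)
  simp only [hQ, a] at key hneg2
  nlinarith

theorem weightLim_antitone {q p : ℝ} (hq : 0 ≤ q) (hqp : q ≤ p) : weightLim p ≤ weightLim q := by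
  rw [weightLim, weightLim, sub_le_sub_iff_left, div_le_div_iff₀ (by linarith) (by linarith)]
  nlinarith [mul_nonneg (mul_nonneg hq (hq.trans hqp)) (sub_nonneg.2 hqp)]

/-- The algebraic form of the shifted bound. -/
theorem weightLow_le_shift {a' b' p q : ℝ} (ha0 : 0 ≤ a') (hb0 : 0 ≤ b') (hp : 0 < p) (hq : 0 < q)
    (hp2 : p ^ 2 = 1 - a' ^ 2) (hq2 : q ^ 2 = 1 - b' ^ 2) :
    weightLow p ≤ weightLim q * ((1 - a' * b') / (p * q)) ^ 3 := by
  have hp1 : p ≤ 1 := by nlinarith
  have hlow : weightLow p ≤ weightLim p := by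
    rw [weightLow, sub_le_self_iff]
    exact mul_nonneg (by norm_num) (div_nonneg (mul_nonneg (mul_nonneg (sq_nonneg _)
      (by linarith)) (by linarith)) (by norm_num))
  have hlim0 : 0 ≤ weightLim q := by
    rw [weightLim, sub_nonneg, div_le_one (by linarith)]
    nlinarith [show q ≤ 1 by nlinarith]
  set C := (1 - a' * b') / (p * q) with hC
  have hC1 : 1 ≤ C := by
    rw [hC, one_le_div (mul_pos hp hq)]
    nlinarith [sq_nonneg (a' - b'), sq_nonneg (p - q)]
  rcases le_total q p with hqp | hpq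
  · calc weightLow p ≤ weightLim q := hlow.trans (weightLim_antitone hq.le hqp)
      _ ≤ weightLim q * C ^ 3 := le_mul_of_one_le_right hlim0 (one_le_pow₀ hC1)
  set a := a' / (1 + p) with had
  set b := b' / (1 + q) with hbd
  have hA : 1 + a ^ 2 = 2 / (1 + p) := by
    rw [had]; field_simp; linear_combination hp2
  have hB : 1 + b ^ 2 = 2 / (1 + q) := by
    rw [hbd]; field_simp; linear_combination hq2
  have hA' : 1 - a ^ 2 = 2 * p / (1 + p) := by
    rw [had]; field_simp; linear_combination -hp2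
  have hB' : 1 - b ^ 2 = 2 * q / (1 + q) := by
    rw [hbd]; field_simp; linear_combination -hq2
  have hbd0 : 0 ≤ b := by positivity
  have hba : b ≤ a := by
    have : b' ≤ a' := by nlinarith
    exact div_le_div₀ ha0 this (by positivity) (by linarith)
  have ha1 : a < 1 := by rw [had, div_lt_one (by positivity)]; nlinarith
  have key := half_angle hbd0 hba ha1
  rw [hA, hA', hB, hB', show 2 * p / (1 + p) / (2 / (1 + p)) = p by field_simp,
    show 2 * q / (1 + q) / (2 / (1 + q)) = q by field_simp] at key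
  have eD : (1 - a * b) ^ 2 - (a - b) ^ 2 = 4 * (p * q) / ((1 + p) * (1 + q)) := by
    rw [show (1 - a * b) ^ 2 - (a - b) ^ 2 = (1 - a ^ 2) * (1 - b ^ 2) by ring, hA', hB',
      div_mul_div_comm]
    ring
  have eS : (1 - a * b) ^ 2 + (a - b) ^ 2 = 4 * (1 - a' * b') / ((1 + p) * (1 + q)) := by
    rw [show (1 - a * b) ^ 2 + (a - b) ^ 2 = (1 + a ^ 2) * (1 + b ^ 2) - 4 * (a * b) by ring,
      hA, hB, had, hbd]
    field_simp
    ring
  have h5 : (1 - a * b) ^ 2 + 5 * (a - b) ^ 2 =
      (3 * C - 2) * (4 * (p * q) / ((1 + p) * (1 + q))) := by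
    rw [show (1 - a * b) ^ 2 + 5 * (a - b) ^ 2 = 3 * ((1 - a * b) ^ 2 + (a - b) ^ 2) -
      2 * ((1 - a * b) ^ 2 - (a - b) ^ 2) by ring, eD, eS, hC]
    field_simp
  rw [eD, h5] at key
  have h3 : weightLow p ≤ weightLim q * (3 * C - 2) :=
    le_of_mul_le_mul_right (by linarith [key]) (show (0 : ℝ) < 4 * (p * q) / ((1 + p) * (1 + q)) by positivity)
  refine h3.trans (mul_le_mul_of_nonneg_left ?_ hlim0)
  nlinarith [mul_nonneg (sq_nonneg (C - 1)) (show (0 : ℝ) ≤ C + 2 by linarith)]


/-- The second derivative of the perspective of the weight is at least `weightLow / n`. -/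
theorem weightLow_le_curvature (hm : 1 ≤ m) {s z : ℝ} (hs : s ∈ Ioo (-1 : ℝ) 1)
    (hz : z ∈ Ioo (-1 : ℝ) 1) :
    weightLow (ballShape s) ≤ ((m : ℝ) + 1) * (pureNum m z / ballShape z ^ (m + 4)) *
      ((1 - s * z) / ballShape s) ^ 3 := by
  have hs1 : |s| < 1 := abs_lt.2 hs
  have hz1 : |z| < 1 := abs_lt.2 hz
  have ev : ∀ x : ℝ, ballShape |x| = ballShape x := fun x => by simp [ballShape, sq_abs]
  have evN : pureNum m |z| = pureNum m z := by
    rcases abs_choice z with h | h <;> rw [h]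
    rw [pureNum_neg]
  have hprod : 1 - |s| * |z| ≤ 1 - s * z := by
    rw [← abs_mul]; linarith [le_abs_self (s * z)]
  set a' := |s|
  set b' := |z|
  have ha0 : 0 ≤ a' := abs_nonneg s
  have hb0 : 0 ≤ b' := abs_nonneg z
  set p := ballShape s with hpd
  set q := ballShape z with hqd
  have hp : 0 < p := ball_pos hs
  have hq : 0 < q := ball_pos hz
  have hp2 : p ^ 2 = 1 - a' ^ 2 := by
    rw [hpd, ball_sq (Ioo_subset_Icc_self hs), sq_abs]
  have hq2 : q ^ 2 = 1 - b' ^ 2 := by
    rw [hqd, ball_sq (Ioo_subset_Icc_self hz), sq_abs]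
  have hN := weightLim_le_pureNum hm (s := b') ⟨hb0, hz1.le⟩
  rw [ev, evN, ← hqd] at hN
  have hpos : 0 < 1 - a' * b' := by nlinarith
  have step : weightLim q * (((1 - a' * b') / (p * q)) ^ 3) ≤
      ((m : ℝ) + 1) * (pureNum m z / q ^ (m + 4)) * ((1 - s * z) / p) ^ 3 := by
    have h1 : weightLim q / q ^ 3 ≤ ((m : ℝ) + 1) * (pureNum m z / q ^ (m + 4)) := by
      rw [← mul_div_assoc, div_le_div_iff₀ (pow_pos hq _) (pow_pos hq _)]
      calc weightLim q * q ^ (m + 4) = weightLim q * q ^ (m + 1) * q ^ 3 := by ring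
        _ ≤ _ := mul_le_mul_of_nonneg_right hN (pow_nonneg hq.le 3)
    have hq1 : q ≤ 1 := by nlinarith
    have h0 : 0 ≤ weightLim q / q ^ 3 := by
      refine div_nonneg ?_ (pow_nonneg hq.le 3)
      rw [weightLim, sub_nonneg, div_le_one (by linarith)]
      nlinarith
    calc weightLim q * (((1 - a' * b') / (p * q)) ^ 3)
        = weightLim q / q ^ 3 * ((1 - a' * b') / p) ^ 3 := by
          rw [div_pow, div_pow, mul_pow]; field_simp
      _ ≤ _ := by
          refine mul_le_mul h1 (pow_le_pow_left₀ (by positivity) ?_ 3) (by positivity)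
            (h0.trans h1)
          exact div_le_div_of_nonneg_right hprod hp.le
  exact (weightLow_le_shift ha0 hb0 hp hq hp2 hq2).trans step

end Vale.Agent.P237.Quant
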