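import Mathlib
import Vale.Agent.P237.Quant.Bregman
import Vale.Agent.P237.Quant.WeightCurv

/-!
The quadratic lower bound for the remainder of the convexity inequality of the pure weight.
-/

namespace Vale.Agent.P237.Quant

open MeasureTheory Set Filter Topology

variable {m : ℕ}

/-- The coefficient in the quadratic lower bound for `pureBreg`. -/
noncomputable def bregCoeff (m : ℕ) (t : ℝ) : ℝ :=
  ballShape t * weightLow (ballShape t) / (2 * ((m : ℝ) + 1))

theorem weightLow_nonneg {c : ℝ} (hc : c ∈ Icc (0 : ℝ) 1) : 0 ≤ weightLow c := by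
  obtain ⟨h0, h1⟩ := hc
  have hs : c ^ 2 ≤ 1 := by nlinarith
  have h := mul_le_mul (mul_le_mul hs (show 1 - c ≤ 1 by linarith) (by linarith) zero_le_one)
    (show 1 + 9 * c ≤ 10 by linarith) (by positivity) (by norm_num)
  have hd : c ^ 2 / (1 + c) ≤ 1 / 2 := by
    rw [div_le_iff₀ (by linarith)]
    nlinarith
  rw [weightLow, weightLim]
  linarith

theorem bregCoeff_nonneg (m : ℕ) (t : ℝ) : 0 ≤ bregCoeff m t := by
  rcases le_or_gt (t ^ 2) 1 with h | h
  · refine div_nonneg (mul_nonneg (Real.sqrt_nonneg _) (weightLow_nonneg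
      ⟨Real.sqrt_nonneg _, Real.sqrt_le_one.2 (by nlinarith [sq_nonneg t])⟩)) (by positivity)
  · have : ballShape t = 0 := Real.sqrt_eq_zero'.2 (by linarith)
    simp [bregCoeff, this]

theorem measurable_bregCoeff (m : ℕ) : Measurable (bregCoeff m) := by
  have := cont_ball.measurable
  unfold bregCoeff weightLow weightLim
  fun_prop

theorem bregCoeff_mul_le (hm : 1 ≤ m) {t r : ℝ} (ht : t ∈ Ioo (0 : ℝ) 1)
    (hr : r ∈ Icc (-1 : ℝ) 1) : bregCoeff m t * r ^ 2 ≤ pureBreg m t r := by
  have hI : t ∈ Ioo (-1 : ℝ) 1 := ⟨by linarith [ht.1], ht.2⟩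
  set Q := bregCoeff m t with hQ
  set z : ℝ → ℝ := fun r => (t - r) / (1 - t * r) with hzd
  set g : ℝ → ℝ := fun x => pureInner m x / ballShape x ^ (m + 2) with hg
  set f : ℝ → ℝ := fun r => pureBreg m t r - Q * r ^ 2 with hf
  set f1 : ℝ → ℝ := fun r => -t * (pureG m (z r) - pureG m t) -
    (1 - t ^ 2) * g (z r) / (1 - t * r) + pureInner m t / ballShape t ^ m - 2 * Q * r with hf1
  have hden : ∀ x ∈ Icc (-1 : ℝ) 1, 0 < 1 - t * x := fun x hx => by
    nlinarith [mul_le_mul_of_nonneg_left hx.2 ht.1.le, ht.2]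
  have hzI : ∀ x ∈ Ioo (-1 : ℝ) 1, z x ∈ Ioo (-1 : ℝ) 1 := fun x hx => by
    have h := hden x (Ioo_subset_Icc_self hx)
    simp only [hzd]
    refine ⟨?_, ?_⟩
    · rw [lt_div_iff₀ h]; nlinarith [hx.1, hx.2, ht.1, ht.2]
    · rw [div_lt_one h]; nlinarith [hx.1, hx.2, ht.1, ht.2]
  have hz' : ∀ x ∈ Ioo (-1 : ℝ) 1, HasDerivAt z (-(1 - t ^ 2) / (1 - t * x) ^ 2) x := fun x hx => by
    refine (((hasDerivAt_id' x).const_sub t).div (((hasDerivAt_id' x).const_mul t).const_sub 1)
      (hden x (Ioo_subset_Icc_self hx)).ne').congr_deriv ?_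
    ring
  have hd1 : ∀ x ∈ Ioo (-1 : ℝ) 1, HasDerivAt f (f1 x) x := fun x hx => by
    have hp := (hden x (Ioo_subset_Icc_self hx)).ne'
    have hG : HasDerivAt (fun y => pureG m (z y)) (g (z x) * (-(1 - t ^ 2) / (1 - t * x) ^ 2)) x :=
      (hasDerivAt_pureG hm (hzI x hx)).comp x (hz' x hx)
    refine ((((((hasDerivAt_id' x).const_mul t).const_sub 1).mul (hG.sub_const _)).add
      (((hasDerivAt_id' x).mul_const (pureInner m t)).div_const (ballShape t ^ m))).sub
      (((hasDerivAt_id' x).pow 2).const_mul Q)).congr_deriv ?_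
    simp only [hf1]
    field_simp
    ring
  have hd2 : ∀ x ∈ Ioo (-1 : ℝ) 1, HasDerivAt f1
      ((1 - t ^ 2) ^ 2 / (1 - t * x) ^ 3 * (pureNum m (z x) / ballShape (z x) ^ (m + 4)) - 2 * Q)
      x := fun x hx => by
    have hp := (hden x (Ioo_subset_Icc_self hx)).ne'
    have hG : HasDerivAt (fun y => pureG m (z y)) (g (z x) * (-(1 - t ^ 2) / (1 - t * x) ^ 2)) x :=
      (hasDerivAt_pureG hm (hzI x hx)).comp x (hz' x hx)
    have hS : HasDerivAt (fun y => g (z y)) (pureNum m (z x) / ballShape (z x) ^ (m + 4) *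
        (-(1 - t ^ 2) / (1 - t * x) ^ 2)) x :=
      (hasDerivAt_slope hm (hzI x hx)).comp x (hz' x hx)
    refine ((((hG.sub_const _).const_mul (-t)).sub ((hS.const_mul (1 - t ^ 2)).div
      (((hasDerivAt_id' x).const_mul t).const_sub 1) hp)).add_const _ |>.sub
      ((hasDerivAt_id' x).const_mul (2 * Q))).congr_deriv ?_
    field_simp
    ring
  have hpos : ∀ x ∈ Ioo (-1 : ℝ) 1,
      0 ≤ (1 - t ^ 2) ^ 2 / (1 - t * x) ^ 3 * (pureNum m (z x) / ballShape (z x) ^ (m + 4)) -
        2 * Q := fun x hx => by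
    have h := weightLow_le_curvature hm hI (hzI x hx)
    have hp : 0 < ballShape t := ball_pos hI
    have hp2 := ball_sq (Ioo_subset_Icc_self hI)
    have hd := (hden x (Ioo_subset_Icc_self hx)).ne'
    have e : 1 - t * z x = (1 - t ^ 2) / (1 - t * x) := by
      simp only [hzd]; field_simp; ring
    rw [e, ← hp2] at h
    rw [sub_nonneg, hQ, bregCoeff, ← hp2]
    set p := ballShape t
    calc 2 * (p * weightLow p / (2 * ((m : ℝ) + 1))) = p * weightLow p / ((m : ℝ) + 1) := by field_simp
      _ ≤ _ := by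
          rw [div_le_iff₀ (by positivity)]
          calc p * weightLow p ≤ p * _ := mul_le_mul_of_nonneg_left h hp.le
            _ = _ := by field_simp
  have hmono : MonotoneOn f1 (Ioo (-1 : ℝ) 1) := by
    refine monotoneOn_of_deriv_nonneg (convex_Ioo _ _)
      (fun x hx => (hd2 x hx).continuousAt.continuousWithinAt) ?_ ?_
    · rw [interior_Ioo]
      exact fun x hx => (hd2 x hx).differentiableAt.differentiableWithinAt
    intro x hx
    rw [interior_Ioo] at hx
    rw [(hd2 x hx).deriv]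
    exact hpos x hx
  have h00 : (0 : ℝ) ∈ Ioo (-1 : ℝ) 1 := by norm_num
  have hf10 : f1 0 = 0 := by
    simp only [hf1, hzd, hg]
    rw [← ball_sq (Ioo_subset_Icc_self hI)]
    have := (ball_pos hI).ne'
    simp only [mul_zero, sub_zero, div_one, sub_self, zero_sub, pow_add]
    field_simp
    ring
  have hf0 : f 0 = 0 := by simp [hf, pureBreg]
  have hcz : ContinuousOn z (Icc (-1) 1) :=
    (continuous_const.sub continuous_id).continuousOn.div
      (continuous_const.sub (continuous_const.mul continuous_id)).continuousOn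
      fun x hx => (hden x hx).ne'
  have hc : ContinuousOn f (Icc (-1) 1) :=
    ((((continuous_const.sub (continuous_const.mul continuous_id)).continuousOn).mul
      (((continuous_pureG hm).comp_continuousOn hcz).sub continuousOn_const)).add
      ((continuous_id.mul continuous_const).div_const _).continuousOn).sub
      (continuous_const.mul (continuous_pow 2)).continuousOn
  suffices h : 0 ≤ f r by simp only [hf] at h; linarith
  rcases le_total 0 r with h0 | h0
  · have : MonotoneOn f (Icc 0 1) := by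
      refine monotoneOn_of_deriv_nonneg (convex_Icc _ _)
        (hc.mono (Icc_subset_Icc (by norm_num) le_rfl)) ?_ ?_
      · rw [interior_Icc]
        exact fun x hx =>
          (hd1 x ⟨by linarith [hx.1], hx.2⟩).differentiableAt.differentiableWithinAt
      intro x hx
      rw [interior_Icc] at hx
      have hx' : x ∈ Ioo (-1 : ℝ) 1 := ⟨by linarith [hx.1], hx.2⟩
      rw [(hd1 x hx').deriv, ← hf10]
      exact hmono h00 hx' hx.1.le
    rw [← hf0]
    exact this (left_mem_Icc.2 zero_le_one) ⟨h0, hr.2⟩ h0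
  · have : AntitoneOn f (Icc (-1) 0) := by
      refine antitoneOn_of_deriv_nonpos (convex_Icc _ _)
        (hc.mono (Icc_subset_Icc le_rfl (by norm_num))) ?_ ?_
      · rw [interior_Icc]
        exact fun x hx =>
          (hd1 x ⟨hx.1, by linarith [hx.2]⟩).differentiableAt.differentiableWithinAt
      intro x hx
      rw [interior_Icc] at hx
      have hx' : x ∈ Ioo (-1 : ℝ) 1 := ⟨hx.1, by linarith [hx.2]⟩
      rw [(hd1 x hx').deriv, ← hf10]
      exact hmono hx' h00 hx.2.le
    rw [← hf0]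
    exact this ⟨hr.1, h0⟩ (right_mem_Icc.2 (by norm_num)) h0

end Vale.Agent.P237.Quant
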