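import Mathlib
import Vale.Agent.P237.Quant.Spectral
import Vale.Agent.P237.Quant.WeightBreg
import Vale.Agent.P237.Quant.FlatTop

/-!
A profile with nonpositive value has at least the ball's moment of `1 / p`; this bounds it at the
centre, and passes to its least spread companions.
-/

namespace Vale.Agent.P237.Quant

open MeasureTheory Set Filter Topology

variable {m : ℕ} {φ : ℝ → ℝ}

/-- A profile with nonpositive value has at least the moment of the ball. -/
theorem bad_moment (hm : 1 ≤ m) (hφ : IsShape φ) (hV : convexVal m (pureG m) φ ≤ 0) :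
    ballRatio m * mass m φ 1 ≤ ∫ t in (0 : ℝ)..1, φ t ^ m / ballShape t := by
  have hM : 0 ≤ mass m φ 1 := intervalIntegral.integral_nonneg zero_le_one fun t ht =>
    pow_nonneg (hφ.nonneg t ⟨by linarith [ht.1], ht.2⟩) m
  obtain ⟨-, hE, hg, hle⟩ := goal_le_value hm hφ (fun t _ => bregCoeff_nonneg m t)
    (measurable_bregCoeff m) fun t ht r hr => bregCoeff_mul_le hm ht hr
  have := mul_nonneg hE (ball_mass_pos (m - 1)).le
  linarith [mul_nonpos_of_nonpos_of_nonneg hV hM]

/-- The flat-top companion of a profile with nonpositive value has at least the moment of the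
ball. -/
theorem bad_flatTop (hm : 1 ≤ m) (hφ : IsShape φ) (hV : convexVal m (pureG m) φ ≤ 0) {s : ℝ}
    (hs : s ∈ Ioo (0 : ℝ) 1) :
    ∃ H k, φ s ≤ H ∧ H ≤ φ s / (1 - s) ∧ 0 ≤ k ∧ k ≤ φ s / (1 - s) ∧
      mass m (flatTopShape H (φ s / (1 - s)) (φ s) k s) s = mass m φ s ∧
      mass m (flatTopShape H (φ s / (1 - s)) (φ s) k s) 1 = mass m φ 1 ∧
      ballRatio m * mass m φ 1 ≤
        ∫ t in (0 : ℝ)..1, flatTopShape H (φ s / (1 - s)) (φ s) k s t ^ m / ballShape t := by
  obtain ⟨H, k, h1, h2, h3, h4, h5, h6, h7⟩ := exists_flatTop_div (m := m) hφ hs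
  exact ⟨H, k, h1, h2, h3, h4, h5, h6, (bad_moment hm hφ hV).trans h7⟩

theorem monotoneOn_inv_ball : MonotoneOn (fun t => 1 / ballShape t) (Ioo (0 : ℝ) 1) :=
  fun _ hx y hy hxy => one_div_le_one_div_of_le (ball_pos (sub01 hy))
    (Real.sqrt_le_sqrt (by nlinarith [hx.1, hy.2]))

theorem intervalIntegrable_inv_ball_mul {f : ℝ → ℝ} (hf : Continuous f) :
    IntervalIntegrable (fun t => 1 / ballShape t * f t) volume 0 1 := by
  have h : IntervalIntegrable (fun s => 1 / ballShape s) volume 0 1 := by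
    rw [intervalIntegrable_iff_integrableOn_Ioc_of_le zero_le_one]
    exact intervalIntegral.integrableOn_deriv_of_nonneg Real.continuous_arcsin.continuousOn
      (fun x hx => Real.hasDerivAt_arcsin (by linarith [hx.1]) hx.2.ne)
      (fun x _ => one_div_nonneg.2 (Real.sqrt_nonneg _))
  exact h.mul_continuousOn hf.continuousOn

/-- A steeper segment from the centre has the smaller normalised moment. -/
theorem line_moment_anti {g : ℝ → ℝ} (hg : MonotoneOn g (Ioo 0 1)) {κ κ' : ℝ} (hκ : 0 ≤ κ)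
    (hle : κ ≤ κ') (hκ' : κ' ≤ 1)
    (ig : ∀ c : ℝ, IntervalIntegrable (fun t => g t * (1 - c * t) ^ m) volume 0 1) :
    (∫ t in (0 : ℝ)..1, g t * (1 - κ' * t) ^ m) * (∫ t in (0 : ℝ)..1, (1 - κ * t) ^ m) ≤
      (∫ t in (0 : ℝ)..1, g t * (1 - κ * t) ^ m) * ∫ t in (0 : ℝ)..1, (1 - κ' * t) ^ m := by
  have hpos : ∀ c, 0 ≤ c → c ≤ 1 → ∀ t ∈ Ioo (0 : ℝ) 1, 0 < 1 - c * t := fun c hc0 hc1 t ht => by
    nlinarith [mul_le_mul_of_nonneg_right hc1 ht.1.le, ht.2]
  have hi : ∀ c, IntervalIntegrable (fun t : ℝ => (1 - c * t) ^ m) volume 0 1 := fun c =>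
    (by fun_prop : Continuous fun t : ℝ => (1 - c * t) ^ m).intervalIntegrable _ _
  set A := ∫ t in (0 : ℝ)..1, (1 - κ * t) ^ m with hA
  set A' := ∫ t in (0 : ℝ)..1, (1 - κ' * t) ^ m with hA'
  have hA'0 : 0 < A' := intervalIntegral.intervalIntegral_pos_of_pos_on (hi κ')
    (fun t ht => pow_pos (hpos κ' (hκ.trans hle) hκ' t ht) m) zero_lt_one
  have h := integral_mul_le_of_crossing zero_le_one hg (f := fun t => A / A' * (1 - κ' * t) ^ m)
    (h := fun t => (1 - κ * t) ^ m) (fun t ht hlt t' ht' htt => ?_) ((hi κ').const_mul _) (hi κ)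
    (((ig κ').const_mul (A / A')).congr fun t _ => by ring) (ig κ)
    (by rw [intervalIntegral.integral_const_mul, ← hA', div_mul_cancel₀ _ hA'0.ne'])
  · rw [intervalIntegral.integral_congr (g := fun t => A / A' * (g t * (1 - κ' * t) ^ m))
      fun t _ => by ring, intervalIntegral.integral_const_mul, div_mul_eq_mul_div,
      div_le_iff₀ hA'0] at h
    linarith
  · have h1 := hpos κ hκ (hle.trans hκ')
    have h2 := hpos κ' (hκ.trans hle) hκ'
    have hA0 : 0 ≤ A / A' := div_nonneg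
      (intervalIntegral.integral_nonneg_of_ae_restrict zero_le_one (by
        rw [← restrict_Ioo_eq_restrict_Icc]
        filter_upwards [ae_restrict_mem measurableSet_Ioo] with u hu
        exact (pow_pos (h1 u hu) m).le)) hA'0.le
    have hc : ((1 - κ * t') * (1 - κ' * t)) ^ m ≤ ((1 - κ' * t') * (1 - κ * t)) ^ m :=
      pow_le_pow_left₀ (mul_pos (h1 t' ht') (h2 t ht)).le
        (by nlinarith [mul_nonneg (sub_nonneg.2 htt) (sub_nonneg.2 hle)]) m
    rw [mul_pow, mul_pow] at hc
    refine le_of_mul_le_mul_right ?_ (pow_pos (h1 t ht) m)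
    calc (1 - κ * t') ^ m * (1 - κ * t) ^ m
        ≤ (1 - κ * t') ^ m * (A / A' * (1 - κ' * t) ^ m) :=
          mul_le_mul_of_nonneg_left hlt.le (pow_pos (h1 t' ht') m).le
      _ = A / A' * ((1 - κ * t') ^ m * (1 - κ' * t) ^ m) := by ring
      _ ≤ A / A' * ((1 - κ' * t') ^ m * (1 - κ * t) ^ m) := mul_le_mul_of_nonneg_left hc hA0
      _ = _ := by ring

/-- One inequality between the moments of a segment bounds a profile with nonpositive value at the
centre. -/
theorem bad_centre_le (hm : 1 ≤ m) (hφ : IsShape φ) (hV : convexVal m (pureG m) φ ≤ 0) {c : ℝ}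
    (hc : c ∈ Icc (0 : ℝ) 1)
    (hW : (∫ t in (0 : ℝ)..1, 1 / ballShape t * (1 - c * t) ^ m) <
      ballRatio m * ∫ t in (0 : ℝ)..1, (1 - c * t) ^ m) :
    φ 0 ^ m * (∫ t in (0 : ℝ)..1, (1 - c * t) ^ m) ≤ mass m φ 1 := by
  obtain ⟨k, hk0, hk1, hke, hmono⟩ := exists_centre_line (m := m) hφ
  have hg := monotoneOn_inv_ball
  have hbad := bad_moment hm hφ hV
  have hcomp := hmono _ hg
    ((intervalIntegrable_pow_div hφ m).congr fun t _ => (one_div_mul_eq_div _ _).symm)
    (intervalIntegrable_inv_ball_mul (by fun_prop))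
  simp only [one_div_mul_eq_div] at hcomp
  set κ := k / φ 0 with hκ
  have e : ∀ t : ℝ, (φ 0 - k * t) ^ m = φ 0 ^ m * (1 - κ * t) ^ m := fun t => by
    rw [← mul_pow, mul_sub, mul_one, ← mul_assoc, hκ, mul_div_cancel₀ _ hφ.centre.ne']
  have em : mass m φ 1 = φ 0 ^ m * ∫ t in (0 : ℝ)..1, (1 - κ * t) ^ m := by
    rw [← hke, ← intervalIntegral.integral_const_mul]
    simp only [e]
  have hκc : κ ≤ c := by
    by_contra! hlt
    have h := line_moment_anti (m := m) hg hc.1 hlt.le
      (by rw [hκ, div_le_one hφ.centre]; exact hk1)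
      (fun _ => intervalIntegrable_inv_ball_mul (by fun_prop))
    have ei : (∫ t in (0 : ℝ)..1, (φ 0 - k * t) ^ m / ballShape t) =
        φ 0 ^ m * ∫ t in (0 : ℝ)..1, 1 / ballShape t * (1 - κ * t) ^ m := by
      rw [← intervalIntegral.integral_const_mul]
      refine intervalIntegral.integral_congr fun t _ => ?_
      rw [e]
      ring
    have h0 : 0 < φ 0 ^ m := pow_pos hφ.centre m
    have hκ1 : κ ≤ 1 := by rw [hκ, div_le_one hφ.centre]; exact hk1
    have hA : 0 < ∫ t in (0 : ℝ)..1, (1 - κ * t) ^ m :=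
      intervalIntegral.intervalIntegral_pos_of_pos_on
        ((by fun_prop : Continuous fun t : ℝ => (1 - κ * t) ^ m).intervalIntegrable _ _)
        (fun t ht => pow_pos (by nlinarith [mul_le_mul_of_nonneg_right hκ1 ht.1.le, ht.2]) m)
        zero_lt_one
    rw [em] at hbad
    rw [ei] at hcomp
    have h3 : ballRatio m * (∫ t in (0 : ℝ)..1, (1 - κ * t) ^ m) ≤
        ∫ t in (0 : ℝ)..1, 1 / ballShape t * (1 - κ * t) ^ m :=
      le_of_mul_le_mul_left (by linarith) h0
    have h4 := mul_lt_mul_of_pos_right hW hA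
    have hA2 : 0 ≤ ∫ t in (0 : ℝ)..1, (1 - c * t) ^ m :=
      intervalIntegral.integral_nonneg zero_le_one fun t ht =>
        pow_nonneg (by nlinarith [mul_le_mul_of_nonneg_right hc.2 ht.1, ht.2]) m
    linarith [mul_le_mul_of_nonneg_right h3 hA2]
  rw [em]
  refine mul_le_mul_of_nonneg_left (intervalIntegral.integral_mono_on zero_le_one
    ((by fun_prop : Continuous fun t : ℝ => (1 - c * t) ^ m).intervalIntegrable _ _)
    ((by fun_prop : Continuous fun t : ℝ => (1 - κ * t) ^ m).intervalIntegrable _ _) fun t ht => ?_)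
    (pow_pos hφ.centre m).le
  exact pow_le_pow_left₀ (by nlinarith [mul_le_mul_of_nonneg_right hc.2 ht.1, ht.2])
    (by nlinarith [mul_le_mul_of_nonneg_right hκc ht.1]) m

end Vale.Agent.P237.Quant
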