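import Mathlib

/-!
Weighted one-dimensional Poincaré inequalities from supersolutions. A positive supersolution gives
the inequality on an interval (Picone); on a partition by nodes, together
with one test function for each node, they give it up to terms of finite rank. The weight of the derivative may degenerate.
-/

namespace Vale.Agent.P237.Quant.Picone

open MeasureTheory Set Filter
open scoped Topology

/-- The quadratic form `∫ k v'² - q v²`. -/
noncomputable def form (k q v v' : ℝ → ℝ) (a b : ℝ) : ℝ :=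
  ∫ x in a..b, (k x * v' x ^ 2 - q x * v x ^ 2)

/-- `v` is continuous on `[a, b]`, has right derivative `v'` inside and finite form. -/
structure Admissible (k q v v' : ℝ → ℝ) (a b : ℝ) : Prop where
  cont : ContinuousOn v (Icc a b)
  deriv : ∀ x ∈ Ioo a b, HasDerivWithinAt v (v' x) (Ioi x) x
  int_energy : IntervalIntegrable (fun x => k x * v' x ^ 2) volume a b
  int_pot : IntervalIntegrable (fun x => q x * v x ^ 2) volume a b

/-- A positive supersolution of `(k φ')' + q φ = 0`, with its flux `F = k φ'`. -/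
structure Supersolution (k q φ F : ℝ → ℝ) (a b : ℝ) : Prop where
  cont : ContinuousOn φ (Icc a b)
  cont_flux : ContinuousOn F (Icc a b)
  pos : ∀ x ∈ Icc a b, 0 < φ x
  deriv : ∀ x ∈ Ioo a b, ∃ d e : ℝ, HasDerivWithinAt φ d (Ioi x) x ∧ F x = k x * d ∧
    HasDerivWithinAt F e (Ioi x) x ∧ e + q x * φ x ≤ 0

/-- Picone: a supersolution bounds the form from below by its boundary term. -/
theorem picone {k q v v' φ F : ℝ → ℝ} {a b : ℝ} (hab : a ≤ b)
    (hk : ∀ x ∈ Ioo a b, 0 ≤ k x) (hv : Admissible k q v v' a b)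
    (hφ : Supersolution k q φ F a b) :
    F b * v b ^ 2 / φ b - F a * v a ^ 2 / φ a ≤ form k q v v' a b := by
  have key : ∀ x ∈ Ioo a b, ∃ D : ℝ,
      HasDerivWithinAt (fun y => F y * v y ^ 2 / φ y) D (Ioi x) x ∧
      D ≤ k x * v' x ^ 2 - q x * v x ^ 2 := by
    intro x hx
    obtain ⟨d, e, hd, hF, he, hsup⟩ := hφ.deriv x hx
    have hp := hφ.pos x (Ioo_subset_Icc_self hx)
    refine ⟨_, (he.fun_mul ((hv.deriv x hx).fun_pow 2)).fun_div hd hp.ne', ?_⟩
    have h1 : e * φ x * v x ^ 2 ≤ -(q x * φ x ^ 2) * v x ^ 2 := by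
      have := mul_le_mul_of_nonneg_right hsup (mul_nonneg hp.le (sq_nonneg (v x)))
      linarith
    have h2 : 0 ≤ k x * (v' x * φ x - d * v x) ^ 2 := mul_nonneg (hk x hx) (sq_nonneg _)
    rw [div_le_iff₀ (by positivity), hF]
    push_cast
    ring_nf
    ring_nf at h1 h2
    linarith
  choose D hD hle using key
  have hcont : ContinuousOn (fun y => F y * v y ^ 2 / φ y) (Icc a b) :=
    (hφ.cont_flux.mul (hv.cont.pow 2)).div hφ.cont fun x hx => (hφ.pos x hx).ne'
  classical
  refine intervalIntegral.sub_le_integral_of_hasDeriv_right_of_le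
    (g := fun y => F y * v y ^ 2 / φ y)
    (g' := fun x => if h : x ∈ Ioo a b then D x h else 0) hab hcont ?_
    ((intervalIntegrable_iff_integrableOn_Icc_of_le hab).1 (hv.int_energy.sub hv.int_pot)) ?_
  · intro x hx
    rw [dif_pos hx]
    exact hD x hx
  · intro x hx
    rw [dif_pos hx]
    exact hle x hx

/-- The form is nonnegative on the functions vanishing at the left end. -/
def Barrier (k q : ℝ → ℝ) (a b : ℝ) : Prop :=
  ∀ v v' : ℝ → ℝ, (∀ x ∈ Ioo a b, 0 ≤ k x) → Admissible k q v v' a b → v a = 0 →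
    0 ≤ form k q v v' a b

/-- A supersolution with nonnegative flux at the right end is a barrier. -/
theorem Supersolution.barrier {k q φ F : ℝ → ℝ} {a b : ℝ} (hφ : Supersolution k q φ F a b)
    (hab : a ≤ b) (hF : 0 ≤ F b) : Barrier k q a b := fun v v' hk hv h0 => by
  have h := picone hab hk hv hφ
  have h5 : 0 ≤ F b * v b ^ 2 / φ b :=
    div_nonneg (mul_nonneg hF (sq_nonneg _)) (hφ.pos b (right_mem_Icc.2 hab)).le
  simp only [h0, ne_eq, OfNat.ofNat_ne_zero, not_false_eq_true, zero_pow, mul_zero, zero_div,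
    sub_zero] at h
  linarith

/-- Two supersolutions are a barrier if the log derivative does not jump upwards where they
meet. -/
theorem barrier_of_glue {k q φ F ψ H : ℝ → ℝ} {a z b : ℝ} (ha : a ≤ z) (hb : z ≤ b)
    (hφ : Supersolution k q φ F a z) (hψ : Supersolution k q ψ H z b)
    (hz : H z * φ z ≤ F z * ψ z) (hH : 0 ≤ H b) : Barrier k q a b := fun v v' hk hv h0 => by
  have hab := ha.trans hb
  have sub : ∀ {c d : ℝ}, a ≤ c → c ≤ d → d ≤ b → Admissible k q v v' c d := fun {c d} hc hcd hd => by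
    have hs : uIcc c d ⊆ uIcc a b := by
      rw [uIcc_of_le hcd, uIcc_of_le hab]; exact Icc_subset_Icc hc hd
    exact ⟨hv.cont.mono (Icc_subset_Icc hc hd),
      fun x hx => hv.deriv x ⟨hc.trans_lt hx.1, hx.2.trans_le hd⟩,
      hv.int_energy.mono_set hs, hv.int_pot.mono_set hs⟩
  have v1 := sub le_rfl ha hb
  have v2 := sub ha hb le_rfl
  have h1 := picone ha (fun x hx => hk x ⟨hx.1, hx.2.trans_le hb⟩) v1 hφ
  have h2 := picone hb (fun x hx => hk x ⟨ha.trans_lt hx.1, hx.2⟩) v2 hψ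
  have h3 : form k q v v' a b = form k q v v' a z + form k q v v' z b :=
    (intervalIntegral.integral_add_adjacent_intervals (v1.int_energy.sub v1.int_pot)
      (v2.int_energy.sub v2.int_pot)).symm
  have h4 : H z * v z ^ 2 / ψ z ≤ F z * v z ^ 2 / φ z := by
    rw [div_le_div_iff₀ (hψ.pos z (left_mem_Icc.2 hb)) (hφ.pos z (right_mem_Icc.2 ha))]
    linarith [mul_le_mul_of_nonneg_right hz (sq_nonneg (v z))]
  have h5 : 0 ≤ H b * v b ^ 2 / ψ b :=
    div_nonneg (mul_nonneg hH (sq_nonneg _)) (hψ.pos b (right_mem_Icc.2 hb)).le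
  simp only [h0, ne_eq, OfNat.ofNat_ne_zero, not_false_eq_true, zero_pow, mul_zero, zero_div,
    sub_zero] at h1
  linarith

/-- The form of a function vanishing at a node, with supersolutions on both sides, is
nonnegative. -/
theorem form_nonneg_of_node {k q v v' φ F ψ H : ℝ → ℝ} {a ξ b : ℝ} (ha : a ≤ ξ) (hb : ξ ≤ b)
    (hk : ∀ x ∈ Ioo a b, 0 ≤ k x) (hv : Admissible k q v v' a b)
    (hφ : Supersolution k q φ F a ξ) (hψ : Supersolution k q ψ H ξ b)
    (hFa : F a ≤ 0) (hHb : 0 ≤ H b) (hnode : v ξ = 0) : 0 ≤ form k q v v' a b := by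
  have hs1 : uIcc a ξ ⊆ uIcc a b := by
    rw [uIcc_of_le ha, uIcc_of_le (ha.trans hb)]; exact Icc_subset_Icc le_rfl hb
  have hs2 : uIcc ξ b ⊆ uIcc a b := by
    rw [uIcc_of_le hb, uIcc_of_le (ha.trans hb)]; exact Icc_subset_Icc ha le_rfl
  have e1 := hv.int_energy.mono_set hs1
  have e2 := hv.int_energy.mono_set hs2
  have p1 := hv.int_pot.mono_set hs1
  have p2 := hv.int_pot.mono_set hs2
  have v1 : Admissible k q v v' a ξ := ⟨hv.cont.mono (Icc_subset_Icc le_rfl hb),
    fun x hx => hv.deriv x ⟨hx.1, hx.2.trans_le hb⟩, e1, p1⟩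
  have v2 : Admissible k q v v' ξ b := ⟨hv.cont.mono (Icc_subset_Icc ha le_rfl),
    fun x hx => hv.deriv x ⟨ha.trans_lt hx.1, hx.2⟩, e2, p2⟩
  have h1 := picone ha (fun x hx => hk x ⟨hx.1, hx.2.trans_le hb⟩) v1 hφ
  have h2 := picone hb (fun x hx => hk x ⟨ha.trans_lt hx.1, hx.2⟩) v2 hψ
  have h3 : form k q v v' a b = form k q v v' a ξ + form k q v v' ξ b :=
    (intervalIntegral.integral_add_adjacent_intervals (e1.sub p1) (e2.sub p2)).symm
  have h4 : F a * v a ^ 2 / φ a ≤ 0 := div_nonpos_of_nonpos_of_nonneg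
    (mul_nonpos_of_nonpos_of_nonneg hFa (sq_nonneg _))
    (hφ.pos a (left_mem_Icc.2 ha)).le
  have h5 : 0 ≤ H b * v b ^ 2 / ψ b :=
    div_nonneg (mul_nonneg hHb (sq_nonneg _)) (hψ.pos b (right_mem_Icc.2 hb)).le
  rw [hnode] at h1 h2
  norm_num at h1 h2
  linarith

/-- A solution `u` of `-(k u')' - q u = ω` with zero flux at both ends. -/
structure Source (k q ω u u' : ℝ → ℝ) (a b : ℝ) : Prop where
  adm : Admissible k q u u' a b
  flux : ∃ F : ℝ → ℝ, ContinuousOn F (Icc a b) ∧ F a = 0 ∧ F b = 0 ∧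
    ∀ x ∈ Ioo a b, F x = k x * u' x ∧ HasDerivWithinAt F (-(q x * u x) - ω x) (Ioi x) x

/-- The bilinear form of a source with any admissible function is the pairing with `ω`. -/
theorem pairing {k q ω u u' v v' : ℝ → ℝ} {a b : ℝ} (hab : a ≤ b)
    (hu : Source k q ω u u' a b) (hv : Admissible k q v v' a b)
    (hm : IntervalIntegrable (fun x => k x * u' x * v' x) volume a b)
    (hp : IntervalIntegrable (fun x => q x * u x * v x) volume a b)
    (hω : IntervalIntegrable (fun x => ω x * v x) volume a b) :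
    ∫ x in a..b, (k x * u' x * v' x - q x * u x * v x) = ∫ x in a..b, ω x * v x := by
  obtain ⟨F, hF, hFa, hFb, hd⟩ := hu.flux
  have h := intervalIntegral.integral_eq_sub_of_hasDeriv_right_of_le hab
    (f := fun x => F x * v x)
    (f' := fun x => k x * u' x * v' x - q x * u x * v x - ω x * v x) (hF.mul hv.cont)
    (fun x hx => ?_) ((hm.sub hp).sub hω)
  · rw [intervalIntegral.integral_sub (hm.sub hp) hω, hFa, hFb] at h
    simp only [zero_mul, sub_zero] at h
    exact sub_eq_zero.1 h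
  · obtain ⟨hFx, hFd⟩ := hd x hx
    refine (hFd.fun_mul (hv.deriv x hx)).congr_deriv ?_
    rw [hFx]
    ring

/-- Up to a rank one term the form is nonnegative: supersolutions on the two sides of a node and
a source `u`, nonzero at the node, with `∫ ω u ≤ -s < 0`. -/
theorem form_add_rank_one_nonneg {k q ω u u' v v' φ F ψ H : ℝ → ℝ} {a ξ b s : ℝ}
    (ha : a ≤ ξ) (hb : ξ ≤ b) (hk : ∀ x ∈ Ioo a b, 0 ≤ k x)
    (hv : Admissible k q v v' a b) (hu : Source k q ω u u' a b)
    (hφ : Supersolution k q φ F a ξ) (hψ : Supersolution k q ψ H ξ b)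
    (hFa : F a ≤ 0) (hHb : 0 ≤ H b) (hξ : u ξ ≠ 0)
    (hm : IntervalIntegrable (fun x => k x * u' x * v' x) volume a b)
    (hp : IntervalIntegrable (fun x => q x * u x * v x) volume a b)
    (hω : IntervalIntegrable (fun x => ω x * v x) volume a b)
    (hωu : IntervalIntegrable (fun x => ω x * u x) volume a b)
    (hs : 0 < s) (hsu : ∫ x in a..b, ω x * u x ≤ -s) :
    0 ≤ form k q v v' a b + (∫ x in a..b, ω x * v x) ^ 2 / s := by
  set α := v ξ / u ξ with hα
  have hab := ha.trans hb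
  have ek : (fun x => k x * (v' x - α * u' x) ^ 2) = fun x =>
      k x * v' x ^ 2 - 2 * α * (k x * u' x * v' x) + α ^ 2 * (k x * u' x ^ 2) := by
    funext x; ring
  have eq : (fun x => q x * (v x - α * u x) ^ 2) = fun x =>
      q x * v x ^ 2 - 2 * α * (q x * u x * v x) + α ^ 2 * (q x * u x ^ 2) := by
    funext x; ring
  have ik := (hv.int_energy.sub (hm.const_mul (2 * α))).add
    (hu.adm.int_energy.const_mul (α ^ 2))
  have iq := (hv.int_pot.sub (hp.const_mul (2 * α))).add (hu.adm.int_pot.const_mul (α ^ 2))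
  have hw : Admissible k q (fun x => v x - α * u x) (fun x => v' x - α * u' x) a b :=
    ⟨hv.cont.sub (continuousOn_const.mul hu.adm.cont),
      fun x hx => (hv.deriv x hx).fun_sub ((hu.adm.deriv x hx).const_mul α),
      by rw [ek]; exact ik, by rw [eq]; exact iq⟩
  have h0 := form_nonneg_of_node ha hb hk hw hφ hψ hFa hHb
    (show v ξ - α * u ξ = 0 by rw [hα]; field_simp; ring)
  have h1 := pairing hab hu hv hm hp hω
  have h2 := pairing hab hu hu.adm (by simpa [pow_two, mul_assoc] using hu.adm.int_energy)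
    (by simpa [pow_two, mul_assoc] using hu.adm.int_pot) hωu
  have hexp : form k q (fun x => v x - α * u x) (fun x => v' x - α * u' x) a b =
      form k q v v' a b - 2 * α * (∫ x in a..b, ω x * v x) +
        α ^ 2 * ∫ x in a..b, ω x * u x := by
    have iu := hu.adm.int_energy.sub hu.adm.int_pot
    rw [← h1, ← h2]
    simp only [form]
    rw [← intervalIntegral.integral_const_mul, ← intervalIntegral.integral_const_mul,
      ← intervalIntegral.integral_sub (hv.int_energy.sub hv.int_pot)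
        ((hm.sub hp).const_mul _), ← intervalIntegral.integral_add
        ((hv.int_energy.sub hv.int_pot).sub ((hm.sub hp).const_mul _))
        ((iu.congr fun x _ => by ring).const_mul _)]
    exact intervalIntegral.integral_congr fun x _ => by ring
  rw [hexp] at h0
  set X := ∫ x in a..b, ω x * v x
  have h3 := mul_le_mul_of_nonneg_left hsu (sq_nonneg α)
  have h4 : 0 ≤ (α * s + X) ^ 2 / s := div_nonneg (sq_nonneg _) hs.le
  have h5 : (α * s + X) ^ 2 / s = α ^ 2 * s + 2 * α * X + X ^ 2 / s := by field_simp; ring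
  linarith

/-- The form of a function vanishing at two nodes is nonnegative. -/
theorem form_nonneg_of_two_nodes {k q v v' φ F χ L : ℝ → ℝ} {a ξ η b : ℝ} (ha : a ≤ ξ)
    (hm : ξ ≤ η) (hb : η ≤ b) (hk : ∀ x ∈ Ioo a b, 0 ≤ k x) (hv : Admissible k q v v' a b)
    (hφ : Supersolution k q φ F a ξ) (hχ : Supersolution k q χ L ξ η)
    (hψ : Barrier k q η b) (hFa : F a ≤ 0)
    (h1 : v ξ = 0) (h2 : v η = 0) : 0 ≤ form k q v v' a b := by
  have h0 : a ≤ b := (ha.trans hm).trans hb
  have sub : ∀ {c d : ℝ}, a ≤ c → c ≤ d → d ≤ b → uIcc c d ⊆ uIcc a b := fun hc hcd hd => by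
    rw [uIcc_of_le hcd, uIcc_of_le h0]; exact Icc_subset_Icc hc hd
  have res : ∀ {c d : ℝ}, a ≤ c → c ≤ d → d ≤ b → Admissible k q v v' c d := fun hc hcd hd =>
    ⟨hv.cont.mono (Icc_subset_Icc hc hd),
      fun x hx => hv.deriv x ⟨hc.trans_lt hx.1, hx.2.trans_le hd⟩,
      hv.int_energy.mono_set (sub hc hcd hd), hv.int_pot.mono_set (sub hc hcd hd)⟩
  have v1 := res le_rfl ha (hm.trans hb)
  have v2 := res ha hm hb
  have v3 := res (ha.trans hm) hb le_rfl
  have p1 := picone ha (fun x hx => hk x ⟨hx.1, hx.2.trans_le (hm.trans hb)⟩) v1 hφ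
  have p2 := picone hm (fun x hx => hk x ⟨ha.trans_lt hx.1, hx.2.trans_le hb⟩) v2 hχ
  have p3 := hψ v v' (fun x hx => hk x ⟨(ha.trans hm).trans_lt hx.1, hx.2⟩) v3 h2
  have e1 : form k q v v' a b = form k q v v' a ξ + form k q v v' ξ η + form k q v v' η b := by
    simp only [form]
    rw [intervalIntegral.integral_add_adjacent_intervals (v1.int_energy.sub v1.int_pot)
      (v2.int_energy.sub v2.int_pot), intervalIntegral.integral_add_adjacent_intervals
      ((v1.int_energy.sub v1.int_pot).trans (v2.int_energy.sub v2.int_pot))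
      (v3.int_energy.sub v3.int_pot)]
  have h4 : F a * v a ^ 2 / φ a ≤ 0 := div_nonpos_of_nonpos_of_nonneg
    (mul_nonpos_of_nonpos_of_nonneg hFa (sq_nonneg _)) (hφ.pos a (left_mem_Icc.2 ha)).le
  simp only [h1, h2, ne_eq, OfNat.ofNat_ne_zero, not_false_eq_true, zero_pow, mul_zero, zero_div,
    sub_zero] at p1 p2
  linarith

/-- Up to two rank one terms the form is nonnegative: supersolutions on the three intervals of
two nodes, and two sources whose values at the nodes are independent and whose form is at most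
`-(a₁² / c₁ + a₂² / c₂)`. -/
theorem form_add_rank_two_nonneg {k q ω₁ u₁ u₁' ω₂ u₂ u₂' v v' φ F χ L ψ H : ℝ → ℝ}
    {a ξ η b c₁ c₂ : ℝ} (ha : a ≤ ξ) (hm : ξ ≤ η) (hb : η ≤ b) (hk : ∀ x ∈ Ioo a b, 0 ≤ k x)
    (hv : Admissible k q v v' a b) (hu₁ : Source k q ω₁ u₁ u₁' a b)
    (hu₂ : Source k q ω₂ u₂ u₂' a b) (hφ : Supersolution k q φ F a ξ)
    (hχ : Supersolution k q χ L ξ η) (hψ : Supersolution k q ψ H η b)
    (hFa : F a ≤ 0) (hHb : 0 ≤ H b) (hdet : u₁ ξ * u₂ η - u₂ ξ * u₁ η ≠ 0)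
    (me₁ : IntervalIntegrable (fun x => k x * u₁' x * v' x) volume a b)
    (mp₁ : IntervalIntegrable (fun x => q x * u₁ x * v x) volume a b)
    (me₂ : IntervalIntegrable (fun x => k x * u₂' x * v' x) volume a b)
    (mp₂ : IntervalIntegrable (fun x => q x * u₂ x * v x) volume a b)
    (me₁₂ : IntervalIntegrable (fun x => k x * u₁' x * u₂' x) volume a b)
    (mp₁₂ : IntervalIntegrable (fun x => q x * u₁ x * u₂ x) volume a b)
    (iv₁ : IntervalIntegrable (fun x => ω₁ x * v x) volume a b)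
    (iv₂ : IntervalIntegrable (fun x => ω₂ x * v x) volume a b)
    (i₁₁ : IntervalIntegrable (fun x => ω₁ x * u₁ x) volume a b)
    (i₂₂ : IntervalIntegrable (fun x => ω₂ x * u₂ x) volume a b)
    (i₁₂ : IntervalIntegrable (fun x => ω₁ x * u₂ x) volume a b)
    (hc₁ : 0 < c₁) (hc₂ : 0 < c₂)
    (hM : ∀ p r : ℝ, p ^ 2 * (∫ x in a..b, ω₁ x * u₁ x) +
      2 * p * r * (∫ x in a..b, ω₁ x * u₂ x) + r ^ 2 * (∫ x in a..b, ω₂ x * u₂ x) ≤
      -(p ^ 2 / c₁ + r ^ 2 / c₂)) :
    0 ≤ form k q v v' a b + c₁ * (∫ x in a..b, ω₁ x * v x) ^ 2 +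
      c₂ * (∫ x in a..b, ω₂ x * v x) ^ 2 := by
  set D := u₁ ξ * u₂ η - u₂ ξ * u₁ η with hD
  set p := (v ξ * u₂ η - u₂ ξ * v η) / D with hp
  set r := (u₁ ξ * v η - v ξ * u₁ η) / D with hr
  have hab : a ≤ b := (ha.trans hm).trans hb
  have ek : (fun x => k x * (v' x - p * u₁' x - r * u₂' x) ^ 2) = fun x =>
      k x * v' x ^ 2 + p ^ 2 * (k x * u₁' x ^ 2) + r ^ 2 * (k x * u₂' x ^ 2) +
        2 * p * r * (k x * u₁' x * u₂' x) - 2 * p * (k x * u₁' x * v' x) -
        2 * r * (k x * u₂' x * v' x) := by funext x; ring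
  have eq : (fun x => q x * (v x - p * u₁ x - r * u₂ x) ^ 2) = fun x =>
      q x * v x ^ 2 + p ^ 2 * (q x * u₁ x ^ 2) + r ^ 2 * (q x * u₂ x ^ 2) +
        2 * p * r * (q x * u₁ x * u₂ x) - 2 * p * (q x * u₁ x * v x) -
        2 * r * (q x * u₂ x * v x) := by funext x; ring
  have hw : Admissible k q (fun x => v x - p * u₁ x - r * u₂ x)
      (fun x => v' x - p * u₁' x - r * u₂' x) a b :=
    ⟨(hv.cont.sub (continuousOn_const.mul hu₁.adm.cont)).sub
        (continuousOn_const.mul hu₂.adm.cont),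
      fun x hx => ((hv.deriv x hx).fun_sub ((hu₁.adm.deriv x hx).const_mul p)).fun_sub
        ((hu₂.adm.deriv x hx).const_mul r),
      by
        rw [ek]
        exact ((((hv.int_energy.add (hu₁.adm.int_energy.const_mul _)).add
          (hu₂.adm.int_energy.const_mul _)).add (me₁₂.const_mul _)).sub (me₁.const_mul _)).sub
          (me₂.const_mul _),
      by
        rw [eq]
        exact ((((hv.int_pot.add (hu₁.adm.int_pot.const_mul _)).add
          (hu₂.adm.int_pot.const_mul _)).add (mp₁₂.const_mul _)).sub (mp₁.const_mul _)).sub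
          (mp₂.const_mul _)⟩
  have n1 : v ξ - p * u₁ ξ - r * u₂ ξ = 0 := by
    rw [hp, hr]; field_simp; rw [hD]; ring
  have n2 : v η - p * u₁ η - r * u₂ η = 0 := by
    rw [hp, hr]; field_simp; rw [hD]; ring
  have h0 := form_nonneg_of_two_nodes ha hm hb hk hw hφ hχ (hψ.barrier hb hHb) hFa n1 n2
  have q1 := pairing hab hu₁ hv me₁ mp₁ iv₁
  have q2 := pairing hab hu₂ hv me₂ mp₂ iv₂
  have q12 := pairing hab hu₁ hu₂.adm me₁₂ mp₁₂ i₁₂
  have q11 := pairing hab hu₁ hu₁.adm (by simpa [pow_two, mul_assoc] using hu₁.adm.int_energy)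
    (by simpa [pow_two, mul_assoc] using hu₁.adm.int_pot) i₁₁
  have q22 := pairing hab hu₂ hu₂.adm (by simpa [pow_two, mul_assoc] using hu₂.adm.int_energy)
    (by simpa [pow_two, mul_assoc] using hu₂.adm.int_pot) i₂₂
  have hexp : form k q (fun x => v x - p * u₁ x - r * u₂ x)
      (fun x => v' x - p * u₁' x - r * u₂' x) a b =
      form k q v v' a b - 2 * p * (∫ x in a..b, ω₁ x * v x) -
        2 * r * (∫ x in a..b, ω₂ x * v x) + p ^ 2 * (∫ x in a..b, ω₁ x * u₁ x) +
        2 * p * r * (∫ x in a..b, ω₁ x * u₂ x) + r ^ 2 * (∫ x in a..b, ω₂ x * u₂ x) := by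
    have I1 : IntervalIntegrable (fun x => k x * u₁' x * u₁' x - q x * u₁ x * u₁ x) volume a b :=
      (hu₁.adm.int_energy.sub hu₁.adm.int_pot).congr fun x _ => by ring
    have I2 : IntervalIntegrable (fun x => k x * u₂' x * u₂' x - q x * u₂ x * u₂ x) volume a b :=
      (hu₂.adm.int_energy.sub hu₂.adm.int_pot).congr fun x _ => by ring
    have A0 := hv.int_energy.sub hv.int_pot
    have A1 := A0.sub ((me₁.sub mp₁).const_mul (2 * p))
    have A2 := A1.sub ((me₂.sub mp₂).const_mul (2 * r))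
    have A3 := A2.add (I1.const_mul (p ^ 2))
    have A4 := A3.add ((me₁₂.sub mp₁₂).const_mul (2 * p * r))
    rw [← q1, ← q2, ← q11, ← q12, ← q22]
    simp only [form, ← intervalIntegral.integral_const_mul]
    rw [← intervalIntegral.integral_sub A0 ((me₁.sub mp₁).const_mul (2 * p)),
      ← intervalIntegral.integral_sub A1 ((me₂.sub mp₂).const_mul (2 * r)),
      ← intervalIntegral.integral_add A2 (I1.const_mul (p ^ 2)),
      ← intervalIntegral.integral_add A3 ((me₁₂.sub mp₁₂).const_mul (2 * p * r)),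
      ← intervalIntegral.integral_add A4 (I2.const_mul (r ^ 2))]
    exact intervalIntegral.integral_congr fun x _ => by ring
  rw [hexp] at h0
  set X₁ := ∫ x in a..b, ω₁ x * v x
  set X₂ := ∫ x in a..b, ω₂ x * v x
  have s1 : 0 ≤ c₁ * X₁ ^ 2 + 2 * p * X₁ + p ^ 2 / c₁ := by
    have e : c₁ * X₁ ^ 2 + 2 * p * X₁ + p ^ 2 / c₁ = (c₁ * X₁ + p) ^ 2 / c₁ := by
      field_simp; ring
    rw [e]; positivity
  have s2 : 0 ≤ c₂ * X₂ ^ 2 + 2 * r * X₂ + r ^ 2 / c₂ := by
    have e : c₂ * X₂ ^ 2 + 2 * r * X₂ + r ^ 2 / c₂ = (c₂ * X₂ + r) ^ 2 / c₂ := by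
      field_simp; ring
    rw [e]; positivity
  linarith [hM p r]

/-- An error `e` in the source is absorbed by a spare potential `r`. -/
theorem absorb {S R X Y δ s η : ℝ} (hs : 0 < s) (hδ : 0 < δ) (hY : Y ^ 2 ≤ η * R)
    (hR : 0 ≤ R) (hη : (1 + 1 / δ) * η ≤ s) (h : 0 ≤ S - R + (X + Y) ^ 2 / s) :
    0 ≤ S + (1 + δ) * X ^ 2 / s := by
  have h1 : (X + Y) ^ 2 ≤ (1 + δ) * X ^ 2 + (1 + 1 / δ) * Y ^ 2 := by
    have e : (1 + δ) * X ^ 2 + (1 + 1 / δ) * Y ^ 2 - (X + Y) ^ 2 = (δ * X - Y) ^ 2 / δ := by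
      field_simp; ring
    nlinarith [div_nonneg (sq_nonneg (δ * X - Y)) hδ.le]
  have h2 : (1 + 1 / δ) * Y ^ 2 ≤ s * R := by
    calc (1 + 1 / δ) * Y ^ 2 ≤ (1 + 1 / δ) * (η * R) :=
          mul_le_mul_of_nonneg_left hY (by positivity)
      _ = (1 + 1 / δ) * η * R := by ring
      _ ≤ s * R := mul_le_mul_of_nonneg_right hη hR
  have h3 : (X + Y) ^ 2 / s ≤ (1 + δ) * X ^ 2 / s + R := by
    rw [div_add' _ _ _ hs.ne']
    exact div_le_div_of_nonneg_right (by linarith) hs.le
  linarith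

/-- The weighted Cauchy-Schwarz bound for the pairing of an error with a function. -/
theorem sq_integral_mul_le {r e v : ℝ → ℝ} {a b : ℝ} (hab : a ≤ b)
    (hr : ∀ x ∈ Ioo a b, 0 < r x)
    (he : IntervalIntegrable (fun x => e x ^ 2 / r x) volume a b)
    (hv : IntervalIntegrable (fun x => r x * v x ^ 2) volume a b)
    (hev : IntervalIntegrable (fun x => e x * v x) volume a b) :
    (∫ x in a..b, e x * v x) ^ 2 ≤
      (∫ x in a..b, e x ^ 2 / r x) * ∫ x in a..b, r x * v x ^ 2 := by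
  set A := ∫ x in a..b, e x ^ 2 / r x
  set B := ∫ x in a..b, r x * v x ^ 2
  set C := ∫ x in a..b, e x * v x
  have hl : ∀ l : ℝ, 0 ≤ A * (l * l) + 2 * C * l + B := by
    intro l
    have h : 0 ≤ ∫ x in a..b, (e x ^ 2 / r x * (l * l) + e x * v x * (2 * l) + r x * v x ^ 2) := by
      rw [intervalIntegral.integral_of_le hab, ← setIntegral_congr_set Ioo_ae_eq_Ioc]
      refine setIntegral_nonneg measurableSet_Ioo fun x hx => ?_
      have := (hr x hx).ne'
      have e2 : e x ^ 2 / r x * (l * l) + e x * v x * (2 * l) + r x * v x ^ 2 =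
          (l * e x + r x * v x) ^ 2 / r x := by field_simp; ring
      rw [e2]
      exact div_nonneg (sq_nonneg _) (hr x hx).le
    rw [intervalIntegral.integral_add ((he.mul_const _).add (hev.mul_const _)) hv,
      intervalIntegral.integral_add (he.mul_const _) (hev.mul_const _),
      intervalIntegral.integral_mul_const, intervalIntegral.integral_mul_const] at h
    linarith
  have h := discrim_le_zero hl
  simp only [discrim] at h
  nlinarith

/-- The form of a function on an interval with a possibly singular right end, as a limit. -/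
theorem form_le_of_eventually {k q v v' : ℝ → ℝ} {a b c : ℝ} (hab : a < b)
    (hi : IntervalIntegrable (fun x => k x * v' x ^ 2 - q x * v x ^ 2) volume a b)
    (h : ∀ᶠ x in 𝓝[<] b, c ≤ form k q v v' a x) : c ≤ form k q v v' a b := by
  have hc := intervalIntegral.continuousOn_primitive_interval' hi left_mem_uIcc
  rw [uIcc_of_le hab.le] at hc
  exact ge_of_tendsto ((hc b (right_mem_Icc.2 hab.le)).mono_left
    (nhdsWithin_le_iff.2 (Icc_mem_nhdsLT hab))) h

/-- The form on a half line as a limit. -/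
theorem le_form_Ioi_of_eventually {k q v v' : ℝ → ℝ} {a c : ℝ}
    (hi : IntegrableOn (fun x => k x * v' x ^ 2 - q x * v x ^ 2) (Ioi a))
    (h : ∀ᶠ x in atTop, c ≤ form k q v v' a x) :
    c ≤ ∫ x in Ioi a, (k x * v' x ^ 2 - q x * v x ^ 2) :=
  ge_of_tendsto (intervalIntegral_tendsto_integral_Ioi a hi tendsto_id) h

end Vale.Agent.P237.Quant.Picone
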