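import Mathlib
import Vale.Agent.P237.Quant.Spectral
import Vale.Agent.P237.Quant.Picone

/-!
The tail lemma by a calibration: if a flux `G` with `G 0 ≤ 0 ≤ liminf G` at one satisfies, pointwise,
`G' + loss ≤ potential + gain`, then the excess is at most the form of the potential plus the
surplus and a share of the energy. The flux `σ t * p ^ (m + 1) * F (specU / M)` reduces this to one
inequality in `(t, x, ρ)` over the ranges that the profile allows.
-/

namespace Vale.Agent.P237.Quant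

open MeasureTheory Set Filter Topology

variable {m : ℕ} {φ Q W : ℝ → ℝ} {η : ℝ}

/-- The excess at the value `x` of `specU / M`: `W₀ (x) * (x - 1) ^ 2`. -/
noncomputable def tailLoss (m : ℕ) (x : ℝ) : ℝ :=
  (x - 1) ^ 2 - m / (m - 1) *
    (x ^ (2 - 2 / (m : ℝ)) - 1 - (2 - 2 / (m : ℝ)) * (x - 1))

/-- The Bregman gain at `specU / M = x` and `shapeRho = ρ`, less the share `1 - η` of the energy. -/
noncomputable def tailGain (m : ℕ) (Q : ℝ → ℝ) (η t x ρ : ℝ) : ℝ :=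
  m / ballShape t * x ^ 2 * (pureBreg m t ρ - (1 - η) * (Q t * ρ ^ 2))

theorem shapeRho_range (hφ : IsShape φ) {t : ℝ} (ht : t ∈ Ioo (0 : ℝ) 1) :
    shapeRho φ t ∈ Icc (-1 : ℝ) t := by
  have hI : t ∈ Ioo (-1 : ℝ) 1 := sub01 ht
  have hpos := shape_pos hφ hI
  have hd := hasDerivWithinAt_dright hφ hI
  have h0 := dright_nonpos hφ ht
  have h1 : -φ t / (1 - t) ≤ dright φ t := by
    have h := hφ.concave.neg.rightDeriv_le_slope (x := t) (y := 1)
      (Ioo_subset_Icc_self hI) (right_mem_Icc.2 (by norm_num)) ht.2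
      hd.neg.differentiableWithinAt
    rw [hd.neg.derivWithin (uniqueDiffWithinAt_Ioi t), slope_def_field] at h
    simp only [Pi.neg_apply] at h
    have h1' : 0 ≤ φ 1 := hφ.nonneg 1 (by norm_num)
    have h2 : (-φ 1 - -φ t) / (1 - t) ≤ φ t / (1 - t) :=
      div_le_div_of_nonneg_right (by linarith) (by linarith [ht.2])
    rw [neg_div]
    linarith
  rw [div_le_iff₀ (by linarith [ht.2] : (0 : ℝ) < 1 - t)] at h1
  have ha : 0 ≤ 1 - t ^ 2 := by nlinarith [ht.1, ht.2]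
  constructor
  · rw [shapeRho, ← sub_le_iff_le_add', le_div_iff₀ hpos]
    nlinarith [mul_le_mul_of_nonneg_left h1 (by linarith [ht.1] : (0 : ℝ) ≤ 1 + t)]
  · rw [shapeRho]
    linarith [div_nonpos_of_nonpos_of_nonneg (mul_nonpos_of_nonneg_of_nonpos ha h0) hpos.le]

/-- The integrand of the right side less the left side of the tail lemma, with the weight `θ` on
the surplus. -/
noncomputable def tailIntegrand (m : ℕ) (Q : ℝ → ℝ) (θ η : ℝ) (W φ : ℝ → ℝ) (t : ℝ) : ℝ :=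
  ballShape t ^ (m - 1) * (W t * specV m φ t ^ 2) +
    θ * (m * φ t ^ m / ballShape t ^ 2 * pureBreg m t (shapeRho φ t) / specM m φ ^ 2) -
    θ * (1 - η) * (4 / m * Q t * ballShape t ^ (m + 2) * (specU' m φ t / specM m φ) ^ 2) -
    (ballShape t ^ (m - 1) * (1 * specV m φ t ^ 2) - m / (m - 1) * (ballShape t ^ (m - 1) *
      ((specU m φ t / specM m φ) ^ (2 - 2 / (m : ℝ)) -
        (1 + (2 - 2 / (m : ℝ)) * specV m φ t))))

theorem tailIntegrand_eq (hm : 1 ≤ m) (hφ : IsShape φ) (θ : ℝ) {t : ℝ} (ht : t ∈ Ioo (0 : ℝ) 1) :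
    tailIntegrand m Q θ η W φ t = ballShape t ^ (m - 1) * (W t * specV m φ t ^ 2 +
        θ * tailGain m Q η t (specU m φ t / specM m φ) (shapeRho φ t)) -
      ballShape t ^ (m - 1) * tailLoss m (specU m φ t / specM m φ) := by
  have hp := ball_pos (sub01 ht)
  have hu := specU_sq (m := m) hφ (sub01 ht)
  have hmne : (m : ℝ) ≠ 0 := Nat.cast_ne_zero.2 (by omega)
  have e1 : ballShape t ^ (m - 1) * tailGain m Q η t (specU m φ t / specM m φ) (shapeRho φ t) =
      m * φ t ^ m / ballShape t ^ 2 * pureBreg m t (shapeRho φ t) / specM m φ ^ 2 -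
        (1 - η) * (4 / m * Q t * ballShape t ^ (m + 2) * (specU' m φ t / specM m φ) ^ 2) := by
    obtain ⟨k, rfl⟩ : ∃ k, m = k + 1 := ⟨m - 1, by omega⟩
    simp only [tailGain, specU', Nat.add_sub_cancel, div_pow, mul_pow, hu, pow_succ (φ t) k,
      pow_succ (ballShape t) k, pow_add (ballShape t) (k + 1) 2]
    field_simp
    ring
  have e2 : ballShape t ^ (m - 1) * tailLoss m (specU m φ t / specM m φ) =
      ballShape t ^ (m - 1) * (1 * specV m φ t ^ 2) - m / (m - 1) * (ballShape t ^ (m - 1) *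
        ((specU m φ t / specM m φ) ^ (2 - 2 / (m : ℝ)) -
          (1 + (2 - 2 / (m : ℝ)) * specV m φ t))) := by
    simp only [tailLoss, specV]
    ring
  rw [tailIntegrand, mul_add, mul_left_comm (ballShape t ^ (m - 1)) θ, e1, e2]
  ring

/-- The tail lemma holds as soon as the integrand has nonnegative partial integrals in the limit. -/
theorem excess_le_of_integrand (hm : 2 ≤ m) (hφ : IsShape φ) (hQ0 : ∀ t ∈ Ioo (0 : ℝ) 1, 0 ≤ Q t)
    (hQm : Measurable Q)
    (hQ : ∀ t ∈ Ioo (0 : ℝ) 1, ∀ r ∈ Icc (-1 : ℝ) 1, Q t * r ^ 2 ≤ pureBreg m t r)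
    (hWm : Measurable W) {C : ℝ} (hWb : ∀ t ∈ Ioo (0 : ℝ) 1, |W t| ≤ C) (θ : ℝ)
    (h : IntervalIntegrable (tailIntegrand m Q θ η W φ) volume 0 1 →
      ∀ ε > 0, ∀ᶠ b in 𝓝[<] (1 : ℝ), -ε ≤ ∫ t in (0 : ℝ)..b, tailIntegrand m Q θ η W φ t) :
    specExcess m φ ≤ specQuad m W (specV m φ) + θ * (specSurplus m Q φ +
      η * specEnergy m Q (fun t => specU' m φ t / specM m φ)) := by
  have hm1 : 1 ≤ m := by omega
  have hM0 := specM_pos hm1 hφ
  set M := specM m φ with hMdef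
  set v := specV m φ with hv
  set q : ℝ := 2 - 2 / (m : ℝ) with hq
  set P := mass (m - 1) ballShape 1 with hPdef
  have hP0 : 0 < P := ball_mass_pos _
  obtain ⟨iB, hval⟩ := convexVal_pureG_eq hm1 hφ
  obtain ⟨iEn, -, hgoal, -⟩ := goal_le_value hm1 hφ hQ0 hQm hQ
  set g : ℝ → ℝ := fun t => (specU m φ t / M) ^ q - (1 + q * v t) with hg
  have hxq : ∀ t ∈ Ioo (0 : ℝ) 1, ballShape t ^ (m - 1) * (specU m φ t / M) ^ q =
      φ t ^ (m - 1) / M ^ q := fun t ht => by
    rw [Real.div_rpow (specU_pos hφ (sub01 ht)).le hM0.le, hq, specU_rpow hm1 hφ (sub01 ht),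
      div_pow, mul_div_assoc', mul_div_cancel₀ _ (pow_ne_zero _ (ball_pos (sub01 ht)).ne')]
  have ig : IntervalIntegrable (fun t => ballShape t ^ (m - 1) * g t) volume 0 1 := by
    refine interval_iff01.2 ((interval_iff01.1 (((intervalIntegrable_shape_pow01 hφ (m - 1)).div_const
      (M ^ q)).sub (((cont_pow (m - 1)).intervalIntegrable _ _).add
        ((intervalIntegrable_wv hm1 hφ).const_mul q)))).congr_fun (fun t ht => ?_) measurableSet_Ioo)
    dsimp only
    rw [← hxq t ht]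
    ring
  have hexc := excess_le hm hφ ig fun t _ => le_of_eq (by simp only [hg, hv, hq, hMdef]; ring)
  have iW := intervalIntegrable_quad hm1 hφ hWm hWb
  have iE1 : IntervalIntegrable
      (fun t => 4 / m * Q t * ballShape t ^ (m + 2) * (specU' m φ t / M) ^ 2) volume 0 1 :=
    (iEn.div_const (M ^ 2)).congr fun t _ => by ring
  have i1 : IntervalIntegrable (fun t => ballShape t ^ (m - 1) * (1 * v t ^ 2)) volume 0 1 :=
    (intervalIntegrable_wv2 hm1 hφ).congr fun t _ => by ring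
  set up : ℝ → ℝ := fun t => ballShape t ^ (m - 1) * (W t * v t ^ 2) +
    θ * (m * φ t ^ m / ballShape t ^ 2 * pureBreg m t (shapeRho φ t) / M ^ 2) -
    θ * (1 - η) * (4 / m * Q t * ballShape t ^ (m + 2) * (specU' m φ t / M) ^ 2) -
    (ballShape t ^ (m - 1) * (1 * v t ^ 2) -
      m / (m - 1) * (ballShape t ^ (m - 1) * g t)) with hup
  have iup : IntervalIntegrable up volume 0 1 :=
    ((iW.add ((iB.div_const (M ^ 2)).const_mul θ)).sub (iE1.const_mul (θ * (1 - η)))).sub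
      (i1.sub (ig.const_mul _))
  have key : 0 ≤ ∫ t in (0 : ℝ)..1, up t := by
    have e : tailIntegrand m Q θ η W φ = up := by
      funext t
      simp only [tailIntegrand, hup, hg, hv, hq, ← hMdef]
    refine le_of_forall_pos_le_add fun ε hε => ?_
    have hc := intervalIntegral.continuousOn_primitive_interval' iup left_mem_uIcc
    rw [uIcc_of_le zero_le_one] at hc
    have hlim : -ε ≤ ∫ t in (0 : ℝ)..1, up t := by
      refine ge_of_tendsto ((hc 1 (right_mem_Icc.2 zero_le_one)).mono_left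
        (nhdsWithin_le_iff.2 (Icc_mem_nhdsLT zero_lt_one))) ?_
      have hh := h (e ▸ iup) ε hε
      rwa [e] at hh
    linarith
  have hS : specSurplus m Q φ * P = (∫ t in (0 : ℝ)..1,
        m * φ t ^ m / ballShape t ^ 2 * pureBreg m t (shapeRho φ t) / M ^ 2) -
      specEnergy m Q (fun t => specU' m φ t / M) * P := by
    rw [specSurplus, ← hMdef, ← hPdef, intervalIntegral.integral_div, specEnergy, ← hPdef,
      div_mul_cancel₀ _ hP0.ne',
      integral_congr01 (f := fun t => 4 / m * Q t * ballShape t ^ (m + 2) *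
        (specU' m φ t / M) ^ 2)
        (g := fun t => 4 / m * Q t * ballShape t ^ (m + 2) * specU' m φ t ^ 2 / M ^ 2)
        (fun t _ => by ring), intervalIntegral.integral_div]
    rw [← hPdef, specEnergy, ← hPdef, div_mul_cancel₀ _ hP0.ne'] at hgoal
    rw [div_mul_eq_mul_div, sub_mul, div_mul_cancel₀ _ hP0.ne', hgoal, hval]
    ring
  rw [hup, intervalIntegral.integral_sub ((iW.add ((iB.div_const (M ^ 2)).const_mul θ)).sub (iE1.const_mul (θ * (1 - η))))
      (i1.sub (ig.const_mul _)),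
    intervalIntegral.integral_sub (iW.add ((iB.div_const (M ^ 2)).const_mul θ)) (iE1.const_mul (θ * (1 - η))),
    intervalIntegral.integral_add iW ((iB.div_const (M ^ 2)).const_mul θ),
    intervalIntegral.integral_const_mul θ,
    intervalIntegral.integral_sub i1 (ig.const_mul _), intervalIntegral.integral_const_mul,
    intervalIntegral.integral_const_mul] at key
  have eE : (∫ t in (0 : ℝ)..1, 4 / m * Q t * ballShape t ^ (m + 2) * (specU' m φ t / M) ^ 2) =
      specEnergy m Q (fun t => specU' m φ t / M) * P := by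
    rw [specEnergy, ← hPdef, div_mul_cancel₀ _ hP0.ne']
  have hq' : ∀ f : ℝ → ℝ, specMean m f * P = ∫ t in (0 : ℝ)..1, ballShape t ^ (m - 1) * f t :=
    fun f => by rw [specMean, ← hPdef, div_mul_cancel₀ _ hP0.ne']
  refine hexc.trans (le_of_mul_le_mul_right ?_ hP0)
  simp only [specQuad] at *
  rw [sub_mul, add_mul, mul_assoc θ, add_mul, mul_assoc (η) _ P, mul_assoc ((m : ℝ) / _), hq', hq', hq', hS]
  rw [eE] at key
  linarith

/-- The calibration. -/
theorem excess_le_of_flux (hm : 2 ≤ m) (hφ : IsShape φ) (hQ0 : ∀ t ∈ Ioo (0 : ℝ) 1, 0 ≤ Q t)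
    (hQm : Measurable Q)
    (hQ : ∀ t ∈ Ioo (0 : ℝ) 1, ∀ r ∈ Icc (-1 : ℝ) 1, Q t * r ^ 2 ≤ pureBreg m t r)
    (hWm : Measurable W) {C : ℝ} (hWb : ∀ t ∈ Ioo (0 : ℝ) 1, |W t| ≤ C) {G G' : ℝ → ℝ}
    (hGc : ContinuousOn G (Ico 0 1)) (hG0 : G 0 ≤ 0)
    (hG1 : ∀ ε > 0, ∀ᶠ b in 𝓝[<] (1 : ℝ), -ε ≤ G b)
    (hGd : ∀ t ∈ Ioo (0 : ℝ) 1, HasDerivWithinAt G (G' t) (Ioi t) t)
    (h : ∀ t ∈ Ioo (0 : ℝ) 1, G' t + ballShape t ^ (m - 1) * tailLoss m (specU m φ t / specM m φ) ≤
      ballShape t ^ (m - 1) * (W t * specV m φ t ^ 2 +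
        tailGain m Q η t (specU m φ t / specM m φ) (shapeRho φ t))) :
    specExcess m φ ≤ specQuad m W (specV m φ) + specSurplus m Q φ +
      η * specEnergy m Q (fun t => specU' m φ t / specM m φ) := by
  rw [show ∀ X S E : ℝ, X + S + E = X + 1 * (S + E) from fun X S E => by ring]
  refine excess_le_of_integrand hm hφ hQ0 hQm hQ hWm hWb 1 fun iup ε hε => ?_
  filter_upwards [Ioo_mem_nhdsLT (zero_lt_one (α := ℝ)), hG1 ε hε] with b hb hGb
  have hs := intervalIntegral.sub_le_integral_of_hasDeriv_right_of_le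
    (φ := tailIntegrand m Q 1 η W φ) hb.1.le
    (hGc.mono fun t ht => ⟨ht.1, ht.2.trans_lt hb.2⟩)
    (fun t ht => hGd t ⟨ht.1, ht.2.trans hb.2⟩)
    ((intervalIntegrable_iff_integrableOn_Icc_of_le hb.1.le).1 (iup.mono_set (by
      rw [uIcc_of_le hb.1.le, uIcc_of_le zero_le_one]
      exact Icc_subset_Icc le_rfl hb.2.le)))
    fun t ht => by
      rw [tailIntegrand_eq (by omega) hφ 1 ⟨ht.1, ht.2.trans hb.2⟩, one_mul]
      linarith [h t ⟨ht.1, ht.2.trans hb.2⟩]
  linarith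

/-- The derivative of the product flux. -/
theorem hasDeriv_flux (hm : 1 ≤ m) (hφ : IsShape φ) {σ F : ℝ → ℝ} {σ' F' t : ℝ}
    (ht : t ∈ Ioo (0 : ℝ) 1) (hσ : HasDerivWithinAt σ σ' (Ioi t) t)
    (hF : HasDerivAt F F' (specU m φ t / specM m φ)) :
    HasDerivWithinAt (fun s => σ s * ballShape s ^ (m + 1) * F (specU m φ s / specM m φ))
      (ballShape t ^ (m - 1) * ((ballShape t ^ 2 * σ' - ((m : ℝ) + 1) * t * σ t) *
        F (specU m φ t / specM m φ) +
        σ t * ((m : ℝ) / 2 * (specU m φ t / specM m φ) * shapeRho φ t) * F')) (Ioi t) t := by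
  have hp := ball_pos (sub01 ht)
  have hx := (hasDeriv_specU hm hφ (sub01 ht)).div_const (specM m φ)
  refine ((hσ.fun_mul ((hasDerivAt_ball (sub01 ht)).hasDerivWithinAt.fun_pow (m + 1))).fun_mul
    (hF.comp_hasDerivWithinAt t hx)).congr_deriv ?_
  obtain ⟨k, rfl⟩ : ∃ k, m = k + 1 := ⟨m - 1, by omega⟩
  simp only [specU', Function.comp_apply, Nat.add_sub_cancel]
  push_cast
  rw [pow_succ (ballShape t) (k + 1), pow_succ (ballShape t) k]
  field_simp
  ring

/-- The tail lemma from one pointwise inequality: on every `(t, x, ρ)` that `S` allows, the loss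
and the derivative of the flux `σ t * p ^ (m + 1) * F x` are paid by the potential and the gain. -/
theorem excess_le_of_multiplier (hm : 2 ≤ m) (hφ : IsShape φ)
    (hQ0 : ∀ t ∈ Ioo (0 : ℝ) 1, 0 ≤ Q t) (hQm : Measurable Q)
    (hQ : ∀ t ∈ Ioo (0 : ℝ) 1, ∀ r ∈ Icc (-1 : ℝ) 1, Q t * r ^ 2 ≤ pureBreg m t r)
    (hWm : Measurable W) {C : ℝ} (hWb : ∀ t ∈ Ioo (0 : ℝ) 1, |W t| ≤ C)
    {σ σ' F F' : ℝ → ℝ} {S : ℝ → ℝ → ℝ → Prop}
    (hσc : ContinuousOn σ (Ico 0 1)) (hσ0 : σ 0 = 0) (hσ : ∀ t ∈ Ico (0 : ℝ) 1, 0 ≤ σ t)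
    (hσd : ∀ t ∈ Ioo (0 : ℝ) 1, HasDerivWithinAt σ (σ' t) (Ioi t) t)
    (hF0 : ∀ x, 0 < x → 0 ≤ F x) (hFd : ∀ x, 0 < x → HasDerivAt F (F' x) x)
    (hS : ∀ t ∈ Ioo (0 : ℝ) 1, S t (specU m φ t / specM m φ) (shapeRho φ t))
    (h : ∀ t ∈ Ioo (0 : ℝ) 1, ∀ x, 0 < x → ∀ ρ ∈ Icc (-1 : ℝ) t, S t x ρ →
      (ballShape t ^ 2 * σ' t - ((m : ℝ) + 1) * t * σ t) * F x +
        σ t * ((m : ℝ) / 2 * x * ρ) * F' x + tailLoss m x ≤
      W t * (x - 1) ^ 2 + tailGain m Q η t x ρ) :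
    specExcess m φ ≤ specQuad m W (specV m φ) + specSurplus m Q φ +
      η * specEnergy m Q (fun t => specU' m φ t / specM m φ) := by
  have hm1 : 1 ≤ m := by omega
  have hM0 := specM_pos hm1 hφ
  have hx : ∀ t ∈ Ico (0 : ℝ) 1, 0 < specU m φ t / specM m φ := fun t ht =>
    div_pos (specU_pos hφ ⟨by linarith [ht.1], ht.2⟩) hM0
  refine excess_le_of_flux hm hφ hQ0 hQm hQ hWm hWb
    (G := fun s => σ s * ballShape s ^ (m + 1) * F (specU m φ s / specM m φ))
    ?_ ?_ ?_ (fun t ht => hasDeriv_flux hm1 hφ ht (hσd t ht) (hFd _ (hx t ⟨ht.1.le, ht.2⟩)))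
    fun t ht => ?_
  · refine (hσc.mul (cont_pow (m + 1)).continuousOn).mul ?_
    exact ContinuousOn.comp (fun x (hx : x ∈ Ioi (0 : ℝ)) => (hFd x hx).continuousAt.continuousWithinAt)
      (((continuousOn_specU hφ).mono fun t ht => ⟨by linarith [ht.1], ht.2⟩).div_const _) hx
  · simp [hσ0]
  · intro ε hε
    filter_upwards [Ioo_mem_nhdsLT (zero_lt_one (α := ℝ))] with b hb
    have hb' : b ∈ Ico (0 : ℝ) 1 := ⟨hb.1.le, hb.2⟩
    linarith [mul_nonneg (mul_nonneg (hσ b hb') (pow_nonneg (ball_pos (sub01 hb)).le (m + 1)))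
      (hF0 _ (hx b hb'))]
  · have h' := h t ht _ (hx t ⟨ht.1.le, ht.2⟩) _ (shapeRho_range hφ ht) (hS t ht)
    have e : specV m φ t = specU m φ t / specM m φ - 1 := rfl
    rw [e, ← mul_add]
    exact mul_le_mul_of_nonneg_left h' (pow_nonneg (ball_pos (sub01 ht)).le _)

end Vale.Agent.P237.Quant
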