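import Mathlib
import Vale.Agent.P237.Quant.Bregman
import Vale.Agent.P237.Quant.TailFlux
import Vale.Agent.P237.Quant.WeightCurv

/-!
A closed lower bound for the remainder of the convexity inequality of the pure weight. The scaled
weight minus `s ↦ -log (1 + √(1 - s²))` is convex, so the Bregman remainder of the weight dominates
that of this elementary function, which is rational up to one logarithm.
-/

namespace Vale.Agent.P237.Quant

open MeasureTheory Set Filter Topology

variable {m : ℕ}

/-- The remainder of the convexity inequality of `-log (1 + √(1 - s²))`, at `t`, evaluated at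
`z`. -/
noncomputable def logBreg (t z : ℝ) : ℝ :=
  Real.log ((1 + ballShape t) / (1 + ballShape z)) +
    t * (t - z) / (ballShape t * (1 + ballShape t))

theorem hasDerivAt_logModel {s : ℝ} (hs : s ∈ Ioo (-1 : ℝ) 1) :
    HasDerivAt (fun x => -Real.log (1 + ballShape x)) (s / (ballShape s * (1 + ballShape s))) s := by
  have hp := ball_pos hs
  refine (((hasDerivAt_ball hs).const_add 1).log (by positivity)).neg.congr_deriv ?_
  field_simp

theorem hasDerivAt_logModel' {s : ℝ} (hs : s ∈ Ioo (-1 : ℝ) 1) :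
    HasDerivAt (fun x => x / (ballShape x * (1 + ballShape x)))
      (weightLim (ballShape s) / ballShape s ^ 3) s := by
  have hp := ball_pos hs
  have hp2 := ball_sq (Ioo_subset_Icc_self hs)
  refine ((hasDerivAt_id' s).div ((hasDerivAt_ball hs).mul ((hasDerivAt_ball hs).const_add 1))
    (by simp only [Pi.mul_apply]; positivity)).congr_deriv ?_
  simp only [Pi.mul_apply, weightLim]
  set p := ballShape s
  field_simp
  linear_combination (1 + 2 * p) * hp2

theorem ball_even (x : ℝ) : ballShape (-x) = ballShape x := by simp [ballShape]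

/-- The scaled weight has at least the curvature of the model. -/
theorem weightLim_le_slope_deriv (hm : 1 ≤ m) {s : ℝ} (hs : s ∈ Ioo (-1 : ℝ) 1) :
    weightLim (ballShape s) / ballShape s ^ 3 ≤
      ((m : ℝ) + 1) * (pureNum m s / ballShape s ^ (m + 4)) := by
  have key : ∀ x ∈ Ico (0 : ℝ) 1, weightLim (ballShape x) / ballShape x ^ 3 ≤
      ((m : ℝ) + 1) * (pureNum m x / ballShape x ^ (m + 4)) := fun x hx => by
    have hp := ball_pos (show x ∈ Ioo (-1 : ℝ) 1 from ⟨by linarith [hx.1], hx.2⟩)
    rw [← mul_div_assoc, div_le_div_iff₀ (pow_pos hp _) (pow_pos hp _)]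
    calc weightLim (ballShape x) * ballShape x ^ (m + 4)
        = weightLim (ballShape x) * ballShape x ^ (m + 1) * ballShape x ^ 3 := by ring
      _ ≤ _ := mul_le_mul_of_nonneg_right (weightLim_le_pureNum hm ⟨hx.1, hx.2.le⟩)
          (pow_nonneg hp.le 3)
  rcases le_total 0 s with h | h
  · exact key s ⟨h, hs.2⟩
  · have := key (-s) ⟨neg_nonneg.2 h, by linarith [hs.1]⟩
    rwa [ball_even, pureNum_neg] at this

/-- The remainder of the pure weight is at least that of the model, in the state variable. -/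
theorem logBreg_le_pureBreg (hm : 1 ≤ m) {t z : ℝ} (ht : t ∈ Ioo (0 : ℝ) 1)
    (hz : z ∈ Icc (-1 : ℝ) 1) :
    ballShape t ^ 2 / (1 - t * z) * logBreg t z ≤
      ((m : ℝ) + 1) * pureBreg m t ((t - z) / (1 - t * z)) := by
  have hI : t ∈ Ioo (-1 : ℝ) 1 := ⟨by linarith [ht.1], ht.2⟩
  have hp := ball_pos hI
  have hp2 := ball_sq (Ioo_subset_Icc_self hI)
  have hden : 0 < 1 - t * z := by nlinarith [mul_le_mul_of_nonneg_left hz.2 ht.1.le, ht.2]
  set g : ℝ → ℝ := fun x => pureInner m x / ballShape x ^ (m + 2) with hg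
  set l : ℝ → ℝ := fun x => x / (ballShape x * (1 + ballShape x)) with hl
  set a := ((m : ℝ) + 1) * g t - l t with ha
  set f : ℝ → ℝ := fun x => ((m : ℝ) + 1) * pureG m x - -Real.log (1 + ballShape x) - a * x with hf
  have hd1 : ∀ x ∈ Ioo (-1 : ℝ) 1,
      HasDerivAt f (((m : ℝ) + 1) * g x - l x - a) x := fun x hx => by
    refine ((((hasDerivAt_pureG hm hx).const_mul ((m : ℝ) + 1)).sub (hasDerivAt_logModel hx)).sub
      ((hasDerivAt_id' x).const_mul a)).congr_deriv ?_
    simp only [hg, hl, mul_one]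
  have hmono : MonotoneOn (fun x => ((m : ℝ) + 1) * g x - l x - a) (Ioo (-1 : ℝ) 1) := by
    have hd2 : ∀ x ∈ Ioo (-1 : ℝ) 1, HasDerivAt (fun x => ((m : ℝ) + 1) * g x - l x - a)
        (((m : ℝ) + 1) * (pureNum m x / ballShape x ^ (m + 4)) -
          weightLim (ballShape x) / ballShape x ^ 3) x := fun x hx =>
      (((hasDerivAt_slope hm hx).const_mul ((m : ℝ) + 1)).sub
        (hasDerivAt_logModel' hx)).sub_const a
    refine monotoneOn_of_deriv_nonneg (convex_Ioo _ _)
      (fun x hx => (hd2 x hx).continuousAt.continuousWithinAt) ?_ ?_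
    · rw [interior_Ioo]
      exact fun x hx => (hd2 x hx).differentiableAt.differentiableWithinAt
    intro x hx
    rw [interior_Ioo] at hx
    rw [(hd2 x hx).deriv]
    exact sub_nonneg.2 (weightLim_le_slope_deriv hm hx)
  have hc : Continuous f := by
    refine ((continuous_const.mul (continuous_pureG hm)).sub ?_).sub
      (continuous_const.mul continuous_id)
    exact (Continuous.log (f := fun x => 1 + ballShape x) (continuous_const.add cont_ball) fun x => by
      have : 0 ≤ ballShape x := Real.sqrt_nonneg _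
      positivity).neg
  have hzero : ((m : ℝ) + 1) * g t - l t - a = 0 := sub_self _
  have hmin : f t ≤ f z := by
    rcases le_total t z with h | h
    · refine (monotoneOn_of_deriv_nonneg (convex_Icc t 1) hc.continuousOn ?_ ?_)
        (left_mem_Icc.2 ht.2.le) ⟨h, hz.2⟩ h
      · rw [interior_Icc]
        exact fun x hx => (hd1 x ⟨hI.1.trans hx.1, hx.2⟩).differentiableAt.differentiableWithinAt
      intro x hx
      rw [interior_Icc] at hx
      rw [(hd1 x ⟨hI.1.trans hx.1, hx.2⟩).deriv, ← hzero]
      exact hmono hI ⟨hI.1.trans hx.1, hx.2⟩ hx.1.le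
    · refine (antitoneOn_of_deriv_nonpos (convex_Icc (-1) t) hc.continuousOn ?_ ?_)
        ⟨hz.1, h⟩ (right_mem_Icc.2 hI.1.le) h
      · rw [interior_Icc]
        exact fun x hx => (hd1 x ⟨hx.1, hx.2.trans hI.2⟩).differentiableAt.differentiableWithinAt
      intro x hx
      rw [interior_Icc] at hx
      rw [(hd1 x ⟨hx.1, hx.2.trans hI.2⟩).deriv, ← hzero]
      exact hmono ⟨hx.1, hx.2.trans hI.2⟩ hI hx.2.le
  have e1 : 1 - t * ((t - z) / (1 - t * z)) = ballShape t ^ 2 / (1 - t * z) := by
    rw [hp2]
    field_simp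
    ring
  have e2 : (t - (t - z) / (1 - t * z)) / (1 - t * ((t - z) / (1 - t * z))) = z := by
    rw [e1, hp2]
    have : 1 - t ^ 2 ≠ 0 := by rw [← hp2]; positivity
    field_simp
    ring
  have hpz : 0 ≤ ballShape z := Real.sqrt_nonneg _
  have e3 : pureBreg m t ((t - z) / (1 - t * z)) = ballShape t ^ 2 / (1 - t * z) *
      (pureG m z - pureG m t - g t * (z - t)) := by
    rw [pureBreg, e2, e1]
    simp only [hg]
    have := hden.ne'
    rw [pow_add]
    field_simp
    ring
  rw [e3, mul_left_comm]
  refine mul_le_mul_of_nonneg_left ?_ (by positivity)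
  simp only [hf, ha, hl] at hmin
  rw [logBreg, Real.log_div (by positivity) (by positivity)]
  linarith [show t / (ballShape t * (1 + ballShape t)) * (t - z) =
    t * (t - z) / (ballShape t * (1 + ballShape t)) by ring]

/-- The gain of the tail lemma from the model: rational up to one logarithm. -/
theorem logGain_le_tailGain (hm : 1 ≤ m) {Q : ℝ → ℝ} {η t x z : ℝ} (ht : t ∈ Ioo (0 : ℝ) 1)
    (hz : z ∈ Icc (-1 : ℝ) 1) :
    (m : ℝ) / ballShape t * x ^ 2 *
        (ballShape t ^ 2 / ((1 - t * z) * ((m : ℝ) + 1)) * logBreg t z -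
          (1 - η) * (Q t * ((t - z) / (1 - t * z)) ^ 2)) ≤
      tailGain m Q η t x ((t - z) / (1 - t * z)) := by
  refine mul_le_mul_of_nonneg_left (sub_le_sub_right ?_ _)
    (mul_nonneg (div_nonneg (Nat.cast_nonneg _) (Real.sqrt_nonneg _)) (sq_nonneg _))
  rw [← div_div, div_mul_eq_mul_div, div_le_iff₀ (by positivity : (0 : ℝ) < (m : ℝ) + 1),
    mul_comm (pureBreg m _ _)]
  exact logBreg_le_pureBreg hm ht hz

end Vale.Agent.P237.Quant
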