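import Mathlib
import Vale.Agent.P237.Full.Gain

/-!
Steiner symmetrisation of a compact convex set: volume, second moment, and the measure preserving
shift of the fibres onto those of the symmetrised set.
-/

namespace Vale.Agent.P237.Quant

open MeasureTheory Set Filter Topology Full
open scoped RealInnerProductSpace ENNReal

variable {n : ℕ} {u : EuclideanSpace ℝ (Fin n)} {S : Set (EuclideanSpace ℝ (Fin n))}

/-- The component orthogonal to `u`. -/
noncomputable def perp (u x : EuclideanSpace ℝ (Fin n)) : EuclideanSpace ℝ (Fin n) :=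
  x - ⟪u, x⟫ • u

/-- The symmetral of `S` with respect to the hyperplane orthogonal to `u`. -/
def steiner (u : EuclideanSpace ℝ (Fin n)) (S : Set (EuclideanSpace ℝ (Fin n))) :
    Set (EuclideanSpace ℝ (Fin n)) :=
  {x | ∃ p ∈ S, ∃ q ∈ S, perp u p = perp u x ∧ perp u q = perp u x ∧
    2 * |⟪u, x⟫| ≤ ⟪u, p⟫ - ⟪u, q⟫}

/-- The reflection in the hyperplane orthogonal to `u`. -/
noncomputable def flipAt (u x : EuclideanSpace ℝ (Fin n)) : EuclideanSpace ℝ (Fin n) :=
  x - (2 * ⟪u, x⟫) • u

theorem perp_add_smul (hu : ‖u‖ = 1) (x : EuclideanSpace ℝ (Fin n)) (t : ℝ) :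
    perp u (x + t • u) = perp u x := by
  rw [perp, perp, inner_add_right, real_inner_smul_right, real_inner_self_eq_norm_sq, hu]
  module

theorem inner_perp (hu : ‖u‖ = 1) (x : EuclideanSpace ℝ (Fin n)) : ⟪u, perp u x⟫ = 0 := by
  rw [perp, inner_sub_right, real_inner_smul_right, real_inner_self_eq_norm_sq, hu]
  ring

theorem inner_add_smul_self (hu : ‖u‖ = 1) (x : EuclideanSpace ℝ (Fin n)) (t : ℝ) :
    ⟪u, x + t • u⟫ = ⟪u, x⟫ + t := by
  rw [inner_add_right, real_inner_smul_right, real_inner_self_eq_norm_sq, hu]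
  ring

theorem norm_sq_perp (hu : ‖u‖ = 1) (x : EuclideanSpace ℝ (Fin n)) :
    ‖x‖ ^ 2 = ‖perp u x‖ ^ 2 + ⟪u, x⟫ ^ 2 := by
  rw [perp, norm_sub_sq_real, real_inner_smul_right, norm_smul, hu, mul_one, Real.norm_eq_abs,
    sq_abs, real_inner_comm x u]
  ring

theorem continuous_perp : Continuous (perp u) := by
  unfold perp
  fun_prop

theorem flipAt_flipAt (hu : ‖u‖ = 1) (x : EuclideanSpace ℝ (Fin n)) :
    flipAt u (flipAt u x) = x := by
  rw [flipAt, flipAt, inner_sub_right, real_inner_smul_right, real_inner_self_eq_norm_sq, hu]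
  module

theorem inner_flipAt (hu : ‖u‖ = 1) (x : EuclideanSpace ℝ (Fin n)) :
    ⟪u, flipAt u x⟫ = -⟪u, x⟫ := by
  rw [flipAt, inner_sub_right, real_inner_smul_right, real_inner_self_eq_norm_sq, hu]
  ring

theorem perp_flipAt (hu : ‖u‖ = 1) (x : EuclideanSpace ℝ (Fin n)) :
    perp u (flipAt u x) = perp u x := by
  rw [flipAt, sub_eq_add_neg, ← neg_smul, perp_add_smul hu]

theorem convex_steiner (hS : Convex ℝ S) : Convex ℝ (steiner u S) := by
  rintro x ⟨p, hp, q, hq, ep, eq, hl⟩ y ⟨p', hp', q', hq', ep', eq', hl'⟩ a b ha hb hab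
  have hlin : ∀ z z', perp u (a • z + b • z') = a • perp u z + b • perp u z' := fun z z' => by
    simp only [perp, inner_add_right, real_inner_smul_right]
    module
  refine ⟨a • p + b • p', hS hp hp' ha hb hab, a • q + b • q', hS hq hq' ha hb hab,
    by rw [hlin, hlin, ep, ep'], by rw [hlin, hlin, eq, eq'], ?_⟩
  simp only [inner_add_right, real_inner_smul_right]
  have h1 := mul_le_mul_of_nonneg_left hl ha
  have h2 := mul_le_mul_of_nonneg_left hl' hb
  have h3 := abs_add_le (a * ⟪u, x⟫) (b * ⟪u, y⟫)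
  rw [abs_mul, abs_mul, abs_of_nonneg ha, abs_of_nonneg hb] at h3
  linarith

theorem norm_le_of_mem_steiner (hu : ‖u‖ = 1) {R : ℝ} (hR : S ⊆ Metric.closedBall 0 R)
    {x : EuclideanSpace ℝ (Fin n)} (hx : x ∈ steiner u S) : ‖x‖ ≤ R := by
  obtain ⟨p, hp, q, hq, ep, eq, hl⟩ := hx
  have h1 := mem_closedBall_zero_iff.1 (hR hp)
  have h2 := mem_closedBall_zero_iff.1 (hR hq)
  have e1 := norm_sq_perp hu p
  have e2 := norm_sq_perp hu q
  rw [ep] at e1
  rw [eq] at e2
  have e3 := norm_sq_perp hu x
  have hs : (2 * |⟪u, x⟫|) ^ 2 ≤ (⟪u, p⟫ - ⟪u, q⟫) ^ 2 :=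
    pow_le_pow_left₀ (by positivity) hl 2
  rw [mul_pow, sq_abs] at hs
  nlinarith [norm_nonneg x, norm_nonneg p, norm_nonneg q, sq_nonneg (⟪u, p⟫ + ⟪u, q⟫),
    pow_le_pow_left₀ (norm_nonneg p) h1 2, pow_le_pow_left₀ (norm_nonneg q) h2 2]

theorem isCompact_steiner (hu : ‖u‖ = 1) (cS : IsCompact S) : IsCompact (steiner u S) := by
  obtain ⟨R, hR⟩ := cS.isBounded.subset_closedBall 0
  set T : Set (EuclideanSpace ℝ (Fin n) × EuclideanSpace ℝ (Fin n) × EuclideanSpace ℝ (Fin n)) :=
    {z | perp u z.2.1 = perp u z.1} ∩ {z | perp u z.2.2 = perp u z.1} ∩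
      {z | 2 * |⟪u, z.1⟫| ≤ ⟪u, z.2.1⟫ - ⟪u, z.2.2⟫} with hT
  have hc := continuous_perp (u := u)
  have hTc : IsClosed T :=
    ((isClosed_eq (by fun_prop) (by fun_prop)).inter (isClosed_eq (by fun_prop) (by fun_prop))).inter
      (isClosed_le (by fun_prop) (by fun_prop))
  have h : steiner u S = Prod.fst '' ((Metric.closedBall 0 R ×ˢ (S ×ˢ S)) ∩ T) := by
    ext x
    constructor
    · intro hx
      have hn := mem_closedBall_zero_iff.2 (norm_le_of_mem_steiner hu hR hx)
      obtain ⟨p, hp, q, hq, ep, eq, hl⟩ := hx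
      exact ⟨(x, p, q), ⟨⟨hn, hp, hq⟩, ⟨ep, eq⟩, hl⟩, rfl⟩
    · rintro ⟨⟨y, p, q⟩, ⟨⟨-, hp, hq⟩, ⟨ep, eq⟩, hl⟩, rfl⟩
      exact ⟨p, hp, q, hq, ep, eq, hl⟩
  rw [h]
  exact (((isCompact_closedBall _ _).prod (cS.prod cS)).inter_right hTc).image continuous_fst

theorem flipAt_mem_steiner (hu : ‖u‖ = 1) {x : EuclideanSpace ℝ (Fin n)}
    (hx : x ∈ steiner u S) : flipAt u x ∈ steiner u S := by
  obtain ⟨p, hp, q, hq, ep, eq, hl⟩ := hx
  exact ⟨p, hp, q, hq, by rw [perp_flipAt hu, ep], by rw [perp_flipAt hu, eq],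
    by rw [inner_flipAt hu, abs_neg]; exact hl⟩

theorem neg_mem_steiner (hsym : ∀ x ∈ S, -x ∈ S) {x : EuclideanSpace ℝ (Fin n)}
    (hx : x ∈ steiner u S) : -x ∈ steiner u S := by
  obtain ⟨p, hp, q, hq, ep, eq, hl⟩ := hx
  have hn : ∀ z, perp u (-z) = -perp u z := fun z => by
    simp only [perp, inner_neg_right]
    module
  refine ⟨-q, hsym q hq, -p, hsym p hp, by rw [hn, hn, eq], by rw [hn, hn, ep], ?_⟩
  simp only [inner_neg_right, abs_neg]
  linarith

theorem perp_perp_add (hu : ‖u‖ = 1) (x : EuclideanSpace ℝ (Fin n)) (t : ℝ) :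
    perp u (perp u x + t • u) = perp u x := by
  rw [perp_add_smul hu]
  nth_rewrite 1 [perp]
  rw [inner_perp hu, zero_smul, sub_zero]

theorem closedBall_subset_steiner (hu : ‖u‖ = 1) {r : ℝ} (hS : Metric.closedBall 0 r ⊆ S) :
    Metric.closedBall 0 r ⊆ steiner u S := by
  intro x hx
  have hn : ∀ s : ℝ, s ^ 2 = ⟪u, x⟫ ^ 2 → perp u x + s • u ∈ S := fun s hs => hS (by
    rw [mem_closedBall_zero_iff] at hx ⊢
    refine le_trans ?_ hx
    refine le_of_pow_le_pow_left₀ two_ne_zero (norm_nonneg x) (le_of_eq ?_)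
    rw [norm_sq_perp hu (perp u x + s • u), norm_sq_perp hu x, perp_perp_add hu,
      inner_add_smul_self hu, inner_perp hu, zero_add, hs])
  refine ⟨perp u x + |⟪u, x⟫| • u, hn _ (sq_abs _), perp u x + (-|⟪u, x⟫|) • u,
    hn _ (by rw [neg_sq, sq_abs]), perp_perp_add hu _ _, perp_perp_add hu _ _, ?_⟩
  rw [inner_add_smul_self hu, inner_add_smul_self hu, inner_perp hu]
  linarith

/-- The fibre of `S` over the point `x` along `u`. -/
def fibre (u : EuclideanSpace ℝ (Fin n)) (S : Set (EuclideanSpace ℝ (Fin n)))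
    (x : EuclideanSpace ℝ (Fin n)) : Set ℝ :=
  {s | perp u x + s • u ∈ S}

theorem fibre_add_smul (hu : ‖u‖ = 1) (x : EuclideanSpace ℝ (Fin n)) (t : ℝ) :
    fibre u S (x + t • u) = fibre u S x := by
  simp only [fibre, perp_add_smul hu]

theorem isCompact_fibre (hu : ‖u‖ = 1) (cS : IsCompact S) (x : EuclideanSpace ℝ (Fin n)) :
    IsCompact (fibre u S x) := by
  refine (cS.image (show Continuous fun z => ⟪u, z⟫ by fun_prop)).of_isClosed_subset
    (cS.isClosed.preimage (by fun_prop)) fun s hs => ⟨_, hs, ?_⟩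
  show ⟪u, perp u x + s • u⟫ = s
  rw [inner_add_smul_self hu, inner_perp hu, zero_add]

theorem fibre_cases (hu : ‖u‖ = 1) (hS : Convex ℝ S) (cS : IsCompact S)
    (x : EuclideanSpace ℝ (Fin n)) :
    fibre u S x = ∅ ∧ fibre u (steiner u S) x = ∅ ∨
      ∃ l h, l ≤ h ∧ fibre u S x = Icc l h ∧
        fibre u (steiner u S) x = Icc (-((h - l) / 2)) ((h - l) / 2) := by
  have hpp : ∀ z s, perp u (perp u z + s • u) = perp u z := fun z s => by
    rw [perp_add_smul hu]
    nth_rewrite 1 [perp]
    rw [inner_perp hu, zero_smul, sub_zero]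
  have hmem : ∀ p ∈ S, perp u p = perp u x → ⟪u, p⟫ ∈ fibre u S x := fun p hp ep => by
    show perp u x + ⟪u, p⟫ • u ∈ S
    rwa [← ep, perp, sub_add_cancel]
  have hval : ∀ s, ⟪u, perp u x + s • u⟫ = s := fun s => by
    rw [inner_add_smul_self hu, inner_perp hu, zero_add]
  rcases (fibre u S x).eq_empty_or_nonempty with h0 | h0
  · refine Or.inl ⟨h0, eq_empty_of_forall_notMem fun s hs => ?_⟩
    obtain ⟨p, hp, q, -, ep, -, -⟩ := hs
    rw [hpp] at ep
    have := hmem p hp ep
    rw [h0] at this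
    exact this
  have hconv : Convex ℝ (fibre u S x) := by
    intro s hs t ht a b ha hb hab
    show perp u x + (a • s + b • t) • u ∈ S
    convert hS hs ht ha hb hab using 1
    obtain rfl : b = 1 - a := by linarith
    simp only [smul_eq_mul]
    module
  have hI := eq_Icc_of_connected_compact ⟨h0, hconv.isPreconnected⟩ (isCompact_fibre hu cS x)
  set l := sInf (fibre u S x)
  set h := sSup (fibre u S x)
  have hlh : l ≤ h := nonempty_Icc.1 (hI ▸ h0)
  refine Or.inr ⟨l, h, hlh, hI, ?_⟩
  ext s
  constructor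
  · rintro ⟨p, hp, q, hq, ep, eq, hl⟩
    rw [hpp] at ep eq
    have h1 := hmem p hp ep
    have h2 := hmem q hq eq
    rw [hI] at h1 h2
    rw [hval] at hl
    exact _root_.abs_le.1 (by linarith [h1.2, h2.1])
  · intro hs
    have hm : ∀ t ∈ Icc l h, perp u x + t • u ∈ S := fun t ht => by
      rw [← hI] at ht
      exact ht
    refine ⟨_, hm h ⟨hlh, le_rfl⟩, _, hm l ⟨le_rfl, hlh⟩, by rw [hpp, hpp], by rw [hpp, hpp], ?_⟩
    rw [hval, hval, hval]
    linarith [_root_.abs_le.2 (show -((h - l) / 2) ≤ s ∧ s ≤ (h - l) / 2 from hs)]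

/-- The midpoint of the fibre through `x`. -/
noncomputable def shift (u : EuclideanSpace ℝ (Fin n)) (S : Set (EuclideanSpace ℝ (Fin n)))
    (x : EuclideanSpace ℝ (Fin n)) : ℝ :=
  (∫ s in fibre u S x, s) / volume.real (fibre u S x)

theorem shift_add_smul (hu : ‖u‖ = 1) (x : EuclideanSpace ℝ (Fin n)) (t : ℝ) :
    shift u S (x + t • u) = shift u S x := by
  rw [shift, shift, fibre_add_smul hu]

theorem measurable_shift (cS : IsCompact S) : Measurable (shift u S) := by
  have hc := continuous_perp (u := u)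
  have hM : MeasurableSet {p : EuclideanSpace ℝ (Fin n) × ℝ | perp u p.1 + p.2 • u ∈ S} :=
    (cS.isClosed.preimage (by fun_prop)).measurableSet
  have h1 : Measurable fun x => ∫ s in fibre u S x, s := by
    have e : (fun x => ∫ s in fibre u S x, s) = fun x => ∫ s,
        ({p : EuclideanSpace ℝ (Fin n) × ℝ | perp u p.1 + p.2 • u ∈ S}.indicator
          (fun p => p.2)) (x, s) := by
      funext x
      rw [← integral_indicator (show MeasurableSet (fibre u S x) from
        (cS.isClosed.preimage (by fun_prop)).measurableSet)]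
      rfl
    rw [e]
    exact ((measurable_snd.indicator hM).stronglyMeasurable.integral_prod_right').measurable
  exact h1.div (measurable_measure_prodMk_left hM).ennreal_toReal

theorem shift_eq {l h : ℝ} {x : EuclideanSpace ℝ (Fin n)} (hlh : l < h)
    (hI : fibre u S x = Icc l h) : shift u S x = (l + h) / 2 := by
  rw [shift, hI, integral_Icc_eq_integral_Ioc, ← intervalIntegral.integral_of_le hlh.le,
    integral_id, measureReal_def, Real.volume_Icc, ENNReal.toReal_ofReal (by linarith)]
  have : h - l ≠ 0 := (sub_pos.2 hlh).ne'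
  field_simp
  ring

/-- The move of the fibres onto their symmetrised positions. -/
noncomputable def slide (u : EuclideanSpace ℝ (Fin n)) (S : Set (EuclideanSpace ℝ (Fin n)))
    (x : EuclideanSpace ℝ (Fin n)) : EuclideanSpace ℝ (Fin n) :=
  x - shift u S x • u

theorem measurable_slide (cS : IsCompact S) : Measurable (slide u S) :=
  measurable_id.sub ((measurable_shift cS).smul_const u)

/-- Fubini along `u`. -/
theorem lintegral_fibre (hu : ‖u‖ = 1) {f : EuclideanSpace ℝ (Fin n) → ℝ≥0∞} (hf : Measurable f) :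
    ∫⁻ x, f x = ∫⁻ z : ((ℝ ∙ u)ᗮ : Submodule ℝ (EuclideanSpace ℝ (Fin n))),
      ∫⁻ s : ℝ, f ((z : EuclideanSpace ℝ (Fin n)) + s • u) := by
  obtain ⟨e, he, -, -, -, happ, -⟩ := exists_split hu
  rw [← he.lintegral_comp hf, Measure.volume_eq_prod,
    lintegral_prod_symm (fun p => f (e p)) (hf.comp e.measurable).aemeasurable]
  refine lintegral_congr fun z => lintegral_congr fun s => ?_
  rw [happ]
  exact congrArg f (add_comm _ _)

theorem measurePreserving_translate_fibres (hu : ‖u‖ = 1) (cS : IsCompact S) :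
    MeasurePreserving (slide u S) volume volume := by
  refine ⟨measurable_slide cS, Measure.ext_of_lintegral _ fun f hf => ?_⟩
  rw [lintegral_map hf (measurable_slide cS), lintegral_fibre hu hf,
    lintegral_fibre hu (f := fun x => f (slide u S x)) (hf.comp (measurable_slide cS))]
  refine lintegral_congr fun z => ?_
  have := lintegral_add_right_eq_self (μ := (volume : Measure ℝ))
    (fun s => f ((z : EuclideanSpace ℝ (Fin n)) + s • u))
    (-shift u S (z : EuclideanSpace ℝ (Fin n)))
  rw [← this]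
  refine lintegral_congr fun s => ?_
  rw [slide, shift_add_smul hu, add_smul, neg_smul]
  congr 1
  module

theorem perp_coe (z : ((ℝ ∙ u)ᗮ : Submodule ℝ (EuclideanSpace ℝ (Fin n)))) :
    perp u (z : EuclideanSpace ℝ (Fin n)) = z := by
  rw [perp, Submodule.mem_orthogonal_singleton_iff_inner_right.1 z.2, zero_smul, sub_zero]

theorem add_smul_mem_iff
    (z : ((ℝ ∙ u)ᗮ : Submodule ℝ (EuclideanSpace ℝ (Fin n))))
    {T : Set (EuclideanSpace ℝ (Fin n))} {s : ℝ} :
    (z : EuclideanSpace ℝ (Fin n)) + s • u ∈ T ↔ s ∈ fibre u T (z : EuclideanSpace ℝ (Fin n)) := by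
  show _ ↔ perp u (z : EuclideanSpace ℝ (Fin n)) + s • u ∈ T
  rw [perp_coe]

/-- Up to a null set the slide carries `S` onto its symmetral. -/
theorem preimage_slide_ae (hu : ‖u‖ = 1) (hS : Convex ℝ S) (cS : IsCompact S) :
    ∀ᵐ x, slide u S x ∈ steiner u S ↔ x ∈ S := by
  have hms := cS.measurableSet
  have hmt := measurable_slide (u := u) cS (isCompact_steiner hu cS).measurableSet
  rw [ae_iff]
  have hN : MeasurableSet {x | ¬(slide u S x ∈ steiner u S ↔ x ∈ S)} :=
    (hmt.iff hms).compl
  rw [← lintegral_indicator_one hN, lintegral_fibre hu (measurable_one.indicator hN)]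
  refine lintegral_eq_zero_of_ae_eq_zero (Eventually.of_forall fun z => ?_)
  refine lintegral_eq_zero_of_ae_eq_zero ?_
  rcases fibre_cases hu hS cS (z : EuclideanSpace ℝ (Fin n)) with ⟨e1, e2⟩ | ⟨l, h, hlh, e1, e2⟩
  · filter_upwards with s
    refine indicator_of_notMem (show ¬¬_ from not_not.2 ?_) _
    rw [slide, shift_add_smul hu, show ∀ c : ℝ, (z : EuclideanSpace ℝ (Fin n)) + s • u - c • u =
      (z : EuclideanSpace ℝ (Fin n)) + (s - c) • u from fun c => by module,
      add_smul_mem_iff, add_smul_mem_iff, e1, e2]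
    simp
  · rcases hlh.eq_or_lt with rfl | hlt
    · filter_upwards [Measure.ae_ne volume l,
        Measure.ae_ne volume (shift u S (z : EuclideanSpace ℝ (Fin n)))] with s hs1 hs2
      refine indicator_of_notMem (show ¬¬_ from not_not.2 ?_) _
      rw [slide, shift_add_smul hu, show ∀ c : ℝ, (z : EuclideanSpace ℝ (Fin n)) + s • u - c • u =
        (z : EuclideanSpace ℝ (Fin n)) + (s - c) • u from fun c => by module,
        add_smul_mem_iff, add_smul_mem_iff, e1, e2]
      simp [hs1, sub_eq_zero, hs2]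
    · filter_upwards with s
      refine indicator_of_notMem (show ¬¬_ from not_not.2 ?_) _
      rw [slide, shift_add_smul hu, show ∀ c : ℝ, (z : EuclideanSpace ℝ (Fin n)) + s • u - c • u =
        (z : EuclideanSpace ℝ (Fin n)) + (s - c) • u from fun c => by module,
        add_smul_mem_iff, add_smul_mem_iff, e1, e2, shift_eq hlt e1]
      simp only [mem_Icc]
      constructor <;> rintro ⟨a, b⟩ <;> constructor <;> linarith

/-- The slide carries the uniform measure of `S` to that of its symmetral. -/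
theorem measurePreserving_slide_restrict (hu : ‖u‖ = 1) (hS : Convex ℝ S) (cS : IsCompact S) :
    MeasurePreserving (slide u S) (volume.restrict S) (volume.restrict (steiner u S)) := by
  have h := (measurePreserving_translate_fibres hu cS).restrict_preimage
    (isCompact_steiner hu cS).measurableSet
  have e : slide u S ⁻¹' steiner u S =ᵐ[volume] S :=
    Filter.eventuallyEq_set.2 (preimage_slide_ae hu hS cS)
  rwa [Measure.restrict_congr_set e] at h

theorem volume_steiner (hu : ‖u‖ = 1) (hS : Convex ℝ S) (cS : IsCompact S) :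
    volume (steiner u S) = volume S := by
  have h := (measurePreserving_slide_restrict hu hS cS).measure_preimage
    MeasurableSet.univ.nullMeasurableSet
  simpa using h.symm

theorem shift_slide (hu : ‖u‖ = 1) (x : EuclideanSpace ℝ (Fin n)) :
    shift u S (slide u S x) = shift u S x := by
  rw [slide, sub_eq_add_neg, ← neg_smul, shift_add_smul hu]

theorem norm_shift_le (hu : ‖u‖ = 1) {R : ℝ} (hR0 : 0 ≤ R) (hS : Convex ℝ S) (cS : IsCompact S)
    (hR : S ⊆ Metric.closedBall 0 R) (x : EuclideanSpace ℝ (Fin n)) : |shift u S x| ≤ R := by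
  rcases fibre_cases hu hS cS x with ⟨e1, -⟩ | ⟨l, h, hlh, e1, -⟩
  · simp [shift, e1, hR0]
  rcases hlh.eq_or_lt with rfl | hlt
  · simp [shift, e1, measureReal_def, hR0]
  have hb : ∀ s ∈ Icc l h, |s| ≤ R := fun s hs => by
    rw [← e1] at hs
    have h1 := mem_closedBall_zero_iff.1 (hR hs)
    have h2 := abs_real_inner_le_norm u (perp u x + s • u)
    rw [inner_add_smul_self hu, inner_perp hu, zero_add, hu, one_mul] at h2
    linarith
  have hl := _root_.abs_le.1 (hb l ⟨le_rfl, hlh⟩)
  have hh := _root_.abs_le.1 (hb h ⟨hlh, le_rfl⟩)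
  rw [shift_eq hlt e1]
  exact _root_.abs_le.2 ⟨by linarith [hl.1, hh.1], by linarith [hl.2, hh.2]⟩

/-- A continuous function is integrable after the slide. -/
theorem integral_slide (hu : ‖u‖ = 1) (hS : Convex ℝ S) (cS : IsCompact S)
    {f : EuclideanSpace ℝ (Fin n) → ℝ} (hf : Continuous f) :
    ∫ x in S, f (slide u S x) = ∫ x in steiner u S, f x := by
  have h := measurePreserving_slide_restrict hu hS cS
  rw [← h.map_eq, integral_map h.measurable.aemeasurable hf.aestronglyMeasurable]

/-- The second moment does not increase, and is unchanged only for a set equal to its symmetral. -/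
theorem moment_steiner (hu : ‖u‖ = 1) (hS : Convex ℝ S) (cS : IsCompact S) :
    (∫ x in steiner u S, ‖x‖ ^ 2) ≤ ∫ x in S, ‖x‖ ^ 2 ∧
      ((∫ x in steiner u S, ‖x‖ ^ 2) = ∫ x in S, ‖x‖ ^ 2 →
        ∀ᵐ x, x ∈ S ↔ x ∈ steiner u S) := by
  obtain ⟨R, hR0, hR⟩ := cS.isBounded.subset_closedBall_lt 0 0
  have cT := isCompact_steiner hu cS
  set f : EuclideanSpace ℝ (Fin n) → ℝ := fun x => 2 * ⟪u, slide u S x⟫ * shift u S x +
    shift u S x ^ 2 with hf
  have hpt : ∀ x, ‖x‖ ^ 2 = ‖slide u S x‖ ^ 2 + f x := fun x => by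
    simp only [hf, slide]
    rw [norm_sub_sq_real, norm_smul, hu, mul_one, Real.norm_eq_abs, sq_abs, inner_sub_right,
      real_inner_smul_right, real_inner_smul_right, real_inner_self_eq_norm_sq, hu,
      real_inner_comm x u]
    ring
  have hsm := measurable_shift (u := u) cS
  have h := measurePreserving_slide_restrict hu hS cS
  set g : EuclideanSpace ℝ (Fin n) → ℝ := fun y => 2 * ⟪u, y⟫ * shift u S y with hg
  have hgm : Measurable g := ((measurable_const.inner measurable_id).const_mul 2).mul hsm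
  have hgi : IntegrableOn g (steiner u S) :=
    IntegrableOn.of_bound cT.measure_lt_top hgm.aestronglyMeasurable (2 * R * R) (by
      filter_upwards [ae_restrict_mem cT.measurableSet] with y hy
      have h1 := norm_le_of_mem_steiner hu hR hy
      have h2 := abs_real_inner_le_norm u y
      rw [hu, one_mul] at h2
      rw [Real.norm_eq_abs, hg, abs_mul, abs_mul, abs_two]
      exact mul_le_mul (mul_le_mul_of_nonneg_left (h2.trans h1) two_pos.le)
        (norm_shift_le hu hR0.le hS cS hR y) (abs_nonneg _) (by positivity))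
  have hodd : ∫ y in steiner u S, g y = 0 := by
    have hflip : MeasurePreserving (flipAt u) (volume : Measure (EuclideanSpace ℝ (Fin n))) volume := by
      have e : flipAt u = ((ℝ ∙ u)ᗮ).reflection := funext fun x => by
        rw [Submodule.reflection_orthogonal_apply, Submodule.reflection_singleton_apply, hu, flipAt]
        simp only [RCLike.ofReal_real_eq_id, id_eq, one_pow, div_one]
        module
      rw [e]
      exact LinearIsometryEquiv.measurePreserving _
    have hpre : flipAt u ⁻¹' steiner u S = steiner u S := by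
      ext y
      refine ⟨fun hy => ?_, fun hy => flipAt_mem_steiner hu hy⟩
      have := flipAt_mem_steiner hu hy
      rwa [flipAt_flipAt hu] at this
    have hres := hflip.restrict_preimage cT.measurableSet
    rw [hpre] at hres
    have e : ∫ y in steiner u S, g y = ∫ y in steiner u S, g (flipAt u y) := by
      conv_lhs => rw [← hres.map_eq]
      exact integral_map hres.measurable.aemeasurable hgm.aestronglyMeasurable
    have e2 : ∀ y, g (flipAt u y) = -g y := fun y => by
      simp only [hg, inner_flipAt hu]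
      rw [show flipAt u y = y + (-(2 * ⟪u, y⟫)) • u by rw [flipAt]; module, shift_add_smul hu]
      ring
    simp only [e2, integral_neg] at e
    linarith
  have hfi2 : IntegrableOn (fun x => shift u S x ^ 2) S :=
    IntegrableOn.of_bound cS.measure_lt_top (hsm.pow_const 2).aestronglyMeasurable (R ^ 2)
      (Eventually.of_forall fun x => by
        rw [Real.norm_eq_abs, abs_pow]
        exact pow_le_pow_left₀ (abs_nonneg _) (norm_shift_le hu hR0.le hS cS hR x) 2)
  have hgs : IntegrableOn (fun x => g (slide u S x)) S :=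
    h.integrable_comp_of_integrable hgi
  have hns : IntegrableOn (fun x => ‖slide u S x‖ ^ 2) S :=
    h.integrable_comp_of_integrable
      ((show Continuous fun y : EuclideanSpace ℝ (Fin n) => ‖y‖ ^ 2 by fun_prop).continuousOn.integrableOn_compact cT)
  have key : (∫ x in S, ‖x‖ ^ 2) =
      (∫ x in steiner u S, ‖x‖ ^ 2) + ∫ x in S, shift u S x ^ 2 := by
    have e : ∀ x, ‖x‖ ^ 2 = ‖slide u S x‖ ^ 2 + (g (slide u S x) + shift u S x ^ 2) := fun x => by
      rw [hpt x]
      simp only [hf, hg, shift_slide hu]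
    rw [integral_congr_ae (Eventually.of_forall e), integral_add hns (show IntegrableOn (fun x => g (slide u S x) + shift u S x ^ 2) S volume from
      hgs.add hfi2),
      integral_add hgs hfi2, integral_slide hu hS cS (f := fun y => ‖y‖ ^ 2) (by fun_prop)]
    have eg : ∫ x in S, g (slide u S x) = ∫ y in steiner u S, g y := by
      conv_rhs => rw [← h.map_eq]
      exact (integral_map h.measurable.aemeasurable hgm.aestronglyMeasurable).symm
    rw [eg, hodd, zero_add]
  have h0 : 0 ≤ ∫ x in S, shift u S x ^ 2 := integral_nonneg fun x => sq_nonneg _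
  refine ⟨by linarith, fun heq => ?_⟩
  have hz : (fun x => shift u S x ^ 2) =ᵐ[volume.restrict S] 0 :=
    (integral_eq_zero_iff_of_nonneg_ae (Eventually.of_forall fun x => sq_nonneg _) hfi2).1
      (by linarith)
  have hzS : ∀ᵐ x, x ∈ S → shift u S x = 0 := by
    have := (ae_restrict_iff' cS.measurableSet).1 hz
    filter_upwards [this] with x hx hxS
    exact pow_eq_zero_iff two_ne_zero |>.1 (hx hxS)
  have hsub : S ≤ᵐ[volume] steiner u S := by
    filter_upwards [preimage_slide_ae hu hS cS, hzS] with x hx h0x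
    intro hxS
    have := hx.2 hxS
    rw [slide, h0x hxS, zero_smul, sub_zero] at this
    exact this
  exact Filter.eventuallyEq_set.1 (ae_eq_of_ae_subset_of_measure_ge hsub
    (volume_steiner hu hS cS).le cS.measurableSet.nullMeasurableSet cT.measure_lt_top.ne)

end Vale.Agent.P237.Quant
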