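import Mathlib
import Vale.Agent.P237.Quant.Shape
import Vale.Agent.P237.Quant.Steiner

/-!
The centroids of weights of bounded total mass over a set: the convex body `caps τ S`, its
behaviour under symmetrisation, and its size for a ball.
-/

namespace Vale.Agent.P237.Quant

open MeasureTheory Set Filter Topology Full
open scoped RealInnerProductSpace ENNReal Pointwise

variable {n : ℕ}

/-- The centroids over `S` of the weights between `-1` and `1` of mass at most `τ`. -/
def capSet (τ : ℝ) (S : Set (EuclideanSpace ℝ (Fin n))) : Set (EuclideanSpace ℝ (Fin n)) :=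
  {l | ∃ g : EuclideanSpace ℝ (Fin n) → ℝ, Measurable g ∧ (∀ y, |g y| ≤ 1) ∧
    (∫ y in S, |g y|) ≤ τ ∧ ∫ y in S, g y • y = l}

/-- The closure of the set of these centroids. -/
def caps (τ : ℝ) (S : Set (EuclideanSpace ℝ (Fin n))) : Set (EuclideanSpace ℝ (Fin n)) :=
  closure (capSet τ S)

variable {S T : Set (EuclideanSpace ℝ (Fin n))} {τ : ℝ}

theorem integrableOn_weight (cS : IsCompact S) {g : EuclideanSpace ℝ (Fin n) → ℝ}
    (hg : Measurable g) (h1 : ∀ y, |g y| ≤ 1) :
    IntegrableOn (fun y => g y • y) S ∧ IntegrableOn (fun y => |g y|) S := by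
  refine ⟨?_, IntegrableOn.of_bound cS.measure_lt_top hg.abs.aestronglyMeasurable 1
    (Eventually.of_forall fun y => by simpa using h1 y)⟩
  obtain ⟨R, hR⟩ := cS.isBounded.subset_closedBall 0
  refine IntegrableOn.of_bound cS.measure_lt_top (hg.smul measurable_id).aestronglyMeasurable R ?_
  filter_upwards [ae_restrict_mem cS.measurableSet] with y hy
  rw [norm_smul, Real.norm_eq_abs]
  exact (mul_le_of_le_one_left (norm_nonneg y) (h1 y)).trans (mem_closedBall_zero_iff.1 (hR hy))

theorem zero_mem_capSet (hτ : 0 ≤ τ) : (0 : EuclideanSpace ℝ (Fin n)) ∈ capSet τ S :=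
  ⟨fun _ => 0, measurable_const, fun _ => by simp, by simpa using hτ, by simp⟩

theorem capSet_subset_ball (cS : IsCompact S) {R : ℝ} (hR0 : 0 ≤ R)
    (hR : S ⊆ Metric.closedBall 0 R) : capSet τ S ⊆ Metric.closedBall 0 (R * τ) := by
  rintro _ ⟨g, hg, h1, hτ, rfl⟩
  rw [mem_closedBall_zero_iff]
  refine (norm_integral_le_integral_norm _).trans ?_
  obtain ⟨hi, ha⟩ := integrableOn_weight cS hg h1
  calc (∫ y in S, ‖g y • y‖) ≤ ∫ y in S, R * |g y| := by
        refine setIntegral_mono_on hi.norm (ha.const_mul R) cS.measurableSet fun y hy => ?_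
        rw [norm_smul, Real.norm_eq_abs, mul_comm R]
        exact mul_le_mul_of_nonneg_left (mem_closedBall_zero_iff.1 (hR hy)) (abs_nonneg _)
    _ ≤ R * τ := by
        rw [integral_const_mul]
        exact mul_le_mul_of_nonneg_left hτ hR0

theorem isCompact_caps (cS : IsCompact S) : IsCompact (caps τ S) := by
  obtain ⟨R, hR0, hR⟩ := cS.isBounded.subset_closedBall_lt 0 0
  exact (isCompact_closedBall _ _).of_isClosed_subset isClosed_closure
    (closure_minimal (capSet_subset_ball cS hR0.le hR) Metric.isClosed_closedBall)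

theorem convex_capSet (cS : IsCompact S) : Convex ℝ (capSet τ S) := by
  rintro _ ⟨g, hg, h1, hτ, rfl⟩ _ ⟨g', hg', h1', hτ', rfl⟩ a b ha hb hab
  have hab' : ∀ y, |a * g y + b * g' y| ≤ a * |g y| + b * |g' y| := fun y =>
    (abs_add_le _ _).trans (by rw [abs_mul, abs_mul, abs_of_nonneg ha, abs_of_nonneg hb])
  obtain ⟨i1, j1⟩ := integrableOn_weight cS hg h1
  obtain ⟨i2, j2⟩ := integrableOn_weight cS hg' h1'
  have hm : Measurable fun y => a * g y + b * g' y := (hg.const_mul a).add (hg'.const_mul b)
  have hb1 : ∀ y, |a * g y + b * g' y| ≤ 1 := fun y => by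
    have := hab' y
    nlinarith [mul_le_mul_of_nonneg_left (h1 y) ha, mul_le_mul_of_nonneg_left (h1' y) hb]
  refine ⟨_, hm, hb1, ?_, ?_⟩
  · calc (∫ y in S, |a * g y + b * g' y|) ≤ ∫ y in S, (a * |g y| + b * |g' y|) :=
          setIntegral_mono (integrableOn_weight cS hm hb1).2 ((j1.const_mul a).add (j2.const_mul b))
            hab'
      _ ≤ τ := by
          rw [integral_add (j1.const_mul a) (j2.const_mul b), integral_const_mul, integral_const_mul]
          have e : (a + b) * τ = τ := by rw [hab, one_mul]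
          linarith [mul_le_mul_of_nonneg_left hτ ha, mul_le_mul_of_nonneg_left hτ' hb]
  · rw [← integral_smul, ← integral_smul, ← integral_add]
    · exact integral_congr_ae (Eventually.of_forall fun y => by
        simp only [add_smul, smul_smul])
    · exact i1.smul a
    · exact i2.smul b

theorem convex_caps (cS : IsCompact S) : Convex ℝ (caps τ S) := (convex_capSet cS).closure

theorem neg_mem_caps {l : EuclideanSpace ℝ (Fin n)} (hl : l ∈ caps τ S) : -l ∈ caps τ S := by
  have h : ∀ l ∈ capSet τ S, -l ∈ capSet τ S := by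
    rintro _ ⟨g, hg, h1, hτ, rfl⟩
    refine ⟨fun y => -g y, hg.neg, fun y => by simpa using h1 y, by simpa using hτ, ?_⟩
    simp only [neg_smul]
    exact integral_neg _
  exact map_mem_closure continuous_neg hl h

theorem zero_mem_caps (hτ : 0 ≤ τ) : (0 : EuclideanSpace ℝ (Fin n)) ∈ caps τ S :=
  subset_closure (zero_mem_capSet hτ)

theorem capSet_mono (hS : MeasurableSet S) (hST : S ⊆ T) {τ' : ℝ}
    (hτ : τ ≤ τ') : capSet τ S ⊆ capSet τ' T := by
  rintro _ ⟨g, hg, h1, hgτ, rfl⟩
  refine ⟨S.indicator g, hg.indicator hS, fun y => ?_, ?_, ?_⟩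
  · by_cases hy : y ∈ S <;> simp [hy, h1 y]
  · have e : (fun y => |S.indicator g y|) = S.indicator fun y => |g y| := by
      funext y
      by_cases hy : y ∈ S <;> simp [hy]
    rw [e, setIntegral_indicator hS, inter_eq_right.2 hST]
    exact hgτ.trans hτ
  · have e : (fun y => S.indicator g y • y) = S.indicator fun y => g y • y := by
      funext y
      by_cases hy : y ∈ S <;> simp [hy]
    rw [e, setIntegral_indicator hS, inter_eq_right.2 hST]

theorem caps_mono (hS : MeasurableSet S) (hST : S ⊆ T) {τ' : ℝ}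
    (hτ : τ ≤ τ') : caps τ S ⊆ caps τ' T :=
  closure_mono (capSet_mono hS hST hτ)

theorem capSet_smul {θ : ℝ} (hθ : 0 < θ) :
    capSet τ (θ • S) ⊆ θ ^ (n + 1) • capSet (τ / θ ^ n) S := by
  rintro _ ⟨g, hg, h1, hτ, rfl⟩
  have hn : (0 : ℝ) < θ ^ n := pow_pos hθ n
  have e1 := Measure.setIntegral_comp_smul_of_pos volume (fun y => |g y|) hθ (s := S)
  have e2 := Measure.setIntegral_comp_smul_of_pos volume (fun y => g y • y) hθ (s := S)
  simp only [finrank_euclideanSpace_fin, smul_eq_mul] at e1 e2
  refine ⟨_, ⟨fun y => g (θ • y), hg.comp (measurable_const_smul θ), fun y => h1 _, ?_, rfl⟩, ?_⟩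
  · rw [e1, inv_mul_eq_div]
    gcongr
  · rw [show (∫ y in θ • S, g y • y) = θ ^ n • ∫ y in S, g (θ • y) • θ • y by
      rw [e2, smul_smul, mul_inv_cancel₀ hn.ne', one_smul]]
    simp only [smul_comm _ θ]
    rw [integral_smul, smul_smul, ← pow_succ]

theorem caps_smul (cS : IsCompact S) {θ : ℝ} (hθ : 0 < θ) :
    caps τ (θ • S) ⊆ θ ^ (n + 1) • caps (τ / θ ^ n) S :=
  closure_minimal ((capSet_smul hθ).trans (smul_set_mono subset_closure))
    ((isCompact_caps cS).smul _).isClosed

/-- The support of `caps` is below every threshold bound. -/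
theorem inner_le_of_mem_caps (cS : IsCompact S) {l : EuclideanSpace ℝ (Fin n)}
    (hl : l ∈ caps τ S) (ξ : EuclideanSpace ℝ (Fin n)) {c : ℝ} (hc : 0 ≤ c) :
    ⟪ξ, l⟫ ≤ c * τ + ∫ y in S, max (|⟪ξ, y⟫| - c) 0 := by
  refine closure_minimal (s := capSet τ S) (t := {l | ⟪ξ, l⟫ ≤ _}) ?_
    (isClosed_le (by fun_prop) continuous_const) hl
  rintro _ ⟨g, hg, h1, hτ, rfl⟩
  obtain ⟨hi, ha⟩ := integrableOn_weight cS hg h1
  have hx : IntegrableOn (fun y => max (|⟪ξ, y⟫| - c) 0) S :=
    (by fun_prop : Continuous fun y => max (|⟪ξ, y⟫| - c) 0).continuousOn.integrableOn_compact cS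
  show ⟪ξ, ∫ y in S, g y • y⟫ ≤ _
  rw [← integral_inner hi]
  calc (∫ y in S, ⟪ξ, g y • y⟫) ≤ ∫ y in S, (c * |g y| + max (|⟪ξ, y⟫| - c) 0) := by
        refine setIntegral_mono (hi.const_inner ξ) ((ha.const_mul c).add hx) fun y => ?_
        rw [real_inner_smul_right]
        have h2 : g y * ⟪ξ, y⟫ ≤ |g y| * |⟪ξ, y⟫| := (le_abs_self _).trans (abs_mul _ _).le
        have h3 := le_max_left (|⟪ξ, y⟫| - c) 0
        have h4 := le_max_right (|⟪ξ, y⟫| - c) 0
        nlinarith [mul_le_mul_of_nonneg_left h3 (abs_nonneg (g y)),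
          mul_le_mul_of_nonneg_right (h1 y) h4]
    _ ≤ _ := by
        rw [integral_add (ha.const_mul c) hx, integral_const_mul]
        linarith [mul_le_mul_of_nonneg_left hτ hc]

/-- Symmetrisation of the set only shrinks the symmetral of `caps`. -/
theorem caps_steiner {u : EuclideanSpace ℝ (Fin n)} (hu : ‖u‖ = 1) (hS : Convex ℝ S)
    (cS : IsCompact S) : caps τ (steiner u S) ⊆ steiner u (caps τ S) := by
  refine closure_minimal ?_ (isCompact_steiner hu (isCompact_caps cS)).isClosed
  rintro _ ⟨g, hg, h1, hτ, rfl⟩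
  have cT := isCompact_steiner hu cS
  have h := measurePreserving_slide_restrict hu hS cS
  have hfm : Measurable (flipAt u) := by
    unfold flipAt
    fun_prop
  have hres : MeasurePreserving (flipAt u) (volume.restrict (steiner u S))
      (volume.restrict (steiner u S)) := by
    have e : flipAt u = ((ℝ ∙ u)ᗮ).reflection := funext fun x => by
      rw [Submodule.reflection_orthogonal_apply, Submodule.reflection_singleton_apply, hu, flipAt]
      simp only [RCLike.ofReal_real_eq_id, id_eq, one_pow, div_one]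
      module
    have hflip : MeasurePreserving (flipAt u) (volume : Measure (EuclideanSpace ℝ (Fin n))) volume := by
      rw [e]
      exact LinearIsometryEquiv.measurePreserving _
    have hpre : flipAt u ⁻¹' steiner u S = steiner u S := by
      ext y
      refine ⟨fun hy => ?_, fun hy => flipAt_mem_steiner hu hy⟩
      have := flipAt_mem_steiner hu hy
      rwa [flipAt_flipAt hu] at this
    have := hflip.restrict_preimage cT.measurableSet
    rwa [hpre] at this
  obtain ⟨R, hR0, hR⟩ := cS.isBounded.subset_closedBall_lt 0 0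
  set g1 : EuclideanSpace ℝ (Fin n) → ℝ := fun x => g (slide u S x) with hg1
  set g2 : EuclideanSpace ℝ (Fin n) → ℝ := fun x => g (flipAt u (slide u S x)) with hg2
  have m1 : Measurable g1 := hg.comp (measurable_slide cS)
  have m2 : Measurable g2 := hg.comp (hfm.comp (measurable_slide cS))
  have push : ∀ {G : EuclideanSpace ℝ (Fin n) → ℝ}, Measurable G →
      (∫ x in S, G (slide u S x)) = ∫ y in steiner u S, G y := fun {G} hG => by
    conv_rhs => rw [← h.map_eq]
    exact (integral_map h.measurable.aemeasurable hG.aestronglyMeasurable).symm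
  have flip : ∀ {G : EuclideanSpace ℝ (Fin n) → ℝ}, Measurable G →
      (∫ y in steiner u S, G (flipAt u y)) = ∫ y in steiner u S, G y := fun {G} hG => by
    conv_rhs => rw [← hres.map_eq]
    exact (integral_map hres.measurable.aemeasurable hG.aestronglyMeasurable).symm
  have pushV : ∀ {G : EuclideanSpace ℝ (Fin n) → EuclideanSpace ℝ (Fin n)}, Measurable G →
      (∫ x in S, G (slide u S x)) = ∫ y in steiner u S, G y := fun {G} hG => by
    conv_rhs => rw [← h.map_eq]
    exact (integral_map h.measurable.aemeasurable hG.aestronglyMeasurable).symm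
  have flipV : ∀ {G : EuclideanSpace ℝ (Fin n) → EuclideanSpace ℝ (Fin n)}, Measurable G →
      (∫ y in steiner u S, G (flipAt u y)) = ∫ y in steiner u S, G y := fun {G} hG => by
    conv_rhs => rw [← hres.map_eq]
    exact (integral_map hres.measurable.aemeasurable hG.aestronglyMeasurable).symm
  have hsm := measurable_shift (u := u) cS
  have e1 : ∀ x, x = slide u S x + shift u S (slide u S x) • u := fun x => by
    rw [shift_slide hu, slide, sub_add_cancel]
  have ha1 : ∫ x in S, |g1 x| = ∫ y in steiner u S, |g y| := push hg.abs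
  have ha2 : ∫ x in S, |g2 x| = ∫ y in steiner u S, |g y| :=
    (push (G := fun y => |g (flipAt u y)|) (hg.comp hfm).abs).trans (flip hg.abs)
  have l1 : ∫ x in S, g1 x • x = ∫ y in steiner u S, g y • (y + shift u S y • u) := by
    rw [← pushV (G := fun y => g y • (y + shift u S y • u))
      (hg.smul (measurable_id.add (hsm.smul_const u)))]
    exact integral_congr_ae (Eventually.of_forall fun x => by simp only [hg1, ← e1])
  have l2 : ∫ x in S, g2 x • x =
      ∫ y in steiner u S, g y • (flipAt u y + shift u S y • u) := by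
    rw [← flipV (G := fun y => g y • (flipAt u y + shift u S y • u))
        (hg.smul (hfm.add (hsm.smul_const u))),
      ← pushV (G := fun y => g (flipAt u y) •
        (flipAt u (flipAt u y) + shift u S (flipAt u y) • u))
        ((hg.comp hfm).smul ((hfm.comp hfm).add ((hsm.comp hfm).smul_const u)))]
    refine integral_congr_ae (Eventually.of_forall fun x => ?_)
    simp only [hg2, flipAt_flipAt hu]
    rw [show flipAt u (slide u S x) = slide u S x + (-(2 * ⟪u, slide u S x⟫)) • u by
      rw [flipAt]; module, shift_add_smul hu, ← e1]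
  obtain ⟨i0, j0⟩ := integrableOn_weight cT hg h1
  have is : IntegrableOn (fun y => g y * shift u S y) (steiner u S) :=
    IntegrableOn.of_bound cT.measure_lt_top (hg.mul hsm).aestronglyMeasurable R
      (Eventually.of_forall fun y => by
        rw [Real.norm_eq_abs, abs_mul]
        exact (mul_le_of_le_one_left (abs_nonneg _) (h1 y)).trans
          (norm_shift_le hu hR0.le hS cS hR y))
  have iσ : IntegrableOn (fun y => g y * ⟪u, y⟫) (steiner u S) := by
    refine (i0.const_inner u).congr (Eventually.of_forall fun y => ?_)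
    simp [real_inner_smul_right]
  set I := ∫ y in steiner u S, g y * ⟪u, y⟫
  set J := ∫ y in steiner u S, g y * shift u S y
  set l := ∫ y in steiner u S, g y • y
  have L1 : ∫ x in S, g1 x • x = l + J • u := by
    rw [l1, ← integral_smul_const, ← integral_add i0 (is.smul_const u)]
    exact integral_congr_ae (Eventually.of_forall fun y => by simp only [smul_add, smul_smul])
  have L2 : ∫ x in S, g2 x • x = l + (J - 2 * I) • u := by
    rw [l2, ← integral_const_mul, ← integral_sub is (iσ.const_mul 2), ← integral_smul_const,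
      ← integral_add i0 ((show IntegrableOn (fun y => g y * shift u S y - 2 * (g y * ⟪u, y⟫))
        (steiner u S) volume from is.sub (iσ.const_mul 2)).smul_const u)]
    refine integral_congr_ae (Eventually.of_forall fun y => ?_)
    simp only [flipAt]
    module
  have hI : ⟪u, l⟫ = I := by
    rw [← integral_inner i0]
    simp only [real_inner_smul_right]
    rfl
  have p1 : l + J • u ∈ caps τ S :=
    subset_closure ⟨g1, m1, fun x => h1 _, ha1.le.trans hτ, L1⟩
  have p2 : l + (J - 2 * I) • u ∈ caps τ S :=
    subset_closure ⟨g2, m2, fun x => h1 _, ha2.le.trans hτ, L2⟩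
  rcases le_total 0 I with hp | hp
  · refine ⟨_, p1, _, p2, perp_add_smul hu _ _, perp_add_smul hu _ _, ?_⟩
    rw [inner_add_smul_self hu, inner_add_smul_self hu, hI, abs_of_nonneg hp]
    linarith
  · refine ⟨_, p2, _, p1, perp_add_smul hu _ _, perp_add_smul hu _ _, ?_⟩
    rw [inner_add_smul_self hu, inner_add_smul_self hu, hI, abs_of_nonpos hp]
    linarith

theorem volume_caps_steiner {u : EuclideanSpace ℝ (Fin n)} (hu : ‖u‖ = 1) (hS : Convex ℝ S)
    (cS : IsCompact S) : volume (caps τ (steiner u S)) ≤ volume (caps τ S) :=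
  (measure_mono (caps_steiner hu hS cS)).trans_eq
    (volume_steiner hu (convex_caps cS) (isCompact_caps cS))

section ball

variable {m : ℕ}

/-- The share of the ball beyond the height `a`. -/
noncomputable def tailWeight (m : ℕ) (a : ℝ) : ℝ :=
  (∫ t in a..1, ballShape t ^ m) / mass m ballShape 1

/-- The moment of the ball beyond the height `a`. -/
noncomputable def tailMoment (m : ℕ) (a : ℝ) : ℝ :=
  (∫ t in a..1, t * ballShape t ^ m) / mass m ballShape 1

theorem mass_ball_pos (m : ℕ) : 0 < mass m ballShape 1 :=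
  intervalIntegral.intervalIntegral_pos_of_pos_on
    ((by unfold ballShape; fun_prop : Continuous fun t => ballShape t ^ m).intervalIntegrable _ _)
    (fun t ht => pow_pos (Real.sqrt_pos.2 (by nlinarith [ht.1, ht.2])) m) zero_lt_one

theorem isSymBody_ball {ρ : ℝ} (hρ : 0 < ρ) :
    IsSymBody (Metric.closedBall (0 : EuclideanSpace ℝ (Fin (m + 1))) ρ) :=
  ⟨⟨convex_closedBall _ _, isCompact_closedBall _ _,
    ⟨0, interior_mono Metric.ball_subset_closedBall (by simp [Metric.isOpen_ball.interior_eq, hρ])⟩⟩,
    fun x hx => by simpa using hx⟩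

theorem profile_ball (hm : 1 ≤ m) {ρ : ℝ} (hρ : 0 < ρ) {u : EuclideanSpace ℝ (Fin (m + 1))}
    (hu : ‖u‖ = 1) {s : ℝ} (hs : s ∈ Icc (-1 : ℝ) 1) :
    profile (Metric.closedBall 0 ρ) (ρ⁻¹ • u) s = ρ * ballShape s := by
  have hn : ‖ρ⁻¹ • u‖ = ρ⁻¹ := by
    rw [norm_smul, hu, Real.norm_of_nonneg (inv_pos.2 hρ).le, mul_one]
  rw [profile, hn, div_inv_eq_mul, smul_smul, inv_inv, mul_inv_cancel₀ hρ.ne', one_smul]
  have hdim : Module.finrank ℝ ((ℝ ∙ u)ᗮ : Submodule ℝ (EuclideanSpace ℝ (Fin (m + 1)))) = m :=
    finrank_compl (by simp) hu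
  have : Nontrivial ((ℝ ∙ u)ᗮ : Submodule ℝ (EuclideanSpace ℝ (Fin (m + 1)))) :=
    Module.nontrivial_of_finrank_pos (R := ℝ) (by omega)
  have hd : (0 : ℝ) ≤ 1 - s ^ 2 := by nlinarith [hs.1, hs.2]
  have hset : {y : ((ℝ ∙ u)ᗮ : Submodule ℝ (EuclideanSpace ℝ (Fin (m + 1)))) |
      (y : EuclideanSpace ℝ (Fin (m + 1))) + (s * ρ) • u ∈ Metric.closedBall 0 ρ} =
      Metric.closedBall 0 (ρ * ballShape s) := by
    ext y
    have e : ‖(y : EuclideanSpace ℝ (Fin (m + 1))) + (s * ρ) • u‖ ^ 2 = ‖y‖ ^ 2 + (s * ρ) ^ 2 := by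
      rw [norm_add_sq_real, real_inner_smul_right, real_inner_comm,
        Submodule.mem_orthogonal_singleton_iff_inner_right.1 y.2, norm_smul, hu, mul_one,
        Real.norm_eq_abs, sq_abs, Submodule.coe_norm]
      ring
    have e2 : (ρ * ballShape s) ^ 2 = ρ ^ 2 * (1 - s ^ 2) := by
      rw [mul_pow, ballShape, Real.sq_sqrt hd]
    simp only [Set.mem_ofPred_eq, mem_closedBall_zero_iff]
    constructor <;> intro h
    · refine le_of_pow_le_pow_left₀ two_ne_zero (mul_nonneg hρ.le (Real.sqrt_nonneg _)) ?_
      have := pow_le_pow_left₀ (norm_nonneg _) h 2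
      linarith
    · refine le_of_pow_le_pow_left₀ two_ne_zero hρ.le ?_
      have := pow_le_pow_left₀ (norm_nonneg _) h 2
      linarith
  have h0 : 0 ≤ ρ * ballShape s := mul_nonneg hρ.le (Real.sqrt_nonneg _)
  rw [sect, hset, volume_closedBall_kappa h0, hdim, mul_div_cancel_right₀ _ (kappa_pos m).ne',
    Real.pow_rpow_inv_natCast h0 (by omega)]

/-- The size of `caps` of a ball. -/
theorem volume_caps_ball (hm : 1 ≤ m) {ρ : ℝ} (hρ : 0 < ρ) {a : ℝ} (ha : a ∈ Ico (0 : ℝ) 1) :
    (volume (Metric.closedBall (0 : EuclideanSpace ℝ (Fin (m + 1))) ρ)).toReal ^ (m + 2) *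
        tailMoment m a ^ (m + 1) ≤
      (volume (caps (tailWeight m a *
        (volume (Metric.closedBall (0 : EuclideanSpace ℝ (Fin (m + 1))) ρ)).toReal)
        (Metric.closedBall (0 : EuclideanSpace ℝ (Fin (m + 1))) ρ))).toReal := by
  set B := Metric.closedBall (0 : EuclideanSpace ℝ (Fin (m + 1))) ρ with hB
  have hBs := isSymBody_ball (m := m) hρ
  set V := (volume B).toReal with hV
  have hVk : V = kappa (m + 1) * ρ ^ (m + 1) := by
    rw [hV, hB, volume_closedBall_kappa hρ.le, finrank_euclideanSpace_fin, mul_comm]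
  have hm0 := mass_ball_pos m
  have key : ∀ u : EuclideanSpace ℝ (Fin (m + 1)), ‖u‖ = 1 →
      (ρ * V * tailMoment m a) • u ∈ capSet (tailWeight m a * V) B := by
    intro u hu
    set g : EuclideanSpace ℝ (Fin (m + 1)) → ℝ := fun y =>
      if a * ρ < ⟪u, y⟫ then 1 else if ⟪u, y⟫ < -(a * ρ) then -1 else 0 with hg
    have hgm : Measurable g :=
      Measurable.ite (measurableSet_lt measurable_const (by fun_prop)) measurable_const
        (Measurable.ite (measurableSet_lt (by fun_prop) measurable_const) measurable_const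
          measurable_const)
    have hg1 : ∀ y, |g y| ≤ 1 := fun y => by
      simp only [hg]; split_ifs <;> norm_num
    have hT : IsTop B (ρ⁻¹ • u) (ρ • u) := by
      refine ⟨?_, fun y hy => ?_, ?_⟩
      · rw [hB, mem_closedBall_zero_iff, norm_smul, hu, mul_one, Real.norm_of_nonneg hρ.le]
      · have h1 := real_inner_le_norm u y
        rw [hu, one_mul] at h1
        rw [real_inner_smul_left, inv_mul_le_one₀ hρ]
        exact h1.trans (mem_closedBall_zero_iff.1 hy)
      · rw [real_inner_smul_left, real_inner_smul_right, real_inner_self_eq_norm_sq, hu]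
        field_simp
    have hnw : ‖ρ⁻¹ • u‖ = ρ⁻¹ := by
      rw [norm_smul, hu, Real.norm_of_nonneg (inv_pos.2 hρ).le, mul_one]
    have hmass : mass m (profile B (ρ⁻¹ • u)) 1 = ρ ^ m * mass m ballShape 1 := by
      rw [mass, mass, ← intervalIntegral.integral_const_mul]
      refine intervalIntegral.integral_congr fun t ht => ?_
      rw [uIcc_of_le zero_le_one] at ht
      show profile B (ρ⁻¹ • u) t ^ m = _
      rw [hB, profile_ball hm hρ hu ⟨by linarith [ht.1], ht.2⟩, mul_pow]
    have hVm := volume_eq_mass hm hBs hT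
    rw [hnw, div_inv_eq_mul, hmass, ← hV] at hVm
    have hball : ∀ t, ballShape (-t) = ballShape t := fun t => by simp [ballShape]
    have hcb : Continuous ballShape := by unfold ballShape; fun_prop
    have hin : ∀ (G : ℝ → ℝ), Measurable G → (∀ t, G (-t) = G t) →
        IntervalIntegrable (fun t => G t * ballShape t ^ m) volume 0 1 →
        ∫ y in B, G ⟪ρ⁻¹ • u, y⟫ =
          V / mass m ballShape 1 * ∫ t in (0 : ℝ)..1, G t * ballShape t ^ m := by
      intro G hG hev hi
      rw [integral_inner_eq hm hBs hT hG, hnw, div_inv_eq_mul]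
      have e : (∫ t in (-1 : ℝ)..1, G t * profile B (ρ⁻¹ • u) t ^ m) =
          ρ ^ m * ∫ t in (-1 : ℝ)..1, G t * ballShape t ^ m := by
        rw [← intervalIntegral.integral_const_mul]
        refine intervalIntegral.integral_congr fun t ht => ?_
        rw [uIcc_of_le (by norm_num : (-1 : ℝ) ≤ 1)] at ht
        show G t * profile B (ρ⁻¹ • u) t ^ m = _
        rw [hB, profile_ball hm hρ hu ht]
        ring
      have hneg : IntervalIntegrable (fun t => G t * ballShape t ^ m) volume (-1) 0 := by
        have h := (IntervalIntegrable.iff_comp_neg (f := fun t => G t * ballShape t ^ m)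
          (a := 0) (b := 1)).1 hi
        simp only [hev, hball, neg_zero] at h
        exact h.symm
      have h2 := intervalIntegral.integral_comp_neg (fun t => G t * ballShape t ^ m)
        (a := -1) (b := 0)
      simp only [hev, hball, neg_zero, neg_neg] at h2
      rw [e, ← intervalIntegral.integral_add_adjacent_intervals hneg hi, h2, hVm]
      field_simp
      ring
    have htail : ∀ (f : ℝ → ℝ), Continuous f →
        IntervalIntegrable (fun t => (if a < |t| then f |t| else 0) * ballShape t ^ m) volume 0 1 ∧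
        (∫ t in (0 : ℝ)..1, (if a < |t| then f |t| else 0) * ballShape t ^ m) =
          ∫ t in a..1, f t * ballShape t ^ m := by
      intro f hf
      have i0 : IntervalIntegrable (fun _ : ℝ => (0 : ℝ)) volume 0 a := intervalIntegrable_const
      have c1 : EqOn (fun t => (if a < |t| then f |t| else 0) * ballShape t ^ m) (fun _ => 0)
          (uIoc 0 a) := fun t ht => by
        rw [uIoc_of_le ha.1] at ht
        simp [abs_of_pos ht.1, not_lt.2 ht.2]
      have c2 : EqOn (fun t => (if a < |t| then f |t| else 0) * ballShape t ^ m)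
          (fun t => f t * ballShape t ^ m) (uIoc a 1) := fun t ht => by
        rw [uIoc_of_le ha.2.le] at ht
        simp [abs_of_pos (ha.1.trans_lt ht.1), ht.1]
      have j0 := i0.congr fun t ht => (c1 ht).symm
      have j1 := ((hf.mul (hcb.pow m)).intervalIntegrable (μ := volume) a 1).congr
        fun t ht => (c2 ht).symm
      refine ⟨j0.trans j1, ?_⟩
      rw [← intervalIntegral.integral_add_adjacent_intervals j0 j1,
        intervalIntegral.integral_congr_ae (Eventually.of_forall c1),
        intervalIntegral.integral_congr_ae (Eventually.of_forall c2)]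
      simp
    have hσ : ∀ y, |⟪ρ⁻¹ • u, y⟫| = |⟪u, y⟫| / ρ := fun y => by
      rw [real_inner_smul_left, abs_mul, abs_inv, abs_of_pos hρ, inv_mul_eq_div]
    have hab : ∀ y, |g y| = if a < |⟪ρ⁻¹ • u, y⟫| then 1 else 0 := fun y => by
      rw [hσ]
      simp only [lt_div_iff₀ hρ, hg]
      by_cases h1 : a * ρ < ⟪u, y⟫
      · have h' : a * ρ < |⟪u, y⟫| := h1.trans_le (le_abs_self _)
        simp [h1, h']
      by_cases h2 : ⟪u, y⟫ < -(a * ρ)
      · have h' : a * ρ < |⟪u, y⟫| := by linarith [neg_le_abs ⟪u, y⟫]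
        simp [h1, h2, h']
      have h' : ¬a * ρ < |⟪u, y⟫| := not_lt.2 (_root_.abs_le.2 ⟨by linarith, by linarith⟩)
      simp [h1, h2, h']
    have hgσ : ∀ y, ⟪u, g y • y⟫ =
        ρ * if a < |⟪ρ⁻¹ • u, y⟫| then |⟪ρ⁻¹ • u, y⟫| else 0 := fun y => by
      rw [real_inner_smul_right, hσ]
      simp only [lt_div_iff₀ hρ, hg]
      have hρa : 0 ≤ a * ρ := mul_nonneg ha.1 hρ.le
      by_cases h1 : a * ρ < ⟪u, y⟫
      · rw [abs_of_pos (hρa.trans_lt h1), if_pos h1, if_pos h1]
        field_simp
      by_cases h2 : ⟪u, y⟫ < -(a * ρ)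
      · rw [abs_of_neg (by linarith), if_neg h1, if_pos h2, if_pos (by linarith)]
        field_simp
      rw [if_neg h1, if_neg h2, if_neg (not_lt.2 (_root_.abs_le.2 ⟨by linarith, by linarith⟩))]
      simp
    obtain ⟨ie, ee⟩ := htail (fun _ => 1) continuous_const
    obtain ⟨it, et⟩ := htail (fun t => t) continuous_id
    have hmeas : ∀ (f : ℝ → ℝ), Measurable f →
        Measurable fun t : ℝ => if a < |t| then f |t| else 0 := fun f hf =>
      Measurable.ite (measurableSet_lt measurable_const (by fun_prop)) (hf.comp (by fun_prop))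
        measurable_const
    refine ⟨g, hgm, hg1, le_of_eq ?_, ?_⟩
    · simp only [hab]
      rw [hin (fun t => if a < |t| then 1 else 0) (hmeas _ measurable_const)
        (fun t => by rw [abs_neg]) ie, ee]
      simp only [tailWeight, one_mul]
      ring
    · have hcB := hBs.body.2.1
      obtain ⟨hi, -⟩ := integrableOn_weight hcB hgm hg1
      set l := ∫ y in B, g y • y with hl
      have hcomp : ⟪u, l⟫ = ρ * V * tailMoment m a := by
        rw [hl, ← integral_inner hi]
        simp only [hgσ]
        rw [integral_const_mul, hin (fun t => if a < |t| then |t| else 0) (hmeas _ measurable_id)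
          (fun t => by rw [abs_neg]) it, et, tailMoment]
        ring
      have hfl : MeasurePreserving (fun y => -flipAt u y)
          (volume : Measure (EuclideanSpace ℝ (Fin (m + 1)))) volume := by
        have e : (fun y => -flipAt u y) = fun y => -((ℝ ∙ u)ᗮ).reflection y := funext fun x => by
          rw [Submodule.reflection_orthogonal_apply, Submodule.reflection_singleton_apply, hu, flipAt]
          simp only [RCLike.ofReal_real_eq_id, id_eq, one_pow, div_one]
          module
        rw [e]
        exact (Measure.measurePreserving_neg volume).comp (LinearIsometryEquiv.measurePreserving _)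
      have hnorm : ∀ y, ‖-flipAt u y‖ = ‖y‖ := fun y => by
        rw [norm_neg]
        refine (sq_eq_sq₀ (norm_nonneg _) (norm_nonneg _)).1 ?_
        rw [norm_sq_perp hu, perp_flipAt hu, inner_flipAt hu, neg_sq, ← norm_sq_perp hu]
      have hsame : ∀ y, g (-flipAt u y) = g y := fun y => by
        simp only [hg, inner_neg_right, inner_flipAt hu, neg_neg]
      have hpre : (fun y => -flipAt u y) ⁻¹' B = B := by
        ext y
        simp only [hB, Set.mem_preimage, mem_closedBall_zero_iff, hnorm]
      have hres := hfl.restrict_preimage hcB.measurableSet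
      rw [hpre] at hres
      have hsym : l = ∫ y in B, g y • -flipAt u y := by
        rw [hl]
        conv_lhs => rw [← hres.map_eq]
        rw [integral_map hres.measurable.aemeasurable (show AEStronglyMeasurable (fun y => g y • y) _
          from (hgm.smul measurable_id).aestronglyMeasurable)]
        simp only [hsame]
      have hlin : ∫ y in B, g y • -flipAt u y = (2 * ⟪u, l⟫) • u - l := by
        rw [hl, ← integral_inner hi, ← integral_const_mul, ← integral_smul_const,
          ← integral_sub ((((hi.const_inner u).const_mul 2)).smul_const u) hi]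
        refine integral_congr_ae (Eventually.of_forall fun y => ?_)
        simp only [flipAt, real_inner_smul_right]
        module
      rw [hlin] at hsym
      rw [← hcomp]
      have h2 : (2 : ℝ) • l = (2 : ℝ) • (⟪u, l⟫ • u) := by
        rw [two_smul ℝ l, smul_smul]
        nth_rewrite 1 [hsym]
        rw [sub_add_cancel]
      exact smul_right_injective _ two_ne_zero h2
  have hw0 : 0 ≤ tailWeight m a * V :=
    mul_nonneg (div_nonneg (intervalIntegral.integral_nonneg ha.2.le fun t _ =>
      pow_nonneg (Real.sqrt_nonneg _) m) hm0.le) ENNReal.toReal_nonneg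
  set q := ρ * V * tailMoment m a with hq
  have hq0 : 0 ≤ q := mul_nonneg (mul_nonneg hρ.le ENNReal.toReal_nonneg)
    (div_nonneg (intervalIntegral.integral_nonneg ha.2.le fun t ht =>
      mul_nonneg (ha.1.trans ht.1) (pow_nonneg (Real.sqrt_nonneg _) m)) hm0.le)
  have hsub : Metric.closedBall (0 : EuclideanSpace ℝ (Fin (m + 1))) q ⊆
      caps (tailWeight m a * V) B := by
    intro x hx
    rw [mem_closedBall_zero_iff] at hx
    rcases eq_or_ne x 0 with rfl | hx0
    · exact zero_mem_caps hw0
    have hn := norm_pos_iff.2 hx0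
    have hk := subset_closure (key (‖x‖⁻¹ • x) (norm_smul_inv_norm hx0))
    have h0 := zero_mem_caps (S := B) hw0
    have hqp : 0 < q := hn.trans_le hx
    have := convex_caps hBs.body.2.1 hk h0 (show 0 ≤ ‖x‖ / q from div_nonneg hn.le hq0)
      (show 0 ≤ 1 - ‖x‖ / q from sub_nonneg.2 ((div_le_one hqp).2 hx)) (by ring)
    rwa [smul_zero, add_zero, smul_smul, smul_smul,
      show ‖x‖ / q * q * ‖x‖⁻¹ = 1 by field_simp, one_smul] at this
  have h := ENNReal.toReal_mono (isCompact_caps hBs.body.2.1).measure_ne_top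
    (measure_mono (μ := volume) hsub)
  rw [volume_closedBall_kappa hq0, finrank_euclideanSpace_fin] at h
  refine le_trans (le_of_eq ?_) h
  rw [hq, hVk]
  ring

end ball

end Vale.Agent.P237.Quant
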