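import Mathlib
import Vale.Agent.P237.Quant.BadSet
import Vale.Agent.P237.Quant.WeightBound

/-!
An algebraic criterion that bounds a profile with nonpositive value at the centre.
-/

namespace Vale.Agent.P237.Quant

open MeasureTheory Set Filter Topology

variable {m : ℕ} {φ : ℝ → ℝ}

/-- The quintic above the arcsine. -/
noncomputable def arcQuintic (t : ℝ) : ℝ := t + t ^ 3 / 6 + (Real.pi / 2 - 7 / 6) * t ^ 5

theorem quintic_coeff : (Real.pi / 2 - 7 / 6) ∈ Icc (0.404 : ℝ) 0.4042 :=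
  ⟨by linarith [Real.pi_gt_d4], by linarith [Real.pi_lt_d4]⟩

theorem arcsin_le_quintic {t : ℝ} (ht : t ∈ Icc (0 : ℝ) 1) : Real.arcsin t ≤ arcQuintic t := by
  obtain ⟨ha, ha'⟩ := quintic_coeff
  set a : ℝ := Real.pi / 2 - 7 / 6 with hadef
  set h : ℝ → ℝ := fun x => x + x ^ 3 / 6 + a * x ^ 5 - Real.arcsin x with hh
  set d : ℝ → ℝ := fun x => 1 + x ^ 2 / 2 + 5 * a * x ^ 4 - 1 / ballShape x with hdd
  have hcont : Continuous h := by fun_prop
  have hd : ∀ x ∈ Ioo (-1 : ℝ) 1, HasDerivAt h (d x) x := fun x hx => by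
    refine ((((hasDerivAt_id' x).add (((hasDerivAt_id' x).pow 3).div_const 6)).add
      (((hasDerivAt_id' x).pow 5).const_mul a)).sub
      (Real.hasDerivAt_arcsin (by linarith [hx.1]) (by linarith [hx.2]))).congr_deriv ?_
    simp only [hdd, ballShape]
    push_cast
    ring
  set P : ℝ → ℝ := fun s => (10 * a - 3 / 4) + (-1 / 4 - 5 * a) * s +
    (25 * a ^ 2 - 5 * a) * s ^ 2 - 25 * a ^ 2 * s ^ 3 with hP
  have hexp : ∀ s, (1 + s / 2 + 5 * a * s ^ 2) ^ 2 * (1 - s) - 1 = s ^ 2 * P s := fun s => by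
    simp only [hP]; ring
  have hanti : ∀ {s s' : ℝ}, 0 ≤ s → s ≤ s' → P s' ≤ P s := by
    intro s s' hs hle
    have e : P s' - P s = (s' - s) * ((-1 / 4 - 5 * a) + (25 * a ^ 2 - 5 * a) * (s + s') -
        25 * a ^ 2 * (s ^ 2 + s * s' + s' ^ 2)) := by simp only [hP]; ring
    have : (-1 / 4 - 5 * a) + (25 * a ^ 2 - 5 * a) * (s + s') -
        25 * a ^ 2 * (s ^ 2 + s * s' + s' ^ 2) ≤ 0 := by
      have hsq : (0.163 : ℝ) ≤ a ^ 2 ∧ a ^ 2 ≤ 0.164 := ⟨by nlinarith, by nlinarith⟩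
      have h1 : 3 / 4 * (s + s') ^ 2 ≤ s ^ 2 + s * s' + s' ^ 2 := by
        nlinarith [sq_nonneg (s - s')]
      have h2 := mul_le_mul (show 4.075 ≤ 25 * a ^ 2 by linarith [hsq.1]) h1 (by positivity)
        (by positivity)
      have h3 : (25 * a ^ 2 - 5 * a) * (s + s') ≤ 2.08 * (s + s') :=
        mul_le_mul_of_nonneg_right (by linarith [hsq.2]) (by linarith)
      nlinarith [sq_nonneg (s + s' - 0.34)]
    linarith [mul_nonpos_of_nonneg_of_nonpos (sub_nonneg.2 hle) this]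
  have hsign : ∀ x ∈ Ioo (0 : ℝ) 1, (0 ≤ P (x ^ 2) → 0 ≤ d x) ∧ (P (x ^ 2) ≤ 0 → d x ≤ 0) := by
    intro x hx
    have hp : 0 < ballShape x := ball_pos (sub01 hx)
    have hsq := ball_sq (Ioo_subset_Icc_self (sub01 hx))
    have hA : 0 ≤ 1 + x ^ 2 / 2 + 5 * a * (x ^ 2) ^ 2 := by positivity
    have e := hexp (x ^ 2)
    rw [← hsq, ← mul_pow] at e
    have hw : d x = ((1 + x ^ 2 / 2 + 5 * a * (x ^ 2) ^ 2) * ballShape x - 1) / ballShape x := by
      simp only [hdd]
      field_simp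
    constructor <;> intro hPx
    · rw [hw]
      refine div_nonneg (sub_nonneg.2 ?_) hp.le
      have := mul_nonneg (sq_nonneg (x ^ 2)) hPx
      exact (one_le_sq_iff₀ (mul_nonneg hA hp.le)).1 (by linarith)
    · rw [hw]
      refine div_nonpos_of_nonpos_of_nonneg (sub_nonpos.2 ?_) hp.le
      have := mul_nonpos_of_nonneg_of_nonpos (sq_nonneg (x ^ 2)) hPx
      exact (sq_le_one_iff₀ (mul_nonneg hA hp.le)).1 (by linarith)
  have h0 : h 0 = 0 := by simp [hh]
  have h1 : h 1 = 0 := by simp [hh, hadef]; ring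
  suffices 0 ≤ h t by
    simp only [hh] at this
    rw [arcQuintic, ← hadef]
    linarith
  rcases ht.1.eq_or_lt with e0 | ht0
  · rw [← e0, h0]
  rcases ht.2.eq_or_lt with e1 | ht1
  · rw [e1, h1]
  rcases le_total 0 (P (t ^ 2)) with hPt | hPt
  · have hm : MonotoneOn h (Icc 0 t) := by
      refine monotoneOn_of_deriv_nonneg (convex_Icc _ _) hcont.continuousOn ?_ ?_ <;>
        rw [interior_Icc]
      · exact fun x hx => (hd x ⟨by linarith [hx.1], by linarith [hx.2]⟩).differentiableAt.differentiableWithinAt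
      · intro x hx
        rw [(hd x ⟨by linarith [hx.1], by linarith [hx.2]⟩).deriv]
        exact (hsign x ⟨hx.1, by linarith [hx.2]⟩).1
          (hPt.trans (hanti (sq_nonneg x) (pow_le_pow_left₀ hx.1.le hx.2.le 2)))
    rw [← h0]
    exact hm (left_mem_Icc.2 ht0.le) (right_mem_Icc.2 ht0.le) ht0.le
  · have hm : AntitoneOn h (Icc t 1) := by
      refine antitoneOn_of_deriv_nonpos (convex_Icc _ _) hcont.continuousOn ?_ ?_ <;>
        rw [interior_Icc]
      · exact fun x hx => (hd x ⟨by linarith [hx.1], hx.2⟩).differentiableAt.differentiableWithinAt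
      · intro x hx
        rw [(hd x ⟨by linarith [hx.1], hx.2⟩).deriv]
        exact (hsign x ⟨by linarith [hx.1], hx.2⟩).2
          ((hanti (sq_nonneg t) (pow_le_pow_left₀ ht0.le hx.1.le 2)).trans hPt)
    rw [← h1]
    exact hm (left_mem_Icc.2 ht1.le) (right_mem_Icc.2 ht1.le) ht1.le

/-- Against a segment the excess of `1 / p` over one is below its quartic. -/
theorem line_excess_le (m : ℕ) {c : ℝ} (hc : c ∈ Icc (0 : ℝ) 1) :
    (∫ t in (0 : ℝ)..1, 1 / ballShape t * (1 - c * t) ^ m) ≤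
      (∫ t in (0 : ℝ)..1, (1 - c * t) ^ m) + (∫ t in (0 : ℝ)..1, t ^ 2 * (1 - c * t) ^ m) / 2 +
        5 * (Real.pi / 2 - 7 / 6) * ∫ t in (0 : ℝ)..1, t ^ 4 * (1 - c * t) ^ m := by
  set a : ℝ := Real.pi / 2 - 7 / 6 with hadef
  set D : ℝ → ℝ := fun t => t + t ^ 3 / 6 + a * t ^ 5 - Real.arcsin t with hD
  set R : ℝ → ℝ := fun t => -(m * c * (1 - c * t) ^ (m - 1) * D t) with hR
  have iR : IntervalIntegrable R volume 0 1 :=
    (by fun_prop : Continuous R).intervalIntegrable _ _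
  set J : ℝ → ℝ := fun t => (1 - c * t) ^ m + t ^ 2 * (1 - c * t) ^ m / 2 +
    5 * a * (t ^ 4 * (1 - c * t) ^ m) with hJ
  have iJ : IntervalIntegrable J volume 0 1 := (by fun_prop : Continuous J).intervalIntegrable _ _
  have ip : IntervalIntegrable (fun t => 1 / ballShape t * (1 - c * t) ^ m) volume 0 1 :=
    intervalIntegrable_inv_ball_mul (by fun_prop)
  have hint : IntervalIntegrable (fun t => R t + (J t - 1 / ballShape t * (1 - c * t) ^ m))
      volume 0 1 := iR.add (iJ.sub ip)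
  have h := intervalIntegral.integral_eq_sub_of_hasDerivAt_of_le zero_le_one
    (f := fun t => (1 - c * t) ^ m * D t)
    (by fun_prop : Continuous fun t => (1 - c * t) ^ m * D t).continuousOn (fun t ht => ?_) hint
  swap
  · refine ((((hasDerivAt_id' t).const_mul c).const_sub 1).pow m |>.mul
      ((((hasDerivAt_id' t).add (((hasDerivAt_id' t).pow 3).div_const 6)).add
      (((hasDerivAt_id' t).pow 5).const_mul a)).sub
      (Real.hasDerivAt_arcsin (by linarith [ht.1]) (by linarith [ht.2])))).congr_deriv ?_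
    simp only [hR, hJ, hD, ballShape, Pi.pow_apply, Pi.add_apply, Pi.sub_apply]
    push_cast
    ring
  have hRnp : (∫ t in (0 : ℝ)..1, R t) ≤ 0 := by
    have : 0 ≤ ∫ t in (0 : ℝ)..1, -R t :=
      intervalIntegral.integral_nonneg zero_le_one fun t ht => by
        simp only [hR, neg_neg]
        have hD0 : 0 ≤ D t := by
          have := arcsin_le_quintic ht
          simp only [arcQuintic, ← hadef] at this
          simp only [hD]
          linarith
        have h1 : 0 ≤ 1 - c * t := by nlinarith [mul_le_mul_of_nonneg_right hc.2 ht.1, ht.2]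
        exact mul_nonneg (mul_nonneg (mul_nonneg (Nat.cast_nonneg _) hc.1) (pow_nonneg h1 _)) hD0
    rw [intervalIntegral.integral_neg] at this
    linarith
  have hD1 : D 1 = 0 := by simp [hD, hadef]; ring
  have hD0 : D 0 = 0 := by simp [hD]
  rw [hD1, hD0, mul_zero, mul_zero, sub_zero, intervalIntegral.integral_add iR (iJ.sub ip),
    intervalIntegral.integral_sub iJ ip, hJ, intervalIntegral.integral_add
      (((by fun_prop : Continuous fun t : ℝ =>
        (1 - c * t) ^ m + t ^ 2 * (1 - c * t) ^ m / 2)).intervalIntegrable _ _)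
      ((by fun_prop : Continuous fun t : ℝ => 5 * a * (t ^ 4 * (1 - c * t) ^ m)).intervalIntegrable _ _),
    intervalIntegral.integral_add
      ((by fun_prop : Continuous fun t : ℝ => (1 - c * t) ^ m).intervalIntegrable _ _)
      ((by fun_prop : Continuous fun t : ℝ => t ^ 2 * (1 - c * t) ^ m / 2).intervalIntegrable _ _),
    intervalIntegral.integral_div, intervalIntegral.integral_const_mul] at h
  linarith

/-- The mass of a segment. -/
theorem line_mass (m : ℕ) {c : ℝ} (hc : c ≠ 0) :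
    (∫ t in (0 : ℝ)..1, (1 - c * t) ^ m) = (1 - (1 - c) ^ (m + 1)) / (((m : ℝ) + 1) * c) := by
  rw [intervalIntegral.integral_eq_sub_of_hasDerivAt
    (f := fun t => -(1 - c * t) ^ (m + 1) / (((m : ℝ) + 1) * c)) (fun t _ => ?_)
    ((by fun_prop : Continuous fun t : ℝ => (1 - c * t) ^ m).intervalIntegrable _ _)]
  · simp only [mul_one, mul_zero, sub_zero, one_pow]
    ring
  · refine (((((hasDerivAt_id' t).const_mul c).const_sub 1).pow (m + 1)).neg.div_const _).congr_deriv ?_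
    have : (m : ℝ) + 1 ≠ 0 := by positivity
    simp only [Nat.add_sub_cancel]
    push_cast
    field_simp

theorem line_moment_step (k m : ℕ) {c : ℝ} (hc : c ∈ Ioc (0 : ℝ) 1) :
    ((m : ℝ) + 1) * c * (∫ t in (0 : ℝ)..1, t ^ (k + 1) * (1 - c * t) ^ m) ≤
      ((k : ℝ) + 1) * ∫ t in (0 : ℝ)..1, t ^ k * (1 - c * t) ^ (m + 1) := by
  have h := intervalIntegral.integral_eq_sub_of_hasDerivAt (a := (0 : ℝ)) (b := 1)
    (f := fun t => t ^ (k + 1) * (1 - c * t) ^ (m + 1))
    (f' := fun t => ((k : ℝ) + 1) * (t ^ k * (1 - c * t) ^ (m + 1)) -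
      ((m : ℝ) + 1) * c * (t ^ (k + 1) * (1 - c * t) ^ m)) (fun t _ => ?_)
    ((by fun_prop : Continuous fun t : ℝ => ((k : ℝ) + 1) * (t ^ k * (1 - c * t) ^ (m + 1)) -
      ((m : ℝ) + 1) * c * (t ^ (k + 1) * (1 - c * t) ^ m)).intervalIntegrable _ _)
  swap
  · refine (((hasDerivAt_id' t).pow (k + 1)).mul
      ((((hasDerivAt_id' t).const_mul c).const_sub 1).pow (m + 1))).congr_deriv ?_
    simp only [Pi.pow_apply, Nat.add_sub_cancel]
    push_cast
    ring
  rw [intervalIntegral.integral_sub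
    ((by fun_prop : Continuous fun t : ℝ =>
      ((k : ℝ) + 1) * (t ^ k * (1 - c * t) ^ (m + 1))).intervalIntegrable _ _)
    ((by fun_prop : Continuous fun t : ℝ =>
      ((m : ℝ) + 1) * c * (t ^ (k + 1) * (1 - c * t) ^ m)).intervalIntegrable _ _),
    intervalIntegral.integral_const_mul, intervalIntegral.integral_const_mul] at h
  have : (0 : ℝ) ≤ 1 ^ (k + 1) * (1 - c * 1) ^ (m + 1) := by
    rw [one_pow, one_mul, mul_one]; exact pow_nonneg (sub_nonneg.2 hc.2) _
  rw [zero_pow (by omega : k + 1 ≠ 0), zero_mul, sub_zero] at h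
  linarith

theorem line_moment_le (k m : ℕ) {c : ℝ} (hc : c ∈ Ioc (0 : ℝ) 1) :
    (∫ t in (0 : ℝ)..1, t ^ k * (1 - c * t) ^ m) ≤
      (k.factorial : ℝ) * (m.factorial : ℝ) / (((m + k + 1).factorial : ℝ) * c ^ (k + 1)) := by
  induction k generalizing m with
  | zero =>
    simp only [pow_zero, one_mul, Nat.factorial_zero, Nat.cast_one, Nat.add_zero, pow_one, zero_add,
      Nat.factorial_succ, Nat.cast_mul, Nat.cast_add]
    rw [line_mass m hc.1.ne']
    have hm0 : (0 : ℝ) < m.factorial := Nat.cast_pos.2 (Nat.factorial_pos m)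
    rw [show ((m : ℝ) + 1) * (m.factorial : ℝ) * c = (m.factorial : ℝ) * (((m : ℝ) + 1) * c) by ring,
      ← div_div (m.factorial : ℝ), div_self hm0.ne']
    exact div_le_div_of_nonneg_right (by linarith [pow_nonneg (sub_nonneg.2 hc.2) (m + 1)])
      (mul_pos (by positivity) hc.1).le
  | succ k ih =>
    have h := line_moment_step k m hc
    have h2 := ih (m + 1)
    have h0 : 0 < ((m : ℝ) + 1) * c := mul_pos (by positivity) hc.1
    refine le_of_mul_le_mul_left (h.trans ((mul_le_mul_of_nonneg_left h2 (by positivity)).trans_eq ?_)) h0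
    rw [show m + 1 + k + 1 = m + (k + 1) + 1 by omega, Nat.factorial_succ k, Nat.factorial_succ m]
    have := hc.1.ne'
    have := (Nat.factorial_pos (m + (k + 1) + 1)).ne'
    push_cast
    field_simp
    ring

/-- The criterion: a polynomial inequality in `c` bounds the centre. -/
theorem centre_bound (hm : 1 ≤ m) (hφ : IsShape φ) (hV : convexVal m (pureG m) φ ≤ 0) {c : ℝ}
    (hc : c ∈ Ioc (0 : ℝ) 1)
    (h : 1 / (((m : ℝ) + 2) * ((m : ℝ) + 3) * c ^ 2) + 120 * (Real.pi / 2 - 7 / 6) /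
        (((m : ℝ) + 2) * ((m : ℝ) + 3) * ((m : ℝ) + 4) * ((m : ℝ) + 5) * c ^ 4) <
      (1 - (1 - c) ^ (m + 1)) / (2 * ((m : ℝ) + 1))) :
    φ 0 ^ m * ((1 - (1 - c) ^ (m + 1)) / (((m : ℝ) + 1) * c)) ≤ mass m φ 1 := by
  rw [← line_mass m hc.1.ne']
  refine bad_centre_le hm hφ hV ⟨hc.1.le, hc.2⟩ ?_
  set A := ∫ t in (0 : ℝ)..1, (1 - c * t) ^ m with hA
  set a : ℝ := Real.pi / 2 - 7 / 6 with hadef
  have ha : 0 ≤ a := le_trans (by norm_num) quintic_coeff.1
  have he := line_excess_le m (c := c) ⟨hc.1.le, hc.2⟩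
  have h2 := line_moment_le 2 m hc
  have h4 := line_moment_le 4 m hc
  have hA' : A = (1 - (1 - c) ^ (m + 1)) / (((m : ℝ) + 1) * c) := line_mass m hc.1.ne'
  have hr := half_le_ballRatio hm
  have hA0 : 0 ≤ A := intervalIntegral.integral_nonneg zero_le_one fun t ht =>
    pow_nonneg (by nlinarith [mul_le_mul_of_nonneg_right hc.2 ht.1, ht.2]) m
  have hf : ∀ j : ℕ, (((m + j + 1).factorial : ℕ) : ℝ) =
      ((m : ℝ) + j + 1) * (((m + j).factorial : ℕ) : ℝ) := fun j => by
    rw [Nat.factorial_succ]; push_cast; ring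
  have hb2 : (∫ t in (0 : ℝ)..1, t ^ 2 * (1 - c * t) ^ m) / 2 +
      5 * a * (∫ t in (0 : ℝ)..1, t ^ 4 * (1 - c * t) ^ m) <
      A / (2 * ((m : ℝ) + 1)) := by
    have hm0 : (m.factorial : ℝ) ≠ 0 := Nat.cast_ne_zero.2 (Nat.factorial_ne_zero m)
    have e3 : (((m + 2 + 1).factorial : ℕ) : ℝ) = ((m : ℝ) + 3) * ((m : ℝ) + 2) * ((m : ℝ) + 1) *
        (m.factorial : ℝ) := by
      rw [hf 2, hf 1, show m + 1 = m + 0 + 1 from rfl, hf 0, Nat.add_zero]; push_cast; ring
    have e5 : (((m + 4 + 1).factorial : ℕ) : ℝ) = ((m : ℝ) + 5) * ((m : ℝ) + 4) *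
        (((m + 2 + 1).factorial : ℕ) : ℝ) := by
      rw [hf 4, show m + 4 = m + 3 + 1 from rfl, hf 3]; push_cast; ring
    rw [e3] at h2
    rw [e5, e3] at h4
    have hcp := hc.1
    have hh := mul_lt_mul_of_pos_right h (show 0 < 1 / (((m : ℝ) + 1) * c) by positivity)
    calc _ ≤ (2 * (m.factorial : ℝ) / (((m : ℝ) + 3) * ((m : ℝ) + 2) * ((m : ℝ) + 1) *
          (m.factorial : ℝ) * c ^ 3)) / 2 + 5 * a * (24 * (m.factorial : ℝ) / (((m : ℝ) + 5) *
          ((m : ℝ) + 4) * (((m : ℝ) + 3) * ((m : ℝ) + 2) * ((m : ℝ) + 1) * (m.factorial : ℝ)) *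
          c ^ 5)) := by
          refine add_le_add (div_le_div_of_nonneg_right (h2.trans (le_of_eq ?_)) zero_le_two)
            (mul_le_mul_of_nonneg_left (h4.trans (le_of_eq ?_)) (by positivity)) <;>
          norm_num [Nat.factorial]
      _ = (1 / (((m : ℝ) + 2) * ((m : ℝ) + 3) * c ^ 2) + 120 * a /
          (((m : ℝ) + 2) * ((m : ℝ) + 3) * ((m : ℝ) + 4) * ((m : ℝ) + 5) * c ^ 4)) *
          (1 / (((m : ℝ) + 1) * c)) := by field_simp; ring
      _ < _ := hh.trans_eq (by rw [hA']; field_simp)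
  have hr' : (1 + 1 / (2 * ((m : ℝ) + 1))) * A ≤ ballRatio m * A :=
    mul_le_mul_of_nonneg_right (by
      rw [← le_sub_iff_add_le', div_le_iff₀ (by positivity)]
      linarith) hA0
  rw [one_add_mul, one_div_mul_eq_div] at hr'
  rw [← hadef, ← hA] at he
  linarith

end Vale.Agent.P237.Quant
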