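import Mathlib
import Vale.Agent.P237.Quant.Caps
import Vale.Agent.P237.Full.Exists

/-!
Among symmetric bodies of given volume the ball has the smallest `caps`: a body of least second
moment in the class of no larger `caps` is fixed by every symmetrisation, hence is a ball.
-/

namespace Vale.Agent.P237.Quant

open MeasureTheory Set Filter Topology Full
open scoped RealInnerProductSpace ENNReal Pointwise

variable {m : ℕ}

theorem eq_of_ae_iff {n : ℕ} {S T : Set (EuclideanSpace ℝ (Fin n))} (hS : Convex ℝ S)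
    (iS : (interior S).Nonempty) (cS : IsCompact S) (hT : Convex ℝ T)
    (iT : (interior T).Nonempty) (cT : IsCompact T) (h : ∀ᵐ x, x ∈ S ↔ x ∈ T) : S = T := by
  have key : ∀ A B : Set (EuclideanSpace ℝ (Fin n)), Convex ℝ A → (interior A).Nonempty →
      IsCompact A → IsCompact B → (∀ᵐ x, x ∈ A → x ∈ B) → A ⊆ B := by
    intro A B hA iA cA cB hAB
    have hz : interior A \ B = ∅ := (isOpen_interior.sdiff cB.isClosed).eq_empty_of_measure_zero
      (measure_mono_null (t := {x | ¬(x ∈ A → x ∈ B)})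
        (fun x hx (hx' : x ∈ A → x ∈ B) => hx.2 (hx' (interior_subset hx.1))) (ae_iff.1 hAB))
    calc A = closure A := cA.isClosed.closure_eq.symm
      _ = closure (interior A) := (hA.closure_interior_eq_closure_of_nonempty_interior iA).symm
      _ ⊆ B := closure_minimal (sdiff_eq_empty.1 hz) cB.isClosed
  exact subset_antisymm (key S T hS iS cS cT (h.mono fun x hx => hx.1))
    (key T S hT iT cT cS (h.mono fun x hx => hx.2))

/-- The bodies competing with `K`. -/
structure Rival (r R V τ A : ℝ) (S : Set (EuclideanSpace ℝ (Fin (m + 1)))) : Prop where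
  convex : Convex ℝ S
  compact : IsCompact S
  symm : ∀ x ∈ S, -x ∈ S
  inner_ball : Metric.closedBall 0 r ⊆ S
  outer_ball : S ⊆ Metric.closedBall 0 R
  vol : (volume S).toReal = V
  capsVol : (volume (caps τ S)).toReal ≤ A

theorem Rival.interior_nonempty {r R V τ A : ℝ} {S : Set (EuclideanSpace ℝ (Fin (m + 1)))}
    (h : Rival r R V τ A S) (hr : 0 < r) : (interior S).Nonempty :=
  ⟨0, interior_maximal (Metric.ball_subset_closedBall.trans h.inner_ball) Metric.isOpen_ball
    (Metric.mem_ball_self hr)⟩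

theorem Rival.steiner {r R V τ A : ℝ} {S : Set (EuclideanSpace ℝ (Fin (m + 1)))}
    (h : Rival r R V τ A S) {u : EuclideanSpace ℝ (Fin (m + 1))} (hu : ‖u‖ = 1) :
    Rival r R V τ A (steiner u S) :=
  ⟨convex_steiner h.convex, isCompact_steiner hu h.compact, fun _ hx => neg_mem_steiner h.symm hx,
    closedBall_subset_steiner hu h.inner_ball,
    fun x hx => mem_closedBall_zero_iff.2 (norm_le_of_mem_steiner hu h.outer_ball hx),
    by rw [volume_steiner hu h.convex h.compact, h.vol],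
    (ENNReal.toReal_mono (isCompact_caps h.compact).measure_ne_top
      (volume_caps_steiner hu h.convex h.compact)).trans h.capsVol⟩

/-- A rival of least second moment exists. -/
theorem exists_least_rival {r R V τ A : ℝ} (hr : 0 < r) (hτ : 0 ≤ τ)
    {K : Set (EuclideanSpace ℝ (Fin (m + 1)))} (hK : Rival r R V τ A K) :
    ∃ T : Set (EuclideanSpace ℝ (Fin (m + 1))), Rival r R V τ A T ∧
      ∀ S : Set (EuclideanSpace ℝ (Fin (m + 1))), Rival r R V τ A S →
        (∫ x in T, ‖x‖ ^ 2) ≤ ∫ x in S, ‖x‖ ^ 2 := by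
  set M : Set ℝ := (fun S => ∫ x in S, ‖x‖ ^ 2) ''
    {S : Set (EuclideanSpace ℝ (Fin (m + 1))) | Rival r R V τ A S} with hM
  have hne : M.Nonempty := ⟨_, K, hK, rfl⟩
  have hbd : BddBelow M := ⟨0, by
    rintro _ ⟨S, -, rfl⟩
    exact integral_nonneg fun x => sq_nonneg _⟩
  set I := sInf M with hI
  have hlow : ∀ S, Rival r R V τ A S → I ≤ ∫ x in S, ‖x‖ ^ 2 := fun S hS =>
    csInf_le hbd ⟨S, hS, rfl⟩
  have hseq : ∀ j : ℕ, ∃ S : Set (EuclideanSpace ℝ (Fin (m + 1))), Rival r R V τ A S ∧ (∫ x in S, ‖x‖ ^ 2) < I + 1 / ((j : ℝ) + 1) := by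
    intro j
    obtain ⟨_, ⟨S, hS, rfl⟩, hlt⟩ :=
      exists_lt_of_csInf_lt hne (show I < I + 1 / ((j : ℝ) + 1) from lt_add_of_pos_right _ (by positivity))
    exact ⟨S, hS, hlt⟩
  choose S hS hlt using hseq
  have hsc : ∀ j, Metric.closedBall 0 1 ⊆ r⁻¹ • S j := fun j => by
    intro x hx
    rw [mem_smul_set_iff_inv_smul_mem₀ (inv_ne_zero hr.ne'), inv_inv]
    refine (hS j).inner_ball ?_
    rw [mem_closedBall_zero_iff, norm_smul, Real.norm_of_nonneg hr.le]
    exact mul_le_of_le_one_right hr.le (mem_closedBall_zero_iff.1 hx)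
  obtain ⟨L, hLb, hLs, hL1, hLj⟩ := exists_limit (R := R / r) (fun j => r⁻¹ • S j)
    (fun j => (hS j).convex.smul _) (fun j => (hS j).compact.smul _)
    (fun j x hx => by
      obtain ⟨y, hy, rfl⟩ := hx
      exact ⟨-y, (hS j).symm y hy, smul_neg _ _⟩)
    hsc (fun j x hx => by
      obtain ⟨y, hy, rfl⟩ := hx
      rw [mem_closedBall_zero_iff, norm_smul, Real.norm_of_nonneg (inv_pos.2 hr).le,
        div_eq_inv_mul]
      exact mul_le_mul_of_nonneg_left (mem_closedBall_zero_iff.1 ((hS j).outer_ball hy))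
        (inv_pos.2 hr).le)
  set T := r • L with hT
  have cT : IsCompact T := hLb.2.1.smul r
  have near : ∀ θ : ℝ, 1 < θ → ∀ j₀ : ℕ, ∃ j, j₀ ≤ j ∧ S j ⊆ θ • T ∧ T ⊆ θ • S j := by
    intro θ hθ j₀
    obtain ⟨j, hj, h1, h2⟩ := hLj (θ - 1) (by linarith) j₀
    rw [add_sub_cancel] at h1 h2
    refine ⟨j, hj, ?_, ?_⟩
    · have := smul_set_mono (a := r) h1
      rw [smul_smul, mul_inv_cancel₀ hr.ne', one_smul] at this
      rwa [hT, smul_comm θ r L]
    · have := smul_set_mono (a := r) h2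
      rwa [smul_smul r θ, smul_smul (r * θ), show r * θ * r⁻¹ = θ by field_simp] at this
  have hVpow : ∀ θ : ℝ, 0 ≤ θ → ∀ B : Set (EuclideanSpace ℝ (Fin (m + 1))),
      (volume (θ • B)).toReal = θ ^ (m + 1) * (volume B).toReal := fun θ hθ B => by
    rw [Measure.addHaar_smul_of_nonneg volume hθ, finrank_euclideanSpace_fin, ENNReal.toReal_mul,
      ENNReal.toReal_ofReal (pow_nonneg hθ _)]
  have limit : ∀ {p q : ℝ} {k : ℕ}, (∀ θ : ℝ, 1 < θ → p ≤ θ ^ k * q) → p ≤ q := fun {p q k} h => by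
    have ht : Tendsto (fun θ : ℝ => θ ^ k * q) (𝓝[>] 1) (𝓝 q) :=
      ((by fun_prop : Continuous fun θ : ℝ => θ ^ k * q).tendsto' 1 q (by simp)).mono_left
        nhdsWithin_le_nhds
    exact ge_of_tendsto ht (eventually_nhdsWithin_of_forall fun θ hθ => h θ hθ)
  have hTR : T ⊆ Metric.closedBall 0 R := fun x hx => mem_closedBall_zero_iff.2
    (limit (k := 1) fun θ hθ => by
      obtain ⟨j, -, -, h2⟩ := near θ hθ 0
      obtain ⟨y, hy, rfl⟩ := h2 hx
      rw [norm_smul, Real.norm_of_nonneg (zero_le_one.trans hθ.le), pow_one]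
      exact mul_le_mul_of_nonneg_left (mem_closedBall_zero_iff.1 ((hS j).outer_ball hy))
        (zero_le_one.trans hθ.le))
  have hTV : (volume T).toReal = V := by
    refine le_antisymm (limit (k := m + 1) fun θ hθ => ?_) (limit (k := m + 1) fun θ hθ => ?_)
    · obtain ⟨j, -, -, h2⟩ := near θ hθ 0
      rw [← (hS j).vol, ← hVpow θ (zero_le_one.trans hθ.le)]
      exact ENNReal.toReal_mono ((hS j).compact.smul θ).measure_ne_top (measure_mono h2)
    · obtain ⟨j, -, h1, -⟩ := near θ hθ 0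
      rw [← (hS j).vol, ← hVpow θ (zero_le_one.trans hθ.le)]
      exact ENNReal.toReal_mono (cT.smul θ).measure_ne_top (measure_mono h1)
  have hTA : (volume (caps τ T)).toReal ≤ A := limit (k := (m + 1 + 1) * (m + 1)) fun θ hθ => by
    have hθ0 : 0 < θ := zero_lt_one.trans hθ
    obtain ⟨j, -, -, h2⟩ := near θ hθ 0
    have hc : caps τ T ⊆ θ ^ (m + 1 + 1) • caps τ (S j) := by
      refine (caps_mono cT.measurableSet h2 le_rfl).trans ((caps_smul (hS j).compact hθ0).trans ?_)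
      exact smul_set_mono (caps_mono (hS j).compact.measurableSet subset_rfl
        (div_le_self hτ (one_le_pow₀ hθ.le)))
    have h := ENNReal.toReal_mono ((isCompact_caps (hS j).compact).smul _).measure_ne_top
      (measure_mono (μ := volume) hc)
    rw [hVpow _ (pow_nonneg hθ0.le _), ← pow_mul] at h
    exact h.trans (mul_le_mul_of_nonneg_left (hS j).capsVol (pow_nonneg hθ0.le _))
  have hT' : Rival r R V τ A T := by
    refine ⟨hLb.1.smul r, cT, fun x hx => ?_, fun x hx => ?_, hTR, hTV, hTA⟩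
    · obtain ⟨y, hy, rfl⟩ := hx
      exact ⟨-y, hLs y hy, smul_neg _ _⟩
    · rw [hT, mem_smul_set_iff_inv_smul_mem₀ hr.ne']
      refine hL1 ?_
      rw [mem_closedBall_zero_iff, norm_smul, Real.norm_of_nonneg (inv_pos.2 hr).le,
        inv_mul_le_one₀ hr]
      exact mem_closedBall_zero_iff.1 hx
  refine ⟨T, hT', fun S' hS' => le_trans ?_ (hlow S' hS')⟩
  refine le_of_forall_pos_le_add fun ε hε => ?_
  obtain ⟨j₀, hj₀⟩ := exists_nat_one_div_lt hε
  refine limit (k := m + 1 + 2) fun θ hθ => ?_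
  have hθ0 : 0 < θ := zero_lt_one.trans hθ
  obtain ⟨j, hj, -, h2⟩ := near θ hθ j₀
  have hc : Continuous fun x : EuclideanSpace ℝ (Fin (m + 1)) => ‖x‖ ^ 2 := by fun_prop
  have e := Measure.setIntegral_comp_smul_of_pos volume
    (fun x : EuclideanSpace ℝ (Fin (m + 1)) => ‖x‖ ^ 2) hθ0 (s := S j)
  simp only [finrank_euclideanSpace_fin, smul_eq_mul, norm_smul, Real.norm_of_nonneg hθ0.le,
    mul_pow, integral_const_mul] at e
  have h3 : (∫ x in T, ‖x‖ ^ 2) ≤ ∫ x in θ • S j, ‖x‖ ^ 2 :=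
    setIntegral_mono_set (hc.continuousOn.integrableOn_compact ((hS j).compact.smul θ))
      (Eventually.of_forall fun x => sq_nonneg _) h2.eventuallyLE
  have hj' : 1 / ((j : ℝ) + 1) ≤ 1 / ((j₀ : ℝ) + 1) := by gcongr
  calc (∫ x in T, ‖x‖ ^ 2) ≤ ∫ x in θ • S j, ‖x‖ ^ 2 := h3
    _ = θ ^ (m + 1 + 2) * ∫ x in S j, ‖x‖ ^ 2 := by
        rw [pow_add, mul_assoc, e, ← mul_assoc, mul_inv_cancel₀ (pow_ne_zero _ hθ0.ne'), one_mul]
    _ ≤ θ ^ (m + 1 + 2) * (I + ε) :=
        mul_le_mul_of_nonneg_left (by linarith [hlt j]) (pow_nonneg hθ0.le _)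

/-- The ball has the smallest `caps`. -/
theorem volume_caps_ge (hm : 1 ≤ m) {K : Set (EuclideanSpace ℝ (Fin (m + 1)))} (hK : IsSymBody K)
    {a : ℝ} (ha : a ∈ Ico (0 : ℝ) 1) :
    (volume K).toReal ^ (m + 2) * tailMoment m a ^ (m + 1) ≤
      (volume (caps (tailWeight m a * (volume K).toReal) K)).toReal := by
  obtain ⟨r, hr, hball⟩ := Metric.nhds_basis_closedBall.mem_iff.1 hK.zero_nhds
  obtain ⟨R, hR⟩ := hK.body.2.1.isBounded.subset_closedBall 0
  set V := (volume K).toReal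
  set τ := tailWeight m a * V
  have hτ : 0 ≤ τ := mul_nonneg (div_nonneg (intervalIntegral.integral_nonneg ha.2.le fun t _ =>
    pow_nonneg (Real.sqrt_nonneg _) m) (mass_ball_pos m).le) ENNReal.toReal_nonneg
  have hKr : Rival r R V τ (volume (caps τ K)).toReal K :=
    ⟨hK.body.1, hK.body.2.1, hK.symm, hball, hR, rfl, le_rfl⟩
  obtain ⟨T, hT, hmin⟩ := exists_least_rival hr hτ hKr
  have hflip : ∀ u : EuclideanSpace ℝ (Fin (m + 1)), ‖u‖ = 1 → ∀ x ∈ T, flipAt u x ∈ T := by
    intro u hu x hx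
    have hs := hT.steiner hu
    obtain ⟨hle, heq⟩ := moment_steiner hu hT.convex hT.compact
    have e := eq_of_ae_iff hT.convex (hT.interior_nonempty hr) hT.compact hs.convex
      (hs.interior_nonempty hr) hs.compact (heq (le_antisymm hle (hmin _ hs)))
    rw [e] at hx ⊢
    exact flipAt_mem_steiner hu hx
  obtain ⟨x0, hx0, hmax⟩ := hT.compact.exists_isMaxOn
    ⟨0, hT.inner_ball (Metric.mem_closedBall_self hr.le)⟩ continuous_norm.continuousOn
  set ρ := ‖x0‖ with hρ
  have hρ0 : 0 < ρ := by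
    have : Nonempty (Fin (m + 1)) := ⟨0⟩
    obtain ⟨y, hy⟩ := exists_ne (0 : EuclideanSpace ℝ (Fin (m + 1)))
    have hmem : (r / ‖y‖) • y ∈ T := hT.inner_ball (by
      rw [mem_closedBall_zero_iff, norm_smul, Real.norm_of_nonneg (by positivity),
        div_mul_cancel₀ _ (norm_ne_zero_iff.2 hy)])
    have h1 : ‖(r / ‖y‖) • y‖ ≤ ρ := hmax hmem
    rw [norm_smul, Real.norm_of_nonneg (by positivity), div_mul_cancel₀ _ (norm_ne_zero_iff.2 hy)]
      at h1
    linarith
  have hTb : T = Metric.closedBall 0 ρ := by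
    refine subset_antisymm (fun y hy => mem_closedBall_zero_iff.2 (hmax hy)) fun y hy => ?_
    rw [mem_closedBall_zero_iff] at hy
    rcases eq_or_ne y 0 with rfl | hy0
    · exact hT.inner_ball (Metric.mem_closedBall_self hr.le)
    have hyn := norm_pos_iff.2 hy0
    set z := (ρ / ‖y‖) • y with hz
    have hzn : ‖z‖ = ρ := by
      rw [hz, norm_smul, Real.norm_of_nonneg (by positivity), div_mul_cancel₀ _ hyn.ne']
    have hzT : z ∈ T := by
      rcases eq_or_ne z x0 with h | h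
      · exact h ▸ hx0
      have hd : ‖x0 - z‖ ≠ 0 := norm_ne_zero_iff.2 (sub_ne_zero.2 (Ne.symm h))
      set u := ‖x0 - z‖⁻¹ • (x0 - z) with hu'
      have hu : ‖u‖ = 1 := norm_smul_inv_norm (sub_ne_zero.2 (Ne.symm h))
      have h2 : 2 * ⟪x0 - z, x0⟫ = ‖x0 - z‖ ^ 2 := by
        rw [norm_sub_sq_real, inner_sub_left, real_inner_self_eq_norm_sq, hzn, ← hρ,
          real_inner_comm x0 z]
        ring
      have e : flipAt u x0 = z := by
        rw [flipAt, hu', real_inner_smul_left, smul_smul,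
          show 2 * (‖x0 - z‖⁻¹ * ⟪x0 - z, x0⟫) * ‖x0 - z‖⁻¹ = 1 by field_simp; linarith, one_smul,
          sub_sub_cancel]
      exact e ▸ hflip u hu x0 hx0
    have := hT.convex hzT (hT.inner_ball (Metric.mem_closedBall_self hr.le))
      (show 0 ≤ ‖y‖ / ρ from div_nonneg hyn.le hρ0.le)
      (show 0 ≤ 1 - ‖y‖ / ρ from sub_nonneg.2 ((div_le_one hρ0).2 hy)) (by ring)
    rwa [smul_zero, add_zero, hz, smul_smul, show ‖y‖ / ρ * (ρ / ‖y‖) = 1 by field_simp,
      one_smul] at this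
  have h := volume_caps_ball hm hρ0 ha
  have hvol : (volume (Metric.closedBall (0 : EuclideanSpace ℝ (Fin (m + 1))) ρ)).toReal = V := by
    rw [← hTb, hT.vol]
  rw [hvol] at h
  refine h.trans ?_
  rw [← hTb]
  exact hT.capsVol

end Vale.Agent.P237.Quant
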