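import Mathlib
import Vale.Agent.P237.Quant.Gauge
import Vale.Agent.P237.Full.Data.Entropy
import Vale.Agent.P237.Full.Brunn

/-!
The first mixed volume inequality in the language of the gauge: a body `L` below a support
function `C` gives a lower bound for the mean of `C` at the normals of `K`.
-/

namespace Vale.Agent.P237.Quant

open MeasureTheory Set Filter Topology Module
open scoped RealInnerProductSpace Pointwise ENNReal

variable {n : ℕ} {K : Set (EuclideanSpace ℝ (Fin n))}

private lemma lintegral_pow_exp (k : ℕ) :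
    ∫⁻ t in Ioi (0 : ℝ), ENNReal.ofReal (t ^ k * Real.exp (-t)) =
      ENNReal.ofReal (k.factorial : ℝ) := by
  have hI : IntegrableOn (fun t : ℝ => t ^ k * Real.exp (-t)) (Ioi 0) := by
    refine (Real.GammaIntegral_convergent (by positivity : (0 : ℝ) < k + 1)).congr_fun
      (fun t _ => ?_) measurableSet_Ioi
    show Real.exp (-t) * t ^ ((k : ℝ) + 1 - 1) = _
    rw [add_sub_cancel_right, Real.rpow_natCast, mul_comm]
  rw [← ofReal_integral_eq_lintegral_ofReal hI ?_]
  · congr 1
    rw [← Real.Gamma_nat_eq_factorial, Real.Gamma_eq_integral (by positivity)]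
    refine setIntegral_congr_fun measurableSet_Ioi fun t _ => ?_
    rw [add_sub_cancel_right, Real.rpow_natCast, mul_comm]
  · filter_upwards [ae_restrict_mem measurableSet_Ioi] with t ht
    exact mul_nonneg (pow_nonneg (le_of_lt ht) _) (Real.exp_pos _).le

private lemma lintegral_exp_tail (c : ℝ) :
    ∫⁻ t in Ioi (0 : ℝ), (Ici c).indicator (fun t => ENNReal.ofReal (Real.exp (-t))) t ≤
      ENNReal.ofReal (Real.exp (-c)) := by
  rw [setLIntegral_indicator measurableSet_Ici]
  refine (lintegral_mono_set inter_subset_left).trans (le_of_eq ?_)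
  rw [← setLIntegral_congr Ioi_ae_eq_Ici, ← ofReal_integral_eq_lintegral_ofReal
    (integrableOn_exp_neg_Ioi c) (Eventually.of_forall fun t => (Real.exp_pos _).le),
    integral_exp_neg_Ioi]

private lemma lintegral_gauge_exp (hcv : Convex ℝ K) (cK : IsCompact K) (h0 : K ∈ 𝓝 0)
    {u : EuclideanSpace ℝ (Fin n) → ℝ≥0∞} (hu : Measurable u)
    (hh : ∀ r : ℝ, 0 < r → ∀ x, u (r • x) = u x) :
    ∫⁻ y, u y * ENNReal.ofReal (Real.exp (-gauge K y)) =
      ENNReal.ofReal (n.factorial : ℝ) * ∫⁻ x in K, u x := by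
  have h := Full.lintegral_dilates hcv cK h0 hu
    (a := fun s => ENNReal.ofReal (Real.exp (-s))) (by fun_prop)
  have e1 : ∀ s ∈ Ioi (0 : ℝ), ENNReal.ofReal (Real.exp (-s)) *
      (ENNReal.ofReal (s ^ n) * ∫⁻ x in K, u (s • x)) =
      ENNReal.ofReal (s ^ n * Real.exp (-s)) * ∫⁻ x in K, u x := fun s (hs : 0 < s) => by
    rw [lintegral_congr fun x => hh s hs x, ← mul_assoc, ← ENNReal.ofReal_mul (Real.exp_pos _).le,
      mul_comm (Real.exp _)]
  rw [setLIntegral_congr_fun measurableSet_Ioi e1, lintegral_mul_const _ (by fun_prop),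
    lintegral_pow_exp] at h
  rw [h]
  refine lintegral_congr fun y => ?_
  rw [setLIntegral_indicator measurableSet_Ici]
  have hg := gauge_nonneg (s := K) y
  have e2 : (Ici (gauge K y) ∩ Ioi 0 : Set ℝ) =ᵐ[volume] Ioi (gauge K y) := by
    have h1 : (Ioi (gauge K y) : Set ℝ) ⊆ Ici (gauge K y) ∩ Ioi 0 := fun s hs =>
      ⟨hs.out.le, lt_of_le_of_lt hg hs.out⟩
    refine ae_eq_set.2 ⟨measure_mono_null (t := {gauge K y}) (fun s hs => ?_) (by simp),
      by rw [sdiff_eq_empty.2 h1, measure_empty]⟩
    exact le_antisymm (not_lt.1 hs.2) hs.1.1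
  rw [setLIntegral_congr e2, ← ofReal_integral_eq_lintegral_ofReal
    (integrableOn_exp_neg_Ioi _) (Eventually.of_forall fun t => (Real.exp_pos _).le),
    integral_exp_neg_Ioi]

private lemma pow_add_ge {x y : ℝ} (hx : 0 ≤ x) (hy : 0 ≤ y) :
    ∀ k : ℕ, x ^ (k + 1) + (k + 1) * x ^ k * y ≤ (x + y) ^ (k + 1)
  | 0 => by simp
  | k + 1 => by
      have h := mul_le_mul_of_nonneg_right (pow_add_ge hx hy k) (add_nonneg hx hy)
      have h2 : 0 ≤ ((k : ℝ) + 1) * x ^ k * y * y := by positivity
      rw [pow_succ (x + y) (k + 1)]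
      push_cast
      refine le_trans ?_ h
      rw [pow_succ x (k + 1), pow_succ x k]
      linarith

/-- If `L` lies below `C` then the mean of `C` at the normals is at least
`|L| ^ (1 / n) |K| ^ ((n - 1) / n)`. -/
theorem mixed_ge (hn : 0 < n) (hcv : Convex ℝ K) (cK : IsCompact K) (h0 : K ∈ 𝓝 0)
    {L : Set (EuclideanSpace ℝ (Fin n))} (hLc : Convex ℝ L) (cL : IsCompact L) (neL : L.Nonempty)
    {C : EuclideanSpace ℝ (Fin n) → ℝ} (hC : Continuous C)
    (hL : ∀ l ∈ L, ∀ ξ, ⟪ξ, l⟫ ≤ C ξ) :
    (volume L).toReal ^ ((n : ℝ)⁻¹) * ((volume K).toReal ^ ((n : ℝ)⁻¹)) ^ (n - 1) ≤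
      ∫ x in K, C (normalAt K x) := by
  obtain ⟨k, rfl⟩ : ∃ k, n = k + 1 := ⟨n - 1, by omega⟩
  rw [Nat.add_sub_cancel]
  set a := (volume L).toReal ^ (((k + 1 : ℕ) : ℝ)⁻¹) with ha
  set b := (volume K).toReal ^ (((k + 1 : ℕ) : ℝ)⁻¹) with hb
  have ha0 : 0 ≤ a := Real.rpow_nonneg ENNReal.toReal_nonneg _
  have hb0 : 0 ≤ b := Real.rpow_nonneg ENNReal.toReal_nonneg _
  have hbn : b ^ (k + 1) = (volume K).toReal :=
    Real.rpow_inv_natCast_pow ENNReal.toReal_nonneg (by omega)
  obtain ⟨Cw, hCw⟩ := exists_bound_normalAt hcv h0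
  obtain ⟨M, hM⟩ := (isCompact_closedBall (0 : EuclideanSpace ℝ (Fin (k + 1))) Cw)
    |>.exists_bound_of_continuousOn hC.continuousOn
  have hMw : ∀ x, |C (normalAt K x)| ≤ M := fun x =>
    hM _ (mem_closedBall_zero_iff.2 (hCw x))
  have hM0 : 0 ≤ M := (abs_nonneg _).trans (hMw 0)
  have hgc : Continuous (gauge K) := continuous_gauge hcv h0
  have hwm : Measurable fun x => C (normalAt K x) := hC.measurable.comp measurable_normalAt
  have hfin : volume K ≠ ⊤ := cK.measure_lt_top.ne
  have hint : ∀ f : EuclideanSpace ℝ (Fin (k + 1)) → ℝ, Measurable f → (∃ B, ∀ x, |f x| ≤ B) →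
      IntegrableOn f K := fun f hf ⟨B, hB⟩ =>
    IntegrableOn.of_bound cK.measure_lt_top hf.aestronglyMeasurable B
      (Eventually.of_forall hB)
  have key : ∀ ε : ℝ, 0 < ε →
      (volume K).toReal + ε * (a * b ^ k) ≤ ∫ x in K, Real.exp (ε * C (normalAt K x)) := by
    intro ε hε
    set G : EuclideanSpace ℝ (Fin (k + 1)) → ℝ :=
      fun x => gauge K x - ε * C (normalAt K x) with hG
    have hGm : Measurable G := hgc.measurable.sub (hwm.const_mul ε)
    -- from the bodies to the sublevel sets
    have hsub : ∀ t : ℝ, 0 < t → volume (t • K + ε • L) ≤ volume {x | G x ≤ t} := by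
      intro t ht
      refine measure_mono_ae ?_
      filter_upwards [ae_differentiableAt_gauge hcv h0] with x hx (hmem : x ∈ t • K + ε • L)
      obtain ⟨y, hy, _, ⟨l, hl, rfl⟩, rfl⟩ := hmem
      have h1 := (mem_smul_iff hcv cK h0 ht).1 hy
      have h2 := inner_normalAt_le hcv h0 hx y
      have h3 := inner_normalAt_self hx
      rw [inner_add_right, inner_smul_right] at h3
      have h4 := mul_le_mul_of_nonneg_left (hL l hl (normalAt K (y + ε • l))) hε.le
      show G (y + ε • l) ≤ t
      simp only [hG]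
      linarith
    -- Brunn-Minkowski
    have hbm : ∀ t : ℝ, 0 < t →
        ENNReal.ofReal ((t * b + ε * a) ^ (k + 1)) ≤ volume (t • K + ε • L) := by
      intro t ht
      have hs : 0 < t + ε := by linarith
      have hd : finrank ℝ (EuclideanSpace ℝ (Fin (k + 1))) = k + 1 := finrank_euclideanSpace_fin
      have h := Full.brunn_minkowski (E := EuclideanSpace ℝ (Fin (k + 1))) hd (by omega) hcv cK
        ⟨0, mem_of_mem_nhds h0⟩ hLc cL neL (show 0 ≤ t / (t + ε) by positivity)
        (by rw [div_le_one hs]; linarith)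
      rw [show 1 - t / (t + ε) = ε / (t + ε) by field_simp; ring, ← ha, ← hb] at h
      set A := (t / (t + ε)) • K + (ε / (t + ε)) • L with hA
      have cA : IsCompact A := (cK.smul _).add (cL.smul _)
      have e : t • K + ε • L = (t + ε) • A := by
        rw [hA, smul_add, smul_smul, smul_smul, mul_div_cancel₀ _ hs.ne',
          mul_div_cancel₀ _ hs.ne']
      have h1 : (t * b + ε * a) ≤ (t + ε) * (volume A).toReal ^ (((k + 1 : ℕ) : ℝ)⁻¹) := by
        have := mul_le_mul_of_nonneg_left h hs.le
        refine le_trans (le_of_eq ?_) this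
        field_simp
      have h2 := pow_le_pow_left₀ (by positivity) h1 (k + 1)
      rw [mul_pow, Real.rpow_inv_natCast_pow ENNReal.toReal_nonneg (by omega)] at h2
      rw [e, Measure.addHaar_smul, hd, abs_of_pos (pow_pos hs _),
        ← ENNReal.ofReal_toReal cA.measure_lt_top.ne, ← ENNReal.ofReal_mul (by positivity)]
      exact ENNReal.ofReal_le_ofReal h2
    -- the chain
    have hm2 : MeasurableSet {p : ℝ × EuclideanSpace ℝ (Fin (k + 1)) | G p.2 ≤ p.1} :=
      measurableSet_le (hGm.comp measurable_snd) measurable_fst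
    set E : ℝ × EuclideanSpace ℝ (Fin (k + 1)) → ℝ≥0∞ :=
      {p | G p.2 ≤ p.1}.indicator fun p => ENNReal.ofReal (Real.exp (-p.1)) with hE
    have hEm : Measurable E := Measurable.indicator (by fun_prop) hm2
    have hmix : ENNReal.ofReal
        ((k + 1).factorial * ((volume K).toReal + ε * (a * b ^ k))) ≤
        ∫⁻ y, ENNReal.ofReal (Real.exp (-G y)) := by
      calc ENNReal.ofReal ((k + 1).factorial * ((volume K).toReal + ε * (a * b ^ k)))
          = ∫⁻ t in Ioi (0 : ℝ), (ENNReal.ofReal (b ^ (k + 1)) *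
              ENNReal.ofReal (t ^ (k + 1) * Real.exp (-t)) +
              ENNReal.ofReal (((k : ℝ) + 1) * ε * a * b ^ k) *
              ENNReal.ofReal (t ^ k * Real.exp (-t))) := by
            rw [lintegral_add_left (by fun_prop), lintegral_const_mul _ (by fun_prop),
              lintegral_const_mul _ (by fun_prop), lintegral_pow_exp, lintegral_pow_exp,
              ← ENNReal.ofReal_mul (by positivity), ← ENNReal.ofReal_mul (by positivity),
              ← ENNReal.ofReal_add (by positivity) (by positivity), Nat.factorial_succ, hbn]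
            push_cast
            ring_nf
        _ ≤ ∫⁻ t in Ioi (0 : ℝ), ∫⁻ y, E (t, y) := by
            refine setLIntegral_mono (Measurable.lintegral_prod_right' hEm) fun t (ht : 0 < t) => ?_
            have e : ∫⁻ y, E (t, y) = ENNReal.ofReal (Real.exp (-t)) * volume {x | G x ≤ t} := by
              rw [← lintegral_indicator_const (measurableSet_le hGm measurable_const)]
              refine lintegral_congr fun y => ?_
              by_cases hy : G y ≤ t <;> simp [hE, indicator, hy]
            rw [e]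
            refine le_trans ?_ (mul_le_mul' le_rfl ((hbm t ht).trans (hsub t ht)))
            rw [← ENNReal.ofReal_mul (by positivity), ← ENNReal.ofReal_mul (by positivity),
              ← ENNReal.ofReal_mul (by positivity), ← ENNReal.ofReal_add (by positivity)
                (by positivity)]
            refine ENNReal.ofReal_le_ofReal ?_
            have h := mul_le_mul_of_nonneg_left (pow_add_ge (mul_nonneg ht.le hb0)
              (mul_nonneg hε.le ha0) k) (Real.exp_pos (-t)).le
            refine le_trans (le_of_eq ?_) h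
            rw [mul_pow, mul_pow]
            ring
        _ = ∫⁻ y, ∫⁻ t in Ioi (0 : ℝ), E (t, y) :=
            lintegral_lintegral_swap hEm.aemeasurable
        _ ≤ _ := lintegral_mono fun y => by
            refine le_trans (le_of_eq ?_) (lintegral_exp_tail (G y))
            refine lintegral_congr fun t => ?_
            by_cases hy : G y ≤ t <;> simp [hE, indicator, hy]
    have e1 : ∀ y, ENNReal.ofReal (Real.exp (-G y)) =
        ENNReal.ofReal (Real.exp (ε * C (normalAt K y))) *
          ENNReal.ofReal (Real.exp (-gauge K y)) := fun y => by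
      rw [← ENNReal.ofReal_mul (Real.exp_pos _).le, ← Real.exp_add, hG, neg_sub, sub_eq_add_neg]
    have hem : Measurable fun x => Real.exp (ε * C (normalAt K x)) :=
      Real.measurable_exp.comp (hwm.const_mul ε)
    have hie : IntegrableOn (fun x => Real.exp (ε * C (normalAt K x))) K := hint _ hem
      ⟨Real.exp (ε * M), fun x => by
        rw [abs_of_pos (Real.exp_pos _)]
        exact Real.exp_le_exp.2
          (mul_le_mul_of_nonneg_left ((le_abs_self _).trans (hMw x)) hε.le)⟩
    rw [lintegral_congr e1, lintegral_gauge_exp hcv cK h0 hem.ennreal_ofReal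
        (fun r hr x => by rw [normalAt_smul hr]),
      ← ofReal_integral_eq_lintegral_ofReal hie
        (Eventually.of_forall fun x => (Real.exp_pos _).le),
      ← ENNReal.ofReal_mul (by positivity), ENNReal.ofReal_le_ofReal_iff (mul_nonneg
        (Nat.cast_nonneg _) (integral_nonneg fun x => (Real.exp_pos _).le))] at hmix
    exact le_of_mul_le_mul_left hmix (by positivity)
  refine le_of_forall_pos_le_add fun δ hδ => ?_
  set V := (volume K).toReal with hV
  have hV0 : 0 ≤ V := ENNReal.toReal_nonneg
  set ε := min (1 / (M + 1)) (δ / (M ^ 2 * V + 1)) with hεdef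
  have hε : 0 < ε := lt_min (by positivity) (by positivity)
  have hεM : ε * M ≤ 1 := by
    have h := (le_div_iff₀ (by positivity)).1 (min_le_left (1 / (M + 1)) (δ / (M ^ 2 * V + 1)))
    nlinarith [hεdef]
  have h1 := key ε hε
  have hi : IntegrableOn (fun x => C (normalAt K x)) K := hint _ hwm ⟨M, hMw⟩
  have hq : IntegrableOn (fun x => 1 + ε * C (normalAt K x) + ε ^ 2 * M ^ 2) K :=
    ((integrableOn_const hfin).add (hi.const_mul ε)).add (integrableOn_const hfin)
  have h2 : ∫ x in K, Real.exp (ε * C (normalAt K x)) ≤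
      ∫ x in K, (1 + ε * C (normalAt K x) + ε ^ 2 * M ^ 2) := by
    refine integral_mono_of_nonneg (Eventually.of_forall fun x => (Real.exp_pos _).le) hq
      (Eventually.of_forall fun x => ?_)
    have h3 := mul_le_mul_of_nonneg_left (hMw x) hε.le
    have habs : |ε * C (normalAt K x)| ≤ ε * M := by rwa [abs_mul, abs_of_pos hε]
    have h4 := (abs_le.1 (Real.abs_exp_sub_one_sub_id_le (habs.trans hεM))).2
    have h5 : (ε * C (normalAt K x)) ^ 2 ≤ (ε * M) ^ 2 :=
      sq_le_sq.2 (habs.trans (le_abs_self _))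
    show Real.exp (ε * C (normalAt K x)) ≤ _
    nlinarith
  have i12 : IntegrableOn (fun x => 1 + ε * C (normalAt K x)) K :=
    (integrableOn_const (C := (1 : ℝ)) hfin).add (hi.const_mul ε)
  rw [integral_add i12 (integrableOn_const hfin),
    integral_add (integrableOn_const (C := (1 : ℝ)) hfin) (hi.const_mul ε), setIntegral_const,
    integral_const_mul, setIntegral_const, measureReal_def, ← hV, smul_eq_mul, smul_eq_mul,
    mul_one] at h2
  have h6 : ε * (M ^ 2 * V) ≤ δ := by
    have h := (le_div_iff₀ (by positivity)).1 (min_le_right (1 / (M + 1)) (δ / (M ^ 2 * V + 1)))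
    nlinarith [hεdef]
  have h7 : ε * (a * b ^ k) ≤ ε * ((∫ x in K, C (normalAt K x)) + δ) := by nlinarith
  have h8 := le_of_mul_le_mul_left h7 hε
  nlinarith [h8]

end Vale.Agent.P237.Quant
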