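import Mathlib
import Vale.Agent.P237.Quant.Tangent

/-!
The slack of a functional `w` with maximum one on `K` at `v`: the mean of `√(1 - ⟪w, ·⟫ ^ 2)` over
the boundary less that of `√(1 - ⟪normal, v⟫ ^ 2)`. It is at least the volume times the tangent
value of the profile.
-/

namespace Vale.Agent.P237.Quant

open MeasureTheory Set Filter Topology Full
open scoped RealInnerProductSpace ENNReal

variable {m : ℕ} {K : Set (EuclideanSpace ℝ (Fin (m + 1)))}
  {w v : EuclideanSpace ℝ (Fin (m + 1))} {φ : ℝ → ℝ}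

theorem continuous_ballShape : Continuous ballShape := by
  unfold ballShape
  fun_prop

theorem ballShape_nonneg (t : ℝ) : 0 ≤ ballShape t := Real.sqrt_nonneg _

theorem ballShape_le_one (t : ℝ) : ballShape t ≤ 1 :=
  Real.sqrt_le_one.2 (by nlinarith [sq_nonneg t])

theorem intervalIntegrable_inv_ballShape : IntervalIntegrable (fun t => 1 / ballShape t) volume 0 1 := by
  rw [intervalIntegrable_iff_integrableOn_Ioc_of_le zero_le_one]
  exact intervalIntegral.integrableOn_deriv_of_nonneg Real.continuous_arcsin.continuousOn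
    (fun x hx => Real.hasDerivAt_arcsin (by linarith [hx.1]) hx.2.ne)
    (fun x _ => one_div_nonneg.2 (Real.sqrt_nonneg _))

/-- The integrand of the first part of the tangent value is integrable. -/
theorem intervalIntegrable_main (hφ : IsShape φ) :
    IntervalIntegrable (fun t => (((m : ℝ) + 2) * ballShape t - 1 / ballShape t) * φ t ^ m)
      volume 0 1 := by
  have hc := continuous_ballShape
  rw [intervalIntegrable_iff_integrableOn_Ioo_of_le zero_le_one]
  refine Integrable.mul_bdd (c := φ 0 ^ m)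
    (((hc.const_mul _).continuousOn.integrableOn_Icc.mono_set Ioo_subset_Icc_self).sub
      ((intervalIntegrable_iff_integrableOn_Ioo_of_le zero_le_one).1
        intervalIntegrable_inv_ballShape)) ?_ ?_
  · exact ((((shape_continuousOn hφ).pow m).mono fun t ht =>
      ⟨by linarith [ht.1], ht.2⟩)).aestronglyMeasurable measurableSet_Ioo
  · filter_upwards [ae_restrict_mem measurableSet_Ioo] with t ht
    have hI : t ∈ Icc (-1 : ℝ) 1 := ⟨by linarith [ht.1], ht.2.le⟩
    rw [Real.norm_eq_abs, abs_pow, abs_of_nonneg (hφ.nonneg t hI)]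
    exact pow_le_pow_left₀ (hφ.nonneg t hI) (shape_le_centre hφ hI) m

/-- Integration by parts against `t √(1 - t²)`. -/
theorem integral_ball_slope (hφ : IsShape φ) (hm : 1 ≤ m) :
    (∫ t in (0 : ℝ)..1, ballShape t * (m * φ t ^ (m - 1) * (φ t - t * deriv φ t))) =
      ∫ t in (0 : ℝ)..1, (((m : ℝ) + 2) * ballShape t - 1 / ballShape t) * φ t ^ m := by
  obtain ⟨k, hk⟩ : ∃ k, m = k + 1 := ⟨m - 1, by omega⟩
  have hc := continuous_ballShape
  have hsub : uIcc (0 : ℝ) 1 ⊆ uIcc (-1) 1 := by
    rw [uIcc_of_le zero_le_one, uIcc_of_le (by norm_num : (-1 : ℝ) ≤ 1)]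
    exact Icc_subset_Icc (by norm_num) le_rfl
  have i0 : IntervalIntegrable (fun t => (m : ℝ) * (ballShape t * φ t ^ m)) volume 0 1 :=
    (((intervalIntegrable_shape_pow hφ m).mono_set hsub).continuousOn_mul hc.continuousOn).const_mul _
  have i1 : IntervalIntegrable (fun t => (t * ballShape t * m) * (φ t ^ (m - 1) * deriv φ t))
      volume 0 1 :=
    (intervalIntegrable_shape_slope hφ (m - 1) (by fun_prop)).mono_set hsub
  have i2 : IntervalIntegrable (fun t => (2 * ballShape t - 1 / ballShape t) * φ t ^ m)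
      volume 0 1 := by
    refine ((intervalIntegrable_main (m := m) hφ).sub i0).congr fun t _ => ?_
    ring
  set J : ℝ → ℝ := fun t => (2 * ballShape t - 1 / ballShape t) * φ t ^ m +
    (t * ballShape t * m) * (φ t ^ (m - 1) * deriv φ t) with hJ
  set J' : ℝ → ℝ := fun t => (2 * ballShape t - 1 / ballShape t) * φ t ^ m +
    (t * ballShape t * m) * (φ t ^ (m - 1) * dright φ t) with hJ'
  have hJJ : J =ᵐ[volume.restrict (uIoc (0 : ℝ) 1)] J' := by
    rw [uIoc_of_le zero_le_one, ← Measure.restrict_congr_set Ioo_ae_eq_Ioc]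
    filter_upwards [ae_restrict_of_ae (dright_ae hφ), ae_restrict_mem measurableSet_Ioo]
      with t ht hmem
    simp only [hJ, hJ', ht ⟨by linarith [hmem.1], hmem.2⟩]
  have hF : ContinuousOn (fun t => t * ballShape t * φ t ^ m) (Icc 0 1) := by
    intro t ht
    rcases ht.2.eq_or_lt with rfl | h1
    · have hz : (1 : ℝ) * ballShape 1 * φ 1 ^ m = 0 := by simp [ballShape]
      show Tendsto _ _ _
      simp only [hz]
      refine squeeze_zero_norm' (a := fun t => |t * ballShape t| * φ 0 ^ m) ?_ ?_
      · filter_upwards [self_mem_nhdsWithin] with t ht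
        have hI : t ∈ Icc (-1 : ℝ) 1 := ⟨by linarith [ht.1], ht.2⟩
        rw [Real.norm_eq_abs, abs_mul _ (φ t ^ m), abs_of_nonneg (pow_nonneg (hφ.nonneg t hI) m)]
        exact mul_le_mul_of_nonneg_left
          (pow_le_pow_left₀ (hφ.nonneg t hI) (shape_le_centre hφ hI) m) (abs_nonneg _)
      · exact (((continuous_id.mul hc).abs).mul continuous_const |>.tendsto' 1 0
          (by simp [ballShape])).mono_left nhdsWithin_le_nhds
    · exact ((continuous_id.mul hc).continuousAt.mul
        (((shape_continuousOn hφ).continuousAt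
          (Ioo_mem_nhds (by linarith [ht.1]) h1)).pow m)).continuousWithinAt
  have hder : ∀ t ∈ Ioo (0 : ℝ) 1,
      HasDerivWithinAt (fun t => t * ballShape t * φ t ^ m) (J' t) (Ioi t) t := by
    intro t ht
    have hp0 : 0 < 1 - t ^ 2 := by nlinarith [ht.1, ht.2]
    have hp : HasDerivAt ballShape (-(2 * t) / (2 * √(1 - t ^ 2))) t := by
      have := ((hasDerivAt_pow 2 t).const_sub 1).sqrt hp0.ne'
      refine this.congr_deriv ?_
      ring
    have h1 := (((hasDerivAt_id' t).mul hp).hasDerivWithinAt (s := Ioi t)).mul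
      ((hasDerivWithinAt_dright hφ (t := t) ⟨by linarith [ht.1], ht.2⟩).pow m)
    refine h1.congr_deriv ?_
    simp only [hJ', Pi.mul_apply, Pi.pow_apply, ballShape]
    have hs : (√(1 - t ^ 2)) ^ 2 = 1 - t ^ 2 := Real.sq_sqrt hp0.le
    have hs0 := (Real.sqrt_pos.2 hp0).ne'
    field_simp
    rw [hs]
    ring
  have h0 : (∫ t in (0 : ℝ)..1, J t) = 0 := by
    rw [intervalIntegral.integral_congr_ae_restrict hJJ,
      intervalIntegral.integral_eq_sub_of_hasDeriv_right_of_le zero_le_one hF hder
        ((i2.add i1).congr_ae hJJ)]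
    simp [ballShape]
  rw [hJ, intervalIntegral.integral_add i2 i1] at h0
  have e1 : (∫ t in (0 : ℝ)..1, ballShape t * (m * φ t ^ (m - 1) * (φ t - t * deriv φ t))) =
      (∫ t in (0 : ℝ)..1, (m : ℝ) * (ballShape t * φ t ^ m)) -
        ∫ t in (0 : ℝ)..1, (t * ballShape t * m) * (φ t ^ (m - 1) * deriv φ t) := by
    rw [← intervalIntegral.integral_sub i0 i1]
    refine intervalIntegral.integral_congr fun t _ => ?_
    simp only [hk, Nat.add_sub_cancel, pow_succ]
    ring
  have e2 : (∫ t in (0 : ℝ)..1, (((m : ℝ) + 2) * ballShape t - 1 / ballShape t) * φ t ^ m) =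
      (∫ t in (0 : ℝ)..1, (m : ℝ) * (ballShape t * φ t ^ m)) +
        ∫ t in (0 : ℝ)..1, (2 * ballShape t - 1 / ballShape t) * φ t ^ m := by
    rw [← intervalIntegral.integral_add i0 i2]
    refine intervalIntegral.integral_congr fun t _ => ?_
    ring
  linarith

/-- The mean of `√(1 - ⟪w, ·⟫ ^ 2)` over the boundary. -/
theorem boundary_mean (hm : 1 ≤ m) (hK : IsSymBody K) (h : IsTop K w v) :
    ((m + 1 : ℕ) : ℝ) * (∫ y in K, ballShape ⟪w, bdPoint K y⟫) =
      kappa m / ‖w‖ * (2 * ∫ t in (0 : ℝ)..1,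
        (((m : ℝ) + 2) * ballShape t - 1 / ballShape t) * profile K w t ^ m) := by
  have hφ := isShape_profile hm hK h
  obtain ⟨L, hL0, hL⟩ := shape_exists_limit hφ
  have hpm := (map_inner_eq hm hK h).1
  set φ := profile K w with hφdef
  set c := kappa m / ‖w‖ with hc
  have hc0 : 0 ≤ c := div_nonneg (kappa_pos m).le (norm_nonneg w)
  have hbm := continuous_ballShape.measurable
  have s1 := integrableOn_side hφ hm (e := 1) (Or.inl rfl)
  have s2 := integrableOn_side hφ hm (e := -1) (Or.inr rfl)
  have hsum : IntegrableOn (fun s => (side m φ 1 s + side m φ (-1) s) * ballShape s) (Ioo (-1) 1) :=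
    (s1.add s2).mul_bdd (c := 1) hbm.aestronglyMeasurable (Eventually.of_forall fun s => by
      rw [Real.norm_eq_abs, ballShape, abs_of_nonneg (Real.sqrt_nonneg _)]
      exact ballShape_le_one s)
  set n : ℝ := ((m + 1 : ℕ) : ℝ) with hn
  have hn0 : (0 : ℝ) ≤ n := Nat.cast_nonneg _
  have hσ : Measurable fun y => ⟪w, bdPoint K y⟫ := measurable_const.inner (measurable_bdPoint hK)
  have hw0 : Measurable fun y => ⟪normalAt K y, v⟫ := measurable_normalAt.inner measurable_const
  have hm1 : Measurable fun y => ENNReal.ofReal (n * (1 + 1 * ⟪normalAt K y, v⟫)) *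
      ENNReal.ofReal (ballShape ⟪w, bdPoint K y⟫) :=
    (((hw0.const_mul _).const_add 1).const_mul _).ennreal_ofReal.mul (hbm.comp hσ).ennreal_ofReal
  have hl1 := side_law hm hK h hL0 hL (Or.inl rfl) (f := fun s => ENNReal.ofReal (ballShape s))
    hbm.ennreal_ofReal
  have hl2 := side_law hm hK h hL0 hL (Or.inr rfl) (f := fun s => ENNReal.ofReal (ballShape s))
    hbm.ennreal_ofReal
  rw [show ballShape 1 = 0 by simp [ballShape], ENNReal.ofReal_zero, mul_zero, add_zero] at hl1
  rw [show ballShape (-1) = 0 by simp [ballShape], ENNReal.ofReal_zero, mul_zero, add_zero] at hl2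
  have key := congrArg₂ (· + ·) hl1 hl2
  rw [← lintegral_add_left hm1, ← mul_add,
    ← lintegral_add_left ((measurable_side hpm _).ennreal_ofReal.fun_mul hbm.ennreal_ofReal)] at key
  have el : ∀ᵐ y ∂volume.restrict K, ENNReal.ofReal (n * (1 + 1 * ⟪normalAt K y, v⟫)) *
        ENNReal.ofReal (ballShape ⟪w, bdPoint K y⟫) +
      ENNReal.ofReal (n * (1 + -1 * ⟪normalAt K y, v⟫)) *
        ENNReal.ofReal (ballShape ⟪w, bdPoint K y⟫) =
      ENNReal.ofReal (2 * n * ballShape ⟪w, bdPoint K y⟫) := by
    refine ae_restrict_of_ae ?_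
    filter_upwards [isTop_ae hK] with y hy
    have h1 := _root_.abs_le.1 (hy.2.abs_le hK h.mem)
    have hb : (0 : ℝ) ≤ ballShape ⟪w, bdPoint K y⟫ := Real.sqrt_nonneg _
    rw [← add_mul, ← ENNReal.ofReal_add (mul_nonneg hn0 (by linarith))
      (mul_nonneg hn0 (by linarith)), ← ENNReal.ofReal_mul
        (add_nonneg (mul_nonneg hn0 (by linarith)) (mul_nonneg hn0 (by linarith)))]
    congr 1
    ring
  have er : ∀ s, ENNReal.ofReal (side m φ 1 s) * ENNReal.ofReal (ballShape s) +
      ENNReal.ofReal (side m φ (-1) s) * ENNReal.ofReal (ballShape s) =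
      ENNReal.ofReal ((side m φ 1 s + side m φ (-1) s) * ballShape s) := fun s => by
    rw [← add_mul, ← ENNReal.ofReal_add (side_nonneg _ _) (side_nonneg _ _),
      ← ENNReal.ofReal_mul (add_nonneg (side_nonneg _ _) (side_nonneg _ _))]
  have ib : IntegrableOn (fun y => 2 * n * ballShape ⟪w, bdPoint K y⟫) K :=
    IntegrableOn.of_bound hK.body.2.1.measure_lt_top
      ((hbm.comp hσ).const_mul _).aestronglyMeasurable (2 * n * 1) (Eventually.of_forall fun y => by
        rw [Real.norm_eq_abs, ballShape, abs_of_nonneg (by positivity)]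
        exact mul_le_mul_of_nonneg_left (ballShape_le_one _) (by positivity))
  rw [lintegral_congr_ae el, lintegral_congr (fun s => er s),
    ← ofReal_integral_eq_lintegral_ofReal ib (Eventually.of_forall fun y => by
      exact mul_nonneg (by positivity) (ballShape_nonneg _)),
    ← ofReal_integral_eq_lintegral_ofReal hsum (Eventually.of_forall fun s =>
      mul_nonneg (add_nonneg (side_nonneg _ _) (side_nonneg _ _)) (ballShape_nonneg _)),
    ← ENNReal.ofReal_mul hc0, ENNReal.ofReal_eq_ofReal_iff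
      (integral_nonneg fun y => mul_nonneg (by positivity) (ballShape_nonneg _))
      (mul_nonneg hc0 (integral_nonneg fun s =>
        mul_nonneg (add_nonneg (side_nonneg _ _) (side_nonneg _ _)) (ballShape_nonneg _))),
    integral_const_mul] at key
  set R : ℝ → ℝ := fun s => ballShape s * (m * φ s ^ (m - 1) * (φ s - s * deriv φ s)) with hR
  have hR2 : ∀ᵐ s ∂volume.restrict (Ioo (-1 : ℝ) 1),
      (side m φ 1 s + side m φ (-1) s) * ballShape s = 2 * R s := by
    filter_upwards [side_ae (m := m) hφ (Or.inl rfl), side_ae (m := m) hφ (Or.inr rfl)]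
      with s h1 h2
    rw [h1, h2, hR]
    ring
  have hev : ∀ s, R (-s) = R s := fun s => by
    simp only [hR, hφ.even, shape_deriv_neg hφ, neg_mul_neg, ballShape, neg_sq]
  have hRi : IntervalIntegrable R volume (-1) 1 :=
    (intervalIntegrable_iff_integrableOn_Ioo_of_le (by norm_num)).2
      ((Integrable.congr hsum hR2).const_mul (1 / 2) |>.congr (Eventually.of_forall fun s => by ring))
  have h0 : (0 : ℝ) ∈ uIcc (-1 : ℝ) 1 := by rw [uIcc_of_le (by norm_num)]; norm_num
  rw [integral_congr_ae hR2, integral_const_mul, ← integral_Ioc_eq_integral_Ioo,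
    ← intervalIntegral.integral_of_le (by norm_num),
    ← intervalIntegral.integral_add_adjacent_intervals
      (hRi.mono_set (uIcc_subset_uIcc_left h0)) (hRi.mono_set (uIcc_subset_uIcc_right h0))] at key
  have hneg := intervalIntegral.integral_comp_neg R (a := -1) (b := 0)
  simp only [hev, neg_zero, neg_neg] at hneg
  rw [hneg, hR, integral_ball_slope hφ hm] at key
  linarith

/-- The slack. -/
noncomputable def slack (K : Set (EuclideanSpace ℝ (Fin (m + 1))))
    (w v : EuclideanSpace ℝ (Fin (m + 1))) : ℝ :=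
  ((m + 1 : ℕ) : ℝ) * ((∫ y in K, ballShape ⟪w, bdPoint K y⟫) -
    ∫ y in K, ballShape ⟪normalAt K y, v⟫)

/-- The slack is at least the volume times the tangent value of the profile. -/
theorem slack_ge (hm : 1 ≤ m) (hK : IsSymBody K) (h : IsTop K w v) :
    (volume K).toReal * tangentVal m (profile K w) ≤ slack K w v := by
  have hφ := isShape_profile hm hK h
  have hpm := (map_inner_eq hm hK h).1
  set φ := profile K w with hφdef
  have hmass : 0 < mass m φ 1 :=
    intervalIntegral.intervalIntegral_pos_of_pos_on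
      ((intervalIntegrable_shape_pow hφ m).mono_set (by
        rw [uIcc_of_le zero_le_one, uIcc_of_le (by norm_num : (-1 : ℝ) ≤ 1)]
        exact Icc_subset_Icc (by norm_num) le_rfl))
      (fun s hs' => pow_pos (shape_pos hφ ⟨by linarith [hs'.1], hs'.2⟩) m) zero_lt_one
  have hroot : IntervalIntegrable (fun s => (m : ℝ) * φ s ^ (m - 1) *
      √((φ s - s * deriv φ s) ^ 2 - deriv φ s ^ 2)) volume 0 1 :=
    (intervalIntegrable_iff_integrableOn_Ioo_of_le zero_le_one).2
      (IntegrableOn.mono_set
        (show IntegrableOn (fun s => (m : ℝ) * φ s ^ (m - 1) *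
            √((φ s - s * deriv φ s) ^ 2 - deriv φ s ^ 2)) (Ioo (-1 : ℝ) 1) volume from
          Integrable.congr (integrableOn_root hφ hpm hm) (sqrt_side_ae hφ))
        (Ioo_subset_Ioo_left (by norm_num)))
  have h1 := boundary_mean hm hK h
  have h2 := tangent_bound hm hK h
  rw [volume_eq_mass hm hK h, tangentVal, slack,
    intervalIntegral.integral_sub (intervalIntegrable_main hφ) hroot, mul_sub, h1,
    show 2 * (kappa m / ‖w‖) * mass m φ 1 * (((∫ t in (0 : ℝ)..1,
        (((m : ℝ) + 2) * ballShape t - 1 / ballShape t) * φ t ^ m) -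
        ∫ t in (0 : ℝ)..1, (m : ℝ) * φ t ^ (m - 1) *
          √((φ t - t * deriv φ t) ^ 2 - deriv φ t ^ 2)) / mass m φ 1) =
      2 * (kappa m / ‖w‖) * ((∫ t in (0 : ℝ)..1,
        (((m : ℝ) + 2) * ballShape t - 1 / ballShape t) * φ t ^ m) -
        ∫ t in (0 : ℝ)..1, (m : ℝ) * φ t ^ (m - 1) *
          √((φ t - t * deriv φ t) ^ 2 - deriv φ t ^ 2)) by field_simp]
  linarith

end Vale.Agent.P237.Quant
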