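import Mathlib
import Vale.Agent.P237.Quant.Extremal
import Vale.Agent.P237.Quant.Mixed
import Vale.Agent.P237.Quant.Slack

/-!
The centroid datum: a continuous function of the normal whose mean is at least the quantile value
of the ball, up to `ε`, and which is at most the quantile value of the profile of that normal.
-/

namespace Vale.Agent.P237.Quant

open MeasureTheory Set Filter Topology Full
open scoped RealInnerProductSpace ENNReal

variable {m : ℕ} {φ : ℝ → ℝ}

/-- The kernel of the quantile value. -/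
noncomputable def kernel (t : ℝ) : ℝ := (t / ballShape t) ^ 3

theorem kernel_le {s t : ℝ} (hs : 0 ≤ s) (hst : s ≤ t) (ht : t < 1) : kernel s ≤ kernel t := by
  have hp : 0 < ballShape t := Real.sqrt_pos.2 (by nlinarith)
  have hle : ballShape t ≤ ballShape s := Real.sqrt_le_sqrt (by nlinarith)
  refine pow_le_pow_left₀ (div_nonneg hs (ballShape_nonneg s)) ?_ 3
  exact div_le_div₀ (hs.trans hst) hst hp hle

theorem continuousAt_kernel {t : ℝ} (h0 : 0 ≤ t) (ht : t < 1) : ContinuousAt kernel t := by
  have hp : 0 < ballShape t := Real.sqrt_pos.2 (by nlinarith)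
  exact ((continuousAt_id.div continuous_ballShape.continuousAt hp.ne').pow 3)

theorem measurable_kernel : Measurable kernel :=
  (measurable_id.div continuous_ballShape.measurable).pow_const 3

theorem integrableOn_kernel_mul (hm : 3 ≤ m) :
    IntegrableOn (fun t => kernel t * ballShape t ^ m) (Ioo 0 1) := by
  obtain ⟨k, rfl⟩ : ∃ k, m = k + 3 := ⟨m - 3, by omega⟩
  refine Integrable.congr
    ((((continuous_id.pow 3).mul (continuous_ballShape.pow k)).continuousOn.integrableOn_Icc
      (a := (0 : ℝ)) (b := 1) (μ := volume)).mono_set Ioo_subset_Icc_self) ?_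
  filter_upwards [ae_restrict_mem measurableSet_Ioo] with t ht
  have hp : ballShape t ≠ 0 := (Real.sqrt_pos.2 (by nlinarith [ht.1, ht.2])).ne'
  simp only [Pi.mul_apply, Pi.pow_apply, id_eq, kernel, pow_add, div_pow]
  field_simp

theorem mass_pos (hφ : IsShape φ) : 0 < mass m φ 1 :=
  intervalIntegral.intervalIntegral_pos_of_pos_on
    ((intervalIntegrable_shape_pow hφ m).mono_set (by
      rw [uIcc_of_le zero_le_one, uIcc_of_le (by norm_num : (-1 : ℝ) ≤ 1)]
      exact Icc_subset_Icc (by norm_num) le_rfl))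
    (fun s hs => pow_pos (shape_pos hφ ⟨by linarith [hs.1], hs.2⟩) m) zero_lt_one

theorem isShape_ball : IsShape ballShape where
  concave := by
    refine ⟨convex_Icc _ _, fun x hx y hy a b ha hb hab => ?_⟩
    have h1 : (0 : ℝ) ≤ 1 - x ^ 2 := by nlinarith [hx.1, hx.2]
    have h2 : (0 : ℝ) ≤ 1 - y ^ 2 := by nlinarith [hy.1, hy.2]
    simp only [smul_eq_mul, ballShape]
    refine Real.le_sqrt_of_sq_le ?_
    have e1 := Real.sq_sqrt h1
    have e2 := Real.sq_sqrt h2
    obtain rfl : b = 1 - a := by linarith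
    nlinarith [mul_nonneg (mul_nonneg ha hb) (sq_nonneg (√(1 - x ^ 2) - √(1 - y ^ 2))),
      mul_nonneg (mul_nonneg ha hb) (sq_nonneg (x - y))]
  even t := by simp [ballShape]
  nonneg t _ := ballShape_nonneg t
  centre := by simp [ballShape]

theorem intervalIntegrable_pow01 (hφ : IsShape φ) {a b : ℝ} (ha : 0 ≤ a) (hb : b ≤ 1)
    (hab : a ≤ b) : IntervalIntegrable (fun t => φ t ^ m) volume a b :=
  (intervalIntegrable_shape_pow hφ m).mono_set (by
    rw [uIcc_of_le hab, uIcc_of_le (by norm_num : (-1 : ℝ) ≤ 1)]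
    exact Icc_subset_Icc (by linarith) hb)

theorem mass_strictMonoOn (hφ : IsShape φ) : StrictMonoOn (mass m φ) (Icc 0 1) := by
  intro a ha b hb hab
  rw [mass, mass, ← intervalIntegral.integral_add_adjacent_intervals
    (intervalIntegrable_pow01 hφ le_rfl ha.2 ha.1)
    (intervalIntegrable_pow01 hφ ha.1 hb.2 hab.le), lt_add_iff_pos_right]
  exact intervalIntegral.intervalIntegral_pos_of_pos_on
    (intervalIntegrable_pow01 hφ ha.1 hb.2 hab.le)
    (fun s hs => pow_pos (shape_pos hφ ⟨by linarith [ha.1, hs.1], hs.2.trans_le hb.2⟩) m) hab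

theorem mass_continuousOn (hφ : IsShape φ) : ContinuousOn (mass m φ) (Icc 0 1) := by
  have h := intervalIntegral.continuousOn_primitive_interval'
    (intervalIntegrable_pow01 (m := m) hφ le_rfl le_rfl zero_le_one) left_mem_uIcc
  rwa [uIcc_of_le zero_le_one] at h

theorem mass_zero : mass m φ 0 = 0 := intervalIntegral.integral_same

/-- The transport lies in the unit interval and preserves the quantile level. -/
theorem transport_spec (hφ : IsShape φ) {t : ℝ} (ht : t ∈ Icc (0 : ℝ) 1) :
    transport m φ t ∈ Icc (0 : ℝ) 1 ∧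
      mass m φ (transport m φ t) = mass m ballShape t / mass m ballShape 1 * mass m φ 1 := by
  have h0 := mass_pos (m := m) isShape_ball
  set q := mass m ballShape t / mass m ballShape 1 * mass m φ 1 with hq
  have hmem : q ∈ Icc (mass m φ 0) (mass m φ 1) := by
    have h1 : mass m ballShape t ≤ mass m ballShape 1 :=
      (mass_strictMonoOn isShape_ball).monotoneOn ht (right_mem_Icc.2 zero_le_one) ht.2
    have h2 : mass m ballShape 0 ≤ mass m ballShape t :=
      (mass_strictMonoOn isShape_ball).monotoneOn (left_mem_Icc.2 zero_le_one) ht ht.1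
    rw [mass_zero] at h2
    rw [mass_zero]
    exact ⟨mul_nonneg (div_nonneg h2 h0.le) (mass_pos hφ).le,
      mul_le_of_le_one_left (mass_pos hφ).le ((div_le_one h0).2 h1)⟩
  obtain ⟨c, hc, hcq⟩ := intermediate_value_Icc zero_le_one (mass_continuousOn hφ) hmem
  have e : {x : ℝ | x ∈ Icc (0 : ℝ) 1 ∧ q ≤ mass m φ x} = Icc c 1 := by
    ext x
    constructor
    · rintro ⟨hx, hle⟩
      rw [← hcq] at hle
      exact ⟨((mass_strictMonoOn hφ).le_iff_le hc hx).1 hle, hx.2⟩
    · intro hx
      refine ⟨⟨hc.1.trans hx.1, hx.2⟩, hcq ▸ ?_⟩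
      exact (mass_strictMonoOn hφ).monotoneOn hc ⟨hc.1.trans hx.1, hx.2⟩ hx.1
  have hT : transport m φ t = c := by
    show sInf {x : ℝ | x ∈ Icc (0 : ℝ) 1 ∧ q ≤ mass m φ x} = c
    rw [e, csInf_Icc hc.2]
  rw [hT]
  exact ⟨hc, hcq⟩

theorem transport_monotoneOn (hφ : IsShape φ) :
    MonotoneOn (transport m φ) (Icc 0 1) := by
  intro s hs t ht hst
  obtain ⟨h1, e1⟩ := transport_spec (m := m) hφ hs
  obtain ⟨h2, e2⟩ := transport_spec (m := m) hφ ht
  refine ((mass_strictMonoOn (m := m) hφ).le_iff_le h1 h2).1 ?_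
  rw [e1, e2]
  exact mul_le_mul_of_nonneg_right (div_le_div_of_nonneg_right
    ((mass_strictMonoOn isShape_ball).monotoneOn hs ht hst) (mass_pos isShape_ball).le)
    (mass_pos hφ).le

theorem transport_aemeasurable (hφ : IsShape φ) :
    AEMeasurable (transport m φ) (volume.restrict (Ioc 0 1)) :=
  (aemeasurable_restrict_of_monotoneOn measurableSet_Icc (transport_monotoneOn hφ)).mono_measure
    (Measure.restrict_mono Ioc_subset_Icc_self le_rfl)

theorem lintegral_pow_eq_mass (hφ : IsShape φ) {x : ℝ} (hx : x ∈ Icc (0 : ℝ) 1) :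
    ∫⁻ s in Ioc 0 x, ENNReal.ofReal (φ s ^ m) = ENNReal.ofReal (mass m φ x) := by
  rw [mass, intervalIntegral.integral_of_le hx.1, ofReal_integral_eq_lintegral_ofReal
    ((intervalIntegrable_iff_integrableOn_Ioc_of_le hx.1).1
      (intervalIntegrable_pow01 hφ le_rfl hx.2 hx.1))]
  filter_upwards [ae_restrict_mem measurableSet_Ioc] with s hs
  exact pow_nonneg (hφ.nonneg s ⟨by linarith [hs.1], hs.2.trans hx.2⟩) m

/-- The transport carries the law of the ball to that of the profile. -/
theorem transport_push (hφ : IsShape φ) (hφm : Measurable φ) {g : ℝ → ℝ} (hg : Continuous g) :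
    ∫ t in (0 : ℝ)..1, g (transport m φ t) * ballShape t ^ m =
      mass m ballShape 1 / mass m φ 1 * ∫ s in (0 : ℝ)..1, g s * φ s ^ m := by
  have h0 := mass_pos (m := m) isShape_ball
  have hM := mass_pos (m := m) hφ
  set r := mass m ballShape 1 / mass m φ 1 with hr
  have hr0 : 0 ≤ r := div_nonneg h0.le hM.le
  have hbm : Measurable fun t => ENNReal.ofReal (ballShape t ^ m) :=
    (continuous_ballShape.measurable.pow_const m).ennreal_ofReal
  have hfm : Measurable fun t => ENNReal.ofReal (φ t ^ m) := (hφm.pow_const m).ennreal_ofReal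
  set μ := (volume.restrict (Ioc (0 : ℝ) 1)).withDensity fun t => ENNReal.ofReal (ballShape t ^ m)
    with hμ
  set ν := ENNReal.ofReal r •
    (volume.restrict (Ioc (0 : ℝ) 1)).withDensity fun t => ENNReal.ofReal (φ t ^ m) with hν
  have hTm : AEMeasurable (transport m φ) μ :=
    (transport_aemeasurable hφ).mono_ac (withDensity_absolutelyContinuous _ _)
  have : IsFiniteMeasure μ := isFiniteMeasure_withDensity_ofReal
    ((intervalIntegrable_iff_integrableOn_Ioc_of_le zero_le_one).1
      (intervalIntegrable_pow01 isShape_ball le_rfl le_rfl zero_le_one)).hasFiniteIntegral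
  have key : Measure.map (transport m φ) μ = ν := by
    refine Measure.ext_of_Iic _ _ fun x => ?_
    rw [Measure.map_apply_of_aemeasurable hTm measurableSet_Iic, hν, Measure.smul_apply, smul_eq_mul,
      hμ, withDensity_apply' _ _, withDensity_apply' _ _, Measure.restrict_restrict' measurableSet_Ioc,
      Measure.restrict_restrict' measurableSet_Ioc]
    rcases lt_or_ge x 0 with hx | hx
    · have e1 : transport m φ ⁻¹' Iic x ∩ Ioc 0 1 = ∅ := eq_empty_of_forall_notMem fun t ht => by
        have := (transport_spec (m := m) hφ (Ioc_subset_Icc_self ht.2)).1.1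
        have h : transport m φ t ≤ x := ht.1
        linarith
      have e2 : Iic x ∩ Ioc (0 : ℝ) 1 = ∅ := eq_empty_of_forall_notMem fun t ht => by
        linarith [ht.1.out, ht.2.1]
      simp [e1, e2]
    rcases le_or_gt 1 x with hx1 | hx1
    · have e1 : transport m φ ⁻¹' Iic x ∩ Ioc 0 1 = Ioc 0 1 := inter_eq_right.2 fun t ht =>
        (transport_spec (m := m) hφ (Ioc_subset_Icc_self ht)).1.2.trans hx1
      have e2 : Iic x ∩ Ioc (0 : ℝ) 1 = Ioc 0 1 := inter_eq_right.2 fun t ht => ht.2.trans hx1
      rw [e1, e2, lintegral_pow_eq_mass isShape_ball (right_mem_Icc.2 zero_le_one),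
        lintegral_pow_eq_mass hφ (right_mem_Icc.2 zero_le_one), ← ENNReal.ofReal_mul hr0, hr,
        div_mul_cancel₀ _ hM.ne']
    have hxI : x ∈ Icc (0 : ℝ) 1 := ⟨hx, hx1.le⟩
    have hmem : mass m φ x * r ∈ Icc (mass m ballShape 0) (mass m ballShape 1) := by
      have h1 := (mass_strictMonoOn (m := m) hφ).monotoneOn hxI (right_mem_Icc.2 zero_le_one) hx1.le
      have h2 := (mass_strictMonoOn (m := m) hφ).monotoneOn (left_mem_Icc.2 zero_le_one) hxI hx
      rw [mass_zero] at h2 ⊢
      refine ⟨mul_nonneg h2 hr0, ?_⟩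
      rw [hr, mul_div_assoc', div_le_iff₀ hM]
      calc mass m φ x * mass m ballShape 1 ≤ mass m φ 1 * mass m ballShape 1 :=
            mul_le_mul_of_nonneg_right h1 h0.le
        _ = _ := mul_comm _ _
    obtain ⟨τ, hτ, hτe⟩ := intermediate_value_Icc zero_le_one
      (mass_continuousOn (m := m) isShape_ball) hmem
    have e1 : transport m φ ⁻¹' Iic x ∩ Ioc 0 1 = Ioc 0 τ := by
      ext t
      constructor
      · rintro ⟨hle, ht⟩
        obtain ⟨hT, eT⟩ := transport_spec (m := m) hφ (Ioc_subset_Icc_self ht)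
        refine ⟨ht.1, ((mass_strictMonoOn (m := m) isShape_ball).le_iff_le (Ioc_subset_Icc_self ht) hτ).1 ?_⟩
        have := (mass_strictMonoOn (m := m) hφ).monotoneOn hT hxI hle
        rw [eT] at this
        rw [hτe, hr, mul_div_assoc', le_div_iff₀ hM]
        rw [div_mul_eq_mul_div, div_le_iff₀ h0] at this
        linarith
      · intro ht
        have ht1 : t ∈ Ioc (0 : ℝ) 1 := ⟨ht.1, ht.2.trans hτ.2⟩
        obtain ⟨hT, eT⟩ := transport_spec (m := m) hφ (Ioc_subset_Icc_self ht1)
        refine ⟨((mass_strictMonoOn (m := m) hφ).le_iff_le hT hxI).1 ?_, ht1⟩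
        have := (mass_strictMonoOn (m := m) isShape_ball).monotoneOn (Ioc_subset_Icc_self ht1) hτ ht.2
        rw [hτe, hr, mul_div_assoc', le_div_iff₀ hM] at this
        rw [eT, div_mul_eq_mul_div, div_le_iff₀ h0]
        linarith
    have e2 : Iic x ∩ Ioc (0 : ℝ) 1 = Ioc 0 x := by
      ext t
      simp only [mem_inter_iff, mem_Iic, mem_Ioc]
      constructor
      · exact fun h => ⟨h.2.1, h.1⟩
      · exact fun h => ⟨h.2, h.1, h.2.trans hx1.le⟩
    rw [e1, e2, lintegral_pow_eq_mass isShape_ball hτ, lintegral_pow_eq_mass hφ hxI,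
      ← ENNReal.ofReal_mul hr0, hτe, mul_comm]
  have h1 := integral_map hTm (f := g) hg.aestronglyMeasurable
  rw [key, hν, integral_smul_measure, ENNReal.toReal_ofReal hr0, smul_eq_mul] at h1
  simp only [hμ, ENNReal.ofReal] at h1
  rw [integral_withDensity_eq_integral_smul (hφm.pow_const m).real_toNNReal,
    integral_withDensity_eq_integral_smul (continuous_ballShape.measurable.pow_const m).real_toNNReal]
    at h1
  rw [intervalIntegral.integral_of_le zero_le_one, intervalIntegral.integral_of_le zero_le_one]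
  have eb : (∫ t in Ioc (0 : ℝ) 1, g (transport m φ t) * ballShape t ^ m) =
      ∫ t in Ioc (0 : ℝ) 1, (ballShape t ^ m).toNNReal • g (transport m φ t) := by
    refine setIntegral_congr_fun measurableSet_Ioc fun t _ => ?_
    simp only [NNReal.smul_def, Real.coe_toNNReal _ (pow_nonneg (ballShape_nonneg t) m), smul_eq_mul,
      mul_comm]
  have ef : (∫ t in Ioc (0 : ℝ) 1, g t * φ t ^ m) =
      ∫ t in Ioc (0 : ℝ) 1, (φ t ^ m).toNNReal • g t := by
    refine setIntegral_congr_fun measurableSet_Ioc fun t ht => ?_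
    simp only [NNReal.smul_def, Real.coe_toNNReal _
      (pow_nonneg (hφ.nonneg t ⟨by linarith [ht.1], ht.2⟩) m), smul_eq_mul, mul_comm]
  rw [eb, ef, h1]

theorem transport_bound (hφ : IsShape φ) {t : ℝ} (ht : t ∈ Ioc (0 : ℝ) 1) :
    |transport m φ t| ≤ 1 :=
  _root_.abs_le.2 ⟨by linarith [(transport_spec (m := m) hφ (Ioc_subset_Icc_self ht)).1.1],
    (transport_spec (m := m) hφ (Ioc_subset_Icc_self ht)).1.2⟩

theorem integrableOn_transport_mul (hφ : IsShape φ) {F : ℝ → ℝ}
    (hF : IntegrableOn F (Ioo 0 1)) :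
    IntegrableOn (fun t => F t * transport m φ t) (Ioo 0 1) := by
  refine Integrable.mul_bdd (c := 1) hF ((transport_aemeasurable hφ).mono_measure
    (Measure.restrict_mono Ioo_subset_Ioc_self le_rfl)).aestronglyMeasurable ?_
  filter_upwards [ae_restrict_mem measurableSet_Ioo] with t ht
  exact transport_bound hφ (Ioo_subset_Ioc_self ht)

theorem intInt_transport (hφ : IsShape φ) {a b : ℝ} (ha : 0 ≤ a) (hb : b ≤ 1) (hab : a ≤ b) :
    IntervalIntegrable (fun t => transport m φ t * ballShape t ^ m) volume a b := by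
  rw [intervalIntegrable_iff_integrableOn_Ioo_of_le hab]
  refine ((integrableOn_transport_mul (m := m) hφ (F := fun t => ballShape t ^ m)
    ((continuous_ballShape.pow m).continuousOn.integrableOn_Icc.mono_set Ioo_subset_Icc_self)).congr_fun
    (fun t _ => mul_comm _ _) measurableSet_Ioo).mono_set (Ioo_subset_Ioo ha hb)

/-- The threshold bound at the quantile is the moment beyond it. -/
theorem threshold_le (hφ : IsShape φ) (hφm : Measurable φ) {a : ℝ} (ha : a ∈ Ico (0 : ℝ) 1) :
    transport m φ a * tailWeight m a +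
        (∫ s in (0 : ℝ)..1, max (s - transport m φ a) 0 * φ s ^ m) / mass m φ 1 =
      (∫ t in a..1, transport m φ t * ballShape t ^ m) / mass m ballShape 1 := by
  have h0 := mass_pos (m := m) isShape_ball
  have hM := mass_pos (m := m) hφ
  set c := transport m φ a with hc
  have hp := transport_push (m := m) hφ hφm (g := fun s => max (s - c) 0) (by fun_prop)
  have haI : a ∈ Icc (0 : ℝ) 1 := ⟨ha.1, ha.2.le⟩
  have hb : ∀ {a b : ℝ}, IntervalIntegrable (fun t => ballShape t ^ m) volume a b :=
    fun {a b} => (continuous_ballShape.pow m).intervalIntegrable _ _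
  have el : EqOn (fun t => max (transport m φ t - c) 0 * ballShape t ^ m) (fun _ => (0 : ℝ))
      (uIoc 0 a) := fun t ht => by
    rw [uIoc_of_le ha.1] at ht
    have := transport_monotoneOn (m := m) hφ ⟨ht.1.le, ht.2.trans ha.2.le⟩ haI ht.2
    rw [← hc] at this
    simp [max_eq_right (sub_nonpos.2 this)]
  have er : EqOn (fun t => max (transport m φ t - c) 0 * ballShape t ^ m)
      (fun t => transport m φ t * ballShape t ^ m - c * ballShape t ^ m) (uIoc a 1) := fun t ht => by
    rw [uIoc_of_le ha.2.le] at ht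
    have := transport_monotoneOn (m := m) hφ haI ⟨ha.1.trans ht.1.le, ht.2⟩ ht.1.le
    rw [← hc] at this
    simp [max_eq_left (sub_nonneg.2 this)]
    ring
  have i2 := intInt_transport (m := m) hφ ha.1 le_rfl ha.2.le
  rw [← intervalIntegral.integral_add_adjacent_intervals
      ((intervalIntegrable_const (c := (0 : ℝ))).congr fun t ht => (el ht).symm)
      ((i2.sub (hb.const_mul c)).congr fun t ht => (er ht).symm),
    intervalIntegral.integral_congr_ae (Eventually.of_forall el),
    intervalIntegral.integral_congr_ae (Eventually.of_forall er),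
    intervalIntegral.integral_sub i2 (hb.const_mul c), intervalIntegral.integral_const_mul] at hp
  simp only [intervalIntegral.integral_zero, zero_add] at hp
  have e : (∫ s in (0 : ℝ)..1, max (s - c) 0 * φ s ^ m) / mass m φ 1 =
      ((∫ t in a..1, transport m φ t * ballShape t ^ m) - c * ∫ t in a..1, ballShape t ^ m) /
        mass m ballShape 1 := by
    rw [hp]
    field_simp
  rw [e, tailWeight]
  field_simp
  ring

variable {K : Set (EuclideanSpace ℝ (Fin (m + 1)))}

/-- The support of `caps` over the volume. -/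
noncomputable def capFun (K : Set (EuclideanSpace ℝ (Fin (m + 1)))) (a : ℝ)
    (ξ : EuclideanSpace ℝ (Fin (m + 1))) : ℝ :=
  sSup ((fun l => ⟪ξ, l⟫) '' caps (tailWeight m a * (volume K).toReal) K) / (volume K).toReal

theorem continuous_capFun (hK : IsSymBody K) (a : ℝ) : Continuous (capFun K a) :=
  ((isCompact_caps hK.body.2.1).continuous_sSup (f := fun ξ l => ⟪ξ, l⟫)
    (show Continuous fun q : EuclideanSpace ℝ (Fin (m + 1)) × EuclideanSpace ℝ (Fin (m + 1)) =>
      ⟪q.1, q.2⟫ by fun_prop)).div_const _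

theorem volume_pos {n : ℕ} {K : Set (EuclideanSpace ℝ (Fin n))} (hK : IsSymBody K) :
    0 < (volume K).toReal :=
  ENNReal.toReal_pos (Measure.measure_pos_of_nonempty_interior _ hK.body.2.2).ne'
    hK.body.2.1.measure_ne_top

theorem tailWeight_nonneg {a : ℝ} (ha : a ∈ Ico (0 : ℝ) 1) : 0 ≤ tailWeight m a :=
  div_nonneg (intervalIntegral.integral_nonneg ha.2.le fun t _ => pow_nonneg (ballShape_nonneg t) m)
    (mass_pos isShape_ball).le

theorem capFun_le (hm : 1 ≤ m) (hK : IsSymBody K) {w v : EuclideanSpace ℝ (Fin (m + 1))}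
    (h : IsTop K w v) {a : ℝ} (ha : a ∈ Ico (0 : ℝ) 1) :
    capFun K a w ≤
      (∫ t in a..1, transport m (profile K w) t * ballShape t ^ m) / mass m ballShape 1 := by
  have hφ := isShape_profile hm hK h
  have hφm := (map_inner_eq hm hK h).1
  have hV := volume_pos hK
  set φ := profile K w with hφdef
  set c := transport m φ a with hc
  have hc0 : 0 ≤ c := (transport_spec (m := m) hφ ⟨ha.1, ha.2.le⟩).1.1
  have hM := mass_pos (m := m) hφ
  have e : ∫ y in K, max (|⟪w, y⟫| - c) 0 =
      (volume K).toReal / mass m φ 1 * ∫ s in (0 : ℝ)..1, max (s - c) 0 * φ s ^ m := by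
    set G : ℝ → ℝ := fun s => max (|s| - c) 0 * φ s ^ m with hG
    have hGi : IntervalIntegrable G volume (-1) 1 :=
      (intervalIntegrable_shape_pow hφ m).continuousOn_mul (by fun_prop)
    have hev : ∀ s, G (-s) = G s := fun s => by simp [hG, hφ.even]
    have h0 : (0 : ℝ) ∈ uIcc (-1 : ℝ) 1 := by rw [uIcc_of_le (by norm_num)]; norm_num
    have hneg := intervalIntegral.integral_comp_neg G (a := -1) (b := 0)
    simp only [hev, neg_zero, neg_neg] at hneg
    rw [integral_inner_eq hm hK h (g := fun s => max (|s| - c) 0) (by fun_prop),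
      show (∫ s in (-1 : ℝ)..1, max (|s| - c) 0 * profile K w s ^ m) = ∫ s in (-1 : ℝ)..1, G s from
        rfl,
      ← intervalIntegral.integral_add_adjacent_intervals
        (hGi.mono_set (uIcc_subset_uIcc_left h0)) (hGi.mono_set (uIcc_subset_uIcc_right h0)), hneg,
      volume_eq_mass hm hK h, ← hφdef,
      show (∫ s in (0 : ℝ)..1, G s) = ∫ s in (0 : ℝ)..1, max (s - c) 0 * φ s ^ m from
        intervalIntegral.integral_congr fun s hs => by
          rw [uIcc_of_le zero_le_one] at hs
          simp [hG, abs_of_nonneg hs.1]]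
    field_simp
    ring
  rw [capFun, div_le_iff₀ hV, ← threshold_le hφ hφm ha]
  refine csSup_le ⟨_, 0, zero_mem_caps (mul_nonneg (tailWeight_nonneg ha) hV.le), rfl⟩ ?_
  rintro _ ⟨l, hl, rfl⟩
  refine (inner_le_of_mem_caps hK.body.2.1 hl w hc0).trans (le_of_eq ?_)
  rw [e]
  ring

theorem capFun_mean (hm : 1 ≤ m) (hK : IsSymBody K) {a : ℝ} (ha : a ∈ Ico (0 : ℝ) 1) :
    tailMoment m a * (volume K).toReal ≤ ∫ x in K, capFun K a (normalAt K x) := by
  have hV := volume_pos hK
  set V := (volume K).toReal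
  set L := caps (tailWeight m a * V) K
  have cL : IsCompact L := isCompact_caps hK.body.2.1
  have neL : L.Nonempty := ⟨0, zero_mem_caps (mul_nonneg (tailWeight_nonneg ha) hV.le)⟩
  set C : EuclideanSpace ℝ (Fin (m + 1)) → ℝ := fun ξ => sSup ((fun l => ⟪ξ, l⟫) '' L) with hC
  have hCc : Continuous C := cL.continuous_sSup (f := fun ξ l => ⟪ξ, l⟫)
    (show Continuous fun q : EuclideanSpace ℝ (Fin (m + 1)) × EuclideanSpace ℝ (Fin (m + 1)) =>
      ⟪q.1, q.2⟫ by fun_prop)
  have h := mixed_ge (show 0 < m + 1 by omega) hK.body.1 hK.body.2.1 hK.zero_nhds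
    (convex_caps hK.body.2.1) cL neL hCc fun l hl ξ =>
      le_csSup (cL.image (by fun_prop)).bddAbove ⟨l, hl, rfl⟩
  have hJ : 0 ≤ tailMoment m a :=
    div_nonneg (intervalIntegral.integral_nonneg ha.2.le fun t ht =>
      mul_nonneg (ha.1.trans ht.1) (pow_nonneg (ballShape_nonneg t) m)) (mass_pos isShape_ball).le
  have hext := volume_caps_ge hm hK ha
  set b := V ^ (((m + 1 : ℕ) : ℝ)⁻¹) with hb
  have hb0 : 0 ≤ b := Real.rpow_nonneg hV.le _
  have hbn : b ^ (m + 1) = V := Real.rpow_inv_natCast_pow hV.le (show m + 1 ≠ 0 by omega)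
  have hroot : b * V * tailMoment m a ≤ (volume L).toReal ^ (((m + 1 : ℕ) : ℝ)⁻¹) := by
    refine le_of_pow_le_pow_left₀ (show m + 1 ≠ 0 by omega)
      (Real.rpow_nonneg ENNReal.toReal_nonneg _) ?_
    rw [Real.rpow_inv_natCast_pow ENNReal.toReal_nonneg (show m + 1 ≠ 0 by omega)]
    refine le_trans (le_of_eq ?_) hext
    rw [mul_pow, mul_pow, hbn]
    ring
  have h2 := (mul_le_mul_of_nonneg_right hroot (pow_nonneg hb0 _)).trans h
  rw [Nat.add_sub_cancel, show b * V * tailMoment m a * b ^ m =
    b ^ (m + 1) * (V * tailMoment m a) by ring, hbn] at h2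
  have e : (∫ x in K, capFun K a (normalAt K x)) = (∫ x in K, C (normalAt K x)) / V :=
    integral_div V _
  rw [e, le_div_iff₀ hV]
  linarith

/-- The staircase below the kernel. -/
noncomputable def stair (N : ℕ) (t : ℝ) : ℝ :=
  ∑ j ∈ Finset.range (N - 1), (kernel (((j + 1 : ℕ) : ℝ) / N) - kernel ((j : ℝ) / N)) *
    if ((j + 1 : ℕ) : ℝ) / N < t then 1 else 0

theorem stair_eq {N : ℕ} (hN : 0 < N) {t : ℝ} (ht : t ∈ Ioo (0 : ℝ) 1) :
    ∃ J : ℕ, stair N t = kernel ((J : ℝ) / N) ∧ (J : ℝ) / N < t ∧ t ≤ (J : ℝ) / N + 1 / N := by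
  have hN' : (0 : ℝ) < N := Nat.cast_pos.2 hN
  have hq : 0 < t * N := mul_pos ht.1 hN'
  have hc : 1 ≤ ⌈t * N⌉₊ := Nat.ceil_pos.2 hq
  refine ⟨⌈t * N⌉₊ - 1, ?_, ?_, ?_⟩
  · have hcN : ⌈t * N⌉₊ ≤ N := Nat.ceil_le.2 (mul_le_of_le_one_left hN'.le ht.2.le)
    have hk0 : kernel 0 = 0 := by simp [kernel]
    rw [stair]
    simp only [mul_ite, mul_one, mul_zero]
    rw [← Finset.sum_filter,
      show (Finset.range (N - 1)).filter (fun j => ((j + 1 : ℕ) : ℝ) / N < t) =
        Finset.range (⌈t * N⌉₊ - 1) from by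
        ext j
        simp only [Finset.mem_filter, Finset.mem_range, div_lt_iff₀ hN', ← Nat.lt_ceil]
        omega,
      Finset.sum_range_sub fun j : ℕ => kernel ((j : ℝ) / N)]
    simp [hk0]
  · rw [div_lt_iff₀ hN', Nat.cast_sub hc, Nat.cast_one]
    linarith [Nat.ceil_lt_add_one hq.le]
  · rw [← add_div, le_div_iff₀ hN', Nat.cast_sub hc, Nat.cast_one, sub_add_cancel]
    exact Nat.le_ceil _

theorem stair_bounds {N : ℕ} {t : ℝ} (ht : t ∈ Ioo (0 : ℝ) 1) :
    0 ≤ stair N t ∧ stair N t ≤ kernel t := by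
  rcases N.eq_zero_or_pos with rfl | hN
  · exact ⟨by simp [stair], by
      simp only [stair, Nat.zero_sub, Finset.range_zero, Finset.sum_empty]
      exact pow_nonneg (div_nonneg ht.1.le (ballShape_nonneg t)) 3⟩
  obtain ⟨J, e, h1, -⟩ := stair_eq hN ht
  rw [e]
  exact ⟨pow_nonneg (div_nonneg (by positivity) (ballShape_nonneg _)) 3,
    kernel_le (by positivity) h1.le ht.2⟩

theorem stair_tendsto {t : ℝ} (ht : t ∈ Ioo (0 : ℝ) 1) :
    Tendsto (fun N => stair N t) atTop (𝓝 (kernel t)) := by
  rw [Metric.tendsto_atTop]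
  intro ε hε
  obtain ⟨δ, hδ, h⟩ := Metric.continuousAt_iff.1 (continuousAt_kernel ht.1.le ht.2) ε hε
  obtain ⟨N0, hN0⟩ := exists_nat_gt (1 / δ)
  refine ⟨max N0 1, fun N hN => ?_⟩
  have hN1 : 0 < N := (le_max_right N0 1).trans hN
  have hN' : (0 : ℝ) < N := Nat.cast_pos.2 hN1
  obtain ⟨J, e, h1, h2⟩ := stair_eq hN1 ht
  rw [e]
  refine h ?_
  have h3 : (N0 : ℝ) ≤ N := by exact_mod_cast (le_max_left N0 1).trans hN
  have h4 : 1 / (N : ℝ) < δ := by
    rw [div_lt_iff₀ hN']
    rw [div_lt_iff₀ hδ] at hN0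
    nlinarith
  rw [Real.dist_eq, abs_of_nonpos (by linarith)]
  linarith

theorem integral_stair_mul (N : ℕ) {F : ℝ → ℝ} (hF : IntegrableOn F (Ioo 0 1)) :
    IntegrableOn (fun t => stair N t * F t) (Ioo 0 1) ∧
    ∫ t in Ioo (0 : ℝ) 1, stair N t * F t = ∑ j ∈ Finset.range (N - 1),
      (kernel (((j + 1 : ℕ) : ℝ) / N) - kernel ((j : ℝ) / N)) *
        ∫ t in ((j + 1 : ℕ) : ℝ) / N..1, F t := by
  have hone : ∀ j ∈ Finset.range (N - 1), IntegrableOn
      (fun t => (kernel (((j + 1 : ℕ) : ℝ) / N) - kernel ((j : ℝ) / N)) *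
        (if ((j + 1 : ℕ) : ℝ) / N < t then F t else 0)) (Ioo 0 1) ∧
      ∫ t in Ioo (0 : ℝ) 1, (kernel (((j + 1 : ℕ) : ℝ) / N) - kernel ((j : ℝ) / N)) *
        (if ((j + 1 : ℕ) : ℝ) / N < t then F t else 0) =
        (kernel (((j + 1 : ℕ) : ℝ) / N) - kernel ((j : ℝ) / N)) *
          ∫ t in ((j + 1 : ℕ) : ℝ) / N..1, F t := by
    intro j hj
    rw [Finset.mem_range] at hj
    set a := ((j + 1 : ℕ) : ℝ) / N with ha
    have hN' : (0 : ℝ) < N := by exact_mod_cast (show 0 < N by omega)
    have ha1 : a ≤ 1 := by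
      rw [ha, div_le_one hN']
      exact_mod_cast (show j + 1 ≤ N by omega)
    have ha0 : 0 ≤ a := by positivity
    have e : (fun t => if a < t then F t else 0) = (Ioi a).indicator F := by
      funext t
      simp [indicator, mem_Ioi]
    refine ⟨?_, ?_⟩
    · refine Integrable.const_mul ?_ _
      rw [e]
      exact hF.indicator measurableSet_Ioi
    · rw [integral_const_mul]
      congr 1
      rw [e, setIntegral_indicator measurableSet_Ioi, intervalIntegral.integral_of_le ha1,
        integral_Ioc_eq_integral_Ioo]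
      congr 2
      ext t
      simp only [mem_inter_iff, mem_Ioi, mem_Ioo]
      constructor
      · exact fun h => ⟨h.2, h.1.2⟩
      · exact fun h => ⟨⟨ha0.trans_lt h.1, h.2⟩, h.1⟩
  have hfun : (fun t => stair N t * F t) = fun t => ∑ j ∈ Finset.range (N - 1),
      (kernel (((j + 1 : ℕ) : ℝ) / N) - kernel ((j : ℝ) / N)) *
        (if ((j + 1 : ℕ) : ℝ) / N < t then F t else 0) := by
    funext t
    rw [stair, Finset.sum_mul]
    refine Finset.sum_congr rfl fun j _ => ?_
    split_ifs <;> ring
  refine ⟨?_, ?_⟩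
  · rw [hfun]
    exact integrable_finsetSum _ fun j hj => (hone j hj).1
  · rw [hfun, integral_finsetSum _ fun j hj => (hone j hj).1]
    exact Finset.sum_congr rfl fun j hj => (hone j hj).2

theorem quantileVal_eq (φ : ℝ → ℝ) :
    quantileVal m φ =
      (∫ t in Ioo (0 : ℝ) 1, kernel t * (transport m φ t * ballShape t ^ m)) /
        mass m ballShape 1 := by
  rw [quantileVal, intervalIntegral.integral_of_le zero_le_one, integral_Ioc_eq_integral_Ioo]
  simp only [kernel, mul_assoc]

theorem transport_ball {t : ℝ} (ht : t ∈ Icc (0 : ℝ) 1) : transport m ballShape t = t := by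
  obtain ⟨h1, h2⟩ := transport_spec (m := m) isShape_ball ht
  rw [div_mul_cancel₀ _ (mass_pos isShape_ball).ne'] at h2
  exact (mass_strictMonoOn isShape_ball).injOn h1 ht h2

/-- The centroid datum. -/
theorem exists_centroid (hm : 3 ≤ m) (hK : IsSymBody K) {ε : ℝ} (hε : 0 < ε) :
    ∃ C : EuclideanSpace ℝ (Fin (m + 1)) → ℝ, Continuous C ∧
      (quantileVal m ballShape - ε) * (volume K).toReal ≤ ∫ x in K, C (normalAt K x) ∧
      ∀ w v, IsTop K w v → C w ≤ quantileVal m (profile K w) := by
  have hM0 := mass_pos (m := m) isShape_ball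
  have hbI : IntegrableOn (fun t => ballShape t ^ m) (Ioo 0 1) :=
    (continuous_ballShape.pow m).continuousOn.integrableOn_Icc.mono_set Ioo_subset_Icc_self
  have hidI : IntegrableOn (fun t => t * ballShape t ^ m) (Ioo 0 1) :=
    (continuous_id.mul (continuous_ballShape.pow m)).continuousOn.integrableOn_Icc.mono_set
      Ioo_subset_Icc_self
  have hlim : Tendsto (fun N => ∫ t in Ioo (0 : ℝ) 1, stair N t * (t * ballShape t ^ m)) atTop
      (𝓝 (∫ t in Ioo (0 : ℝ) 1, kernel t * (t * ballShape t ^ m))) := by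
    refine tendsto_integral_of_dominated_convergence (fun t => kernel t * ballShape t ^ m)
      (fun N => (integral_stair_mul N hidI).1.aestronglyMeasurable) (integrableOn_kernel_mul hm)
      (fun N => ?_) ?_
    · filter_upwards [ae_restrict_mem measurableSet_Ioo] with t ht
      obtain ⟨h1, h2⟩ := stair_bounds (N := N) ht
      have hp : 0 ≤ ballShape t ^ m := pow_nonneg (ballShape_nonneg t) m
      rw [Real.norm_eq_abs, abs_of_nonneg (mul_nonneg h1 (mul_nonneg ht.1.le hp))]
      exact mul_le_mul h2 (mul_le_of_le_one_left hp ht.2.le) (mul_nonneg ht.1.le hp) (h1.trans h2)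
    · filter_upwards [ae_restrict_mem measurableSet_Ioo] with t ht
      exact (stair_tendsto ht).mul_const _
  obtain ⟨N, hN⟩ := (hlim.eventually (eventually_gt_nhds
    (show (∫ t in Ioo (0 : ℝ) 1, kernel t * (t * ballShape t ^ m)) - ε * mass m ballShape 1 <
      ∫ t in Ioo (0 : ℝ) 1, kernel t * (t * ballShape t ^ m) from
      sub_lt_self _ (mul_pos hε hM0)))).exists
  set α : ℕ → ℝ := fun j => kernel (((j + 1 : ℕ) : ℝ) / N) - kernel ((j : ℝ) / N) with hα
  set a : ℕ → ℝ := fun j => ((j + 1 : ℕ) : ℝ) / N with ha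
  have haI : ∀ j ∈ Finset.range (N - 1), a j ∈ Ico (0 : ℝ) 1 := by
    intro j hj
    rw [Finset.mem_range] at hj
    have hN' : (0 : ℝ) < N := by exact_mod_cast (show 0 < N by omega)
    exact ⟨by positivity, (div_lt_one hN').2 (by exact_mod_cast (show j + 1 < N by omega))⟩
  have hα0 : ∀ j ∈ Finset.range (N - 1), 0 ≤ α j := fun j hj =>
    sub_nonneg.2 (kernel_le (by positivity) (by gcongr; omega) (haI j hj).2)
  refine ⟨fun ξ => ∑ j ∈ Finset.range (N - 1), α j * capFun K (a j) ξ,
    continuous_finsetSum _ fun j _ => continuous_const.mul (continuous_capFun hK _), ?_, ?_⟩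
  · have hint : ∀ j, IntegrableOn (fun x => α j * capFun K (a j) (normalAt K x)) K := fun j => by
      obtain ⟨Cw, hCw⟩ := exists_bound_normalAt hK.body.1 hK.zero_nhds
      obtain ⟨B, hB⟩ := (isCompact_closedBall (0 : EuclideanSpace ℝ (Fin (m + 1))) Cw)
        |>.exists_bound_of_continuousOn
          (continuous_const.mul (continuous_capFun hK (a j)) :
            Continuous fun ξ => α j * capFun K (a j) ξ).continuousOn
      exact IntegrableOn.of_bound hK.body.2.1.measure_lt_top
        ((continuous_const.mul (continuous_capFun hK (a j))).measurable.comp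
          measurable_normalAt).aestronglyMeasurable B
        (Eventually.of_forall fun x => hB _ (mem_closedBall_zero_iff.2 (hCw x)))
    rw [integral_finsetSum _ fun j _ => hint j]
    calc (quantileVal m ballShape - ε) * (volume K).toReal
        ≤ (∑ j ∈ Finset.range (N - 1), α j * tailMoment m (a j)) * (volume K).toReal := by
          refine mul_le_mul_of_nonneg_right ?_ ENNReal.toReal_nonneg
          have e : quantileVal m ballShape =
              (∫ t in Ioo (0 : ℝ) 1, kernel t * (t * ballShape t ^ m)) / mass m ballShape 1 := by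
            rw [quantileVal_eq]
            congr 1
            refine setIntegral_congr_fun measurableSet_Ioo fun t ht => ?_
            rw [transport_ball (Ioo_subset_Icc_self ht)]
          have h1 := (integral_stair_mul N hidI).2
          rw [h1] at hN
          rw [e]
          simp only [tailMoment, mul_div_assoc', ← Finset.sum_div]
          rw [div_sub' hM0.ne']
          gcongr
          linarith
      _ ≤ _ := by
          rw [Finset.sum_mul]
          refine Finset.sum_le_sum fun j hj => ?_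
          rw [integral_const_mul, mul_assoc]
          exact mul_le_mul_of_nonneg_left (capFun_mean (by omega) hK (haI j hj)) (hα0 j hj)
  · intro w v h
    have hφ := isShape_profile (by omega) hK h
    set φ := profile K w
    have hTI : IntegrableOn (fun t => transport m φ t * ballShape t ^ m) (Ioo 0 1) :=
      (integrableOn_transport_mul hφ hbI).congr_fun (fun t _ => mul_comm _ _) measurableSet_Ioo
    have hkI : IntegrableOn (fun t => kernel t * (transport m φ t * ballShape t ^ m)) (Ioo 0 1) :=
      (integrableOn_transport_mul hφ (integrableOn_kernel_mul hm)).congr_fun (fun t _ => by ring)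
        measurableSet_Ioo
    obtain ⟨hsI, hs⟩ := integral_stair_mul N hTI
    calc (∑ j ∈ Finset.range (N - 1), α j * capFun K (a j) w)
        ≤ ∑ j ∈ Finset.range (N - 1), α j *
            ((∫ t in a j..1, transport m φ t * ballShape t ^ m) / mass m ballShape 1) :=
          Finset.sum_le_sum fun j hj =>
            mul_le_mul_of_nonneg_left (capFun_le (by omega) hK h (haI j hj)) (hα0 j hj)
      _ = (∫ t in Ioo (0 : ℝ) 1, stair N t * (transport m φ t * ballShape t ^ m)) /
            mass m ballShape 1 := by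
          rw [hs, Finset.sum_div]
          simp only [hα, ha, mul_div_assoc']
      _ ≤ quantileVal m φ := by
          rw [quantileVal_eq]
          refine div_le_div_of_nonneg_right
            (setIntegral_mono_on hsI hkI measurableSet_Ioo fun t ht => ?_) hM0.le
          exact mul_le_mul_of_nonneg_right (stair_bounds ht).2
            (mul_nonneg (transport_spec (m := m) hφ (Ioo_subset_Icc_self ht)).1.1
              (pow_nonneg (ballShape_nonneg t) m))

end Vale.Agent.P237.Quant
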