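import Vale.Agent.P237.Quant.Packed
import Vale.Agent.P237.Quant.CertTree

/-!
The computable part of the spectral certificates: polynomials, supersolutions and the quadratic
condition, as far as the kernel evaluates them. Modules of data import only this file.
-/

namespace Vale.Agent.P237.Quant

open Four.Checker

/-- An integer polynomial in two variables over the denominator `k + 1`, with its value at any
integer point, a bound on its coefficients and bounds on its size. -/
structure QP where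
  k : ℕ
  num : P2
  pk : ℤ → ℤ → ℤ
  b : ℕ
  lx : ℕ
  ly : ℕ
  hpk : ∀ x y, pk x y = Packed.ev2z num x y
  hb : Packed.n2 num ≤ b
  hlx : num.length ≤ lx
  hly : width num ≤ ly

namespace QP

/-- A polynomial given by its coefficients. -/
def ofNum (k : ℕ) (P : P2) : QP :=
  ⟨k, P, fun x y => Packed.ev2z P x y, Packed.n2 P, P.length, width P, fun _ _ => rfl, le_rfl,
    le_rfl, le_rfl⟩

/-- The constant `a / (b + 1)`. -/
def const (a : ℤ) (b : ℕ) : QP := ofNum b [[a]]

/-- The first variable. -/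
def X : QP := ofNum 0 [[], [1]]

/-- The second variable. -/
def Y : QP := ofNum 0 [[0, 1]]

/-- The factor of the numerator in a sum. -/
def scale (k l : ℕ) : ℕ := Nat.lcm (k + 1) (l + 1) / (k + 1)

/-- Sum. -/
def add (A B : QP) : QP where
  k := Nat.lcm (A.k + 1) (B.k + 1) - 1
  num := add2 (smul2 (scale A.k B.k : ℕ) A.num) (smul2 (scale B.k A.k : ℕ) B.num)
  pk x y := (scale A.k B.k : ℕ) * A.pk x y + (scale B.k A.k : ℕ) * B.pk x y
  b := scale A.k B.k * A.b + scale B.k A.k * B.b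
  lx := max A.lx B.lx
  ly := max A.ly B.ly
  hpk x y := by rw [A.hpk, B.hpk, Packed.ev2z_add2, Packed.ev2z_smul2, Packed.ev2z_smul2]
  hb := (Packed.n2_add2 _ _).trans (by
    rw [Packed.n2_smul2, Packed.n2_smul2, Int.natAbs_natCast, Int.natAbs_natCast]
    exact Nat.add_le_add (Nat.mul_le_mul_left _ A.hb) (Nat.mul_le_mul_left _ B.hb))
  hlx := by
    rw [Packed.length_add2, Packed.length_smul2, Packed.length_smul2]
    exact max_le_max A.hlx B.hlx
  hly := (Packed.width_add2 _ _).trans (by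
    rw [Packed.width_smul2, Packed.width_smul2]
    exact max_le_max A.hly B.hly)

theorem length_mul2_sharp : ∀ k l : P2, (mul2 k l).length ≤ k.length + (l.length - 1)
  | [], l => by simp [mul2]
  | a :: k, l => by
      simp only [mul2, Packed.length_add2, Packed.length_rmul, List.length_cons]
      have := length_mul2_sharp k l
      omega

theorem length_mul1_sharp : ∀ k l : P1, (mul1 k l).length ≤ k.length + (l.length - 1)
  | [], l => by simp [mul1]
  | a :: k, l => by
      simp only [mul1, Packed.length_add1, Packed.length_smul1, List.length_cons]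
      have := length_mul1_sharp k l
      omega

theorem width_rmul_sharp (r : P1) : ∀ l : P2, width (rmul r l) ≤ r.length + (width l - 1)
  | [] => by simp [rmul, width]
  | a :: l => by
      simp only [rmul, width]
      have := width_rmul_sharp r l
      have := length_mul1_sharp r a
      omega

theorem width_mul2_sharp : ∀ k l : P2, width (mul2 k l) ≤ width k + (width l - 1)
  | [], l => by simp [mul2, width]
  | a :: k, l => by
      simp only [mul2, width]
      have h1 := Packed.width_add2 (rmul a l) ([] :: mul2 k l)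
      have h2 := width_rmul_sharp a l
      have h3 := width_mul2_sharp k l
      simp only [width, List.length_nil] at h1
      omega

/-- Product. -/
def mul (A B : QP) : QP where
  k := A.k * B.k + A.k + B.k
  num := mul2 A.num B.num
  pk x y := A.pk x y * B.pk x y
  b := A.b * B.b
  lx := A.lx + (B.lx - 1)
  ly := A.ly + (B.ly - 1)
  hpk x y := by rw [A.hpk, B.hpk, Packed.ev2z_mul2]
  hb := (Packed.n2_mul2 _ _).trans (Nat.mul_le_mul A.hb B.hb)
  hlx := (length_mul2_sharp _ _).trans (Nat.add_le_add A.hlx (Nat.sub_le_sub_right B.hlx 1))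
  hly := (width_mul2_sharp _ _).trans (Nat.add_le_add A.hly (Nat.sub_le_sub_right B.hly 1))

/-- Negative. -/
def neg (A : QP) : QP where
  k := A.k
  num := smul2 (-1) A.num
  pk x y := -A.pk x y
  b := A.b
  lx := A.lx
  ly := A.ly
  hpk x y := by rw [A.hpk, Packed.ev2z_smul2, neg_one_mul]
  hb := by simpa [Packed.n2_smul2] using A.hb
  hlx := by simpa [Packed.length_smul2] using A.hlx
  hly := by simpa [Packed.width_smul2] using A.hly

/-- Difference. -/
def sub (A B : QP) : QP := A.add B.neg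

/-- `weightPoly` at a polynomial. -/
def kappa (c : QP) : QP :=
  ((const 1 0).sub ((c.mul c).mul (((const 1 0).sub ((const 1 1).mul c)).sub
    ((const 1 3).mul (c.mul ((const 1 0).sub c)))))).sub
    ((((const 7 249).mul (c.mul c)).mul ((const 1 0).sub c)).mul ((const 1 0).add ((const 9 0).mul c)))

/-- `weightPoly'` at a polynomial. -/
def kappa' (c : QP) : QP :=
  (((((const (-2) 0).mul c).mul (((const 1 0).sub ((const 1 1).mul c)).sub
      ((const 1 3).mul (c.mul ((const 1 0).sub c))))).sub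
    ((c.mul c).mul ((const (-1) 1).sub ((const 1 3).mul ((const 1 0).sub ((const 2 0).mul c)))))).sub
    ((const 7 249).mul (((((const 2 0).mul c).mul ((const 1 0).sub c)).mul
      ((const 1 0).add ((const 9 0).mul c))).add
      ((c.mul c).mul ((const 8 0).sub ((const 18 0).mul c))))))

/-- `certOp · D² · Z` for `L = w N / D`, `L' = w² M / D²`, with `T = t²` and `S = Z n t²`. In bounded
`y` take `w = Z = 1`; for large `y` take `w = Z = 1 / y`. -/
def opPoly (c T S w Z g D N M : QP) : QP :=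
  let C := ((c.mul w).mul N).add (g.mul D)
  ((kappa c).mul ((((c.mul c).mul (C.mul D)).neg.mul Z |>.add
    (((T.mul c).mul (w.mul (N.mul D))).mul Z)).add
    ((((c.mul c).mul S).neg.mul ((w.mul w).mul M)).add (S.mul (C.mul (D.sub C)))))).add
    ((((kappa' c).mul c).mul (T.mul (C.mul D))).mul Z)

/-- The packed value decodes to the padded coefficients. -/
theorem dig2_pk (A : QP) :
    Packed.dig2 (Packed.base A.b) A.ly A.lx
        (A.pk (Packed.powZ (Packed.base A.b) A.ly) (Packed.base A.b)) =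
      Packed.pad2 A.ly A.lx A.num := by
  rw [A.hpk]
  exact Packed.dig2_eq A.ly A.lx A.num A.hlx A.hly
    (lt_of_le_of_lt (by exact_mod_cast Nat.mul_le_mul_left 2 A.hb) (Packed.base_gt A.b))

/-- The same polynomial, given by the coefficients decoded from its packed value: a polynomial
used several times is then evaluated only once at a large point. -/
def repack (A : QP) : QP where
  k := A.k
  num := Packed.dig2 (Packed.base A.b) A.ly A.lx
    (A.pk (Packed.powZ (Packed.base A.b) A.ly) (Packed.base A.b))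
  pk x y := Packed.ev2z (Packed.dig2 (Packed.base A.b) A.ly A.lx
    (A.pk (Packed.powZ (Packed.base A.b) A.ly) (Packed.base A.b))) x y
  b := A.b
  lx := A.lx
  ly := A.ly
  hpk _ _ := rfl
  hb := by rw [dig2_pk, Packed.n2_pad2]; exact A.hb
  hlx := by rw [dig2_pk, Packed.length_pad2 _ _ _ A.hlx]
  hly := by rw [dig2_pk]; exact Packed.width_pad2 _ _ _ A.hly

/-- The checks for a polynomial on a subdivided closed rectangle. -/
def checkTree (A : QP) (B : Box) : WeightCert.Tree → Bool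
  | .leaf => Packed.fastOn B A.pk A.b A.lx A.ly
  | .cutT m a b => decide (B.ta < m ∧ m < B.tb) &&
      (checkTree A { B with tb := m } a && checkTree A { B with ta := m } b)
  | .cutY m a b => decide (B.ya < m ∧ m < B.yb) &&
      (checkTree A { B with yb := m } a && checkTree A { B with ya := m } b)

end QP

namespace QP

/-- `D` of a family with polynomial coefficients. -/
def famD (a₁ b₁ a₂ b₂ a₃ b₃ w v : QP) : QP :=
  (((a₁.mul w).add (b₁.mul v)).mul ((a₂.mul w).add (b₂.mul v))).mul ((a₃.mul w).add (b₃.mul v))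

/-- `N` of a family with polynomial coefficients. -/
def famN (a₁ b₁ a₂ b₂ a₃ b₃ e₁ e₂ e₃ w v : QP) : QP :=
  let l₁ := (a₁.mul w).add (b₁.mul v)
  let l₂ := (a₂.mul w).add (b₂.mul v)
  let l₃ := (a₃.mul w).add (b₃.mul v)
  (((e₁.mul b₁).mul (l₂.mul l₃)).add ((e₂.mul b₂).mul (l₁.mul l₃))).add
    ((e₃.mul b₃).mul (l₁.mul l₂))

/-- `M` of a family with polynomial coefficients. -/
def famM (a₁ b₁ a₂ b₂ a₃ b₃ e₁ e₂ e₃ w v : QP) : QP :=
  let t₁ := b₁.mul (((a₂.mul w).add (b₂.mul v)).mul ((a₃.mul w).add (b₃.mul v)))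
  let t₂ := b₂.mul (((a₁.mul w).add (b₁.mul v)).mul ((a₃.mul w).add (b₃.mul v)))
  let t₃ := b₃.mul (((a₁.mul w).add (b₁.mul v)).mul ((a₂.mul w).add (b₂.mul v)))
  (((e₁.mul (t₁.mul t₁)).add (e₂.mul (t₂.mul t₂))).add (e₃.mul (t₃.mul t₃))).neg

/-- The operator of a family, cleared of denominators, as a polynomial. -/
def famOp (c T S Z g a₁ b₁ a₂ b₂ a₃ b₃ e₁ e₂ e₃ w v : QP) : QP :=
  opPoly c T S w Z g (famD a₁ b₁ a₂ b₂ a₃ b₃ w v) (famN a₁ b₁ a₂ b₂ a₃ b₃ e₁ e₂ e₃ w v)
    (famM a₁ b₁ a₂ b₂ a₃ b₃ e₁ e₂ e₃ w v)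

end QP

open QP

/-- The number `(a + b s) / (k + 1)`. -/
structure Lin where
  a : ℤ
  b : ℤ
  k : ℕ

namespace Lin

/-- The polynomial, at a polynomial value of `s`. -/
def qp (l : Lin) (S : QP) : QP := (const l.a l.k).add ((const l.b l.k).mul S)

end Lin

/-- The potential and the coefficient of the energy of a certificate. -/
structure CertPot where
  A : Lin
  B : Lin
  la : Lin
  lb : Lin
  lc : Lin
  cen : Lin
  s0 : Lin

/-- A supersolution: three linear factors with exponents and a power of the ball profile. -/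
structure CertFam where
  a₁ : Lin
  b₁ : Lin
  a₂ : Lin
  b₂ : Lin
  a₃ : Lin
  b₃ : Lin
  e₁ : Lin
  e₂ : Lin
  e₃ : Lin
  g : Lin

/-- A chart: `p`, `t ^ 2`, `Z n t ^ 2`, the scale `Z`, `w`, `v = y w` and `1/n`. -/
structure Chart where
  c : QP
  T : QP
  S : QP
  Z : QP
  w : QP
  v : QP
  s : QP

/-- The polynomials of a supersolution on a chart. -/
def superPolys (K : CertPot) (P : CertFam) (R : Chart) : List QP :=
  let q (l : Lin) := l.qp R.s
  let op := famOp R.c R.T R.S R.Z (q P.g) (q P.a₁) (q P.b₁) (q P.a₂) (q P.b₂) (q P.a₃) (q P.b₃)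
    (q P.e₁) (q P.e₂) (q P.e₃) R.w R.v
  let D := famD (q P.a₁) (q P.b₁) (q P.a₂) (q P.b₂) (q P.a₃) (q P.b₃) R.w R.v
  let D2 := D.mul D
  let lin := (((q K.la).add ((q K.lc).mul R.c)).mul R.Z).add ((q K.lb).mul R.v)
  let top := (q K.cen).mul op
  let s0 := (q K.s0).mul R.Z
  let eps := (const 1 999999).mul R.w
  [top.sub ((((R.Z.mul (q K.A)).add lin).add s0).mul D2),
    top.sub ((((((q K.B).mul (QP.kappa R.c)).mul R.S).add lin).add s0).mul D2),
    (((q P.a₁).mul R.w).add ((q P.b₁).mul R.v)).sub eps,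
    (((q P.a₂).mul R.w).add ((q P.b₂).mul R.v)).sub eps,
    (((q P.a₃).mul R.w).add ((q P.b₃).mul R.v)).sub eps]

/-- The polynomial of the sign of the flux on a chart. -/
def fluxPoly (P : CertFam) (R : Chart) : QP :=
  let q (l : Lin) := l.qp R.s
  let D := famD (q P.a₁) (q P.b₁) (q P.a₂) (q P.b₂) (q P.a₃) (q P.b₃) R.w R.v
  ((((R.c.mul R.w).mul (famN (q P.a₁) (q P.b₁) (q P.a₂) (q P.b₂) (q P.a₃) (q P.b₃) (q P.e₁)
    (q P.e₂) (q P.e₃) R.w R.v)).add ((q P.g).mul D))).mul D

/-- The nodes and the range of `1/n`, over the denominator `D`. -/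
structure CertGrid where
  Y₁ : Lin
  Y₂ : Lin
  Y₃ : Lin
  D : ℤ
  lo : ℤ
  hi : ℤ
  wb : ℤ
  pb : ℤ

namespace CertGrid

variable (G : CertGrid)

/-- The chart of `y` between two affine ends. -/
def chart (lo hi : QP) : Chart :=
  let y := lo.add (Y.mul (hi.sub lo))
  let c := (const 1 0).sub (X.mul y)
  ⟨c, (X.mul y).mul ((const 1 0).add c), y.mul ((const 1 0).add c), const 1 0, const 1 0, y, X⟩

/-- The chart of large `y`. -/
def farChart : Chart :=
  ⟨X, (const 1 0).sub (X.mul X), (const 1 0).add X, Y, Y, const 1 0,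
    ((const 1 0).sub X).mul Y⟩

/-- The box of a chart. -/
def box : Box := ⟨G.D, G.lo, G.hi, 0, G.D⟩

/-- The box of the chart of large `y`. -/
def farBox : Box := ⟨G.D, 0, G.pb, G.lo, G.wb⟩

/-- The chart of large `y` in the variables `p` and `1/n`. -/
def farChartS : Chart :=
  ⟨X, (const 1 0).sub (X.mul X), (const 1 0).sub (X.mul X), Y, Y, (const 1 0).sub X, Y⟩

/-- The box of that chart. -/
def farBoxS : Box := ⟨G.D, 0, G.pb, G.lo, G.hi⟩

/-- The conditions on the grid. -/
def gridPolys : List QP :=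
  let e := const 1 999999
  [(G.Y₁.qp X).sub e, ((G.Y₂.qp X).sub (G.Y₁.qp X)).sub e, ((G.Y₃.qp X).sub (G.Y₂.qp X)).sub e,
    ((const 1 0).sub (X.mul (G.Y₂.qp X))).sub e,
    (((const G.wb 0).mul (G.Y₃.qp X)).sub (const G.D 0)).sub e,
    (((const G.D 0).mul (X.mul (G.Y₃.qp X))).add (const (G.pb - G.D) 0)).sub e,
    (const G.pb 0).sub e, (const (G.wb - G.lo) 0).sub e]

end CertGrid

/-- Checks of a list of polynomials on one box. -/
def checkAll (B : Box) : List QP → List WeightCert.Tree → Bool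
  | [], [] => true
  | A :: l, T :: r => checkTree A B T && checkAll B l r
  | _, _ => false

/-- The checks of the three supersolutions. -/
def superCheck (K : CertPot) (P₀ P₁ P₂ : CertFam) (G : CertGrid)
    (tg t0 t1 t2 t3 : List WeightCert.Tree) : Bool :=
  let y₁ := G.Y₁.qp X
  let y₂ := G.Y₂.qp X
  let R₂ := CertGrid.chart y₂ (G.Y₃.qp X)
  let R₃ := CertGrid.farChart
  checkAll G.box (K.cen.qp X :: K.s0.qp X :: G.gridPolys) tg &&
    checkAll G.box (superPolys K P₀ (CertGrid.chart (const 0 0) y₁)) t0 &&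
    checkAll G.box (superPolys K P₁ (CertGrid.chart y₁ y₂)) t1 &&
    checkAll G.box (fluxPoly P₂ R₂ :: superPolys K P₂ R₂) t2 &&
    checkAll G.farBox (fluxPoly P₂ R₃ :: superPolys K P₂ R₃) t3

/-- The log derivatives do not jump upwards where two families meet. -/
def junctionPoly (P P' : CertFam) (R : Chart) : QP :=
  let q (l : Lin) := l.qp R.s
  let D := famD (q P.a₁) (q P.b₁) (q P.a₂) (q P.b₂) (q P.a₃) (q P.b₃) R.w R.v
  let D' := famD (q P'.a₁) (q P'.b₁) (q P'.a₂) (q P'.b₂) (q P'.a₃) (q P'.b₃) R.w R.v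
  let N := famN (q P.a₁) (q P.b₁) (q P.a₂) (q P.b₂) (q P.a₃) (q P.b₃) (q P.e₁) (q P.e₂) (q P.e₃)
    R.w R.v
  let N' := famN (q P'.a₁) (q P'.b₁) (q P'.a₂) (q P'.b₂) (q P'.a₃) (q P'.b₃) (q P'.e₁) (q P'.e₂)
    (q P'.e₃) R.w R.v
  ((((R.c.mul R.w).mul N).add ((q P.g).mul D)).mul D').sub
    ((((R.c.mul R.w).mul N').add ((q P'.g).mul D')).mul D)

/-- The checks of four supersolutions, the outer two glued at `Z`. -/
def splitCheck (K : CertPot) (P₀ P₁ P₂ P₃ : CertFam) (G : CertGrid) (Z : Lin)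
    (tg t0 t1 t2 tj t3 t4 : List WeightCert.Tree) : Bool :=
  let y₁ := G.Y₁.qp X
  let y₂ := G.Y₂.qp X
  let z := Z.qp X
  let R₂ := CertGrid.chart y₂ z
  let R₃ := CertGrid.chart z (G.Y₃.qp X)
  let R₄ := CertGrid.farChartS
  let e := const 1 999999
  checkAll G.box (K.cen.qp X :: K.s0.qp X :: ((z.sub y₂).sub e) :: (((G.Y₃.qp X).sub z).sub e) ::
      (((const 1 0).sub (X.mul z)).sub e) :: G.gridPolys) tg &&
    checkAll G.box (superPolys K P₀ (CertGrid.chart (const 0 0) y₁)) t0 &&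
    checkAll G.box (superPolys K P₁ (CertGrid.chart y₁ y₂)) t1 &&
    checkAll G.box (superPolys K P₂ R₂) t2 &&
    checkAll G.box [junctionPoly P₂ P₃ (CertGrid.chart z z)] tj &&
    checkAll G.box (fluxPoly P₃ R₃ :: superPolys K P₃ R₃) t3 &&
    (if G.lo = 0 then
      checkAll G.farBox (fluxPoly P₃ CertGrid.farChart :: superPolys K P₃ CertGrid.farChart) t4
    else checkAll G.farBoxS (fluxPoly P₃ R₄ :: superPolys K P₃ R₄) t4)

/-- The split check from its parts, which the kernel evaluates one at a time. -/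
theorem splitCheck_of_parts {K : CertPot} {P₀ P₁ P₂ P₃ : CertFam} {G : CertGrid} {Z : Lin}
    {tg t0 t1 t2 tj t3 t4 : List WeightCert.Tree}
    (hg : checkAll G.box (K.cen.qp X :: K.s0.qp X :: (((Z.qp X).sub (G.Y₂.qp X)).sub
      (const 1 999999)) :: (((G.Y₃.qp X).sub (Z.qp X)).sub (const 1 999999)) ::
      (((const 1 0).sub (X.mul (Z.qp X))).sub (const 1 999999)) :: G.gridPolys) tg = true)
    (h0 : checkAll G.box (superPolys K P₀ (CertGrid.chart (const 0 0) (G.Y₁.qp X))) t0 = true)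
    (h1 : checkAll G.box (superPolys K P₁ (CertGrid.chart (G.Y₁.qp X) (G.Y₂.qp X))) t1 = true)
    (h2 : checkAll G.box (superPolys K P₂ (CertGrid.chart (G.Y₂.qp X) (Z.qp X))) t2 = true)
    (hj : checkAll G.box [junctionPoly P₂ P₃ (CertGrid.chart (Z.qp X) (Z.qp X))] tj = true)
    (h3 : checkAll G.box (fluxPoly P₃ (CertGrid.chart (Z.qp X) (G.Y₃.qp X)) ::
      superPolys K P₃ (CertGrid.chart (Z.qp X) (G.Y₃.qp X))) t3 = true)
    (h4 : (if G.lo = 0 then
      checkAll G.farBox (fluxPoly P₃ CertGrid.farChart :: superPolys K P₃ CertGrid.farChart) t4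
    else checkAll G.farBoxS (fluxPoly P₃ CertGrid.farChartS :: superPolys K P₃ CertGrid.farChartS)
      t4) = true) : splitCheck K P₀ P₁ P₂ P₃ G Z tg t0 t1 t2 tj t3 t4 = true := by
  simp only [splitCheck, Bool.and_eq_true]
  exact ⟨⟨⟨⟨⟨⟨hg, h0⟩, h1⟩, h2⟩, hj⟩, h3⟩, h4⟩

namespace QP

/-- The polynomial `1 + i s`. -/
def lin (i : ℤ) : QP := (const 1 0).add ((const i 0).mul X)

end QP

/-- Factors of the steps in `k` below the index. -/
def momA (b : ℕ) : ℕ → QP
  | 0 => const 1 0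
  | i + 1 => (momA b i).mul (lin (((b + 2 * i : ℕ) : ℤ) - 4))

/-- Factors of the steps in `k` above the index, with `J` the largest power of `X`. -/
def momB (J : ℕ) : ℕ → ℕ → QP
  | 0, _ => const 1 0
  | f + 1, k => (lin (((k + 2 * J : ℕ) : ℤ) - 3)).mul (momB J f (k + 2))

/-- Factors of the steps in `j`. -/
def momD (k : ℕ) : ℕ → ℕ → QP
  | 0, _ => const 1 0
  | g + 1, j => (lin (((k + 2 * j : ℕ) : ℤ) - 3)).mul (momD k g (j + 1))

/-- The odd double factorial. -/
def oddFac : ℕ → ℕ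
  | 0 => 1
  | j + 1 => oddFac j * (2 * j + 1)

/-- The numerator of the moment with `k = b + 2 i`. -/
def momNum (I J b i j : ℕ) : QP :=
  ((const (oddFac j) 0).mul (momA b i)).mul
    ((momB J (I - i) (b + 2 * i)).mul (momD (b + 2 * i) (J - j) j))

/-- A monomial `c p ^ k X ^ j`. -/
structure Mono where
  c : QP
  k : ℕ
  j : ℕ

/-- Polynomials in `p` and `X`. -/
abbrev MP := List Mono

namespace MP

/-- The order of the monomials, with a bounded power of `X`. -/
def key (a : Mono) : ℕ := 64 * a.k + a.j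

/-- One step of merging, with `l` merged by `f`. -/
def mergeWith (a : Mono) (al : MP) (f : MP → MP) : MP → MP
  | [] => al
  | b :: q =>
    bif Nat.blt (key a) (key b) then a :: f (b :: q)
    else bif Nat.beq a.k b.k && Nat.beq a.j b.j then ⟨a.c.add b.c, a.k, a.j⟩ :: f q
    else b :: mergeWith a al f q

/-- Sum: the merge of two ordered lists. -/
def add : MP → MP → MP
  | [], q => q
  | a :: l, q => mergeWith a (a :: l) (add l) q

/-- Product with a monomial. -/
def smul (a : Mono) : MP → MP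
  | [] => []
  | b :: l => ⟨a.c.mul b.c, a.k + b.k, a.j + b.j⟩ :: smul a l

/-- Product. -/
def mul : MP → MP → MP
  | [], _ => []
  | a :: l, q => add (smul a q) (mul l q)

/-- The sum of the numerators of one parity. -/
def side (I J b : ℕ) : MP → QP
  | [] => const 0 0
  | a :: l =>
    if a.k % 2 = b then (a.c.mul (momNum I J b (a.k / 2) a.j)).add (side I J b l) else side I J b l

/-- The range condition. -/
def inRange (I J : ℕ) : MP → Bool
  | [] => true
  | a :: l => decide (a.k / 2 ≤ I) && decide (a.j ≤ J) && inRange I J l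

/-- The numerator of the integral, for the ratio `r` of consecutive masses. -/
def total (I J : ℕ) (r : QP) (l : MP) : QP :=
  (((side I J 0 l).mul r).mul (momNum I J 1 2 0)).add ((side I J 1 l).mul (momNum I J 0 2 0))

/-- The denominator of the integral. -/
def totalDen (I J : ℕ) (r : QP) : QP := (r.mul (momNum I J 1 2 0)).mul (momNum I J 0 2 0)

end MP

/-- The product of `1 + (k + 2 i - 4) s` for `i < g`. -/
def tailFac : ℕ → ℕ → QP
  | 0, _ => const 1 0
  | g + 1, k => (lin ((k : ℤ) - 4)).mul (tailFac g (k + 2))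

/-- The numerator of the tail moment over `tailFac (j + 1) k`, at the cut `c`, `X₀`. -/
def tailRaw (c X₀ : QP) : ℕ → ℕ → QP
  | 0, k => pw c k
  | j + 1, k => ((pw c k).mul ((pw X₀ (j + 1)).mul (tailFac (j + 1) (k + 2)))).add
      ((const (2 * ((j : ℤ) + 1)) 0).mul (tailRaw c X₀ j (k + 2)))
where
  /-- Powers. -/
  pw (A : QP) : ℕ → QP
  | 0 => const 1 0
  | i + 1 => A.mul (pw A i)

namespace MP

/-- `s p ^ 4 / t` times the derivative of `P / p ^ 2`, for `s = 1 / (m + 1)`. -/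
def dTest : MP → MP
  | [] => []
  | a :: l => add [⟨((a.c.mul (const (2 - (a.k : ℤ)) 0)).mul X), a.k, a.j⟩,
      ⟨a.c.mul (const (2 * (a.j : ℤ)) 0), a.k + 2, a.j - 1⟩] (dTest l)

/-- `p ^ 2` times the derivative of `t p ^ (m - 1) P`, over `p ^ (m - 1)`. -/
def dFlux : MP → MP
  | [] => []
  | a :: l => add [⟨a.c.mul ((const (-1) 0).mul (lin ((a.k : ℤ) - 2))), a.k, a.j + 1⟩,
      ⟨a.c.mul (const (1 + 2 * (a.j : ℤ)) 0), a.k + 2, a.j⟩] (dFlux l)

/-- `weightPoly` as a polynomial in `p`. -/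
def kappaMP : MP :=
  [⟨const 1 0, 0, 0⟩, ⟨const (-257) 249, 2, 0⟩, ⟨const 263 499, 3, 0⟩, ⟨const 1 499, 4, 0⟩]

end MP

open MP

/-- The data of the quadratic condition; the test functions are lists `(c, k, j)` of monomials
`c p ^ k X ^ j` of `P`, for `u = P / p ^ 2`. -/
structure CertTests where
  P₁ : List (Lin × ℕ × ℕ)
  P₂ : List (Lin × ℕ × ℕ)
  T₁ : Lin
  T₂ : Lin
  S₁ : Lin
  S₂ : Lin
  mu : Lin
  th : Lin
  y₀ : Lin
  R : Lin
  bnd : QP
  ka : QP
  I : ℕ
  J : ℕ
  N : ℕ

/-- A test function as a polynomial. -/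
def mkTest : List (Lin × ℕ × ℕ) → MP
  | [] => []
  | a :: l => ⟨a.1.qp QP.X, a.2.1, a.2.2⟩ :: mkTest l

/-- Multiple of a polynomial. -/
def scalMP (c : QP) (l : MP) : MP := smul ⟨c, 0, 0⟩ l

/-- The ratio of consecutive masses, with the parameter of the bracket. -/
def ratioQP : QP :=
  ((const 1 0).add ((const 1 1).mul X)).add ((X.mul X).mul
    (((const 1 7).sub ((const 1 15).mul X)).sub ((const 1 23).mul (Y.mul (X.mul X)))))

/-- The product of all factors `1 + (i - 4) s`, `i ≤ N`. -/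
def tailFull : ℕ → QP
  | 0 => lin (-4)
  | i + 1 => (lin ((i : ℤ) + 1 - 4)).mul (tailFull i)

/-- The cofactor of `tailFac (j + 1) k`. -/
def tailComp (k j : ℕ) : ℕ → QP
  | 0 => if k ≤ 0 ∧ 0 ≤ k + 2 * j ∧ (0 + k) % 2 = 0 then const 1 0 else lin (-4)
  | i + 1 =>
    if k ≤ i + 1 ∧ i + 1 ≤ k + 2 * j ∧ (i + 1 + k) % 2 = 0 then tailComp k j i
    else (lin ((i : ℤ) + 1 - 4)).mul (tailComp k j i)

/-- The cofactors fit. -/
def tailOK (N : ℕ) : MP → Bool
  | [] => true
  | a :: l => decide (a.k + 2 * a.j ≤ N) && tailOK N l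

/-- The numerator of the tail integral of a polynomial. -/
def tailSum (c X₀ : QP) (N : ℕ) : MP → QP
  | [] => const 0 0
  | a :: l => (a.c.mul ((tailRaw c X₀ a.j a.k).mul (tailComp a.k a.j N))).add (tailSum c X₀ N l)

namespace CertTests

variable (K : CertPot) (D : CertTests)

/-- `s` times the potential without the kink. -/
def qBase : MP :=
  [⟨(X.mul ((K.A.qp X).add (K.la.qp X))).add (K.lb.qp X), 0, 0⟩,
    ⟨(X.mul (K.lc.qp X)).sub (K.lb.qp X), 1, 0⟩]

/-- `s` times the defect without the kink, over `p ^ (m - 3) 2 / m`. -/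
def defect (P : MP) : MP :=
  scalMP (const (-1) 0) (MP.add (scalMP (X.mul (K.cen.qp X)) (dFlux (MP.mul kappaMP (dTest P))))
    (MP.mul (qBase K) P))

/-- `p ^ 2 (r p - 1)`. -/
def ellMP : MP := [⟨const (-1) 0, 2, 0⟩, ⟨ratioQP, 3, 0⟩]

/-- The shifted defect. -/
def shifted (P : MP) (T S : Lin) : MP :=
  MP.add (defect K P) (MP.add (scalMP (T.qp X) ellMP) [⟨X.mul (S.qp X), 2, 0⟩])

/-- `p` at the cut. -/
def cutP : QP := (const 1 0).sub (X.mul (D.y₀.qp X))

/-- `X` at the cut. -/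
def cutX : QP := (D.y₀.qp X).mul ((const 1 0).add D.cutP)

/-- The bound of the kink. -/
def kinkMP : MP :=
  MP.add (scalMP (K.B.qp X) (MP.mul kappaMP [⟨const 1 0, 0, 1⟩]))
    [⟨(((K.B.qp X).mul (QP.kappa D.cutP)).mul D.cutX).neg, 0, 0⟩]

/-- The integrand of an entry. -/
def entryMP (Pa Pb : MP) (Ta Tb Sa Sb : Lin) : MP :=
  let w := (K.s0.qp X).mul (D.th.qp X)
  MP.add (scalMP (w.mul X) (MP.add (MP.mul (defect K Pa) Pb)
      (MP.add (MP.add (scalMP (Ta.qp X) (MP.mul ellMP Pb)) (scalMP (Tb.qp X) (MP.mul ellMP Pa)))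
        (MP.add (scalMP (X.mul (Sa.qp X)) (MP.mul [⟨const 1 0, 2, 0⟩] Pb))
          (scalMP (X.mul (Sb.qp X)) (MP.mul [⟨const 1 0, 2, 0⟩] Pa))))))
    (scalMP (D.th.qp X).neg (MP.mul (shifted K Pa Ta Sa) (shifted K Pb Tb Sb)))

/-- The majorant of the kink in an entry. -/
def tailMP (Pa Pb : MP) (Ta Tb Sa Sb : Lin) : MP :=
  let Q := MP.add [⟨(K.s0.qp X).add (D.th.qp X), 0, 0⟩] (D.kinkMP K)
  MP.mul (D.kinkMP K) (MP.add (scalMP ((X.mul X).mul (D.th.qp X)) (MP.mul Q (MP.mul Pa Pb)))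
    (MP.mul (shifted K Pa Ta Sa) (shifted K Pb Tb Sb)))

/-- An entry of the matrix. -/
def entry (a b : List (Lin × ℕ × ℕ)) (Ta Tb Sa Sb : Lin) : QP :=
  let den := totalDen D.I D.J ratioQP
  let m2 := (const 2 0).mul (D.mu.qp X)
  let one := (const 1 0).sub X
  let TD := tailFull D.N
  ((m2.mul one).mul ((TD.mul (total D.I D.J ratioQP
      (D.entryMP K (mkTest a) (mkTest b) Ta Tb Sa Sb))).sub
    ((D.bnd.mul den).mul (tailSum D.cutP D.cutX D.N
      (D.tailMP K (mkTest a) (mkTest b) Ta Tb Sa Sb))))).sub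
    ((((K.s0.qp X).mul (D.th.qp X)).mul ((X.mul X).mul ((Ta.qp X).mul (Tb.qp X)))).mul (den.mul TD))

/-- A polynomial at a point `(p, X)`. -/
def atPoint (c X₀ : QP) : MP → QP
  | [] => const 0 0
  | a :: l => (a.c.mul ((tailRaw.pw c a.k).mul (tailRaw.pw X₀ a.j))).add (atPoint c X₀ l)

/-- The determinant at the nodes. -/
def nodeDet (G : CertGrid) : QP :=
  let c (Y : Lin) := (const 1 0).sub (X.mul (Y.qp X))
  let x (Y : Lin) := (Y.qp X).mul ((const 1 0).add (c Y))
  ((atPoint (c G.Y₁) (x G.Y₁) (mkTest D.P₁)).mul (atPoint (c G.Y₂) (x G.Y₂) (mkTest D.P₂))).sub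
    ((atPoint (c G.Y₁) (x G.Y₁) (mkTest D.P₂)).mul (atPoint (c G.Y₂) (x G.Y₂) (mkTest D.P₁)))

/-- The partial sums of the exponential series. -/
def expSum (z : QP) : ℕ → QP
  | 0 => const 0 0
  | i + 1 => (expSum z i).add ((tailRaw.pw z i).mul (const 1 (i.factorial - 1)))

/-- The exponent of the decay of `p ^ (m - 3)` at the cut. -/
def cutExp : QP :=
  ((D.y₀.qp X).mul ((const 1 0).sub ((const 4 0).mul X))).mul
    (((const 1 0).add ((const 1 1).mul (X.mul (D.y₀.qp X)))).add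
      (((X.mul (D.y₀.qp X)).mul (X.mul (D.y₀.qp X))).mul
        ((const 1 2).add ((const 1 3).mul (X.mul (D.y₀.qp X))))))

/-- The scalar conditions. -/
def scalars (G : CertGrid) : List QP :=
  let e := const 1 999999
  [(D.mu.qp X).sub e, (D.th.qp X).sub e, (K.s0.qp X).sub e, (D.y₀.qp X).sub e, D.cutP.sub e,
    K.B.qp X, (K.A.qp X).sub (((K.B.qp X).mul (QP.kappa D.cutP)).mul D.cutX), D.R.qp X,
    ((const 157 99).mul D.cutX).sub ((D.R.qp X).mul (D.R.qp X)), D.cutExp, D.bnd,
    (((D.bnd.mul (D.R.qp X)).mul (expSum D.cutExp 13))).sub (const 1 0), (D.nodeDet G).sub e]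

/-- The matrix: for `k > 0` and `b ≥ 0`, the conditions `k b ≤ a` and `b ≤ k c` give `b ^ 2 ≤ a c`. -/
def matrix : List QP :=
  let a := (D.entry K D.P₁ D.P₁ D.T₁ D.T₁ D.S₁ D.S₁).repack
  let b := (D.entry K D.P₁ D.P₂ D.T₁ D.T₂ D.S₁ D.S₂).repack
  let c := (D.entry K D.P₂ D.P₂ D.T₂ D.T₂ D.S₂ D.S₂).repack
  let k := D.ka
  [a.sub (k.mul b), (k.mul c).sub b, b, k.sub (const 1 999999)]

/-- The structural conditions. -/
def shapeOK : Bool :=
  decide (2 ≤ D.I) &&
  (inRange D.I D.J (D.entryMP K (mkTest D.P₁) (mkTest D.P₁) D.T₁ D.T₁ D.S₁ D.S₁) &&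
  inRange D.I D.J (D.entryMP K (mkTest D.P₁) (mkTest D.P₂) D.T₁ D.T₂ D.S₁ D.S₂) &&
  inRange D.I D.J (D.entryMP K (mkTest D.P₂) (mkTest D.P₂) D.T₂ D.T₂ D.S₂ D.S₂)) &&
  (tailOK D.N (D.tailMP K (mkTest D.P₁) (mkTest D.P₁) D.T₁ D.T₁ D.S₁ D.S₁) &&
  tailOK D.N (D.tailMP K (mkTest D.P₁) (mkTest D.P₂) D.T₁ D.T₂ D.S₁ D.S₂) &&
  tailOK D.N (D.tailMP K (mkTest D.P₂) (mkTest D.P₂) D.T₂ D.T₂ D.S₂ D.S₂))

/-- All checks of the quadratic condition. -/
def check (G : CertGrid) (ts tm : List WeightCert.Tree) : Bool :=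
  D.shapeOK K && checkAll G.box (D.scalars K G) ts && checkAll G.box (D.matrix K) tm

end CertTests

end Vale.Agent.P237.Quant
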