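import Vale.Agent.P237.Quant.CertPoly

/-!
The supersolutions used by the certificates: products of powers of three positive linear functions
of `y`, times a power of the ball profile.
-/

namespace Vale.Agent.P237.Quant

open Real Set

/-- Three linear functions `α + β y` with their exponents. -/
structure Fam where
  α₁ : ℝ
  β₁ : ℝ
  α₂ : ℝ
  β₂ : ℝ
  α₃ : ℝ
  β₃ : ℝ
  e₁ : ℝ
  e₂ : ℝ
  e₃ : ℝ

namespace Fam

variable (F : Fam)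

/-- The three linear functions are positive at `y`. -/
def Pos (y : ℝ) : Prop := 0 < F.α₁ + F.β₁ * y ∧ 0 < F.α₂ + F.β₂ * y ∧ 0 < F.α₃ + F.β₃ * y

/-- The product of the powers. -/
noncomputable def u (y : ℝ) : ℝ :=
  (F.α₁ + F.β₁ * y) ^ F.e₁ * (F.α₂ + F.β₂ * y) ^ F.e₂ * (F.α₃ + F.β₃ * y) ^ F.e₃

/-- Its log derivative. -/
noncomputable def L (y : ℝ) : ℝ :=
  F.e₁ * F.β₁ / (F.α₁ + F.β₁ * y) + F.e₂ * F.β₂ / (F.α₂ + F.β₂ * y) +
    F.e₃ * F.β₃ / (F.α₃ + F.β₃ * y)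

/-- The derivative of the log derivative. -/
noncomputable def L' (y : ℝ) : ℝ :=
  -(F.e₁ * F.β₁ ^ 2 / (F.α₁ + F.β₁ * y) ^ 2 + F.e₂ * F.β₂ ^ 2 / (F.α₂ + F.β₂ * y) ^ 2 +
    F.e₃ * F.β₃ ^ 2 / (F.α₃ + F.β₃ * y) ^ 2)

theorem u_pos {y : ℝ} (h : F.Pos y) : 0 < F.u y :=
  mul_pos (mul_pos (rpow_pos_of_pos h.1 _) (rpow_pos_of_pos h.2.1 _)) (rpow_pos_of_pos h.2.2 _)

theorem hasDerivAt_u {y : ℝ} (h : F.Pos y) : HasDerivAt F.u (F.u y * F.L y) y := by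
  have d : ∀ α β : ℝ, HasDerivAt (fun x : ℝ => α + β * x) β y := fun α β => by
    simpa using ((hasDerivAt_id y).const_mul β).const_add α
  refine ((((d F.α₁ F.β₁).rpow_const (Or.inl h.1.ne')).mul
    ((d F.α₂ F.β₂).rpow_const (Or.inl h.2.1.ne'))).mul
      ((d F.α₃ F.β₃).rpow_const (Or.inl h.2.2.ne'))).congr_deriv ?_
  simp only [u, L, Pi.mul_apply]
  rw [rpow_sub_one h.1.ne', rpow_sub_one h.2.1.ne', rpow_sub_one h.2.2.ne']
  ring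

theorem hasDerivAt_L {y : ℝ} (h : F.Pos y) : HasDerivAt F.L (F.L' y) y := by
  have d : ∀ e α β : ℝ, 0 < α + β * y →
      HasDerivAt (fun x : ℝ => e * β / (α + β * x)) (-(e * β ^ 2 / (α + β * y) ^ 2)) y :=
    fun e α β hp => by
      refine ((hasDerivAt_const y (e * β)).div (((hasDerivAt_id y).const_mul β).const_add α)
        hp.ne').congr_deriv ?_
      simp
      ring
  refine (((d _ _ _ h.1).add (d _ _ _ h.2.1)).add (d _ _ _ h.2.2)).congr_deriv ?_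
  simp only [L']
  ring

/-- The homogenised linear functions `α w + β v`, for `y = v / w`. -/
noncomputable def D (w v : ℝ) : ℝ :=
  (F.α₁ * w + F.β₁ * v) * (F.α₂ * w + F.β₂ * v) * (F.α₃ * w + F.β₃ * v)

/-- The numerator of `L`, homogenised. -/
noncomputable def N (w v : ℝ) : ℝ :=
  F.e₁ * F.β₁ * ((F.α₂ * w + F.β₂ * v) * (F.α₃ * w + F.β₃ * v)) +
    F.e₂ * F.β₂ * ((F.α₁ * w + F.β₁ * v) * (F.α₃ * w + F.β₃ * v)) +
    F.e₃ * F.β₃ * ((F.α₁ * w + F.β₁ * v) * (F.α₂ * w + F.β₂ * v))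

/-- The numerator of `L'`, homogenised. -/
noncomputable def M (w v : ℝ) : ℝ :=
  -(F.e₁ * (F.β₁ * ((F.α₂ * w + F.β₂ * v) * (F.α₃ * w + F.β₃ * v))) ^ 2 +
    F.e₂ * (F.β₂ * ((F.α₁ * w + F.β₁ * v) * (F.α₃ * w + F.β₃ * v))) ^ 2 +
    F.e₃ * (F.β₃ * ((F.α₁ * w + F.β₁ * v) * (F.α₂ * w + F.β₂ * v))) ^ 2)

theorem L_mul_D {y w v : ℝ} (h : F.Pos y) (hv : v = y * w) :
    F.L y * F.D w v = w * F.N w v := by
  obtain ⟨h1, h2, h3⟩ := h
  subst hv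
  simp only [L, D, N]
  rw [show ∀ α β : ℝ, α * w + β * (y * w) = w * (α + β * y) from fun α β => by ring,
    show F.α₂ * w + F.β₂ * (y * w) = w * (F.α₂ + F.β₂ * y) by ring,
    show F.α₃ * w + F.β₃ * (y * w) = w * (F.α₃ + F.β₃ * y) by ring]
  generalize F.α₁ + F.β₁ * y = A at h1 ⊢
  generalize F.α₂ + F.β₂ * y = B at h2 ⊢
  generalize F.α₃ + F.β₃ * y = C at h3 ⊢
  field_simp

theorem L'_mul_D {y w v : ℝ} (h : F.Pos y) (hv : v = y * w) :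
    F.L' y * F.D w v ^ 2 = w ^ 2 * F.M w v := by
  obtain ⟨h1, h2, h3⟩ := h
  subst hv
  simp only [L', D, M]
  rw [show ∀ α β : ℝ, α * w + β * (y * w) = w * (α + β * y) from fun α β => by ring,
    show F.α₂ * w + F.β₂ * (y * w) = w * (F.α₂ + F.β₂ * y) by ring,
    show F.α₃ * w + F.β₃ * (y * w) = w * (F.α₃ + F.β₃ * y) by ring]
  generalize F.α₁ + F.β₁ * y = A at h1 ⊢
  generalize F.α₂ + F.β₂ * y = B at h2 ⊢
  generalize F.α₃ + F.β₃ * y = C at h3 ⊢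
  field_simp

end Fam

namespace QP

/-- The coefficients of a family are given by polynomials at `(x, y)`. -/
def FamAt (F : Fam) (a₁ b₁ a₂ b₂ a₃ b₃ e₁ e₂ e₃ : QP) (x y : ℝ) : Prop :=
  a₁.val x y = F.α₁ ∧ b₁.val x y = F.β₁ ∧ a₂.val x y = F.α₂ ∧ b₂.val x y = F.β₂ ∧
    a₃.val x y = F.α₃ ∧ b₃.val x y = F.β₃ ∧ e₁.val x y = F.e₁ ∧ e₂.val x y = F.e₂ ∧
    e₃.val x y = F.e₃

theorem val_famOp {F : Fam} {c T S Z g a₁ b₁ a₂ b₂ a₃ b₃ e₁ e₂ e₃ w v : QP} {m : ℕ} {t γ : ℝ}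
    (x y : ℝ) (hF : FamAt F a₁ b₁ a₂ b₂ a₃ b₃ e₁ e₂ e₃ x y) (hpos : F.Pos (certY m t))
    (hv : v.val x y = certY m t * w.val x y) (ec : c.val x y = ballShape t)
    (eT : T.val x y = t ^ 2) (eS : S.val x y = Z.val x y * (((m : ℝ) + 1) * t ^ 2))
    (eg : g.val x y = γ) :
    (famOp c T S Z g a₁ b₁ a₂ b₂ a₃ b₃ e₁ e₂ e₃ w v).val x y =
      Z.val x y * F.D (w.val x y) (v.val x y) ^ 2 * certOp m γ F.L F.L' t := by
  obtain ⟨h1, h2, h3, h4, h5, h6, h7, h8, h9⟩ := hF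
  have eD : (famD a₁ b₁ a₂ b₂ a₃ b₃ w v).val x y = F.D (w.val x y) (v.val x y) := by
    simp only [famD, Fam.D, val_mul, val_add, h1, h2, h3, h4, h5, h6]
  rw [famOp, ← eD]
  refine val_opPoly x y ec eT eS eg ?_ ?_
  · rw [eD, F.L_mul_D hpos hv]
    simp only [famN, Fam.N, val_mul, val_add, h1, h2, h3, h4, h5, h6, h7, h8, h9]
  · rw [eD, F.L'_mul_D hpos hv]
    simp only [famM, Fam.M, val_mul, val_add, val_neg, h1, h2, h3, h4, h5, h6, h7, h8, h9]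
    ring

end QP

end Vale.Agent.P237.Quant
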