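import Vale.Agent.P237.Quant.EnergyPotential

/-!
Supersolutions for the spectral forms given by a logarithmic derivative in the variable
`y = (m + 1) (1 - p)`. The differential inequality becomes one rational inequality in `(p, y)`.
-/

namespace Vale.Agent.P237.Quant

open MeasureTheory Set Filter Topology

variable {m : ℕ}

/-- The coefficient of the energy, with the polynomial weight. -/
noncomputable def certK (m : ℕ) (c : ℝ) (t : ℝ) : ℝ :=
  c * (2 / (((m : ℝ) + 1) * m)) * weightPoly (ballShape t) * ballShape t ^ (m + 3)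

/-- The variable of the certificate. -/
noncomputable def certY (m : ℕ) (t : ℝ) : ℝ := ((m : ℝ) + 1) * (1 - ballShape t)

/-- The value of `-(k φ')' / φ`, up to the factor `c (2 / m) p ^ (m - 1)`, for the log derivative
`L` in `y` and the power `p ^ (-g (m + 1))`. -/
noncomputable def certOp (m : ℕ) (g : ℝ) (L L' : ℝ → ℝ) (t : ℝ) : ℝ :=
  let p := ballShape t
  let y := certY m t
  let C := p * L y + g
  weightPoly p * (-p ^ 2 * C + t ^ 2 * p * L y - p ^ 2 * (((m : ℝ) + 1) * t ^ 2) * L' y +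
    ((m : ℝ) + 1) * t ^ 2 * C * (1 - C)) + weightPoly' p * p * t ^ 2 * C

/-- The log derivative in `t`. -/
noncomputable def certField (m : ℕ) (g : ℝ) (L : ℝ → ℝ) (t : ℝ) : ℝ :=
  ((m : ℝ) + 1) * t * (ballShape t * L (certY m t) + g) / ballShape t ^ 2

/-- The supersolution. -/
noncomputable def certFun (m : ℕ) (g : ℝ) (u : ℝ → ℝ) (t : ℝ) : ℝ :=
  u (certY m t) * ballShape t ^ (-g * ((m : ℝ) + 1))

/-- Its flux. -/
noncomputable def certFlux (m : ℕ) (c g : ℝ) (u L : ℝ → ℝ) (t : ℝ) : ℝ :=
  certK m c t * (certFun m g u t * certField m g L t)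

theorem hasDerivAt_weightPoly (x : ℝ) : HasDerivAt weightPoly (weightPoly' x) x := by
  unfold weightPoly weightPoly'
  refine (((((hasDerivAt_pow 2 x).mul ((((hasDerivAt_id x).div_const 2).const_sub 1).sub
    (((hasDerivAt_id x).mul ((hasDerivAt_id x).const_sub 1)).div_const 4)))).const_sub 1).sub
    ((((hasDerivAt_pow 2 x).const_mul (7 / 250)).mul ((hasDerivAt_id x).const_sub 1)).mul
      (((hasDerivAt_id x).const_mul 9).const_add 1))).congr_deriv ?_
  simp
  ring

theorem hasDerivAt_certY {t : ℝ} (ht : t ∈ Ioo (-1 : ℝ) 1) :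
    HasDerivAt (certY m) (((m : ℝ) + 1) * t / ballShape t) t := by
  refine (((hasDerivAt_ball ht).const_sub 1).const_mul ((m : ℝ) + 1)).congr_deriv ?_
  ring

/-- The supersolution has the field as its log derivative. -/
theorem hasDerivAt_certFun {g : ℝ} {u L : ℝ → ℝ} {t : ℝ} (ht : t ∈ Ioo (-1 : ℝ) 1)
    (hu : HasDerivAt u (u (certY m t) * L (certY m t)) (certY m t)) :
    HasDerivAt (certFun m g u) (certFun m g u t * certField m g L t) t := by
  have hp := ball_pos ht
  refine ((hu.comp t (hasDerivAt_certY ht)).mul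
    ((hasDerivAt_ball ht).rpow_const (p := -g * ((m : ℝ) + 1)) (Or.inl hp.ne'))).congr_deriv ?_
  simp only [certFun, certField, Function.comp_apply]
  rw [Real.rpow_sub_one hp.ne']
  field_simp

theorem hasDerivAt_certFlux (hm : 1 ≤ m) {c g : ℝ} {u L L' : ℝ → ℝ} {t : ℝ}
    (ht : t ∈ Ioo (-1 : ℝ) 1)
    (hu : HasDerivAt u (u (certY m t) * L (certY m t)) (certY m t))
    (hL : HasDerivAt L (L' (certY m t)) (certY m t)) :
    HasDerivAt (certFlux m c g u L)
      (-(c * (2 / m) * ballShape t ^ (m - 1) * certOp m g L L' t * certFun m g u t)) t := by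
  have hp := ball_pos ht
  have hK : HasDerivAt (certK m c)
      (c * (2 / (((m : ℝ) + 1) * m)) * (weightPoly' (ballShape t) * (-t / ballShape t)) *
          ballShape t ^ (m + 3) +
        c * (2 / (((m : ℝ) + 1) * m)) * weightPoly (ballShape t) *
          (((m + 3 : ℕ) : ℝ) * ballShape t ^ (m + 3 - 1) * (-t / ballShape t))) t :=
    (((hasDerivAt_weightPoly _).comp t (hasDerivAt_ball ht)).const_mul _).mul
      ((hasDerivAt_ball ht).pow (m + 3))
  have hC : HasDerivAt (fun x => ballShape x * L (certY m x) + g)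
      (-t / ballShape t * L (certY m t) +
        ballShape t * (L' (certY m t) * (((m : ℝ) + 1) * t / ballShape t))) t :=
    ((hasDerivAt_ball ht).mul (hL.comp t (hasDerivAt_certY ht))).add_const g
  have hF : HasDerivAt (certField m g L) _ t :=
    (((hasDerivAt_id t).const_mul ((m : ℝ) + 1)).mul hC).div ((hasDerivAt_ball ht).pow 2)
      (pow_ne_zero 2 hp.ne')
  refine (hK.mul ((hasDerivAt_certFun ht hu).mul hF)).congr_deriv ?_
  obtain ⟨k, rfl⟩ : ∃ k, m = k + 1 := ⟨m - 1, by omega⟩
  have hp2 : ballShape t ^ 2 = 1 - t ^ 2 := ball_sq (Ioo_subset_Icc_self ht)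
  simp only [certK, certField, certOp, id_eq, Pi.mul_apply, Pi.pow_apply, Nat.add_sub_cancel,
    show k + 1 + 3 - 1 = k + 3 by omega]
  push_cast
  rw [show k + 1 + 3 = k + 4 by omega, pow_add _ k 4, pow_add _ k 3]
  field_simp
  ring

/-- A log derivative satisfying the rational inequality gives a supersolution. -/
theorem supersolution_of_op (hm : 1 ≤ m) {c g a b : ℝ} {u L L' P : ℝ → ℝ} (ha : 0 ≤ a)
    (hb : b < 1)
    (hu : ∀ t ∈ Icc a b, 0 < u (certY m t) ∧
      HasDerivAt u (u (certY m t) * L (certY m t)) (certY m t) ∧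
      HasDerivAt L (L' (certY m t)) (certY m t))
    (hop : ∀ t ∈ Ioo a b, P t ≤ c * certOp m g L L' t) :
    Picone.Supersolution (certK m c) (fun t => 2 / m * ballShape t ^ (m - 1) * P t)
      (certFun m g u) (certFlux m c g u L) a b := by
  have hI : ∀ t ∈ Icc a b, t ∈ Ioo (-1 : ℝ) 1 := fun t ht =>
    ⟨by linarith [ht.1], ht.2.trans_lt hb⟩
  have hpos : ∀ t ∈ Icc a b, 0 < certFun m g u t := fun t ht =>
    mul_pos (hu t ht).1 (Real.rpow_pos_of_pos (ball_pos (hI t ht)) _)
  refine ⟨fun t ht => (hasDerivAt_certFun (hI t ht) (hu t ht).2.1).continuousAt.continuousWithinAt,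
    fun t ht => (hasDerivAt_certFlux hm (hI t ht) (hu t ht).2.1 (hu t ht).2.2).continuousAt.continuousWithinAt,
    hpos, fun t ht => ?_⟩
  have hc := Ioo_subset_Icc_self ht
  refine ⟨_, _, (hasDerivAt_certFun (hI t hc) (hu t hc).2.1).hasDerivWithinAt, rfl,
    (hasDerivAt_certFlux hm (hI t hc) (hu t hc).2.1 (hu t hc).2.2).hasDerivWithinAt, ?_⟩
  have hfac : 0 ≤ 2 / (m : ℝ) * ballShape t ^ (m - 1) * certFun m g u t :=
    mul_nonneg (mul_nonneg (by positivity) (pow_nonneg (Real.sqrt_nonneg _) _)) (hpos t hc).le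
  linarith [mul_le_mul_of_nonneg_left (hop t ht) hfac]

theorem certFlux_zero {c g : ℝ} {u L : ℝ → ℝ} : certFlux m c g u L 0 = 0 := by
  simp [certFlux, certField]

end Vale.Agent.P237.Quant
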