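import Vale.Agent.P237.Quant.CertDefs

/-!
Data of the spectral certificate on the side of negative linear term for every `n ≥ 6`, checked by
evaluation in the kernel.
-/

namespace Vale.Agent.P237.Quant

open Four.Checker

def potNegAll : CertPot := ⟨⟨167433, 0, 99999⟩, ⟨3338409, 0, 9999999⟩, ⟨37587, 0, 249999⟩, ⟨-917, 917, 4999⟩, ⟨3668, -2751, 39999⟩, ⟨1, 0, 0⟩, ⟨19, -56, 99⟩⟩

def famNegAll0 : CertFam := ⟨⟨228250, 216299, 999999⟩, ⟨-1, 0, 0⟩, ⟨1, 0, 0⟩, ⟨-524515, 1099786, 999999⟩, ⟨1, 0, 0⟩, ⟨0, 0, 0⟩, ⟨1, 0, 0⟩, ⟨1, 0, 0⟩, ⟨0, 0, 0⟩, ⟨0, 0, 0⟩⟩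

def famNegAll1 : CertFam := ⟨⟨-113345, -111029, 499999⟩, ⟨1, 0, 0⟩, ⟨2324078, -472665, 999999⟩, ⟨-1, 0, 0⟩, ⟨1, 0, 0⟩, ⟨45805, -104092, 249999⟩, ⟨1, 0, 0⟩, ⟨1, 0, 0⟩, ⟨-732532, 94907, 499999⟩, ⟨131671, 694188, 999999⟩⟩

def famNegAll2 : CertFam := ⟨⟨-1154766, 194513, 499999⟩, ⟨1, 0, 0⟩, ⟨1, 0, 0⟩, ⟨142407, 50024, 999999⟩, ⟨1, 0, 0⟩, ⟨204101, 4966248, 499999⟩, ⟨1, 0, 0⟩, ⟨-2439962, -4551409, 999999⟩, ⟨1, 0, 0⟩, ⟨317879, 248425, 999999⟩⟩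

def gridNegAll : CertGrid := ⟨⟨227, 222, 999⟩, ⟨232, -45, 99⟩, ⟨6, 0, 0⟩, 6291456, 0, 1048576, 1048832, 6291457⟩

def testsNegAll : CertTests where
  P₁ := [(⟨1, 0, 0⟩, 2, 0), (⟨73, -930, 1999⟩, 2, 2)]
  P₂ := [(⟨1, 0, 0⟩, 0, 1), (⟨-41, -1698, 1999⟩, 0, 2)]
  T₁ := ⟨-178, 10735, 4999⟩
  T₂ := ⟨-1147, -490, 1249⟩
  S₁ := ⟨1088, -905, 499⟩
  S₂ := ⟨3429, -810, 1999⟩
  mu := ⟨7, 0, 4⟩
  th := ⟨9343, -50870, 9999⟩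
  y₀ := ⟨2337, -2493, 499⟩
  R := ⟨37980, -57989, 9999⟩
  bnd := QP.ofNum 999999999 [[2550902], [24295807], [1036438417], [-9763495334], [97234901641]]
  ka := QP.ofNum 999999 [[1221964], [4362287], [-110124949], [473774735]]
  I := 10
  J := 6
  N := 30

theorem superNegAll_check : superCheck potNegAll famNegAll0 famNegAll1 famNegAll2 gridNegAll
    [.leaf, .leaf, .leaf, .leaf, .leaf, .leaf, .leaf, .leaf, .leaf, .leaf]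
    [.leaf, .leaf, .leaf, .leaf, .leaf]
    [.leaf, .leaf, .leaf, .leaf, .leaf]
    [.leaf, (.cutY 3145728 (.cutT 524288 (.cutY 1572864 .leaf .leaf) (.cutY 1572864 .leaf .leaf)) .leaf), (.cutY 3145728 .leaf .leaf), .leaf, .leaf, .leaf]
    [.leaf, .leaf, (.cutY 524416 .leaf (.cutT 3145728 .leaf .leaf)), .leaf, .leaf, .leaf] = true := by decide +kernel

theorem testsNegAll_check : testsNegAll.check potNegAll gridNegAll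
    [.leaf, .leaf, .leaf, .leaf, .leaf, .leaf, (.cutT 524288 .leaf .leaf), .leaf, (.cutT 524288 .leaf .leaf), .leaf, .leaf, .leaf, .leaf]
    [.leaf, .leaf, .leaf, .leaf] = true := by decide +kernel

end Vale.Agent.P237.Quant
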