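import Vale.Agent.P237.Quant.MomentPoly
import Vale.Agent.P237.Quant.CertFrame

/-!
Test functions `P(p, X) / p ^ 2` with `X = (m + 1) t ^ 2`: the derivative and the derivative of the
flux are again polynomials in `p` and `X` over `p ^ 4`, `p ^ 2`.
-/

namespace Vale.Agent.P237.Quant

open Set Filter Topology QP MP

namespace MP

theorem eval_kappaMP (x y p X : ℝ) : eval kappaMP x y p X = weightPoly p := by
  simp only [kappaMP, eval, val_const, weightPoly]
  push_cast
  ring

/-- `P / p ^ 2` at `t`. -/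
noncomputable def test (l : MP) (m : ℕ) (y t : ℝ) : ℝ :=
  eval l (1 / ((m : ℝ) + 1)) y (ballShape t) (((m : ℝ) + 1) * t ^ 2) / ballShape t ^ 2

/-- Its derivative. -/
noncomputable def test' (l : MP) (m : ℕ) (y t : ℝ) : ℝ :=
  ((m : ℝ) + 1) * t * eval (dTest l) (1 / ((m : ℝ) + 1)) y (ballShape t) (((m : ℝ) + 1) * t ^ 2) /
    ballShape t ^ 4

theorem hasDerivAt_test (m : ℕ) (y : ℝ) {t : ℝ} (ht : t ∈ Ioo (-1 : ℝ) 1) :
    ∀ l : MP, HasDerivAt (test l m y) (test' l m y t) t
  | [] => by
      have h0 : test [] m y = fun _ => (0 : ℝ) := by funext s; simp [test, eval]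
      rw [h0]
      simpa [test', dTest, eval] using hasDerivAt_const t (0 : ℝ)
  | a :: l => by
      have hp := ball_pos ht
      have hb := hasDerivAt_ball ht
      have hX : HasDerivAt (fun t : ℝ => ((m : ℝ) + 1) * t ^ 2) (((m : ℝ) + 1) * (2 * t)) t := by
        simpa using (hasDerivAt_pow 2 t).const_mul ((m : ℝ) + 1)
      have h0 : HasDerivAt
          (fun t => a.c.val (1 / ((m : ℝ) + 1)) y *
            (ballShape t ^ a.k * (((m : ℝ) + 1) * t ^ 2) ^ a.j) / ballShape t ^ 2) _ t :=
        (((hb.pow a.k).mul (hX.pow a.j)).const_mul (a.c.val (1 / ((m : ℝ) + 1)) y)).div (hb.pow 2)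
          (pow_ne_zero 2 hp.ne')
      have e : test (a :: l) m y = fun t => a.c.val (1 / ((m : ℝ) + 1)) y *
          (ballShape t ^ a.k * (((m : ℝ) + 1) * t ^ 2) ^ a.j) / ballShape t ^ 2 + test l m y t := by
        funext s; simp [test, eval, add_div]
      rw [e]
      refine (h0.add (hasDerivAt_test m y ht l)).congr_deriv ?_
      simp only [test', dTest, eval_add, eval, val_mul, val_const, val_X, Pi.mul_apply,
        Pi.pow_apply]
      rcases a.k with _ | k <;> rcases a.j with _ | j <;>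
        (simp only [Nat.add_sub_cancel, Nat.zero_sub, Nat.sub_zero, pow_succ, pow_zero];
          push_cast; field_simp; ring)

/-- The flux of a test function. -/
noncomputable def testFlux (l : MP) (m : ℕ) (c y t : ℝ) : ℝ := certK m c t * test' l m y t

theorem hasDerivAt_fluxPoly (m : ℕ) (hm : 1 ≤ m) (y : ℝ) {t : ℝ} (ht : t ∈ Ioo (-1 : ℝ) 1) :
    ∀ l : MP, HasDerivAt
      (fun t => t * ballShape t ^ (m - 1) *
        eval l (1 / ((m : ℝ) + 1)) y (ballShape t) (((m : ℝ) + 1) * t ^ 2))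
      (ballShape t ^ (m - 1) *
        eval (dFlux l) (1 / ((m : ℝ) + 1)) y (ballShape t) (((m : ℝ) + 1) * t ^ 2) /
          ballShape t ^ 2) t
  | [] => by simpa [eval, dFlux] using hasDerivAt_const t (0 : ℝ)
  | a :: l => by
      have hp := ball_pos ht
      have hb := hasDerivAt_ball ht
      have hX : HasDerivAt (fun t : ℝ => ((m : ℝ) + 1) * t ^ 2) (((m : ℝ) + 1) * (2 * t)) t := by
        simpa using (hasDerivAt_pow 2 t).const_mul ((m : ℝ) + 1)
      have h0 : HasDerivAt
          (fun t => t * ballShape t ^ (m - 1) * (a.c.val (1 / ((m : ℝ) + 1)) y *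
            (ballShape t ^ a.k * (((m : ℝ) + 1) * t ^ 2) ^ a.j))) _ t :=
        ((hasDerivAt_id' t).mul (hb.pow (m - 1))).mul
          (((hb.pow a.k).mul (hX.pow a.j)).const_mul (a.c.val (1 / ((m : ℝ) + 1)) y))
      have e : (fun t => t * ballShape t ^ (m - 1) *
          eval (a :: l) (1 / ((m : ℝ) + 1)) y (ballShape t) (((m : ℝ) + 1) * t ^ 2)) =
          fun t => t * ballShape t ^ (m - 1) * (a.c.val (1 / ((m : ℝ) + 1)) y *
            (ballShape t ^ a.k * (((m : ℝ) + 1) * t ^ 2) ^ a.j)) + t * ballShape t ^ (m - 1) *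
              eval l (1 / ((m : ℝ) + 1)) y (ballShape t) (((m : ℝ) + 1) * t ^ 2) := by
        funext s; simp only [eval]; ring
      rw [e]
      refine (h0.add (hasDerivAt_fluxPoly m hm y ht l)).congr_deriv ?_
      simp only [dFlux, eval_add, eval, val_mul, val_const, val_lin, Pi.mul_apply, Pi.pow_apply]
      obtain ⟨i, rfl⟩ : ∃ i, m = i + 1 := ⟨m - 1, by omega⟩
      rcases i with _ | i <;> rcases a.k with _ | k <;> rcases a.j with _ | j <;>
        (simp only [Nat.add_sub_cancel, Nat.zero_sub, Nat.sub_zero, pow_succ, pow_zero];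
          push_cast; field_simp; ring)

/-- The flux of a test function is `c (2 / m) t p ^ (m - 1)` times a polynomial. -/
theorem testFlux_eq (m : ℕ) (hm : 1 ≤ m) (c y : ℝ) {t : ℝ} (ht : t ∈ Ioo (-1 : ℝ) 1) (l : MP) :
    testFlux l m c y t = c * (2 / m) * (t * ballShape t ^ (m - 1) *
      eval (mul kappaMP (dTest l)) (1 / ((m : ℝ) + 1)) y (ballShape t)
        (((m : ℝ) + 1) * t ^ 2)) := by
  have hp := ball_pos ht
  rw [eval_mul, eval_kappaMP, testFlux, certK, test',
    show m + 3 = (m - 1) + 4 by omega, pow_add]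
  field_simp

/-- The derivative of the flux of a test function. -/
theorem hasDerivAt_testFlux (m : ℕ) (hm : 1 ≤ m) (c y : ℝ) {t : ℝ} (ht : t ∈ Ioo (-1 : ℝ) 1)
    (l : MP) :
    HasDerivAt (testFlux l m c y) (c * (2 / m) * (ballShape t ^ (m - 1) *
      eval (dFlux (mul kappaMP (dTest l))) (1 / ((m : ℝ) + 1)) y (ballShape t)
        (((m : ℝ) + 1) * t ^ 2) / ballShape t ^ 2)) t :=
  ((hasDerivAt_fluxPoly m hm y ht _).const_mul _).congr_of_eventuallyEq
    ((eventually_of_mem (isOpen_Ioo.mem_nhds ht) fun _ hs => testFlux_eq m hm c y hs l))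

theorem testFlux_zero (l : MP) (m : ℕ) (c y : ℝ) : testFlux l m c y 0 = 0 := by
  simp [testFlux, test']

end MP

end Vale.Agent.P237.Quant
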