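import Vale.Agent.P237.Quant.MomentPoly

/-!
The integrals `∫ t p ^ a X ^ j` over `[t₀, 1]` are elementary: a computable numerator at the cut
`c₀ = p(t₀)`, over a product of linear factors.
-/

namespace Vale.Agent.P237.Quant

open MeasureTheory Set QP

/-- The tail moment `(m + 1) ∫_{t₀}^1 t p ^ (m - 5 + k) X ^ j`. -/
noncomputable def tailX (m : ℕ) (t₀ : ℝ) (k j : ℕ) : ℝ :=
  ((m : ℝ) + 1) * ∫ t in t₀..1, t * ballShape t ^ (m - 5 + k) * (((m : ℝ) + 1) * t ^ 2) ^ j

theorem tailX_rec {m : ℕ} (hm : 5 ≤ m) {t₀ : ℝ} (h0 : 0 ≤ t₀) (h1 : t₀ ≤ 1) (k j : ℕ) :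
    (1 + ((k : ℝ) - 4) * (1 / ((m : ℝ) + 1))) * tailX m t₀ k j =
      ballShape t₀ ^ (m - 5 + k + 2) * (((m : ℝ) + 1) * t₀ ^ 2) ^ j +
        2 * (j : ℝ) * tailX m t₀ (k + 2) (j - 1) := by
  set n : ℝ := (m : ℝ) + 1 with hn
  set a := m - 5 + k with ha
  have hn0 : 0 < n := by positivity
  have haR : (a : ℝ) + 2 = n + ((k : ℝ) - 4) := by
    rw [ha, hn]; push_cast [Nat.cast_sub hm]; ring
  have hF : ∫ t in t₀..1, (((a : ℝ) + 2) * (t * ballShape t ^ a * (n * t ^ 2) ^ j) -
      2 * (j : ℝ) * n * (t * ballShape t ^ (a + 2) * (n * t ^ 2) ^ (j - 1))) =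
      ballShape t₀ ^ (a + 2) * (n * t₀ ^ 2) ^ j := by
    rw [intervalIntegral.integral_eq_sub_of_hasDerivAt_of_le h1
      (f := fun t => -(ballShape t ^ (a + 2) * (n * t ^ 2) ^ j))]
    · simp [ballShape]
    · exact (((cont_pow (a + 2)).mul ((continuous_const.mul (continuous_id.pow 2)).pow j)).neg).continuousOn
    · intro t ht
      have hI : t ∈ Ioo (-1 : ℝ) 1 := ⟨by linarith [ht.1], ht.2⟩
      have hp := ball_pos hI
      have hX : HasDerivAt (fun t : ℝ => n * t ^ 2) (n * (2 * t)) t := by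
        simpa using (hasDerivAt_pow 2 t).const_mul n
      refine ((((hasDerivAt_ball hI).pow (a + 2)).mul (hX.pow j))).neg.congr_deriv ?_
      simp only [Pi.pow_apply, show a + 2 - 1 = a + 1 by omega, pow_succ]
      push_cast
      field_simp
      ring
    · exact Continuous.intervalIntegrable (by
        have := cont_ball
        fun_prop) _ _
  have e1 : tailX m t₀ k j = n * ∫ t in t₀..1, t * ballShape t ^ a * (n * t ^ 2) ^ j := rfl
  have e2 : tailX m t₀ (k + 2) (j - 1) =
      n * ∫ t in t₀..1, t * ballShape t ^ (a + 2) * (n * t ^ 2) ^ (j - 1) := by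
    simp only [tailX, ← hn, show m - 5 + (k + 2) = a + 2 by omega]
  rw [intervalIntegral.integral_sub
    (Continuous.intervalIntegrable (by have := cont_ball; fun_prop) _ _)
    (Continuous.intervalIntegrable (by have := cont_ball; fun_prop) _ _),
    intervalIntegral.integral_const_mul, intervalIntegral.integral_const_mul] at hF
  rw [e1, e2, ← hF, haR]
  field_simp
  ring

theorem val_pw (A : QP) (x y : ℝ) : ∀ i, (tailRaw.pw A i).val x y = A.val x y ^ i
  | 0 => by simp [tailRaw.pw, val_const]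
  | i + 1 => by rw [tailRaw.pw, val_mul, val_pw A x y i, pow_succ]; ring

theorem tailFac_pos {x y : ℝ} (hx : 0 ≤ x) (hx' : x ≤ 1 / 6) :
    ∀ g k, 0 < (tailFac g k).val x y
  | 0, k => by simp [tailFac, val_const]
  | g + 1, k => by
      simp only [tailFac, val_mul, val_lin]
      refine mul_pos ?_ (tailFac_pos hx hx' g (k + 2))
      push_cast
      nlinarith [(Nat.cast_nonneg k : (0 : ℝ) ≤ k)]

/-- The tail moment in closed form. -/
theorem tailX_eq {m : ℕ} (hm : 5 ≤ m) {t₀ y : ℝ} (h0 : 0 ≤ t₀) (h1 : t₀ ≤ 1) {c X₀ : QP}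
    (hc : c.val (1 / ((m : ℝ) + 1)) y = ballShape t₀)
    (hX : X₀.val (1 / ((m : ℝ) + 1)) y = ((m : ℝ) + 1) * t₀ ^ 2) :
    ∀ j k, tailX m t₀ k j * (tailFac (j + 1) k).val (1 / ((m : ℝ) + 1)) y =
      ballShape t₀ ^ (m - 3) * (tailRaw c X₀ j k).val (1 / ((m : ℝ) + 1)) y
  | 0, k => by
      have h := tailX_rec hm h0 h1 k 0
      simp only [Nat.cast_zero, mul_zero, zero_mul, add_zero, pow_zero, mul_one] at h
      simp only [tailFac, tailRaw, val_mul, val_lin, val_const, val_pw, hc]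
      rw [show m - 5 + k + 2 = (m - 3) + k by omega, pow_add] at h
      push_cast
      linear_combination h
  | j + 1, k => by
      have h := tailX_rec hm h0 h1 k (j + 1)
      have ih := tailX_eq hm h0 h1 hc hX j (k + 2)
      rw [show m - 5 + k + 2 = (m - 3) + k by omega, pow_add] at h
      simp only [Nat.add_sub_cancel] at h
      rw [tailFac]
      simp only [tailRaw, val_mul, val_add, val_lin, val_const, val_pw, hc, hX]
      push_cast at h ⊢
      linear_combination (tailFac (j + 1) (k + 2)).val (1 / ((m : ℝ) + 1)) y * h +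
        2 * ((j : ℝ) + 1) * ih

end Vale.Agent.P237.Quant
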