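import Vale.Agent.P237.Quant.CertSuper
import Vale.Agent.P237.Quant.CertTest
import Vale.Agent.P237.Quant.TailPoly

/-!
A spectral inequality from kernel checks: the quadratic condition on two test functions, with a
bound for the kink of the potential by elementary tail moments.
-/

namespace Vale.Agent.P237.Quant

open MeasureTheory Set Four.Checker QP MP

theorem eval_scalMP (c : QP) (l : MP) (x y p X : ℝ) :
    eval (scalMP c l) x y p X = c.val x y * eval l x y p X := by
  simp [scalMP, eval_smul]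

theorem val_ratioQP (m : ℕ) (u : ℝ) : ratioQP.val (certS m) u = ratioCubic m u := by
  simp only [ratioQP, ratioCubic, certS, val_add, val_mul, val_sub, val_const, val_X, val_Y]
  push_cast
  ring

theorem exists_ratio {m : ℕ} (hm : 3 ≤ m) :
    ∃ u ∈ Icc (0 : ℝ) 1, ratioCubic m u = ballRatio m := by
  obtain ⟨h1, h0⟩ := ballRatio_bracket hm
  have hc : ContinuousOn (fun u => ratioCubic m u) (Icc 0 1) := by
    unfold ratioCubic; fun_prop
  exact intermediate_value_Icc' zero_le_one hc ⟨h1, h0⟩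

/-- `M ^ 2 ≥ π / (2 n)`. -/
theorem mass_sq_lower (k : ℕ) :
    Real.pi / (2 * ((k : ℝ) + 2)) ≤ mass k ballShape 1 ^ 2 := by
  have key : ∀ k : ℕ, ((k : ℝ) + 2) * (mass k ballShape 1 * mass (k + 1) ballShape 1) =
      Real.pi / 2 := by
    intro k
    induction k with
    | zero =>
      have h1 : mass 1 ballShape 1 = Real.pi / 4 := by
        have h := integral_sqrt_one_sub_sq
        have hs := intervalIntegral.integral_add_adjacent_intervals (μ := volume) (a := (-1 : ℝ))
          (b := 0) (c := 1) (f := fun t => ballShape t)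
          (cont_ball.intervalIntegrable _ _) (cont_ball.intervalIntegrable _ _)
        have hn : (∫ t in (-1 : ℝ)..0, ballShape t) = ∫ t in (0 : ℝ)..1, ballShape t := by
          have := intervalIntegral.integral_comp_neg (fun t => ballShape t) (a := (0 : ℝ)) (b := 1)
          simp only [neg_zero] at this
          rw [← this]
          exact intervalIntegral.integral_congr fun t _ => by simp [ballShape]
        rw [hn] at hs
        have hh : (∫ t in (-1 : ℝ)..1, ballShape t) = Real.pi / 2 := h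
        simp only [mass, pow_one]
        linarith
      have h0 : mass 0 ballShape 1 = 1 := by simp [mass]
      rw [h0, h1]
      push_cast
      ring
    | succ k ih =>
      have h := ball_mass_rec k
      push_cast at h ⊢
      linear_combination ih + mass (k + 1) ballShape 1 * h
  have hle : mass (k + 1) ballShape 1 ≤ mass k ballShape 1 := by
    simp only [mass]
    refine intervalIntegral.integral_mono_on zero_le_one ((cont_pow _).intervalIntegrable _ _)
      ((cont_pow _).intervalIntegrable _ _) fun t _ => ?_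
    exact pow_le_pow_of_le_one (ball_mem_Icc t).1 (ball_le_one t) (Nat.le_succ k)
  rw [div_le_iff₀ (by positivity)]
  nlinarith [key k, mul_le_mul_of_nonneg_left
    (mul_le_mul_of_nonneg_left hle (ball_mass_pos k).le) (show (0 : ℝ) ≤ k + 2 by positivity)]

/-- `weightPoly` decreases on `[0, 1]`. -/
theorem weightPoly_anti {x y : ℝ} (hx : 0 ≤ x) (hxy : x ≤ y) (hy : y ≤ 1) :
    weightPoly y ≤ weightPoly x := by
  have h1 : y ^ 2 + x * y + x ^ 2 ≤ 3 / 2 * (y + x) := by nlinarith
  have h2 : (y + x) * (y ^ 2 + x ^ 2) ≤ 2 * (y + x) := by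
    rw [mul_comm 2 (y + x)]
    exact mul_le_mul_of_nonneg_left (by nlinarith) (by linarith)
  have h : 0 ≤ (y - x) * (514 / 500 * (y + x) - 263 / 500 * (y ^ 2 + x * y + x ^ 2) -
      (y + x) * (y ^ 2 + x ^ 2) / 500) :=
    mul_nonneg (sub_nonneg.2 hxy) (by nlinarith)
  simp only [weightPoly]
  linarith

theorem tailFull_pos {x y : ℝ} (hx : 0 ≤ x) (hx' : x ≤ 1 / 6) : ∀ i, 0 < (tailFull i).val x y
  | 0 => by simp only [tailFull, val_lin]; push_cast; linarith
  | i + 1 => by
      simp only [tailFull, val_mul, val_lin]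
      refine mul_pos ?_ (tailFull_pos hx hx' i)
      push_cast
      nlinarith [(Nat.cast_nonneg i : (0 : ℝ) ≤ i)]

/-- The index set of `tailFac (j + 1) k`. -/
def inTail (k j i : ℕ) : Prop := k ≤ i ∧ i ≤ k + 2 * j ∧ (i + k) % 2 = 0

instance (k j : ℕ) : DecidablePred (inTail k j) := fun i => by unfold inTail; infer_instance

theorem val_tailFull (x y : ℝ) : ∀ N, (tailFull N).val x y =
    ∏ i ∈ Finset.range (N + 1), (1 + ((i : ℝ) - 4) * x)
  | 0 => by simp [tailFull, val_lin]
  | i + 1 => by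
      rw [tailFull, val_mul, val_tailFull x y i, Finset.prod_range_succ _ (i + 1), val_lin]
      push_cast; ring

theorem val_tailComp (x y : ℝ) (k j : ℕ) : ∀ N, (tailComp k j N).val x y =
    ∏ i ∈ (Finset.range (N + 1)).filter (fun i => ¬ inTail k j i), (1 + ((i : ℝ) - 4) * x)
  | 0 => by
      simp only [tailComp, Finset.prod_filter, Finset.prod_range_succ, Finset.prod_range_zero,
        one_mul]
      split_ifs with h1 h2 h2 <;> simp_all [inTail, val_const, val_lin]
  | i + 1 => by
      rw [Finset.prod_filter, Finset.prod_range_succ, ← Finset.prod_filter, ← val_tailComp x y k j i,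
        tailComp]
      split_ifs with h1 h2 h2 <;> simp_all [inTail, val_mul, val_lin] <;> ring

theorem val_tailFac (x y : ℝ) : ∀ g k, (tailFac g k).val x y =
    ∏ l ∈ Finset.range g, (1 + (((k + 2 * l : ℕ) : ℝ) - 4) * x)
  | 0, k => by simp [tailFac, val_const]
  | g + 1, k => by
      rw [tailFac, val_mul, val_lin, val_tailFac x y g (k + 2), Finset.prod_range_succ', mul_comm]
      push_cast
      congr 1
      · refine Finset.prod_congr rfl fun l _ => ?_
        ring
      · ring

theorem tailFac_comp {k j N : ℕ} (h : k + 2 * j ≤ N) (x y : ℝ) :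
    (tailFac (j + 1) k).val x y * (tailComp k j N).val x y = (tailFull N).val x y := by
  rw [val_tailFac, val_tailComp, val_tailFull,
    ← Finset.prod_filter_mul_prod_filter_not (Finset.range (N + 1)) (inTail k j)]
  congr 1
  refine Finset.prod_nbij (fun l => k + 2 * l) (fun l hl => ?_) (fun a _ b _ hab => by simpa using hab)
    (fun i hi => ?_) (fun l _ => rfl)
  · simp only [Finset.mem_range] at hl
    refine Finset.mem_filter.2 ⟨Finset.mem_range.2 (by omega), ?_, ?_, ?_⟩ <;> omega
  · obtain ⟨hi1, hi2⟩ := Finset.mem_filter.1 (Finset.mem_coe.1 hi)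
    obtain ⟨h1, h2, h3⟩ := hi2
    exact ⟨(i - k) / 2, Finset.mem_coe.2 (Finset.mem_range.2 (by omega)),
      (show k + 2 * ((i - k) / 2) = i by omega)⟩

theorem tail_integral {m : ℕ} (hm : 5 ≤ m) {t₀ y : ℝ} (h0 : 0 ≤ t₀) (h1 : t₀ ≤ 1) {c X₀ : QP}
    (hy : 0 ≤ y) (hc : c.val (certS m) y = ballShape t₀)
    (hX : X₀.val (certS m) y = ((m : ℝ) + 1) * t₀ ^ 2) {N : ℕ} :
    ∀ {l : MP}, tailOK N l = true →
    ((m : ℝ) + 1) * (∫ t in t₀..1, t * (ballShape t ^ (m - 5) *
        eval l (certS m) y (ballShape t) (((m : ℝ) + 1) * t ^ 2))) * (tailFull N).val (certS m) y =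
      ballShape t₀ ^ (m - 3) * (tailSum c X₀ N l).val (certS m) y
  | [], _ => by simp [eval, tailSum, val_const]
  | a :: l, h => by
      simp only [tailOK, Bool.and_eq_true] at h
      have ih := tail_integral hm h0 h1 hy hc hX h.2
      have hz := tailFac_comp (of_decide_eq_true h.1) (certS m) y
      have e := tailX_eq hm h0 h1 hc hX a.j a.k
      simp only [tailX, show 1 / ((m : ℝ) + 1) = certS m from rfl] at e
      have hcont : ∀ l : MP, Continuous fun t => t * (ballShape t ^ (m - 5) *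
          eval l (certS m) y (ballShape t) (((m : ℝ) + 1) * t ^ 2)) := by
        intro l
        have := cont_ball
        induction l with
        | nil => simp only [eval]; fun_prop
        | cons a l ih =>
          simp only [eval, mul_add]
          exact (by fun_prop : Continuous _).add ih
      have hsplit : (∫ t in t₀..1, t * (ballShape t ^ (m - 5) *
          eval (a :: l) (certS m) y (ballShape t) (((m : ℝ) + 1) * t ^ 2))) =
          a.c.val (certS m) y * (∫ t in t₀..1, t * ballShape t ^ (m - 5 + a.k) *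
            (((m : ℝ) + 1) * t ^ 2) ^ a.j) +
          ∫ t in t₀..1, t * (ballShape t ^ (m - 5) *
            eval l (certS m) y (ballShape t) (((m : ℝ) + 1) * t ^ 2)) := by
        rw [← intervalIntegral.integral_const_mul, ← intervalIntegral.integral_add
          (Continuous.intervalIntegrable (by have := cont_ball; fun_prop) _ _)
          ((hcont l).intervalIntegrable _ _)]
        refine intervalIntegral.integral_congr fun t _ => ?_
        simp only [eval, pow_add]
        ring
      rw [hsplit]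
      simp only [tailSum, val_add, val_mul]
      rw [← hz]
      rw [← hz] at ih
      linear_combination ih + a.c.val (certS m) y * (tailComp a.k a.j N).val (certS m) y * e

namespace CertTests

variable (K : CertPot) (D : CertTests)

theorem val_atPoint (c X₀ : QP) (x y : ℝ) :
    ∀ l : MP, (atPoint c X₀ l).val x y = eval l x y (c.val x y) (X₀.val x y)
  | [] => by simp [atPoint, eval, val_const]
  | a :: l => by simp [atPoint, eval, val_add, val_mul, val_pw, val_atPoint c X₀ x y l]

theorem val_expSum (z : QP) (x y : ℝ) :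
    ∀ i, (expSum z i).val x y = ∑ j ∈ Finset.range i, z.val x y ^ j / j.factorial
  | 0 => by simp [expSum, val_const]
  | i + 1 => by
      rw [expSum, val_add, val_mul, val_expSum z x y i, Finset.sum_range_succ, val_pw, val_const,
        Nat.cast_sub (Nat.one_le_iff_ne_zero.2 i.factorial_ne_zero)]
      push_cast
      ring

end CertTests

theorem continuous_eval (l : MP) (m : ℕ) (x y : ℝ) :
    Continuous fun t => eval l x y (ballShape t) (((m : ℝ) + 1) * t ^ 2) := by
  have := cont_ball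
  induction l with
  | nil => simp only [eval]; fun_prop
  | cons a l ih => simp only [eval]; exact (by fun_prop : Continuous _).add ih

theorem continuous_certQ (K : CertPot) (m : ℕ) : Continuous (K.Q m) := by
  have := cont_ball
  unfold CertPot.Q certY weightPoly
  fun_prop

theorem continuous_certW (K : CertPot) (m : ℕ) : Continuous (K.W m) := by
  have := continuous_certQ K m
  unfold CertPot.W
  fun_prop

theorem bounded_unit {f : ℝ → ℝ} (hf : Continuous f) :
    ∃ B : ℝ, 0 ≤ B ∧ ∀ t ∈ Icc (0 : ℝ) 1, |f t| ≤ B := by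
  obtain ⟨B, hB⟩ := isCompact_Icc.exists_bound_of_continuousOn (hf.continuousOn (s := Icc (0 : ℝ) 1))
  exact ⟨B, (norm_nonneg _).trans (hB 0 ⟨le_rfl, zero_le_one⟩), hB⟩

/-- The defect of a test function. -/
noncomputable def certDefect (K : CertPot) (m : ℕ) (P : MP) (y t : ℝ) : ℝ :=
  -(K.cen.eval (certS m) * (2 / m) * (ballShape t ^ (m - 1) *
    eval (dFlux (MP.mul kappaMP (dTest P))) (certS m) y (ballShape t) (((m : ℝ) + 1) * t ^ 2) /
      ballShape t ^ 2)) - ballShape t ^ (m - 1) * K.W m t * test P m y t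

theorem certTestFun_test (K : CertPot) {m : ℕ} (hm : 1 ≤ m) (P : MP) (y : ℝ) :
    CertTestFun m (K.cen.eval (certS m)) (K.W m) (test P m y) (test' P m y) (certDefect K m P y) := by
  have hI : ∀ t ∈ Ico (0 : ℝ) 1, t ∈ Ioo (-1 : ℝ) 1 := fun t ht => ⟨by linarith [ht.1], ht.2⟩
  have cb := cont_ball
  have c1 := continuous_eval P m (certS m) y
  have c2 : Continuous fun t : ℝ => ((m : ℝ) + 1) * t *
      eval (dTest P) (certS m) y (ballShape t) (((m : ℝ) + 1) * t ^ 2) :=
    (continuous_const.mul continuous_id).mul (continuous_eval _ m _ y)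
  have c3 := continuous_eval (dFlux (MP.mul kappaMP (dTest P))) m (certS m) y
  have cW := continuous_certW K m
  refine ⟨fun t ht => hasDerivAt_test m y (hI t ht) P, fun t ht => ?_, by simp [test'], ?_, ?_, ?_⟩
  · refine (hasDerivAt_testFlux m hm (K.cen.eval (certS m)) y (hI t ht) P).congr_deriv ?_
    simp only [certDefect, certS]
    ring
  · exact c2.continuousOn.div (cb.pow 4).continuousOn fun t ht =>
      pow_ne_zero _ (ball_pos (sub01 ht)).ne'
  · have e : certDefect K m P y = fun t =>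
        -(K.cen.eval (certS m) * (2 / m) * (ballShape t ^ (m - 1) *
          eval (dFlux (MP.mul kappaMP (dTest P))) (certS m) y (ballShape t) (((m : ℝ) + 1) * t ^ 2) /
            ballShape t ^ 2)) - ballShape t ^ (m - 1) * K.W m t *
              (eval P (certS m) y (ballShape t) (((m : ℝ) + 1) * t ^ 2) / ballShape t ^ 2) := rfl
    rw [e]
    exact ((((cb.pow (m - 1)).mul c3).measurable.div (cb.measurable.pow_const 2)).const_mul _).neg.sub
      (((cb.pow (m - 1)).mul cW).measurable.mul (c1.measurable.div (cb.measurable.pow_const 2)))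
  · obtain ⟨B1, h10, h1⟩ := bounded_unit c1
    obtain ⟨B2, h20, h2⟩ := bounded_unit c2
    obtain ⟨B3, h30, h3⟩ := bounded_unit
      ((continuous_const (y := K.cen.eval (certS m) * (2 / (m : ℝ)))).mul c3)
    obtain ⟨B4, h40, h4⟩ := bounded_unit (cW.mul c1)
    refine ⟨B1 + B2 + B3 + B4, by positivity, fun t ht => ?_⟩
    have hp := ball_pos (sub01 ht)
    have hc := Ioo_subset_Icc_self ht
    refine ⟨?_, ?_, ?_⟩
    · rw [test, abs_div, abs_of_nonneg (sq_nonneg (ballShape t))]
      exact div_le_div_of_nonneg_right ((h1 t hc).trans (by linarith)) (sq_nonneg _)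
    · rw [test', abs_div, abs_of_nonneg (pow_nonneg hp.le 4)]
      exact div_le_div_of_nonneg_right ((h2 t hc).trans (by linarith)) (pow_nonneg hp.le _)
    · have e : certDefect K m P y t = ballShape t ^ (m - 1) *
          ((-(K.cen.eval (certS m) * (2 / (m : ℝ)) *
            eval (dFlux (MP.mul kappaMP (dTest P))) (certS m) y (ballShape t)
              (((m : ℝ) + 1) * t ^ 2)) -
            K.W m t * eval P (certS m) y (ballShape t) (((m : ℝ) + 1) * t ^ 2)) /
              ballShape t ^ 2) := by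
        simp only [certDefect, test, certS]; ring
      rw [e, abs_mul, abs_of_nonneg (pow_nonneg hp.le _), abs_div,
        abs_of_nonneg (sq_nonneg (ballShape t))]
      refine mul_le_mul_of_nonneg_left (div_le_div_of_nonneg_right ?_ (sq_nonneg _))
        (pow_nonneg hp.le _)
      refine (abs_sub _ _).trans ?_
      rw [abs_neg]
      have a1 := h3 t hc
      have a2 := h4 t hc
      simp only [Pi.mul_apply] at a1 a2
      linarith

/-- A polynomial in `p` and `X` at `t`. -/
noncomputable def evP (m : ℕ) (u : ℝ) (l : MP) (t : ℝ) : ℝ :=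
  eval l (certS m) u (ballShape t) (((m : ℝ) + 1) * t ^ 2)

/-- The integral against `p ^ (m - 5)`. -/
noncomputable def wMom (m : ℕ) (f : ℝ → ℝ) : ℝ :=
  ∫ t in (0 : ℝ)..1, ballShape t ^ (m - 5) * f t

theorem continuous_evP (m : ℕ) (u : ℝ) (l : MP) : Continuous (evP m u l) :=
  continuous_eval l m (certS m) u

theorem wMom_lin {m : ℕ} {f g : ℝ → ℝ} (a b : ℝ) (hf : Continuous f) (hg : Continuous g) :
    wMom m (fun t => a * f t + b * g t) = a * wMom m f + b * wMom m g := by
  simp only [wMom, ← intervalIntegral.integral_const_mul]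
  have := cont_ball
  rw [← intervalIntegral.integral_add (Continuous.intervalIntegrable (by fun_prop) _ _)
    (Continuous.intervalIntegrable (by fun_prop) _ _)]
  exact intervalIntegral.integral_congr fun t _ => by ring

theorem wMom_lin3 {m : ℕ} {f g h : ℝ → ℝ} (a b c : ℝ) (hf : Continuous f) (hg : Continuous g)
    (hh : Continuous h) :
    wMom m (fun t => a * f t + b * g t + c * h t) = a * wMom m f + b * wMom m g + c * wMom m h := by
  have e := wMom_lin (m := m) (f := fun t => a * f t + b * g t) 1 c (by fun_prop) hh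
  simp only [one_mul] at e
  rw [e, wMom_lin a b hf hg]

/-- The kink of the potential. -/
noncomputable def kinkR (K : CertPot) (m : ℕ) (t : ℝ) : ℝ :=
  max (K.A.eval (certS m))
      (K.B.eval (certS m) * weightPoly (ballShape t) * (((m : ℝ) + 1) * t ^ 2)) -
    K.A.eval (certS m)

theorem continuous_kinkR (K : CertPot) (m : ℕ) : Continuous (kinkR K m) := by
  have := cont_ball
  unfold kinkR weightPoly
  fun_prop

theorem evP_defect (K : CertPot) (m : ℕ) (u : ℝ) (P : MP) (t : ℝ) :
    evP m u (CertTests.defect K P) t =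
      -(certS m * K.cen.eval (certS m) * evP m u (dFlux (MP.mul kappaMP (dTest P))) t +
        certS m * (K.Q m t - kinkR K m t) * evP m u P t) := by
  have h : certS m * certY m t = 1 - ballShape t := by
    rw [certY_eq, mul_div_cancel₀ _ (certS_pos m).ne']
  have eq : ∀ l : Lin, (l.qp QP.X).val (certS m) u = l.eval (certS m) :=
    fun l => l.val_qp (val_X _ u)
  simp only [evP, CertTests.defect, CertTests.qBase, eval_scalMP, eval_add, eval_mul, eval,
    val_mul, val_add, val_sub, val_X, val_const, eq, CertPot.Q, kinkR]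
  push_cast
  linear_combination (K.lb.eval (certS m) *
    eval P (certS m) u (ballShape t) (((m : ℝ) + 1) * t ^ 2)) * h

theorem evP_ell {m : ℕ} {u : ℝ} (hrat : ratioQP.val (certS m) u = ballRatio m) (t : ℝ) :
    evP m u CertTests.ellMP t = ballShape t ^ 2 * (ballRatio m * ballShape t - 1) := by
  simp only [evP, CertTests.ellMP, eval, val_const, hrat]
  push_cast
  ring

theorem evP_shifted {m : ℕ} {u : ℝ} (hrat : ratioQP.val (certS m) u = ballRatio m) (K : CertPot)
    (P : MP) (T S : Lin) (t : ℝ) :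
    evP m u (CertTests.shifted K P T S) t = evP m u (CertTests.defect K P) t +
      T.eval (certS m) * (ballShape t ^ 2 * (ballRatio m * ballShape t - 1)) +
      certS m * S.eval (certS m) * ballShape t ^ 2 := by
  have eq : ∀ l : Lin, (l.qp QP.X).val (certS m) u = l.eval (certS m) :=
    fun l => l.val_qp (val_X _ u)
  rw [← evP_ell hrat]
  simp only [evP, CertTests.shifted, eval_add, eval_scalMP, eval, val_mul, val_X, eq]
  ring

theorem pow_split {m : ℕ} (hm : 5 ≤ m) (t : ℝ) :
    ballShape t ^ (m - 1) = ballShape t ^ (m - 5) * ballShape t ^ 4 := by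
  rw [← pow_add, show m - 5 + 4 = m - 1 by omega]

theorem certDefect_eq {K : CertPot} {m : ℕ} (hm : 5 ≤ m) (u : ℝ) (P : MP) {t : ℝ}
    (ht : t ∈ Ioo (0 : ℝ) 1) :
    certDefect K m P u t = 2 / m / certS m * (ballShape t ^ (m - 5) * ballShape t ^ 2 *
      (evP m u (CertTests.defect K P) t - certS m * kinkR K m t * evP m u P t)) := by
  have := ball_pos (sub01 ht)
  have := certS_pos m
  rw [evP_defect, certDefect, test, pow_split hm, CertPot.W,
    show 1 / ((m : ℝ) + 1) = certS m from rfl]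
  simp only [evP]
  field_simp
  ring

/-- The integrand of an entry without the kink. -/
theorem evP_entryMP (K : CertPot) (D : CertTests) (m : ℕ) (u : ℝ) (Pa Pb : MP) (Ta Tb Sa Sb : Lin)
    (t : ℝ) :
    evP m u (D.entryMP K Pa Pb Ta Tb Sa Sb) t =
      K.s0.eval (certS m) * D.th.eval (certS m) * certS m *
        (evP m u (CertTests.defect K Pa) t * evP m u Pb t +
          (Ta.eval (certS m) * (evP m u CertTests.ellMP t * evP m u Pb t) +
            Tb.eval (certS m) * (evP m u CertTests.ellMP t * evP m u Pa t) +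
            (certS m * Sa.eval (certS m) * (ballShape t ^ 2 * evP m u Pb t) +
              certS m * Sb.eval (certS m) * (ballShape t ^ 2 * evP m u Pa t)))) -
      D.th.eval (certS m) *
        (evP m u (CertTests.shifted K Pa Ta Sa) t * evP m u (CertTests.shifted K Pb Tb Sb) t) := by
  have eq : ∀ l : Lin, (l.qp QP.X).val (certS m) u = l.eval (certS m) :=
    fun l => l.val_qp (val_X _ u)
  simp only [evP, CertTests.entryMP, eval_add, eval_scalMP, eval_mul, eval, val_mul, val_neg,
    val_X, val_const, eq]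
  push_cast
  ring

/-- The kink in an entry. -/
noncomputable def kinkEntry (K : CertPot) (D : CertTests) (m : ℕ) (u : ℝ) (Pa Pb Ha Hb : MP)
    (t : ℝ) : ℝ :=
  K.s0.eval (certS m) * D.th.eval (certS m) * certS m *
      (certS m * kinkR K m t * (evP m u Pa t * evP m u Pb t)) +
    D.th.eval (certS m) * ((certS m * kinkR K m t) ^ 2 * (evP m u Pa t * evP m u Pb t) -
      certS m * kinkR K m t * (evP m u Ha t * evP m u Pb t + evP m u Hb t * evP m u Pa t))

theorem continuous_kinkEntry (K : CertPot) (D : CertTests) (m : ℕ) (u : ℝ) (Pa Pb Ha Hb : MP) :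
    Continuous (kinkEntry K D m u Pa Pb Ha Hb) := by
  have := continuous_kinkR K m
  have := continuous_evP m u Pa
  have := continuous_evP m u Pb
  have := continuous_evP m u Ha
  have := continuous_evP m u Hb
  unfold kinkEntry
  fun_prop

/-- One entry of the Schur form in moments. -/
theorem entry_eq {K : CertPot} (D : CertTests) {m : ℕ} (hm : 5 ≤ m) {u : ℝ}
    (hrat : ratioQP.val (certS m) u = ballRatio m) (hσ : K.s0.eval (certS m) ≠ 0)
    (Pa Pb : MP) (Ta Tb Sa Sb : Lin) :
    certS m ^ 2 * K.s0.eval (certS m) * D.th.eval (certS m) *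
      ((∫ t in (0 : ℝ)..1, certDefect K m Pa u t * test Pb m u t) +
      Ta.eval (certS m) / certS m / m * (∫ t in (0 : ℝ)..1,
        ballShape t ^ (m - 1) * (2 * (ballRatio m * ballShape t - 1)) * test Pb m u t) +
      Tb.eval (certS m) / certS m / m * (∫ t in (0 : ℝ)..1,
        ballShape t ^ (m - 1) * (2 * (ballRatio m * ballShape t - 1)) * test Pa m u t) +
      2 / m * Sa.eval (certS m) * (∫ t in (0 : ℝ)..1, ballShape t ^ (m - 1) * test Pb m u t) +
      2 / m * Sb.eval (certS m) * (∫ t in (0 : ℝ)..1, ballShape t ^ (m - 1) * test Pa m u t) -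
      ∫ t in (0 : ℝ)..1,
        (certDefect K m Pa u t + Ta.eval (certS m) / certS m / m *
            (ballShape t ^ (m - 1) * (2 * (ballRatio m * ballShape t - 1))) +
          2 / m * Sa.eval (certS m) * ballShape t ^ (m - 1)) *
        (certDefect K m Pb u t + Tb.eval (certS m) / certS m / m *
            (ballShape t ^ (m - 1) * (2 * (ballRatio m * ballShape t - 1))) +
          2 / m * Sb.eval (certS m) * ballShape t ^ (m - 1)) /
          (ballShape t ^ (m - 1) * K.spare m)) =
    2 / m * (wMom m (evP m u (D.entryMP K Pa Pb Ta Tb Sa Sb)) -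
      wMom m (kinkEntry K D m u Pa Pb (CertTests.shifted K Pa Ta Sa)
        (CertTests.shifted K Pb Tb Sb))) := by
  set s := certS m with hs
  set θ := D.th.eval s
  set σ := K.s0.eval s with hσd
  have hs0 : 0 < s := certS_pos m
  have hm0 : (0 : ℝ) < m := by exact_mod_cast (show 0 < m by omega)
  set d := fun t => evP m u (CertTests.defect K Pa) t - s * kinkR K m t * evP m u Pa t with hd
  set ea := fun t => evP m u (CertTests.shifted K Pa Ta Sa) t - s * kinkR K m t * evP m u Pa t
    with hea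
  set eb := fun t => evP m u (CertTests.shifted K Pb Tb Sb) t - s * kinkR K m t * evP m u Pb t
    with heb
  have cr := continuous_kinkR K m
  have cv := continuous_evP m u
  have cp := cont_ball
  have c1 := cv (CertTests.defect K Pa)
  have c2 := cv CertTests.ellMP
  have ca := cv Pa
  have cb := cv Pb
  have cha := cv (CertTests.shifted K Pa Ta Sa)
  have chb := cv (CertTests.shifted K Pb Tb Sb)
  have e1 : (∫ t in (0 : ℝ)..1, certDefect K m Pa u t * test Pb m u t) =
      2 / m / s * wMom m (fun t => d t * evP m u Pb t) := by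
    simp only [wMom, ← intervalIntegral.integral_const_mul]
    refine integral_congr01 fun t ht => ?_
    have := ball_pos (sub01 ht)
    rw [certDefect_eq hm u Pa ht, test]
    simp only [hd, evP, hs, certS]
    field_simp
  have e2 : ∀ P : MP, (∫ t in (0 : ℝ)..1,
      ballShape t ^ (m - 1) * (2 * (ballRatio m * ballShape t - 1)) * test P m u t) =
      2 * wMom m (fun t => evP m u CertTests.ellMP t * evP m u P t) := fun P => by
    simp only [wMom, ← intervalIntegral.integral_const_mul, evP_ell hrat]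
    refine integral_congr01 fun t ht => ?_
    have := ball_pos (sub01 ht)
    rw [test, pow_split hm]
    simp only [evP, certS]
    field_simp
  have e3 : ∀ P : MP, (∫ t in (0 : ℝ)..1, ballShape t ^ (m - 1) * test P m u t) =
      wMom m (fun t => ballShape t ^ 2 * evP m u P t) := fun P => by
    simp only [wMom]
    refine integral_congr01 fun t ht => ?_
    have := ball_pos (sub01 ht)
    rw [test, pow_split hm]
    simp only [evP, certS]
    field_simp
  have e4 : (∫ t in (0 : ℝ)..1,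
        (certDefect K m Pa u t + Ta.eval s / s / m *
            (ballShape t ^ (m - 1) * (2 * (ballRatio m * ballShape t - 1))) +
          2 / m * Sa.eval s * ballShape t ^ (m - 1)) *
        (certDefect K m Pb u t + Tb.eval s / s / m *
            (ballShape t ^ (m - 1) * (2 * (ballRatio m * ballShape t - 1))) +
          2 / m * Sb.eval s * ballShape t ^ (m - 1)) / (ballShape t ^ (m - 1) * K.spare m)) =
      2 / m / (s ^ 2 * σ) * wMom m (fun t => ea t * eb t) := by
    simp only [wMom, ← intervalIntegral.integral_const_mul]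
    refine integral_congr01 fun t ht => ?_
    have := ball_pos (sub01 ht)
    simp only [hea, heb]
    rw [certDefect_eq hm u Pa ht, certDefect_eq hm u Pb ht, evP_shifted hrat, evP_shifted hrat,
      CertPot.spare, pow_split hm, ← hs, ← hσd]
    field_simp
    ring
  rw [e1, e2, e2, e3, e3, e4]
  have f2 : Continuous fun t => evP m u CertTests.ellMP t * evP m u Pb t := c2.mul cb
  have f3 : Continuous fun t => evP m u CertTests.ellMP t * evP m u Pa t := c2.mul ca
  have f4 : Continuous fun t => ballShape t ^ 2 * evP m u Pb t := (cp.pow 2).mul cb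
  have f5 : Continuous fun t => ballShape t ^ 2 * evP m u Pa t := (cp.pow 2).mul ca
  have f1 : Continuous fun t => d t * evP m u Pb t := by simp only [hd]; fun_prop
  have f6 : Continuous fun t => ea t * eb t := by simp only [hea, heb]; fun_prop
  have g23 := wMom_lin (m := m) (Ta.eval s) (Tb.eval s) f2 f3
  have g45 := wMom_lin (m := m) (s * Sa.eval s) (s * Sb.eval s) f4 f5
  have g := wMom_lin3 (m := m) (f := fun t => d t * evP m u Pb t)
    (g := fun t => Ta.eval s * (evP m u CertTests.ellMP t * evP m u Pb t) +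
      Tb.eval s * (evP m u CertTests.ellMP t * evP m u Pa t))
    (h := fun t => s * Sa.eval s * (ballShape t ^ 2 * evP m u Pb t) +
      s * Sb.eval s * (ballShape t ^ 2 * evP m u Pa t)) 1 1 1 f1 (by fun_prop) (by fun_prop)
  have gout := wMom_lin (m := m) 1 (-1) (cv (D.entryMP K Pa Pb Ta Tb Sa Sb))
    (continuous_kinkEntry K D m u Pa Pb (CertTests.shifted K Pa Ta Sa)
      (CertTests.shifted K Pb Tb Sb))
  have gall := wMom_lin (m := m) (σ * θ * s) (-θ)
    (f := fun t => 1 * (d t * evP m u Pb t) + 1 * (Ta.eval s * (evP m u CertTests.ellMP t *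
      evP m u Pb t) + Tb.eval s * (evP m u CertTests.ellMP t * evP m u Pa t)) +
      1 * (s * Sa.eval s * (ballShape t ^ 2 * evP m u Pb t) +
        s * Sb.eval s * (ballShape t ^ 2 * evP m u Pa t))) (g := fun t => ea t * eb t)
    (by fun_prop) f6
  have hpt : (fun t => (1 : ℝ) * evP m u (D.entryMP K Pa Pb Ta Tb Sa Sb) t +
      -1 * kinkEntry K D m u Pa Pb (CertTests.shifted K Pa Ta Sa)
        (CertTests.shifted K Pb Tb Sb) t) = fun t => σ * θ * s *
      (1 * (d t * evP m u Pb t) + 1 * (Ta.eval s * (evP m u CertTests.ellMP t * evP m u Pb t) +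
        Tb.eval s * (evP m u CertTests.ellMP t * evP m u Pa t)) +
      1 * (s * Sa.eval s * (ballShape t ^ 2 * evP m u Pb t) +
        s * Sb.eval s * (ballShape t ^ 2 * evP m u Pa t))) + -θ * (ea t * eb t) := by
    funext t
    simp only [evP_entryMP, kinkEntry, hd, hea, heb, ← hs]
    ring
  rw [hpt, gall, g, g23, g45] at gout
  field_simp
  linear_combination gout

/-- The power of `p` at the cut. -/
theorem cut_bound {m : ℕ} (hm : 5 ≤ m) {y₀ R bnd z : ℝ} (hy : 0 < y₀) (hsy : certS m * y₀ < 1)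
    (hz : z = y₀ * (1 - 4 * certS m) * (1 + 1 / 2 * (certS m * y₀) +
      (certS m * y₀) * (certS m * y₀) * (1 / 3 + 1 / 4 * (certS m * y₀)))) (hR : 0 ≤ R)
    (hR2 : R ^ 2 ≤ 157 / 100 * (((m : ℝ) + 1) * nodeT m y₀ ^ 2)) (hz0 : 0 ≤ z) (hb : 0 ≤ bnd)
    (hexp : 1 ≤ bnd * R * ∑ j ∈ Finset.range 13, z ^ j / j.factorial) :
    ballShape (nodeT m y₀) ^ (m - 3) ≤
      bnd * (((m : ℝ) + 1) * nodeT m y₀ * mass (m - 1) ballShape 1) := by
  set s := certS m with hs
  have hsn : s * ((m : ℝ) + 1) = 1 := by rw [hs, certS, one_div, inv_mul_cancel₀ (by positivity)]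
  obtain ⟨ht0, -, hp0⟩ := nodeT_mem (m := m) hy hsy
  have hlog : Real.log (1 - s * y₀) ≤
      -(s * y₀ + (s * y₀) ^ 2 / 2 + (s * y₀) ^ 3 / 3 + (s * y₀) ^ 4 / 4) := by
    have hx : |s * y₀| < 1 := by rwa [abs_of_pos (mul_pos (certS_pos m) hy)]
    have hp : 0 ≤ s * y₀ := (mul_pos (certS_pos m) hy).le
    have h := sum_le_hasSum (Finset.range 4) (fun i _ => by positivity)
      (Real.hasSum_pow_div_log_of_abs_lt_one hx)
    norm_num [Finset.sum_range_succ] at h
    linarith
  have hE : ballShape (nodeT m y₀) ^ (m - 3) ≤ Real.exp (-z) := by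
    rw [hp0, ← Real.exp_log (pow_pos (by linarith : (0 : ℝ) < 1 - certS m * y₀) _),
      Real.exp_le_exp, Real.log_pow, Nat.cast_sub (by omega : 3 ≤ m)]
    have h3 : (0 : ℝ) ≤ (m : ℝ) - ((3 : ℕ) : ℝ) := by
      have : (5 : ℝ) ≤ m := by exact_mod_cast hm
      push_cast; linarith
    refine (mul_le_mul_of_nonneg_left hlog h3).trans (le_of_eq ?_)
    rw [hz]
    push_cast
    linear_combination
      (-(y₀ * (1 + 1 / 2 * (s * y₀) + s * y₀ * (s * y₀) * (1 / 3 + 1 / 4 * (s * y₀))))) * hsn
  have h1 : 1 ≤ bnd * R * Real.exp z := hexp.trans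
    (mul_le_mul_of_nonneg_left (Real.sum_le_exp_of_nonneg hz0 13) (mul_nonneg hb hR))
  have h2 : Real.exp (-z) ≤ bnd * R := by
    rwa [Real.exp_neg, inv_le_iff_one_le_mul₀ (Real.exp_pos z)]
  refine hE.trans (h2.trans (mul_le_mul_of_nonneg_left ?_ hb))
  have hM := ball_mass_pos (m - 1)
  refine (sq_le_sq₀ hR (by positivity)).1 (hR2.trans ?_)
  have hMsq := mass_sq_lower (m - 1)
  rw [Nat.cast_sub (by omega : 1 ≤ m), show (m : ℝ) - ((1 : ℕ) : ℝ) + 2 = (m : ℝ) + 1 by
    push_cast; ring, div_le_iff₀ (by positivity)] at hMsq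
  have hn : (0 : ℝ) ≤ ((m : ℝ) + 1) * nodeT m y₀ ^ 2 := by positivity
  nlinarith [mul_le_mul_of_nonneg_left hMsq hn, mul_le_mul_of_nonneg_left Real.pi_gt_d2.le hn]

theorem weight_mul_mono {m : ℕ} {B a b : ℝ} (hB : 0 ≤ B) (ha : 0 ≤ a) (hab : a ≤ b) :
    B * weightPoly (ballShape a) * (((m : ℝ) + 1) * a ^ 2) ≤
      B * weightPoly (ballShape b) * (((m : ℝ) + 1) * b ^ 2) := by
  have h2 := pow_le_pow_left₀ ha hab 2
  have hb : ballShape b ≤ ballShape a := Real.sqrt_le_sqrt (by linarith)
  exact mul_le_mul (mul_le_mul_of_nonneg_left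
      (weightPoly_anti (ball_mem_Icc b).1 hb (ball_mem_Icc a).2) hB)
    (mul_le_mul_of_nonneg_left h2 (by positivity)) (by positivity)
    (mul_nonneg hB (weightPoly_mem (ball_mem_Icc b)).1)

/-- A quadratic in the kink is bounded by a tail integral. -/
theorem kink_tail {m : ℕ} {t₀ a θ : ℝ} {r Pr P H k tl : ℝ → ℝ} (h0 : 0 < t₀) (h1 : t₀ ≤ 1)
    (ha : 0 ≤ a) (hθ : 0 ≤ θ) (hr : ∀ t, 0 ≤ r t) (hlow : ∀ t ∈ Icc (0 : ℝ) t₀, r t = 0)
    (hhigh : ∀ t, t₀ ≤ t → r t ≤ Pr t)
    (hk : ∀ t, k t ≤ r t * (a * (θ + r t) * P t ^ 2 + H t ^ 2))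
    (htl : ∀ t, tl t = Pr t * (a * (θ + Pr t) * P t ^ 2 + H t ^ 2)) (ck : Continuous k)
    (ctl : Continuous tl) :
    t₀ * wMom m k ≤ ∫ t in t₀..1, t * (ballShape t ^ (m - 5) * tl t) := by
  have c0 : Continuous fun t => ballShape t ^ (m - 5) * k t := (cont_pow _).mul ck
  have c1 : Continuous fun t => t₀ * (ballShape t ^ (m - 5) * k t) := by fun_prop
  rw [wMom, ← intervalIntegral.integral_const_mul,
    ← intervalIntegral.integral_add_adjacent_intervals (c1.intervalIntegrable 0 t₀)
      (c1.intervalIntegrable t₀ 1)]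
  have hz : (∫ t in (0 : ℝ)..t₀, t₀ * (ballShape t ^ (m - 5) * k t)) ≤ 0 := by
    rw [← neg_nonneg, ← intervalIntegral.integral_neg]
    refine intervalIntegral.integral_nonneg h0.le fun t ht => ?_
    have h := hk t
    rw [hlow t ht, zero_mul] at h
    exact neg_nonneg.2 (mul_nonpos_of_nonneg_of_nonpos h0.le
      (mul_nonpos_of_nonneg_of_nonpos (pow_nonneg (ball_mem_Icc t).1 _) h))
  have hi : (∫ t in t₀..1, t₀ * (ballShape t ^ (m - 5) * k t)) ≤
      ∫ t in t₀..1, t * (ballShape t ^ (m - 5) * tl t) := by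
    refine intervalIntegral.integral_mono_on h1 ((continuous_const.mul c0).intervalIntegrable _ _)
      ((continuous_id.mul ((cont_pow _).mul ctl)).intervalIntegrable _ _) fun t ht => ?_
    have h := hhigh t ht.1
    have hr0 := hr t
    have hP : 0 ≤ Pr t := hr0.trans h
    have hle : k t ≤ tl t := by
      rw [htl]
      refine (hk t).trans (mul_le_mul h ?_ (by positivity) hP)
      gcongr
    have htl0 : 0 ≤ tl t := by rw [htl]; positivity
    exact (mul_le_mul_of_nonneg_left (mul_le_mul_of_nonneg_left hle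
      (pow_nonneg (ball_mem_Icc t).1 _)) h0.le).trans (mul_le_mul_of_nonneg_right ht.1
        (mul_nonneg (pow_nonneg (ball_mem_Icc t).1 _) htl0))
  linarith

theorem evP_kinkMP {K : CertPot} {D : CertTests} {m : ℕ} {u t₀ : ℝ}
    (hc : D.cutP.val (certS m) u = ballShape t₀)
    (hX : D.cutX.val (certS m) u = ((m : ℝ) + 1) * t₀ ^ 2) (t : ℝ) :
    evP m u (D.kinkMP K) t =
      K.B.eval (certS m) * weightPoly (ballShape t) * (((m : ℝ) + 1) * t ^ 2) -
      K.B.eval (certS m) * weightPoly (ballShape t₀) * (((m : ℝ) + 1) * t₀ ^ 2) := by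
  have eq : ∀ l : Lin, (l.qp QP.X).val (certS m) u = l.eval (certS m) :=
    fun l => l.val_qp (val_X _ u)
  simp only [evP, CertTests.kinkMP, eval_add, eval_scalMP, eval_mul, eval_kappaMP, eval, val_neg,
    val_mul, val_kappa, val_const, eq, hc, hX]
  push_cast
  ring

theorem evP_tailMP {K : CertPot} {D : CertTests} {m : ℕ} {u : ℝ} (Pa Pb : MP) (Ta Tb Sa Sb : Lin)
    (t : ℝ) :
    evP m u (D.tailMP K Pa Pb Ta Tb Sa Sb) t = evP m u (D.kinkMP K) t *
      (certS m ^ 2 * D.th.eval (certS m) *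
        (K.s0.eval (certS m) + D.th.eval (certS m) + evP m u (D.kinkMP K) t) *
          (evP m u Pa t * evP m u Pb t) +
        evP m u (CertTests.shifted K Pa Ta Sa) t * evP m u (CertTests.shifted K Pb Tb Sb) t) := by
  have eq : ∀ l : Lin, (l.qp QP.X).val (certS m) u = l.eval (certS m) :=
    fun l => l.val_qp (val_X _ u)
  simp only [evP, CertTests.tailMP, eval_mul, eval_add, eval_scalMP, eval, val_mul, val_add,
    val_X, eq]
  ring

theorem continuous_comb {f g h : ℝ → ℝ} (a b c : ℝ) (hf : Continuous f) (hg : Continuous g)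
    (hh : Continuous h) : Continuous fun t => a * f t + b * g t + c * h t := by fun_prop

theorem quad_nonneg {a b c α β : ℝ} (ha : 0 ≤ a) (hc : 0 ≤ c) (hd : 0 ≤ a * c - b * b) :
    0 ≤ α ^ 2 * a + 2 * α * β * b + β ^ 2 * c := by
  rcases eq_or_lt_of_le ha with h | h
  · rw [← h] at hd ⊢
    obtain rfl : b = 0 := by nlinarith
    nlinarith [mul_nonneg (sq_nonneg β) hc]
  · refine nonneg_of_mul_nonneg_right ?_ h
    nlinarith [sq_nonneg (α * a + β * b), mul_nonneg (sq_nonneg β) hd]

/-- The quadratic condition in symbolic moments. -/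
theorem quad_form {K : CertPot} {D : CertTests} {m : ℕ} (hm : 5 ≤ m) {u : ℝ} (α β : ℝ)
    (hrat : ratioQP.val (certS m) u = ballRatio m) {σ θ μ : ℝ} (hσd : σ = K.s0.eval (certS m))
    (hθd : θ = D.th.eval (certS m)) (hσ : 0 < σ) (hθ : 0 < θ) (hμ : 0 < μ) (P₁ P₂ : MP)
    (hI : 0 ≤ 2 * μ * (1 - certS m) *
        ((α ^ 2 * wMom m (evP m u (D.entryMP K P₁ P₁ D.T₁ D.T₁ D.S₁ D.S₁)) +
          2 * α * β * wMom m (evP m u (D.entryMP K P₁ P₂ D.T₁ D.T₂ D.S₁ D.S₂)) +
          β ^ 2 * wMom m (evP m u (D.entryMP K P₂ P₂ D.T₂ D.T₂ D.S₂ D.S₂))) -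
        (α ^ 2 * wMom m (kinkEntry K D m u P₁ P₁ (CertTests.shifted K P₁ D.T₁ D.S₁)
            (CertTests.shifted K P₁ D.T₁ D.S₁)) +
          2 * α * β * wMom m (kinkEntry K D m u P₁ P₂ (CertTests.shifted K P₁ D.T₁ D.S₁)
            (CertTests.shifted K P₂ D.T₂ D.S₂)) +
          β ^ 2 * wMom m (kinkEntry K D m u P₂ P₂ (CertTests.shifted K P₂ D.T₂ D.S₂)
            (CertTests.shifted K P₂ D.T₂ D.S₂)))) -
      σ * θ * certS m ^ 2 * (α * D.T₁.eval (certS m) + β * D.T₂.eval (certS m)) ^ 2 *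
        mass (m - 1) ballShape 1) :
    let g₁ := certDefect K m P₁ u
    let g₂ := certDefect K m P₂ u
    let u₁ := test P₁ m u
    let u₂ := test P₂ m u
    let τ₁ := D.T₁.eval (certS m) / certS m / m
    let τ₂ := D.T₂.eval (certS m) / certS m / m
    let κ₁ := 2 / m * D.S₁.eval (certS m)
    let κ₂ := 2 / m * D.S₂.eval (certS m)
    0 ≤ α ^ 2 * (∫ t in (0 : ℝ)..1, g₁ t * u₁ t) +
      2 * α * β * (∫ t in (0 : ℝ)..1, g₁ t * u₂ t) + β ^ 2 * (∫ t in (0 : ℝ)..1, g₂ t * u₂ t) +
      2 * (α * τ₁ + β * τ₂) * (α * (∫ t in (0 : ℝ)..1,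
          ballShape t ^ (m - 1) * (2 * (ballRatio m * ballShape t - 1)) * u₁ t) +
        β * ∫ t in (0 : ℝ)..1,
          ballShape t ^ (m - 1) * (2 * (ballRatio m * ballShape t - 1)) * u₂ t) +
      2 * (α * κ₁ + β * κ₂) * (α * (∫ t in (0 : ℝ)..1, ballShape t ^ (m - 1) * u₁ t) +
        β * ∫ t in (0 : ℝ)..1, ballShape t ^ (m - 1) * u₂ t) -
      (α * τ₁ + β * τ₂) ^ 2 / (μ * ((m : ℝ) + 1) / mass (m - 1) ballShape 1) -
      (α ^ 2 * (∫ t in (0 : ℝ)..1,
          (g₁ t + τ₁ * (ballShape t ^ (m - 1) * (2 * (ballRatio m * ballShape t - 1))) +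
            κ₁ * ballShape t ^ (m - 1)) ^ 2 / (ballShape t ^ (m - 1) * K.spare m)) +
        2 * α * β * (∫ t in (0 : ℝ)..1,
          (g₁ t + τ₁ * (ballShape t ^ (m - 1) * (2 * (ballRatio m * ballShape t - 1))) +
            κ₁ * ballShape t ^ (m - 1)) *
          (g₂ t + τ₂ * (ballShape t ^ (m - 1) * (2 * (ballRatio m * ballShape t - 1))) +
            κ₂ * ballShape t ^ (m - 1)) / (ballShape t ^ (m - 1) * K.spare m)) +
        β ^ 2 * (∫ t in (0 : ℝ)..1,
          (g₂ t + τ₂ * (ballShape t ^ (m - 1) * (2 * (ballRatio m * ballShape t - 1))) +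
            κ₂ * ballShape t ^ (m - 1)) ^ 2 / (ballShape t ^ (m - 1) * K.spare m))) := by
  intro g₁ g₂ u₁ u₂ τ₁ τ₂ κ₁ κ₂
  have hne : K.s0.eval (certS m) ≠ 0 := hσd ▸ hσ.ne'
  have E11 := entry_eq D hm hrat hne P₁ P₁ D.T₁ D.T₁ D.S₁ D.S₁
  have E12 := entry_eq D hm hrat hne P₁ P₂ D.T₁ D.T₂ D.S₁ D.S₂
  have E22 := entry_eq D hm hrat hne P₂ P₂ D.T₂ D.T₂ D.S₂ D.S₂
  rw [← hσd, ← hθd] at E11 E12 E22
  set s := certS m with hs
  have hs0 : 0 < s := certS_pos m
  have hm0 : (0 : ℝ) < m := by exact_mod_cast (show 0 < m by omega)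
  have hn : (m : ℝ) + 1 = 1 / s := by rw [hs, certS, one_div_one_div]
  have h1s : 1 - s = m * s := by
    rw [hs, certS]; field_simp; ring
  have sq_mul : ∀ f : ℝ → ℝ,
      (∫ t in (0 : ℝ)..1, f t ^ 2 / (ballShape t ^ (m - 1) * K.spare m)) =
      ∫ t in (0 : ℝ)..1, f t * f t / (ballShape t ^ (m - 1) * K.spare m) := fun f => by
    simp only [sq]
  simp only [g₁, g₂, u₁, u₂, τ₁, τ₂, κ₁, κ₂, sq_mul]
  generalize (∫ t in (0 : ℝ)..1, certDefect K m P₁ u t * test P₁ m u t) = G11 at *
  generalize (∫ t in (0 : ℝ)..1, certDefect K m P₁ u t * test P₂ m u t) = G12 at *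
  generalize (∫ t in (0 : ℝ)..1, certDefect K m P₂ u t * test P₂ m u t) = G22 at *
  generalize (∫ t in (0 : ℝ)..1, ballShape t ^ (m - 1) * (2 * (ballRatio m * ballShape t - 1)) *
      test P₁ m u t) = L1 at *
  generalize (∫ t in (0 : ℝ)..1, ballShape t ^ (m - 1) * test P₁ m u t) = N1 at *
  generalize (∫ t in (0 : ℝ)..1, ballShape t ^ (m - 1) * (2 * (ballRatio m * ballShape t - 1)) *
      test P₂ m u t) = L2 at *
  generalize (∫ t in (0 : ℝ)..1, ballShape t ^ (m - 1) * test P₂ m u t) = N2 at *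
  generalize (∫ t in (0 : ℝ)..1,
      (certDefect K m P₁ u t + D.T₁.eval s / s / m *
          (ballShape t ^ (m - 1) * (2 * (ballRatio m * ballShape t - 1))) +
        2 / m * D.S₁.eval s * ballShape t ^ (m - 1)) *
      (certDefect K m P₁ u t + D.T₁.eval s / s / m *
          (ballShape t ^ (m - 1) * (2 * (ballRatio m * ballShape t - 1))) +
        2 / m * D.S₁.eval s * ballShape t ^ (m - 1)) / (ballShape t ^ (m - 1) * K.spare m)) = H11 at *
  generalize wMom m (evP m u (D.entryMP K P₁ P₁ D.T₁ D.T₁ D.S₁ D.S₁)) = I11 at *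
  generalize wMom m (kinkEntry K D m u P₁ P₁ (CertTests.shifted K P₁ D.T₁ D.S₁)
    (CertTests.shifted K P₁ D.T₁ D.S₁)) = J11 at *
  generalize (∫ t in (0 : ℝ)..1,
      (certDefect K m P₁ u t + D.T₁.eval s / s / m *
          (ballShape t ^ (m - 1) * (2 * (ballRatio m * ballShape t - 1))) +
        2 / m * D.S₁.eval s * ballShape t ^ (m - 1)) *
      (certDefect K m P₂ u t + D.T₂.eval s / s / m *
          (ballShape t ^ (m - 1) * (2 * (ballRatio m * ballShape t - 1))) +
        2 / m * D.S₂.eval s * ballShape t ^ (m - 1)) / (ballShape t ^ (m - 1) * K.spare m)) = H12 at *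
  generalize wMom m (evP m u (D.entryMP K P₁ P₂ D.T₁ D.T₂ D.S₁ D.S₂)) = I12 at *
  generalize wMom m (kinkEntry K D m u P₁ P₂ (CertTests.shifted K P₁ D.T₁ D.S₁)
    (CertTests.shifted K P₂ D.T₂ D.S₂)) = J12 at *
  generalize (∫ t in (0 : ℝ)..1,
      (certDefect K m P₂ u t + D.T₂.eval s / s / m *
          (ballShape t ^ (m - 1) * (2 * (ballRatio m * ballShape t - 1))) +
        2 / m * D.S₂.eval s * ballShape t ^ (m - 1)) *
      (certDefect K m P₂ u t + D.T₂.eval s / s / m *
          (ballShape t ^ (m - 1) * (2 * (ballRatio m * ballShape t - 1))) +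
        2 / m * D.S₂.eval s * ballShape t ^ (m - 1)) / (ballShape t ^ (m - 1) * K.spare m)) = H22 at *
  generalize wMom m (evP m u (D.entryMP K P₂ P₂ D.T₂ D.T₂ D.S₂ D.S₂)) = I22 at *
  generalize wMom m (kinkEntry K D m u P₂ P₂ (CertTests.shifted K P₂ D.T₂ D.S₂)
    (CertTests.shifted K P₂ D.T₂ D.S₂)) = J22 at *
  have hM := ball_mass_pos (m - 1)
  refine nonneg_of_mul_nonneg_right (hI.trans_eq ?_)
    (show (0 : ℝ) < s ^ 2 * σ * θ * (m * (2 * μ * (m * s))) / 2 by positivity)
  rw [hn, h1s]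
  set M := mass (m - 1) ballShape 1
  have hp : (α * (D.T₁.eval s / s / m) + β * (D.T₂.eval s / s / m)) ^ 2 / (μ * (1 / s) / M) *
      (s ^ 2 * σ * θ * (m * (2 * μ * (m * s))) / 2) =
      σ * θ * s ^ 2 * (α * D.T₁.eval s + β * D.T₂.eval s) ^ 2 * M := by
    field_simp
  rw [← hp]
  simp only [← hs]
  field_simp at E11 E12 E22
  field_simp
  linear_combination -(α ^ 2 * (μ * m)) * E11 - 2 * α * β * (μ * m) * E12 -
    β ^ 2 * (μ * m) * E22

theorem val_cutExp (D : CertTests) (m : ℕ) (u : ℝ) :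
    D.cutExp.val (certS m) u = D.y₀.eval (certS m) * (1 - 4 * certS m) *
      (1 + 1 / 2 * (certS m * D.y₀.eval (certS m)) + (certS m * D.y₀.eval (certS m)) *
        (certS m * D.y₀.eval (certS m)) * (1 / 3 + 1 / 4 * (certS m * D.y₀.eval (certS m)))) := by
  simp only [CertTests.cutExp, val_mul, val_sub, val_add, val_const, val_X,
    Lin.val_qp _ (val_X (certS m) u)]
  push_cast
  ring

/-- Dominance in the direction `(k, 1)` gives a nonnegative determinant. -/
theorem dominance_to_det {a b c k e : ℝ} (h₁ : 0 ≤ a - k * b) (h₂ : 0 ≤ k * c - b) (hb : 0 ≤ b)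
    (hk : 0 ≤ k - 1 / (e + 1)) (he : 0 ≤ e) :
    0 ≤ a ∧ 0 ≤ c ∧ 0 ≤ a * c - b * b := by
  have : 0 < 1 / (e + 1) := by positivity
  have hk0 : 0 < k := by linarith
  have hc : 0 ≤ c := nonneg_of_mul_nonneg_right (by linarith) hk0
  refine ⟨by nlinarith [mul_nonneg hk0.le hb], hc, ?_⟩
  nlinarith [mul_nonneg h₁ hc, mul_nonneg hb h₂]

/-- The conditions on the matrix give the quadratic condition. -/
theorem matrix_form {K : CertPot} {D : CertTests} {G : CertGrid}
    {ts tm : List WeightCert.Tree} (hQ : D.check K G ts tm = true) {m : ℕ} (hm : 5 ≤ m) {u : ℝ}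
    (hu : 0 ≤ u) (hrat : ratioQP.val (certS m) u = ballRatio m) (hbox : Packed.memC G.box (certS m) u)
    (α β : ℝ) :
    0 < D.mu.eval (certS m) ∧ 0 < D.th.eval (certS m) ∧ 0 < K.s0.eval (certS m) ∧
    0 ≤ 2 * D.mu.eval (certS m) * (1 - certS m) *
        ((α ^ 2 * wMom m (evP m u (D.entryMP K (mkTest D.P₁) (mkTest D.P₁) D.T₁ D.T₁ D.S₁ D.S₁)) +
          2 * α * β *
            wMom m (evP m u (D.entryMP K (mkTest D.P₁) (mkTest D.P₂) D.T₁ D.T₂ D.S₁ D.S₂)) +
          β ^ 2 * wMom m (evP m u (D.entryMP K (mkTest D.P₂) (mkTest D.P₂) D.T₂ D.T₂ D.S₂ D.S₂))) -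
        (α ^ 2 * wMom m (kinkEntry K D m u (mkTest D.P₁) (mkTest D.P₁)
            (CertTests.shifted K (mkTest D.P₁) D.T₁ D.S₁)
            (CertTests.shifted K (mkTest D.P₁) D.T₁ D.S₁)) +
          2 * α * β * wMom m (kinkEntry K D m u (mkTest D.P₁) (mkTest D.P₂)
            (CertTests.shifted K (mkTest D.P₁) D.T₁ D.S₁)
            (CertTests.shifted K (mkTest D.P₂) D.T₂ D.S₂)) +
          β ^ 2 * wMom m (kinkEntry K D m u (mkTest D.P₂) (mkTest D.P₂)
            (CertTests.shifted K (mkTest D.P₂) D.T₂ D.S₂)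
            (CertTests.shifted K (mkTest D.P₂) D.T₂ D.S₂)))) -
      K.s0.eval (certS m) * D.th.eval (certS m) * certS m ^ 2 *
        (α * D.T₁.eval (certS m) + β * D.T₂.eval (certS m)) ^ 2 * mass (m - 1) ballShape 1 := by
  simp only [CertTests.check, CertTests.shapeOK, Bool.and_eq_true, decide_eq_true_eq] at hQ
  obtain ⟨⟨⟨⟨hI, ⟨⟨hi00, hi01⟩, hi11⟩⟩, ⟨⟨hk00, hk01⟩, hk11⟩⟩, hscal⟩, hmat⟩ := hQ
  obtain ⟨hx0, hx6⟩ : 0 ≤ certS m ∧ certS m ≤ 1 / 6 := sixth_bound hm
  have hsc := checkAll_sound hbox hscal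
  have hmx := checkAll_sound hbox hmat
  have eq : ∀ l : Lin, (l.qp QP.X).val (certS m) u = l.eval (certS m) :=
    fun l => l.val_qp (val_X _ u)
  simp only [CertTests.scalars, List.forall_mem_cons, List.not_mem_nil, IsEmpty.forall_iff,
    implies_true, and_true, val_sub, val_mul, val_const, eq, val_kappa,
    CertTests.val_expSum] at hsc
  push_cast at hsc
  obtain ⟨gmu, gth, gs0, gy0, gcut, gB, gA, gR, gR2, gz, gbnd, gexp, -⟩ := hsc
  set s := certS m with hs
  set M := mass (m - 1) ballShape 1 with hM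
  have hM0 : 0 < M := ball_mass_pos _
  set μ := D.mu.eval s with hμ
  set θ := D.th.eval s with hθ
  set σ := K.s0.eval s with hσ
  set B := K.B.eval s with hBd
  set y₀ := D.y₀.eval s with hy₀
  set n : ℝ := (m : ℝ) + 1 with hn
  have hsn : s * n = 1 := by rw [hs, certS, hn, one_div, inv_mul_cancel₀ (by positivity)]
  have hn0 : 0 < n := by positivity
  have hμ0 : 0 < μ := by linarith
  have hθ0 : 0 < θ := by linarith
  have hσ0 : 0 < σ := by linarith
  refine ⟨hμ0, hθ0, hσ0, ?_⟩
  have hy00 : 0 < y₀ := by linarith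
  have hcut : D.cutP.val s u = 1 - s * y₀ := by
    simp only [CertTests.cutP, val_sub, val_mul, val_const, val_X, eq, hy₀]; push_cast; ring
  rw [hcut] at gcut gA
  have hsy : s * y₀ < 1 := by linarith
  obtain ⟨ht0, ht01, hp0⟩ := nodeT_mem (m := m) hy00 hsy
  set t₀ := nodeT m y₀
  have hX0 : D.cutX.val s u = n * t₀ ^ 2 := by
    have hp2 : ballShape t₀ ^ 2 = 1 - t₀ ^ 2 := ball_sq ⟨by linarith, ht01.le⟩
    rw [hp0] at hp2
    simp only [CertTests.cutX, val_mul, val_add, val_const, eq, ← hy₀, hcut]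
    push_cast
    rw [show t₀ ^ 2 = s * y₀ * (2 - s * y₀) by rw [← hs] at hp2; linear_combination hp2]
    linear_combination (-(y₀ * (2 - s * y₀))) * hsn
  have hcutP : D.cutP.val s u = ballShape t₀ := hcut.trans hp0.symm
  rw [hX0, ← hp0] at gA
  rw [hX0] at gR2
  set bnd := D.bnd.val s u with hbnd
  have hp0pos : 0 < ballShape t₀ := ball_pos ⟨by linarith, ht01⟩
  have hcutb : ballShape t₀ ^ (m - 3) ≤ bnd * (n * t₀ * M) := by
    exact cut_bound hm hy00 hsy (z := D.cutExp.val s u) (val_cutExp D m u) gR (by linarith) gz gbnd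
      (by linarith)
  clear gexp gz gR2 gR
  set P1 := mkTest D.P₁
  set P2 := mkTest D.P₂
  set H1 := CertTests.shifted K P1 D.T₁ D.S₁
  set H2 := CertTests.shifted K P2 D.T₂ D.S₂
  set P : ℝ → ℝ := fun t => α * evP m u P1 t + β * evP m u P2 t with hP
  set HH : ℝ → ℝ := fun t => α * evP m u H1 t + β * evP m u H2 t with hHH
  set kt : ℝ → ℝ := fun t => α ^ 2 * kinkEntry K D m u P1 P1 H1 H1 t +
    2 * α * β * kinkEntry K D m u P1 P2 H1 H2 t +
    β ^ 2 * kinkEntry K D m u P2 P2 H2 H2 t with hkt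
  set tl : ℝ → ℝ := fun t => α ^ 2 * evP m u (D.tailMP K P1 P1 D.T₁ D.T₁ D.S₁ D.S₁) t +
    2 * α * β * evP m u (D.tailMP K P1 P2 D.T₁ D.T₂ D.S₁ D.S₂) t +
    β ^ 2 * evP m u (D.tailMP K P2 P2 D.T₂ D.T₂ D.S₂ D.S₂) t with htl
  have cv := continuous_evP m u
  have ckt : Continuous kt := continuous_comb _ _ _ (continuous_kinkEntry ..)
    (continuous_kinkEntry ..) (continuous_kinkEntry ..)
  have ctl : Continuous tl := continuous_comb _ _ _ (cv _) (cv _) (cv _)
  have hr0 : ∀ t, 0 ≤ kinkR K m t := fun t => sub_nonneg.2 (le_max_left _ _)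
  set Pr : ℝ → ℝ := fun t => evP m u (D.kinkMP K) t with hPr
  have hlow : ∀ t ∈ Icc (0 : ℝ) t₀, kinkR K m t = 0 := fun t ht => by
    have h := weight_mul_mono (m := m) gB ht.1 ht.2
    rw [kinkR, max_eq_left (by linarith [h.trans (sub_nonneg.1 gA)]), sub_self]
  have hhigh : ∀ t, t₀ ≤ t → kinkR K m t ≤ Pr t := fun t ht => by
    have h := weight_mul_mono (m := m) gB ht0.le ht
    simp only [hPr, evP_kinkMP hcutP hX0, kinkR, ← hs, ← hBd, ← hn, sub_le_iff_le_add]
    exact max_le (by linarith) (by linarith)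
  have tl_eq : ∀ t, tl t = Pr t *
      (s ^ 2 * θ * ((σ + θ) + Pr t) * P t ^ 2 + HH t ^ 2) := fun t => by
    simp only [htl, evP_tailMP, hP, hHH, hPr, ← hs, ← hσ, ← hθ]
    ring
  have kt_le : ∀ t, kt t ≤ kinkR K m t *
      (s ^ 2 * θ * ((σ + θ) + kinkR K m t) * P t ^ 2 + HH t ^ 2) := fun t => by
    have e : kt t = σ * θ * s * (s * kinkR K m t * P t ^ 2) +
        θ * ((s * kinkR K m t) ^ 2 * P t ^ 2 - 2 * (s * kinkR K m t) * (HH t * P t)) := by
      simp only [hkt, kinkEntry, hP, hHH, ← hs, ← hσ, ← hθ]; ring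
    rw [e]
    linarith [mul_nonneg (hr0 t) (sq_nonneg (θ * s * P t + HH t))]
  have hkb := kink_tail (m := m) (t₀ := t₀) (a := s ^ 2 * θ) (θ := σ + θ) ht0 ht01.le
    (mul_nonneg (sq_nonneg s) hθ0.le) (add_nonneg hσ0.le hθ0.le) hr0 hlow hhigh kt_le tl_eq ckt ctl
  -- the tail in closed form
  set TD := (tailFull D.N).val s u with hTD
  have hTD0 : 0 < TD := tailFull_pos hx0 hx6 _
  have htail : ∀ l : MP, tailOK D.N l = true →
      n * (∫ t in t₀..1, t * (ballShape t ^ (m - 5) * evP m u l t)) * TD =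
        ballShape t₀ ^ (m - 3) * (tailSum D.cutP D.cutX D.N l).val s u := fun l hl =>
    tail_integral hm ht0.le ht01.le hu hcutP hX0 hl
  have htl3 : (∫ t in t₀..1, t * (ballShape t ^ (m - 5) * tl t)) =
      α ^ 2 * (∫ t in t₀..1, t * (ballShape t ^ (m - 5) *
          evP m u (D.tailMP K P1 P1 D.T₁ D.T₁ D.S₁ D.S₁) t)) +
      2 * α * β * (∫ t in t₀..1, t * (ballShape t ^ (m - 5) *
          evP m u (D.tailMP K P1 P2 D.T₁ D.T₂ D.S₁ D.S₂) t)) +
      β ^ 2 * (∫ t in t₀..1, t * (ballShape t ^ (m - 5) *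
          evP m u (D.tailMP K P2 P2 D.T₂ D.T₂ D.S₂ D.S₂) t)) := by
    have c : ∀ (l : MP) (a : ℝ),
        Continuous fun t => a * (t * (ballShape t ^ (m - 5) * evP m u l t)) := fun l a =>
      continuous_const.mul (continuous_id.mul ((cont_pow _).mul (cv l)))
    simp only [htl, ← intervalIntegral.integral_const_mul]
    have c12 : ∀ (l l' : MP) (a b : ℝ), Continuous fun t =>
        a * (t * (ballShape t ^ (m - 5) * evP m u l t)) +
          b * (t * (ballShape t ^ (m - 5) * evP m u l' t)) := fun l l' a b => (c l a).add (c l' b)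
    rw [← intervalIntegral.integral_add ((c _ _).intervalIntegrable _ _)
      ((c _ _).intervalIntegrable _ _),
      ← intervalIntegral.integral_add ((c12 _ _ _ _).intervalIntegrable _ _)
      ((c _ _).intervalIntegrable _ _)]
    exact intervalIntegral.integral_congr fun t _ => by ring
  set T := α ^ 2 * (tailSum D.cutP D.cutX D.N (D.tailMP K P1 P1 D.T₁ D.T₁ D.S₁ D.S₁)).val s u +
    2 * α * β * (tailSum D.cutP D.cutX D.N (D.tailMP K P1 P2 D.T₁ D.T₂ D.S₁ D.S₂)).val s u +
    β ^ 2 * (tailSum D.cutP D.cutX D.N (D.tailMP K P2 P2 D.T₂ D.T₂ D.S₂ D.S₂)).val s u with hT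
  have hTeq : n * (∫ t in t₀..1, t * (ballShape t ^ (m - 5) * tl t)) * TD =
      ballShape t₀ ^ (m - 3) * T := by
    rw [htl3, hT]
    linear_combination α ^ 2 * htail _ hk00 + 2 * α * β * htail _ hk01 + β ^ 2 * htail _ hk11
  have hT0 : 0 ≤ T := by
    refine nonneg_of_mul_nonneg_right (le_of_le_of_eq ?_ hTeq) (pow_pos hp0pos _)
    refine mul_nonneg (mul_nonneg hn0.le (intervalIntegral.integral_nonneg ht01.le fun t ht => ?_))
      hTD0.le
    have hP0 := (hr0 t).trans (hhigh t ht.1)
    refine mul_nonneg (ht0.le.trans ht.1) (mul_nonneg (pow_nonneg (ball_mem_Icc t).1 _) ?_)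
    rw [tl_eq]
    exact mul_nonneg hP0 (add_nonneg (mul_nonneg (mul_nonneg (mul_nonneg (sq_nonneg _) hθ0.le)
      (add_nonneg (add_nonneg hσ0.le hθ0.le) hP0)) (sq_nonneg _)) (sq_nonneg _))
  have hJkb : wMom m kt * TD ≤ bnd * M * T := by
    have h1 := mul_le_mul_of_nonneg_right (mul_le_mul_of_nonneg_left hkb hn0.le) hTD0.le
    rw [hTeq] at h1
    have h2 := mul_le_mul_of_nonneg_right hcutb hT0
    refine le_of_mul_le_mul_left ?_ (mul_pos hn0 ht0)
    linarith
  rw [hkt, wMom_lin3 _ _ _ (continuous_kinkEntry ..) (continuous_kinkEntry ..)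
    (continuous_kinkEntry ..)] at hJkb
  -- the matrix
  set den := (totalDen D.I D.J ratioQP).val s u with hden
  have hden0 : 0 < den := totalDen_pos hm hrat
  have htot : ∀ l : MP, inRange D.I D.J l = true →
      wMom m (evP m u l) * den = M * (total D.I D.J ratioQP l).val s u := fun l hl =>
    MP.integral_eq hm hI hrat hl
  simp only [CertTests.matrix, List.forall_mem_cons, List.not_mem_nil, IsEmpty.forall_iff,
    implies_true, and_true, val_sub, val_mul, val_repack] at hmx
  obtain ⟨h₁, h₂, hb, hk⟩ := hmx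
  simp only [val_const] at hk
  push_cast at hk
  obtain ⟨ha, hc, hd⟩ := dominance_to_det h₁ h₂ hb hk (by norm_num)
  have hquad := quad_nonneg (α := α) (β := β) ha hc hd
  simp only [CertTests.entry, val_sub, val_mul, val_const, val_X, eq, ← hμ, ← hσ, ← hθ, ← hden,
    ← hTD, ← hbnd] at hquad
  push_cast at hquad
  have i11 := htot _ hi00
  have i12 := htot _ hi01
  have i22 := htot _ hi11
  generalize wMom m (kinkEntry K D m u P1 P1 H1 H1) = J11 at hJkb ⊢
  generalize wMom m (kinkEntry K D m u P1 P2 H1 H2) = J12 at hJkb ⊢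
  generalize wMom m (kinkEntry K D m u P2 P2 H2 H2) = J22 at hJkb ⊢
  generalize wMom m (evP m u (D.entryMP K P1 P1 D.T₁ D.T₁ D.S₁ D.S₁)) = I11 at i11 ⊢
  generalize wMom m (evP m u (D.entryMP K P1 P2 D.T₁ D.T₂ D.S₁ D.S₂)) = I12 at i12 ⊢
  generalize wMom m (evP m u (D.entryMP K P2 P2 D.T₂ D.T₂ D.S₂ D.S₂)) = I22 at i22 ⊢
  generalize (total D.I D.J ratioQP (D.entryMP K P1 P1 D.T₁ D.T₁ D.S₁ D.S₁)).val s u = X11
    at i11 hquad
  generalize (total D.I D.J ratioQP (D.entryMP K P1 P2 D.T₁ D.T₂ D.S₁ D.S₂)).val s u = X12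
    at i12 hquad
  generalize (total D.I D.J ratioQP (D.entryMP K P2 P2 D.T₂ D.T₂ D.S₂ D.S₂)).val s u = X22
    at i22 hquad
  rw [hT] at hJkb
  generalize (tailSum D.cutP D.cutX D.N (D.tailMP K P1 P1 D.T₁ D.T₁ D.S₁ D.S₁)).val s u = Y11
    at hJkb hquad
  generalize (tailSum D.cutP D.cutX D.N (D.tailMP K P1 P2 D.T₁ D.T₂ D.S₁ D.S₂)).val s u = Y12
    at hJkb hquad
  generalize (tailSum D.cutP D.cutX D.N (D.tailMP K P2 P2 D.T₂ D.T₂ D.S₂ D.S₂)).val s u = Y22
    at hJkb hquad
  refine nonneg_of_mul_nonneg_right ?_ (mul_pos hden0 hTD0)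
  have h1s : 0 < 1 - s := by linarith
  have h3 := mul_le_mul_of_nonneg_left hJkb
    (show (0 : ℝ) ≤ 2 * μ * (1 - s) * den by positivity)
  have h5 : (α ^ 2 * I11 + 2 * α * β * I12 + β ^ 2 * I22) * den =
      M * (α ^ 2 * X11 + 2 * α * β * X12 + β ^ 2 * X22) := by
    linear_combination α ^ 2 * i11 + 2 * α * β * i12 + β ^ 2 * i22
  have h6 := congrArg (fun z => 2 * μ * (1 - s) * TD * z) h5
  linarith [mul_nonneg hM0.le hquad]

/-- Supersolutions and the check of the quadratic condition give the spectral inequality. -/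
theorem specPoincare_of_super {K : CertPot} {G : CertGrid} {D : CertTests}
    {ts tm : List WeightCert.Tree} {m : ℕ} (hS : SuperOK K G m) (hQ : D.check K G ts tm = true)
    (hm : 5 ≤ m) (hr : G.Range m) :
    SpecPoincare m (K.cen.eval (certS m)) (K.W m)
      (D.mu.eval (certS m) * ((m : ℝ) + 1)) := by
  obtain ⟨hc0, -, hY1, hY12, hY2, φ, F, χ, L, hφ, hχ, hψ, hF0⟩ := hS
  obtain ⟨u, hu, hru⟩ := exists_ratio (m := m) (by omega)
  set s := certS m with hs
  have hs0 : 0 < s := certS_pos m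
  have hsn : s * ((m : ℝ) + 1) = 1 := by rw [hs, certS, one_div, inv_mul_cancel₀ (by positivity)]
  have hrat : ratioQP.val s u = ballRatio m := (val_ratioQP m u).trans hru
  obtain ⟨hD, hlt, hlo, hhi⟩ := hr
  have hbox : Packed.memC G.box s u := ⟨hD, hlt, (show (0 : ℤ) < G.D by exact_mod_cast hD), hlo, hhi,
    by simpa [CertGrid.box] using mul_nonneg hu.1 hD.le, mul_le_of_le_one_left hD.le hu.2⟩
  obtain ⟨hμ0, hθ0, hσ0, -⟩ := matrix_form hQ hm hu.1 hrat hbox 0 0
  have hm0 : (0 : ℝ) < m := by exact_mod_cast (show 0 < m by omega)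
  obtain ⟨C, -, hC⟩ := bounded_unit (continuous_certW K m)
  refine specPoincare_of_schur (by omega : 4 ≤ m) (σ₀ := K.spare m) (S := K.spare m) (C := C) hc0
    (mul_pos hμ0 (by positivity)) (continuous_certW K m).measurable
    (fun t ht => hC t (Ioo_subset_Icc_self ht))
    (σ := fun _ => K.spare m) measurable_const
    (mul_pos (div_pos two_pos hm0) hσ0)
    (fun t _ => ⟨le_rfl, le_rfl⟩) (ξ := nodeT m (G.Y₁.eval s)) (η := nodeT m (G.Y₂.eval s))
    (Real.sqrt_nonneg _) ?_ (nodeT_mem (hY1.trans hY12) hY2).2.1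
    (certTestFun_test K (by omega) (mkTest D.P₁) u) (certTestFun_test K (by omega) (mkTest D.P₂) u)
    ?_ hφ hχ hψ hF0
    (τ₁ := D.T₁.eval s / s / m) (τ₂ := D.T₂.eval s / s / m)
    (κ₁ := 2 / m * D.S₁.eval s) (κ₂ := 2 / m * D.S₂.eval s) ?_
  · refine Real.sqrt_le_sqrt ?_
    nlinarith [mul_lt_mul_of_pos_left hY12 hs0, mul_pos hs0 hY1]
  · have hs1 : s * G.Y₁.eval s < 1 := (mul_lt_mul_of_pos_left hY12 hs0).trans hY2
    have eq : ∀ l : Lin, (l.qp QP.X).val s u = l.eval s := fun l => l.val_qp (val_X _ u)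
    simp only [CertTests.check, Bool.and_eq_true] at hQ
    have hsc := checkAll_sound hbox hQ.1.2
    have gdet := hsc ((D.nodeDet G).sub (const 1 999999))
      (by simp [CertTests.scalars])
    have node : ∀ (Y : Lin), 0 < Y.eval s → s * Y.eval s < 1 → ∀ P : MP,
        (CertTests.atPoint ((const 1 0).sub (QP.X.mul (Y.qp QP.X)))
          ((Y.qp QP.X).mul ((const 1 0).add ((const 1 0).sub (QP.X.mul (Y.qp QP.X))))) P).val s u =
        evP m u P (nodeT m (Y.eval s)) := fun Y h0 h1 P => by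
      obtain ⟨a0, a1, a2⟩ := nodeT_mem (m := m) h0 h1
      have hp2 : ballShape (nodeT m (Y.eval s)) ^ 2 = 1 - nodeT m (Y.eval s) ^ 2 :=
        ball_sq ⟨by linarith, a1.le⟩
      rw [a2] at hp2
      simp only [evP, CertTests.val_atPoint, val_sub, val_mul, val_add, val_const, val_X, eq, a2,
        ← hs]
      congr 1
      · push_cast; ring
      · push_cast
        rw [show nodeT m (Y.eval s) ^ 2 = s * Y.eval s * (2 - s * Y.eval s) by
          rw [← hs] at hp2; linear_combination hp2]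
        linear_combination (-(Y.eval s * (2 - s * Y.eval s))) * hsn
    simp only [CertTests.nodeDet, val_sub, val_mul, val_const, node _ hY1 hs1,
      node _ (hY1.trans hY12) hY2] at gdet
    push_cast at gdet
    obtain ⟨-, -, a2⟩ := nodeT_mem (m := m) hY1 hs1
    obtain ⟨-, -, b2⟩ := nodeT_mem (m := m) (hY1.trans hY12) hY2
    have te : ∀ (P : MP) t, test P m u t = evP m u P t / ballShape t ^ 2 := fun P t => rfl
    rw [te, te, te, te, a2, b2, div_mul_div_comm, div_mul_div_comm,
      mul_comm ((1 - certS m * G.Y₁.eval s) ^ 2), ← sub_div]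
    refine div_ne_zero (by linarith) (mul_ne_zero (pow_ne_zero _ ?_) (pow_ne_zero _ ?_)) <;>
      rw [← hs] <;> linarith
  intro α β
  exact quad_form hm α β hrat rfl rfl hσ0 hθ0 hμ0 _ _ (matrix_form hQ hm hu.1 hrat hbox α β).2.2.2

/-- The certificate: all checks give the spectral inequality on the range. -/
theorem specPoincare_cert {K : CertPot} {P₀ P₁ P₂ : CertFam} {G : CertGrid} {D : CertTests}
    {tg t0 t1 t2 t3 ts tm : List WeightCert.Tree}
    (hS : superCheck K P₀ P₁ P₂ G tg t0 t1 t2 t3 = true) (hQ : D.check K G ts tm = true)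
    {m : ℕ} (hm : 5 ≤ m) (hr : G.Range m) :
    SpecPoincare m (K.cen.eval (certS m)) (K.W m) (D.mu.eval (certS m) * ((m : ℝ) + 1)) :=
  specPoincare_of_super (super_of_check hS (by omega) hr) hQ hm hr

/-- The certificate with the outer interval split. -/
theorem specPoincare_split {K : CertPot} {P₀ P₁ P₂ P₃ : CertFam} {G : CertGrid} {Z : Lin}
    {D : CertTests} {tg t0 t1 t2 tj t3 t4 ts tm : List WeightCert.Tree}
    (hS : splitCheck K P₀ P₁ P₂ P₃ G Z tg t0 t1 t2 tj t3 t4 = true)
    (hQ : D.check K G ts tm = true) {m : ℕ} (hm : 5 ≤ m) (hr : G.Range m) :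
    SpecPoincare m (K.cen.eval (certS m)) (K.W m) (D.mu.eval (certS m) * ((m : ℝ) + 1)) :=
  specPoincare_of_super (super_of_split hS (by omega) hr) hQ hm hr

end Vale.Agent.P237.Quant
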