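import Vale.Agent.P237.Quant.PureCert
import Vale.Agent.P237.Quant.CertNegData
import Vale.Agent.P237.Quant.CertQuad

/-!
The spectral inequality of the side of negative linear term, for every `n ≥ 6` at once.
-/

namespace Vale.Agent.P237.Quant

open Set

/-- The spectral inequality of the data on its whole range. -/
theorem specPoincareNegAll {m : ℕ} (hm : 5 ≤ m) (hr : gridNegAll.Range m) :
    SpecPoincare m (potNegAll.cen.eval (certS m)) (potNegAll.W m)
      (testsNegAll.mu.eval (certS m) * ((m : ℝ) + 1)) :=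
  specPoincare_cert superNegAll_check testsNegAll_check hm hr

/-- The weight of the tail on the negative side. -/
noncomputable def negW (m : ℕ) (t : ℝ) : ℝ :=
  max (49 / 20) (977 / 2000 * weightPoly (ballShape t) * (((m : ℝ) + 1) * t ^ 2)) / m +
    21 / (100 * ((m : ℝ) + 1))

theorem continuous_negW (m : ℕ) : Continuous (negW m) := by
  have := cont_ball
  unfold negW weightPoly
  fun_prop

/-- The hypothesis `hcertNeg` with `η₁ = 0`, `μ₁ = 7 n / 5`, `e₁ = 131 / (500 n)`. -/
theorem hcertNeg_negW {m : ℕ} (hm : 5 ≤ m) {η₁ μ₁ e₁ δ : ℝ} (hη : η₁ = 0)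
    (hμ : μ₁ = 7 / 5 * ((m : ℝ) + 1)) (he : e₁ = 131 / (500 * ((m : ℝ) + 1)))
    (hδ : δ ≤ 1 / (100 * ((m : ℝ) + 1))) :
    SpecPoincare m (1 - η₁ * (1 + μ₁ * e₁))
      (fun t => (1 + μ₁ * e₁) * negW m t + μ₁ * e₁ * (ballRatio m * ballShape t - 1) + δ) μ₁ := by
  have hτ : μ₁ * e₁ = 917 / 2500 := by rw [hμ, he]; field_simp; ring
  have hs := sixth_bound hm
  have hm5 : (5 : ℝ) ≤ m := by exact_mod_cast hm
  have hr : gridNegAll.Range m := by
    refine ⟨by norm_num [gridNegAll], by norm_num [gridNegAll], ?_, ?_⟩ <;>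
      simp only [gridNegAll, certS] <;> push_cast <;> nlinarith [hs.1, hs.2]
  have hcont : Continuous fun t =>
      (1 + μ₁ * e₁) * negW m t + μ₁ * e₁ * (ballRatio m * ballShape t - 1) + δ := by
    have := continuous_negW m
    have := cont_ball
    fun_prop
  obtain ⟨C, -, hC⟩ := bounded_unit hcont
  refine specPoincare_of_cert (C := C) superNegAll_check testsNegAll_check hm hr ?_ ?_
    hcont.measurable (fun t ht => hC t (Ioo_subset_Icc_self ht)) fun t ht => ?_
  · simp only [hη, potNegAll, Lin.eval]; norm_num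
  · simp only [hμ, testsNegAll, Lin.eval]; norm_num
  rw [hτ]
  set p := ballShape t with hp
  set n : ℝ := (m : ℝ) + 1 with hn
  set s := certS m with hsdef
  have hp0 : 0 ≤ p := Real.sqrt_nonneg _
  have hn0 : 0 < n := by positivity
  have hm0 : (0 : ℝ) < m := by linarith
  have hsn : s * n = 1 := by rw [hsdef, certS, hn, one_div, inv_mul_cancel₀ hn0.ne']
  have hm_eq : (m : ℝ) = n - 1 := by rw [hn]; ring
  have hy : certY m t = n * (1 - p) := rfl
  have hr1 : ballRatio m ≤ ratioCubic m 0 := (ballRatio_bracket (by omega)).2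
  have hrat : ratioCubic m 0 = 1 + s / 2 + s ^ 2 / 8 - s ^ 3 / 16 := by
    simp only [ratioCubic, hsdef, certS]; ring
  have key : m / 2 * ((1 + 917 / 2500) * negW m t +
      917 / 2500 * (ballRatio m * p - 1) + δ) ≤ potNegAll.Q m t := by
    have e1 : m / 2 * negW m t = max (49 / 40 : ℝ) (977 / 4000 * weightPoly p * (n * t ^ 2)) +
        21 / 200 * (1 - s) := by
      rw [negW, ← hp, ← hn]
      have : max (49 / 20 : ℝ) (977 / 2000 * weightPoly p * (n * t ^ 2)) =
          2 * max (49 / 40 : ℝ) (977 / 4000 * weightPoly p * (n * t ^ 2)) := by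
        rw [mul_max_of_nonneg _ _ zero_le_two]; ring_nf
      have hms : (m : ℝ) * s = 1 - s := by rw [hn] at hsn; linear_combination hsn
      have hsinv : 21 / (100 * n) = 21 / 100 * s := by rw [eq_div_iff hn0.ne'|>.2 hsn]; field_simp
      rw [this, hsinv, ← hms]
      field_simp
      ring
    have e2 : (m : ℝ) / 2 * δ ≤ 1 / 200 := by
      refine (mul_le_mul_of_nonneg_left hδ (by positivity)).trans ?_
      rw [mul_one_div, div_le_iff₀ (by positivity)]
      nlinarith
    have e3 : (m : ℝ) / 2 * (ballRatio m * p - 1) ≤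
        (1 / 4 - 3 / 16 * s) * p - (1 - s) / 2 * certY m t := by
      have h1 : (m : ℝ) / 2 * (ballRatio m * p - 1) ≤
          (m : ℝ) / 2 * ((1 + s / 2 + s ^ 2 / 8) * p - 1) := by
        gcongr
        nlinarith [pow_nonneg (certS_pos m).le 3]
      refine h1.trans (le_of_sub_nonneg ?_)
      have h2 : (1 / 4 - 3 / 16 * s) * p - (1 - s) / 2 * certY m t -
          (m : ℝ) / 2 * ((1 + s / 2 + s ^ 2 / 8) * p - 1) = s ^ 2 / 16 * p := by
        rw [hy, hm_eq]
        linear_combination ((1 - p) / 2 - (p / 4 + s * p / 16)) * hsn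
      rw [h2]; positivity
    have e4 : potNegAll.Q m t = (1 + 917 / 2500) *
        (max (49 / 40 : ℝ) (977 / 4000 * weightPoly p * (n * t ^ 2)) + 11 / 100) +
        917 / 2500 * ((1 / 4 - 3 / 16 * s) * p - (1 - s) / 2 * certY m t) := by
      simp only [CertPot.Q, potNegAll, Lin.eval, ← hp, ← hn, ← hsdef, Int.cast_ofNat, Int.cast_neg,
        Nat.cast_ofNat, Int.cast_zero, zero_mul, add_zero]
      rw [mul_add, mul_max_of_nonneg _ _ (by norm_num : (0 : ℝ) ≤ 1 + 917 / 2500)]
      norm_num
      ring_nf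
    rw [e4, mul_add, mul_add, mul_left_comm, e1, mul_left_comm ((m : ℝ) / 2)]
    nlinarith [(certS_pos m).le]
  calc (1 + 917 / 2500) * negW m t + 917 / 2500 * (ballRatio m * p - 1) + δ
      = 2 / m * (m / 2 * ((1 + 917 / 2500) * negW m t +
          917 / 2500 * (ballRatio m * p - 1) + δ)) := by field_simp
    _ ≤ 2 / m * potNegAll.Q m t := mul_le_mul_of_nonneg_left key (by positivity)
    _ = potNegAll.W m t := rfl

end Vale.Agent.P237.Quant
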