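import Vale.Agent.P237.Quant.CertFrame
import Vale.Agent.P237.Quant.CertDefs
import Vale.Agent.P237.Quant.WeightBound

/-!
Polynomials in two variables with a common integer denominator, and the operator of `CertFrame`
assembled from them, in the variables `(1/n, y)` and, for unbounded `y`, `(p, 1/y)`. The kernel
only ever evaluates the packed form of a polynomial, never its coefficient list.
-/

namespace Vale.Agent.P237.Quant

open Four.Checker

namespace QP

/-- Evaluation. -/
noncomputable def val (A : QP) (x y : ℝ) : ℝ := ev2 A.num x y / ((A.k : ℝ) + 1)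

theorem val_const (a : ℤ) (b : ℕ) (x y : ℝ) : (const a b).val x y = a / ((b : ℝ) + 1) := by
  simp [val, const, ofNum, ev2, ev]

theorem val_X (x y : ℝ) : X.val x y = x := by simp [val, X, ofNum, ev2, ev]

theorem val_Y (x y : ℝ) : Y.val x y = y := by simp [val, Y, ofNum, ev2, ev]

theorem val_repack (A : QP) (x y : ℝ) : A.repack.val x y = A.val x y := by
  simp only [val, repack, dig2_pk, Packed.ev2_pad2]

theorem den_mul (a b : ℕ) :
    ((a * b + a + b : ℕ) : ℝ) + 1 = ((a : ℝ) + 1) * ((b : ℝ) + 1) := by push_cast; ring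

theorem scale_mul (k l : ℕ) : (k + 1) * scale k l = Nat.lcm (k + 1) (l + 1) :=
  Nat.mul_div_cancel' (Nat.dvd_lcm_left _ _)

theorem val_add (A B : QP) (x y : ℝ) : (A.add B).val x y = A.val x y + B.val x y := by
  simp only [add, val, ev2_add2, ev2_smul2, Int.cast_natCast]
  have hL : 0 < Nat.lcm (A.k + 1) (B.k + 1) := Nat.lcm_pos (by omega) (by omega)
  rw [Nat.cast_sub (by omega : 1 ≤ _), Nat.cast_one, sub_add_cancel]
  have ea : ((A.k : ℝ) + 1) * scale A.k B.k = Nat.lcm (A.k + 1) (B.k + 1) := by
    exact_mod_cast scale_mul A.k B.k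
  have eb : ((B.k : ℝ) + 1) * scale B.k A.k = Nat.lcm (A.k + 1) (B.k + 1) := by
    rw [Nat.lcm_comm]; exact_mod_cast scale_mul B.k A.k
  have hL' : (Nat.lcm (A.k + 1) (B.k + 1) : ℝ) ≠ 0 := Nat.cast_ne_zero.2 hL.ne'
  generalize ((Nat.lcm (A.k + 1) (B.k + 1) : ℕ) : ℝ) = L at ea eb hL' ⊢
  field_simp
  linear_combination (ev2 A.num x y * ((B.k : ℝ) + 1)) * ea +
    (ev2 B.num x y * ((A.k : ℝ) + 1)) * eb

theorem val_mul (A B : QP) (x y : ℝ) : (A.mul B).val x y = A.val x y * B.val x y := by
  simp only [mul, val, ev2_mul2, den_mul, div_mul_div_comm]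

theorem val_neg (A : QP) (x y : ℝ) : A.neg.val x y = -A.val x y := by
  simp [neg, val, ev2_smul2, neg_div]

theorem val_sub (A B : QP) (x y : ℝ) : (A.sub B).val x y = A.val x y - B.val x y := by
  rw [sub, val_add, val_neg, sub_eq_add_neg]

theorem val_kappa (c : QP) (x y : ℝ) : (kappa c).val x y = weightPoly (c.val x y) := by
  simp only [kappa, weightPoly, val_sub, val_add, val_mul, val_const]
  push_cast
  ring

theorem val_kappa' (c : QP) (x y : ℝ) : (kappa' c).val x y = weightPoly' (c.val x y) := by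
  simp only [kappa', weightPoly', val_sub, val_add, val_mul, val_const]
  push_cast
  ring

/-- The polynomial is the operator, cleared of denominators. -/
theorem val_opPoly {c T S w Z g D N M : QP} {m : ℕ} {t γ : ℝ} {L L' : ℝ → ℝ} (x y : ℝ)
    (ec : c.val x y = ballShape t) (eT : T.val x y = t ^ 2)
    (eS : S.val x y = Z.val x y * (((m : ℝ) + 1) * t ^ 2)) (eg : g.val x y = γ)
    (eN : L (certY m t) * D.val x y = w.val x y * N.val x y)
    (eM : L' (certY m t) * D.val x y ^ 2 = w.val x y ^ 2 * M.val x y) :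
    (opPoly c T S w Z g D N M).val x y =
      Z.val x y * D.val x y ^ 2 * certOp m γ L L' t := by
  simp only [opPoly, val_sub, val_add, val_mul, val_neg, val_kappa, val_kappa', certOp, ec, eT,
    eS, eg]
  linear_combination (-(Z.val x y * (weightPoly (ballShape t) * (t ^ 2 * ballShape t) *
    D.val x y - weightPoly (ballShape t) * ballShape t ^ 3 * D.val x y +
    weightPoly' (ballShape t) * ballShape t ^ 2 * t ^ 2 * D.val x y +
    weightPoly (ballShape t) * (((m : ℝ) + 1) * t ^ 2) * ballShape t *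
      (D.val x y * (1 - 2 * γ) - ballShape t * (L (certY m t) * D.val x y +
        w.val x y * N.val x y))))) * eN +
    (Z.val x y * weightPoly (ballShape t) * ballShape t ^ 2 * (((m : ℝ) + 1) * t ^ 2)) * eM

theorem checkTree_sound (A : QP) : ∀ (T : WeightCert.Tree) (B : Box), checkTree A B T = true →
    ∀ {t y : ℝ}, Packed.memC B t y → 0 ≤ ev2 A.num t y
  | .leaf, B, h, _, _, hm => Packed.fastOn_sound h A.hpk A.hb A.hlx A.hly hm
  | .cutT m a b, B, h, t, y, hm => by
      simp only [checkTree, Bool.and_eq_true, decide_eq_true_eq] at h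
      obtain ⟨hD, h0, h0', h1, h2, h3, h4⟩ := hm
      rcases le_total (t * B.D) (m : ℝ) with hc | hc
      · exact checkTree_sound A a _ h.2.1 ⟨hD, h.1.1, h0', h1, hc, h3, h4⟩
      · exact checkTree_sound A b _ h.2.2 ⟨hD, h.1.2, h0', hc, h2, h3, h4⟩
  | .cutY m a b, B, h, t, y, hm => by
      simp only [checkTree, Bool.and_eq_true, decide_eq_true_eq] at h
      obtain ⟨hD, h0, h0', h1, h2, h3, h4⟩ := hm
      rcases le_total (y * B.D) (m : ℝ) with hc | hc
      · exact checkTree_sound A a _ h.2.1 ⟨hD, h0, h.1.1, h1, h2, h3, hc⟩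
      · exact checkTree_sound A b _ h.2.2 ⟨hD, h0, h.1.2, h1, h2, hc, h4⟩

/-- Certified nonnegativity on a subdivided box transfers to the value. -/
theorem val_nonneg {A : QP} {B : Box} {tree : WeightCert.Tree}
    (hB : checkTree A B tree = true) {x y : ℝ} (hm : Packed.memC B x y) : 0 ≤ A.val x y :=
  div_nonneg (checkTree_sound _ _ _ hB hm) (by positivity)

end QP

end Vale.Agent.P237.Quant
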