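import Mathlib
import Vale.Agent.P237.Quant.Picone
import Vale.Agent.P237.Quant.Spectral
import Vale.Agent.P237.Quant.WeightBreg

/-!
The energy dominates a quadratic form: completing the square against a nonnegative field `c` that
vanishes at the centre gives a potential `g` with `specQuad g v ≤ specEnergy v'`. On a profile with
nonpositive value this bounds the linear term by one quadratic form with potential `1 - r p - g`.
-/

namespace Vale.Agent.P237.Quant

open MeasureTheory Set Filter Topology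

variable {m : ℕ} {φ Q : ℝ → ℝ}

/-- Completing the square on an interval `[0, b]` with `b < 1`, and the limit `b → 1`. -/
theorem quad_le_energy (hm : 1 ≤ m) {v v' c c' s g : ℝ → ℝ} (hv : IsSpecTest m Q v v')
    (hQ0 : ∀ t ∈ Ioo (0 : ℝ) 1, 0 ≤ Q t)
    (hc : ContinuousOn c (Ico 0 1)) (hc0 : c 0 = 0) (hcpos : ∀ t ∈ Ico (0 : ℝ) 1, 0 ≤ c t)
    (hc' : ∀ t ∈ Ioo (0 : ℝ) 1, HasDerivWithinAt c (c' t) (Ioi t) t)
    (hs : ∀ t ∈ Ioo (0 : ℝ) 1, 0 ≤ s t)
    (hsq : ∀ t ∈ Ioo (0 : ℝ) 1, m * ballShape t * c t ^ 2 ≤ 4 * Q t * s t)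
    (hg : ∀ t ∈ Ioo (0 : ℝ) 1,
      g t + s t ≤ ((m : ℝ) + 1) * t * c t - (1 - t ^ 2) * c' t)
    (hgi : IntervalIntegrable (fun t => ballShape t ^ (m - 1) * (g t * v t ^ 2)) volume 0 1) :
    specQuad m g v ≤ specEnergy m Q v' := by
  have key : 0 ≤ Picone.form (fun t => 4 / m * Q t * ballShape t ^ (m + 2))
      (fun t => ballShape t ^ (m - 1) * g t) v v' 0 1 := by
    have hgi' : IntervalIntegrable (fun t => ballShape t ^ (m - 1) * g t * v t ^ 2) volume 0 1 :=
      hgi.congr fun t _ => by ring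
    refine Picone.form_le_of_eventually zero_lt_one (hv.energy.sub hgi') ?_
    filter_upwards [Ioo_mem_nhdsLT (zero_lt_one (α := ℝ))] with b hb
    have hsub : Icc 0 b ⊆ Ico (0 : ℝ) 1 := fun t ht => ⟨ht.1, ht.2.trans_lt hb.2⟩
    set F : ℝ → ℝ := fun t => c t * ballShape t ^ (m + 1) * v t ^ 2 with hF
    set F' : ℝ → ℝ := fun t => c' t * ballShape t ^ (m + 1) * v t ^ 2 +
      c t * (-((m : ℝ) + 1) * t * ballShape t ^ (m - 1)) * v t ^ 2 +
      c t * ballShape t ^ (m + 1) * (2 * v t * v' t) with hF'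
    have hFd : ∀ t ∈ Ioo (0 : ℝ) b, HasDerivWithinAt F (F' t) (Ioi t) t := fun t ht => by
      have ht1 : t ∈ Ioo (0 : ℝ) 1 := ⟨ht.1, ht.2.trans hb.2⟩
      have hp := ball_pos (sub01 ht1)
      refine (((hc' t ht1).fun_mul ((hasDerivAt_ball (sub01 ht1)).hasDerivWithinAt.fun_pow
        (m + 1))).fun_mul ((hv.deriv t ht1).fun_pow 2)).congr_deriv ?_
      obtain ⟨k, rfl⟩ : ∃ k, m = k + 1 := ⟨m - 1, by omega⟩
      simp only [hF']
      push_cast
      rw [pow_succ (ballShape t) (k + 1), pow_succ (ballShape t) k]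
      field_simp
    have h := intervalIntegral.sub_le_integral_of_hasDeriv_right_of_le
      (φ := fun t => 4 / m * Q t * ballShape t ^ (m + 2) * v' t ^ 2 -
        ballShape t ^ (m - 1) * g t * v t ^ 2) hb.1.le
      (((hc.mono hsub).mul (cont_pow (m + 1)).continuousOn).mul ((hv.cont.mono hsub).pow 2)) hFd
      ((intervalIntegrable_iff_integrableOn_Icc_of_le hb.1.le).1
        ((hv.energy.sub hgi').mono_set (by
          rw [uIcc_of_le hb.1.le, uIcc_of_le zero_le_one]
          exact Icc_subset_Icc le_rfl hb.2.le))) fun t ht => ?_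
    · rw [Picone.form]
      have h0 : 0 ≤ c b * ballShape b ^ (m + 1) * v b ^ 2 :=
        mul_nonneg (mul_nonneg (hcpos b (hsub (right_mem_Icc.2 hb.1.le)))
          (pow_nonneg (Real.sqrt_nonneg _) _)) (sq_nonneg _)
      have h' : c b * ballShape b ^ (m + 1) * v b ^ 2 - c 0 * ballShape 0 ^ (m + 1) * v 0 ^ 2 ≤ _ := h
      rw [hc0, zero_mul, zero_mul, sub_zero] at h'
      exact h0.trans h'
    · have ht1 : t ∈ Ioo (0 : ℝ) 1 := ⟨ht.1, ht.2.trans hb.2⟩
      have hp := ball_pos (sub01 ht1)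
      have hp2 : ballShape t ^ 2 = 1 - t ^ 2 := ball_sq (Ioo_subset_Icc_self (sub01 ht1))
      set p := ballShape t with hpdef
      have hmR : (0 : ℝ) < m := by exact_mod_cast (by omega : 0 < m)
      -- the completed square
      have hsquare : 2 * c t * p ^ 2 * (v t * v' t) ≤
          4 / m * Q t * p ^ 3 * v' t ^ 2 + s t * v t ^ 2 := by
        set A := 4 / m * Q t * p ^ 3 with hA
        have hA0 : 0 ≤ A := mul_nonneg (mul_nonneg (by positivity) (hQ0 t ht1)) (pow_nonneg hp.le _)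
        have hAB : (c t * p ^ 2) ^ 2 ≤ A * s t := by
          rw [hA, show 4 / m * Q t * p ^ 3 * s t = p ^ 3 * (4 * Q t * s t) / m by ring,
            le_div_iff₀ hmR]
          calc (c t * p ^ 2) ^ 2 * m = p ^ 3 * (m * p * c t ^ 2) := by ring
            _ ≤ _ := mul_le_mul_of_nonneg_left (hsq t ht1) (pow_nonneg hp.le _)
        have hY : (c t * p ^ 2 * (v t * v' t)) ^ 2 ≤ A * v' t ^ 2 * (s t * v t ^ 2) := by
          calc (c t * p ^ 2 * (v t * v' t)) ^ 2 = (c t * p ^ 2) ^ 2 * (v t * v' t) ^ 2 := by ring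
            _ ≤ A * s t * (v t * v' t) ^ 2 := mul_le_mul_of_nonneg_right hAB (sq_nonneg _)
            _ = _ := by ring
        nlinarith [sq_nonneg (A * v' t ^ 2 - s t * v t ^ 2), mul_nonneg hA0 (sq_nonneg (v' t)),
          mul_nonneg (hs t ht1) (sq_nonneg (v t))]
      have hg' := mul_le_mul_of_nonneg_right (hg t ht1) (sq_nonneg (v t))
      rw [← hp2] at hg'
      obtain ⟨k, rfl⟩ : ∃ k, m = k + 1 := ⟨m - 1, by omega⟩
      simp only [hF', ← hpdef, Nat.add_sub_cancel]
      push_cast at hg' ⊢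
      have h3 := mul_le_mul_of_nonneg_left (add_le_add hsquare hg') (pow_nonneg hp.le k)
      rw [show k + 1 + 2 = k + 3 from rfl, show k + 1 + 1 = k + 2 from rfl, pow_add p k 3,
        pow_add p k 2]
      push_cast at h3
      linear_combination h3
  simp only [Picone.form] at key
  rw [intervalIntegral.integral_sub hv.energy (hgi.congr fun t _ => by ring)] at key
  refine div_le_div_of_nonneg_right ?_ (ball_mass_pos _).le
  rw [integral_congr01 (f := fun t => ballShape t ^ (m - 1) * (g t * v t ^ 2))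
    (g := fun t => ballShape t ^ (m - 1) * g t * v t ^ 2) fun t _ => by ring]
  linarith

/-- On a profile with nonpositive value, the linear term, the quadratic term and the energy have
nonpositive sum. -/
theorem sum_nonpos (hm : 1 ≤ m) (hφ : IsShape φ) (hQ0 : ∀ t ∈ Ioo (0 : ℝ) 1, 0 ≤ Q t)
    (hQm : Measurable Q)
    (hQ : ∀ t ∈ Ioo (0 : ℝ) 1, ∀ r ∈ Icc (-1 : ℝ) 1, Q t * r ^ 2 ≤ pureBreg m t r)
    (hV : convexVal m (pureG m) φ ≤ 0) :
    specLin m (specV m φ) + specQuad m (fun t => ballRatio m * ballShape t - 1) (specV m φ) +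
      specEnergy m Q (fun t => specU' m φ t / specM m φ) ≤ 0 := by
  obtain ⟨-, -, hgoal, hle⟩ := goal_le_value hm hφ hQ0 hQm hQ
  have hM0 := specM_pos hm hφ
  have hP0 := ball_mass_pos (m - 1)
  have hM := hM0.ne'
  have hMφ : 0 ≤ mass m φ 1 := intervalIntegral.integral_nonneg zero_le_one fun t ht =>
    pow_nonneg (hφ.nonneg t ⟨by linarith [ht.1], ht.2⟩) m
  have hgoal0 : specGoal m Q φ * mass (m - 1) ballShape 1 ≤ 0 :=
    hle.trans (mul_nonpos_of_nonpos_of_nonneg hV hMφ)
  have kb := intervalIntegrable_quad hm hφ (g := fun t => ballRatio m * ballShape t)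
    (cont_ball.const_smul (ballRatio m)).measurable (C := ballRatio m) fun t _ => ball_bound m
  have e : (specLin m (specV m φ) + specQuad m (fun t => ballRatio m * ballShape t - 1) (specV m φ) +
      specEnergy m Q (fun t => specU' m φ t / specM m φ)) * mass (m - 1) ballShape 1 =
      specGoal m Q φ * mass (m - 1) ballShape 1 / specM m φ ^ 2 := by
    rw [hgoal, add_div, sub_div, mass_expand hm hφ, sq_expand hm hφ, specQuad, specEnergy,
      specEnergy, specMean, add_mul, add_mul, div_mul_cancel₀ _ hP0.ne',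
      div_mul_cancel₀ _ hP0.ne', div_mul_cancel₀ _ hP0.ne',
      ← intervalIntegral.integral_div,
      integral_congr01 (f := fun t => ballShape t ^ (m - 1) *
        ((ballRatio m * ballShape t - 1) * specV m φ t ^ 2))
        (g := fun t => ballShape t ^ (m - 1) * (ballRatio m * ballShape t * specV m φ t ^ 2) -
          ballShape t ^ (m - 1) * specV m φ t ^ 2) (fun t _ => by ring),
      intervalIntegral.integral_sub kb (intervalIntegrable_wv2 hm hφ),
      integral_congr01 (f := fun t => 4 / m * Q t * ballShape t ^ (m + 2) *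
        (specU' m φ t / specM m φ) ^ 2)
        (g := fun t => 4 / m * Q t * ballShape t ^ (m + 2) * specU' m φ t ^ 2 / specM m φ ^ 2)
        (fun t _ => by ring)]
    ring
  exact nonpos_of_mul_nonpos_left
    (e.le.trans (div_nonpos_of_nonpos_of_nonneg hgoal0 (sq_nonneg _))) hP0

/-- The linear term is at most the form with potential `1 - r p - g`. -/
theorem lin_le_quad (hm : 1 ≤ m) (hφ : IsShape φ) (hQ0 : ∀ t ∈ Ioo (0 : ℝ) 1, 0 ≤ Q t)
    (hQm : Measurable Q)
    (hQ : ∀ t ∈ Ioo (0 : ℝ) 1, ∀ r ∈ Icc (-1 : ℝ) 1, Q t * r ^ 2 ≤ pureBreg m t r)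
    (hV : convexVal m (pureG m) φ ≤ 0) {c c' s g : ℝ → ℝ} {C : ℝ}
    (hc : ContinuousOn c (Ico 0 1)) (hc0 : c 0 = 0) (hcpos : ∀ t ∈ Ico (0 : ℝ) 1, 0 ≤ c t)
    (hc' : ∀ t ∈ Ioo (0 : ℝ) 1, HasDerivWithinAt c (c' t) (Ioi t) t)
    (hs : ∀ t ∈ Ioo (0 : ℝ) 1, 0 ≤ s t)
    (hsq : ∀ t ∈ Ioo (0 : ℝ) 1, m * ballShape t * c t ^ 2 ≤ 4 * Q t * s t)
    (hg : ∀ t ∈ Ioo (0 : ℝ) 1, g t + s t ≤ ((m : ℝ) + 1) * t * c t - (1 - t ^ 2) * c' t)
    (hgm : Measurable g) (hgb : ∀ t ∈ Ioo (0 : ℝ) 1, |g t| ≤ C) :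
    specLin m (specV m φ) ≤
      specQuad m (fun t => 1 - ballRatio m * ballShape t - g t) (specV m φ) := by
  obtain ⟨iEn, -, -, -⟩ := goal_le_value hm hφ hQ0 hQm hQ
  have k1 := intervalIntegrable_quad hm hφ (g := fun t => ballRatio m * ballShape t - 1)
    ((cont_ball.const_smul (ballRatio m)).measurable.sub_const 1) (C := ballRatio m + 1)
    fun t _ => (abs_sub _ _).trans (add_le_add (ball_bound m) (le_of_eq abs_one))
  have k2 := intervalIntegrable_quad hm hφ hgm hgb
  have h1 := quad_le_energy hm (isSpecTest_specV hm hφ iEn) hQ0 hc hc0 hcpos hc' hs hsq hg k2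
  have h2 := sum_nonpos hm hφ hQ0 hQm hQ hV
  have e : specQuad m (fun t => 1 - ballRatio m * ballShape t - g t) (specV m φ) =
      -specQuad m (fun t => ballRatio m * ballShape t - 1) (specV m φ) -
        specQuad m g (specV m φ) := by
    rw [specQuad, specQuad, specQuad, specMean, specMean, specMean, ← neg_div, ← sub_div,
      ← intervalIntegral.integral_neg]
    congr 1
    refine (integral_congr01 fun t _ => ?_).trans (intervalIntegral.integral_sub k1.neg k2)
    ring
  linarith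

/-- A polynomial below `weightLow`. -/
noncomputable def weightPoly (x : ℝ) : ℝ :=
  1 - x ^ 2 * (1 - x / 2 - x * (1 - x) / 4) - 7 / 250 * x ^ 2 * (1 - x) * (1 + 9 * x)

/-- The derivative of `weightPoly`. -/
noncomputable def weightPoly' (x : ℝ) : ℝ :=
  -2 * x * (1 - x / 2 - x * (1 - x) / 4) - x ^ 2 * (-1 / 2 - (1 - 2 * x) / 4) -
    7 / 250 * (2 * x * (1 - x) * (1 + 9 * x) + x ^ 2 * (8 - 18 * x))

theorem weightPoly_mem {x : ℝ} (hx : x ∈ Icc (0 : ℝ) 1) :
    0 ≤ weightPoly x ∧ weightPoly x ≤ weightLow x := by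
  obtain ⟨h0, h1⟩ := hx
  have h2 : x ^ 2 ≤ 1 := pow_le_one₀ h0 h1
  have ha := mul_nonneg h0 (sub_nonneg.2 h1)
  constructor
  · have h3 : (7 : ℝ) / 250 * ((1 - x) * (1 + 9 * x)) ≤ 1 / 10 := by
      nlinarith [sq_nonneg (x - 4 / 9)]
    have h4 : x ^ 2 * (1 - x / 2 - x * (1 - x) / 4) ≤ 9 / 10 := by
      nlinarith [mul_nonneg (mul_nonneg h0 h0) ha, sq_nonneg (x - 4 / 3), mul_nonneg h0 (sq_nonneg (x - 1))]
    have h5 := mul_le_mul h2 h3 (mul_nonneg (by norm_num) (mul_nonneg (by linarith) (by linarith)))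
      zero_le_one
    unfold weightPoly
    linarith
  · have hd : x ^ 2 / (1 + x) ≤ x ^ 2 * (1 - x / 2 - x * (1 - x) / 4) := by
      rw [div_le_iff₀ (by linarith)]
      nlinarith [mul_nonneg (mul_nonneg (sq_nonneg x) h0) (sq_nonneg (1 - x))]
    unfold weightPoly weightLow weightLim
    linarith

/-- The potential of the linear field. -/
noncomputable def linPot (m : ℕ) (a t : ℝ) : ℝ :=
  a / (2 * m) * ((1 - a / 4) * ((m : ℝ) + 1) * t ^ 2 * weightPoly (ballShape t) -
    ballShape t ^ 2 * weightPoly (ballShape t) +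
    ballShape t * t ^ 2 * weightPoly' (ballShape t))

/-- The linear term of a profile with nonpositive value, against the field `a t κ / (2 m)`. -/
theorem lin_le_linPot (hm : 1 ≤ m) (hφ : IsShape φ) (hV : convexVal m (pureG m) φ ≤ 0) {a : ℝ}
    (ha : 0 ≤ a) :
    specLin m (specV m φ) ≤
      specQuad m (fun t => 1 - ballRatio m * ballShape t - linPot m a t) (specV m φ) := by
  have hmR : (0 : ℝ) < m := by exact_mod_cast (by omega : 0 < m)
  have hI : ∀ {t : ℝ}, t ∈ Ico (0 : ℝ) 1 → t ∈ Ioo (-1 : ℝ) 1 := fun ht =>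
    ⟨by linarith [ht.1], ht.2⟩
  have hmem : ∀ t : ℝ, ballShape t ∈ Icc (0 : ℝ) 1 := fun t => ⟨Real.sqrt_nonneg _, ball_le_one t⟩
  have hcont : Continuous fun t => linPot m a t := by
    have := cont_ball
    unfold linPot weightPoly weightPoly'
    fun_prop
  obtain ⟨C, hC⟩ := (isCompact_Icc (a := (0 : ℝ)) (b := 1)).exists_bound_of_continuousOn
    hcont.continuousOn
  refine lin_le_quad hm hφ (fun t _ => bregCoeff_nonneg m t) (measurable_bregCoeff m)
    (fun t ht r hr => bregCoeff_mul_le hm ht hr) hV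
    (c := fun t => a / (2 * m) * (t * weightPoly (ballShape t)))
    (c' := fun t => a / (2 * m) * (weightPoly (ballShape t) +
      t * (weightPoly' (ballShape t) * (-t / ballShape t))))
    (s := fun t => a ^ 2 * ((m : ℝ) + 1) * t ^ 2 * weightPoly (ballShape t) / (8 * m))
    (C := C) ?_ ?_ (fun t ht => ?_) (fun t ht => ?_) (fun t _ => ?_) (fun t ht => ?_)
    (fun t ht => le_of_eq ?_) hcont.measurable (fun t ht => hC t (Ioo_subset_Icc_self ht))
  · have := cont_ball
    unfold weightPoly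
    fun_prop
  · simp
  · exact mul_nonneg (by positivity) (mul_nonneg ht.1 (weightPoly_mem (hmem t)).1)
  · have hp := hasDerivAt_ball (sub01 ht)
    have hw : HasDerivAt weightPoly (weightPoly' (ballShape t)) (ballShape t) := by
      unfold weightPoly weightPoly'
      refine ((((hasDerivAt_id' (ballShape t)).pow 2).mul ((((hasDerivAt_id' (ballShape t)).div_const
        2).const_sub 1).sub (((hasDerivAt_id' (ballShape t)).mul ((hasDerivAt_id'
        (ballShape t)).const_sub 1)).div_const 4))).const_sub 1).sub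
        ((((((hasDerivAt_id' (ballShape t)).pow 2).const_mul (7 / 250)).mul
          ((hasDerivAt_id' (ballShape t)).const_sub 1))).mul
          (((hasDerivAt_id' (ballShape t)).const_mul 9).const_add 1)) |>.congr_deriv ?_
      simp only [Pi.mul_apply, Pi.sub_apply, Pi.pow_apply]
      ring
    exact (((hasDerivAt_id' t).mul (hw.comp t hp)).const_mul (a / (2 * m))).hasDerivWithinAt
      |>.congr_deriv (by simp only [Function.comp_apply]; ring)
  · exact div_nonneg (mul_nonneg (by positivity) (weightPoly_mem (hmem t)).1) (by positivity)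
  · obtain ⟨h0, h1⟩ := weightPoly_mem (hmem t)
    set P := weightPoly (ballShape t)
    rw [bregCoeff]
    calc (m : ℝ) * ballShape t * (a / (2 * m) * (t * P)) ^ 2
        = ballShape t * (a ^ 2 * t ^ 2 / (4 * m)) * P * P := by field_simp; ring
      _ ≤ ballShape t * (a ^ 2 * t ^ 2 / (4 * m)) * P * weightLow (ballShape t) :=
          mul_le_mul_of_nonneg_left h1 (mul_nonneg (mul_nonneg (Real.sqrt_nonneg _)
            (by positivity)) h0)
      _ = _ := by field_simp; ring
  · have hp := (ball_pos (sub01 ht)).ne'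
    rw [← ball_sq (Ioo_subset_Icc_self (sub01 ht)), linPot]
    field_simp
    ring

end Vale.Agent.P237.Quant
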