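import Mathlib

/-!
The second order remainder of `x ^ q`, `1 ≤ q ≤ 2`, at one is smallest at the right end.
-/

namespace Vale.Agent.P237.Quant

open Set

/-- If the quadratic lower bound of `x ^ q` holds at `U`, it holds on `[0, U]`. -/
theorem rpow_quadratic_below {q c U : ℝ} (hq : 1 < q) (hq2 : q ≤ 2) (hc : c ≤ q * (q - 1) / 2)
    (hU : 1 ≤ U → 1 + q * (U - 1) + c * (U - 1) ^ 2 ≤ U ^ q) {x : ℝ} (hx : x ∈ Icc (0 : ℝ) U) :
    1 + q * (x - 1) + c * (x - 1) ^ 2 ≤ x ^ q := by
  set k : ℝ → ℝ := fun t => t ^ q - (1 + q * (t - 1) + c * (t - 1) ^ 2) with hk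
  set d : ℝ → ℝ := fun t => q * t ^ (q - 1) - q - 2 * c * (t - 1) with hd
  have hkd : ∀ t, HasDerivAt k (d t) t := fun t => by
    refine ((Real.hasDerivAt_rpow_const (Or.inr hq.le)).sub
      (((((hasDerivAt_id' t).sub_const 1).const_mul q).const_add 1).add
        ((((hasDerivAt_id' t).sub_const 1).pow 2).const_mul c))).congr_deriv ?_
    simp only [hd]
    push_cast
    ring
  have hkc : Continuous k := continuous_iff_continuousAt.2 fun t => (hkd t).continuousAt
  have hk1 : k 1 = 0 := by simp [hk]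
  suffices 0 ≤ k x by
    simp only [hk] at this
    linarith
  rcases le_or_gt x 1 with h1 | h1
  · have hanti : AntitoneOn k (Icc 0 1) := by
      refine antitoneOn_of_deriv_nonpos (convex_Icc _ _) hkc.continuousOn
        (fun t _ => (hkd t).differentiableAt.differentiableWithinAt) fun t ht => ?_
      rw [interior_Icc] at ht
      rw [(hkd t).deriv]
      have h := rpow_one_add_le_one_add_mul_self (s := t - 1) (by linarith [ht.1])
        (p := q - 1) (by linarith) (by linarith)
      rw [add_sub_cancel] at h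
      have h2 := mul_le_mul_of_nonneg_left h (by linarith : (0 : ℝ) ≤ q)
      simp only [hd]
      nlinarith [mul_nonpos_of_nonneg_of_nonpos (show 0 ≤ q * (q - 1) - 2 * c by linarith)
        (show t - 1 ≤ 0 by linarith [ht.2])]
    have := hanti ⟨hx.1, h1⟩ (right_mem_Icc.2 zero_le_one) h1
    rwa [hk1] at this
  by_contra hneg
  push Not at hneg
  rcases hx.2.eq_or_lt with rfl | hxU
  · simp only [hk] at hneg
    linarith [hU h1.le]
  obtain ⟨a, ha, ha'⟩ := exists_hasDerivAt_eq_slope k d h1 hkc.continuousOn fun t _ => hkd t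
  obtain ⟨b, hb, hb'⟩ := exists_hasDerivAt_eq_slope k d hxU hkc.continuousOn fun t _ => hkd t
  have hkU : 0 ≤ k U := by
    simp only [hk]
    linarith [hU (by linarith)]
  have hda : d a < 0 := by
    rw [ha', hk1]
    exact div_neg_of_neg_of_pos (by linarith) (by linarith)
  have hdb : 0 < d b := by
    rw [hb']
    exact div_pos (by linarith) (by linarith)
  have hb1 : 0 < b - 1 := by linarith [hb.1]
  have hs : (b - a) / (b - 1) * 1 + (a - 1) / (b - 1) * b = a := by field_simp; ring
  have hsum : (b - a) / (b - 1) + (a - 1) / (b - 1) = 1 := by field_simp; ring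
  have hba : 0 ≤ (b - a) / (b - 1) := div_nonneg (by linarith [hb.1, ha.2]) hb1.le
  have hab : 0 ≤ (a - 1) / (b - 1) := div_nonneg (by linarith [ha.1]) hb1.le
  have hconc := (Real.concaveOn_rpow (by linarith : 0 ≤ q - 1) (by linarith : q - 1 ≤ 1)).2
    (show (1 : ℝ) ∈ Ici (0 : ℝ) from by simp)
    (show b ∈ Ici (0 : ℝ) from by simp; linarith) hba hab hsum
  simp only [smul_eq_mul] at hconc
  rw [Real.one_rpow, hs] at hconc
  have h2 := mul_le_mul_of_nonneg_left hconc (by linarith : (0 : ℝ) ≤ q)
  have key : (a - 1) / (b - 1) * d b ≤ d a := by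
    have e : q - 2 * c * (a - 1) - q = -(2 * c * (a - 1)) := by ring
    have e2 : (a - 1) / (b - 1) * (2 * c * (b - 1)) = 2 * c * (a - 1) := by field_simp
    simp only [hd]
    nlinarith [hsum, e2]
  nlinarith [mul_nonneg hab hdb.le]

end Vale.Agent.P237.Quant
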