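import Mathlib
import Vale.Agent.P237.Quant.Spectral
import Vale.Agent.P237.Quant.PowBound

/-!
The linear term is bounded below by one quadratic form with potential a multiple of `√(1 - t²)`:
since the profile is at most its centre value, `specU / M` is at most a multiple of `p ^ (-m / 2)`,
and the remainder of `x ^ q` at one is at least `q (q - 1) / 2 * ((2 + x) / 3) ^ (q - 2) * (x - 1) ^ 2`.
-/

namespace Vale.Agent.P237.Quant

open MeasureTheory Set Filter Topology

variable {m : ℕ} {φ : ℝ → ℝ}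

/-- A negative power is above its tangent. -/
theorem rpow_tangent {r z : ℝ} (hr : 0 ≤ r) (hr1 : r ≤ 1) (hz : 0 < z) :
    1 + -r * (z - 1) ≤ z ^ (-r) := by
  have h := rpow_one_add_le_one_add_mul_self (s := z - 1) (by linarith) hr hr1
  rw [add_sub_cancel] at h
  have hA : 0 < 1 + r * (z - 1) := lt_of_lt_of_le (Real.rpow_pos_of_pos hz r) h
  rw [Real.rpow_neg hz.le]
  refine le_trans ?_ (inv_anti₀ (Real.rpow_pos_of_pos hz r) h)
  rw [← one_div, le_div_iff₀ hA]
  nlinarith [sq_nonneg (r * (z - 1))]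

/-- The second order remainder of `x ^ q` at one, for `x` above one: the point `(2 + x) / 3` is the
centre of mass of the remainder's kernel. -/
theorem rpow_quadratic_above {q c x : ℝ} (hq : 1 < q) (hq2 : q ≤ 2) (hx : 1 ≤ x)
    (hc : c ≤ q * (q - 1) / 2 * ((2 + x) / 3) ^ (q - 2)) :
    1 + q * (x - 1) + c * (x - 1) ^ 2 ≤ x ^ q := by
  set y : ℝ := (2 + x) / 3 with hy
  have hy0 : 0 < y := by rw [hy]; linarith
  set A : ℝ := y ^ (q - 2) with hA
  set B : ℝ := (q - 2) * (A / y) with hB
  set k : ℝ → ℝ := fun t => t ^ q - (1 + q * (t - 1) + q * (q - 1) *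
    ((A - B * (y - 1)) / 2 * (t - 1) ^ 2 + B / 6 * (t - 1) ^ 3)) with hk
  set d : ℝ → ℝ := fun t => q * t ^ (q - 1) - q - q * (q - 1) *
    ((A - B * (y - 1)) * (t - 1) + B / 2 * (t - 1) ^ 2) with hd
  have hkd : ∀ t, HasDerivAt k (d t) t := fun t => by
    have h1 := (hasDerivAt_id' t).sub_const 1
    refine ((Real.hasDerivAt_rpow_const (Or.inr hq.le)).sub
      (((h1.const_mul q).const_add 1).add
        ((((h1.pow 2).const_mul ((A - B * (y - 1)) / 2)).add
          ((h1.pow 3).const_mul (B / 6))).const_mul (q * (q - 1))))).congr_deriv ?_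
    simp only [hd]
    push_cast
    ring
  have hdd : ∀ t, 0 < t →
      HasDerivAt d (q * (q - 1) * (t ^ (q - 2) - (A + B * (t - y)))) t := fun t ht => by
    have h1 := (hasDerivAt_id' t).sub_const 1
    refine ((((Real.hasDerivAt_rpow_const (p := q - 1) (Or.inl ht.ne')).const_mul q).sub_const q).sub
      (((h1.const_mul (A - B * (y - 1))).add ((h1.pow 2).const_mul (B / 2))).const_mul
        (q * (q - 1)))).congr_deriv ?_
    rw [show q - 1 - 1 = q - 2 by ring]
    push_cast
    ring
  have hdmono : MonotoneOn d (Icc 1 x) := by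
    refine monotoneOn_of_deriv_nonneg (convex_Icc _ _)
      (fun t ht => (hdd t (by linarith [ht.1])).continuousAt.continuousWithinAt)
      (fun t ht => ?_) fun t ht => ?_
    · rw [interior_Icc] at ht
      exact (hdd t (by linarith [ht.1])).differentiableAt.differentiableWithinAt
    · rw [interior_Icc] at ht
      have ht0 : 0 < t := by linarith [ht.1]
      rw [(hdd t ht0).deriv]
      refine mul_nonneg (mul_nonneg (by linarith) (by linarith)) (sub_nonneg.2 ?_)
      have h := mul_le_mul_of_nonneg_left (rpow_tangent (r := 2 - q) (by linarith) (by linarith)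
        (div_pos ht0 hy0)) (Real.rpow_nonneg hy0.le (q - 2))
      rw [show -(2 - q) = q - 2 by ring, ← Real.mul_rpow hy0.le (div_pos ht0 hy0).le,
        mul_div_cancel₀ _ hy0.ne'] at h
      refine le_trans (le_of_eq ?_) h
      rw [hB, hA]
      field_simp
  have hkmono : MonotoneOn k (Icc 1 x) := by
    refine monotoneOn_of_deriv_nonneg (convex_Icc _ _)
      (fun t _ => (hkd t).continuousAt.continuousWithinAt)
      (fun t _ => (hkd t).differentiableAt.differentiableWithinAt) fun t ht => ?_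
    rw [interior_Icc] at ht
    rw [(hkd t).deriv]
    have h := hdmono (left_mem_Icc.2 hx) ⟨ht.1.le, ht.2.le⟩ ht.1.le
    simpa [hd] using h
  have h := hkmono (left_mem_Icc.2 hx) (right_mem_Icc.2 hx) hx
  simp only [hk, sub_self, Real.one_rpow, zero_pow two_ne_zero, zero_pow three_ne_zero,
    mul_zero, add_zero] at h
  have e : (A - B * (y - 1)) / 2 * (x - 1) ^ 2 + B / 6 * (x - 1) ^ 3 = A / 2 * (x - 1) ^ 2 := by
    rw [hy]
    ring
  rw [e] at h
  have := mul_le_mul_of_nonneg_right hc (sq_nonneg (x - 1))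
  linarith

theorem ballRatio_ge_one (m : ℕ) : 1 ≤ ballRatio m := by
  rw [ballRatio, one_le_div (ball_mass_pos m)]
  refine intervalIntegral.integral_mono_on zero_le_one ((cont_pow m).intervalIntegrable _ _)
    ((cont_pow (m - 1)).intervalIntegrable _ _) fun t _ => ?_
  exact pow_le_pow_of_le_one (Real.sqrt_nonneg _) (ball_le_one t) (Nat.sub_le m 1)

/-- The negative side potential. If `φ 0 ^ m ≤ (U₀ M) ^ 2` and `θ ^ m ((2 + U₀) / 3) ^ 2 ≤ 1`, then
the linear term is at least minus the form with potential `(r - (1 - 2 / m) θ) p`. -/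
theorem neg_lin_le_centre (hm : 3 ≤ m) (hφ : IsShape φ) (hx : powRatio m φ ≤ 1) {θ U₀ : ℝ}
    (hθ0 : 0 ≤ θ) (hU₀ : 1 ≤ U₀) (hθ : θ ^ m * ((2 + U₀) / 3) ^ 2 ≤ 1)
    (hU : φ 0 ^ m ≤ (U₀ * specM m φ) ^ 2) :
    -specLin m (specV m φ) ≤
      specQuad m (fun t => (ballRatio m - (1 - 2 / (m : ℝ)) * θ) * ballShape t) (specV m φ) := by
  have hm1 : 1 ≤ m := by omega
  have hmR : (3 : ℝ) ≤ m := by exact_mod_cast hm
  have hM0 := specM_pos hm1 hφ
  have hθ1 : θ ≤ 1 := by
    have h1 : θ ^ m ≤ 1 := le_trans (le_mul_of_one_le_right (pow_nonneg hθ0 m)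
      (one_le_pow₀ (by linarith))) hθ
    exact (pow_le_one_iff_of_nonneg hθ0 (by omega)).1 h1
  set q : ℝ := 2 - 2 / (m : ℝ) with hq
  have h23 : 2 / (m : ℝ) ≤ 2 / 3 := div_le_div_of_nonneg_left (by norm_num) (by norm_num) hmR
  have h20 : (0 : ℝ) ≤ 2 / (m : ℝ) := by positivity
  have hq1 : 1 < q := by rw [hq]; linarith
  have hq2 : q ≤ 2 := by rw [hq]; linarith
  set c₀ : ℝ := q * (q - 1) / 2 with hc₀
  have hc0 : 0 ≤ c₀ := div_nonneg (mul_nonneg (by linarith) (by linarith)) zero_le_two
  have hp1 : ∀ t : ℝ, θ * ballShape t ≤ 1 := fun t =>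
    mul_le_one₀ hθ1 (Real.sqrt_nonneg _) (ball_le_one t)
  have hθm : Measurable fun t => c₀ * (θ * ballShape t) :=
    ((continuous_const.mul cont_ball).const_smul c₀).measurable
  have kF := intervalIntegrable_quad hm1 hφ hθm (C := c₀) fun t _ => by
    rw [abs_of_nonneg (mul_nonneg hc0 (mul_nonneg hθ0 (show 0 ≤ ballShape t from Real.sqrt_nonneg _)))]
    exact mul_le_of_le_one_right hc0 (hp1 t)
  have hexc := excess_le (m := m) (by omega) hφ kF fun t ht => by
    set x := specU m φ t / specM m φ with hxdef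
    have hu := specU_pos (m := m) hφ (sub01 ht)
    have hx0 : 0 < x := div_pos hu hM0
    have hv : specV m φ t = x - 1 := by simp only [specV, hxdef]
    rw [hv]
    have hle : c₀ * (θ * ballShape t) ≤ c₀ := mul_le_of_le_one_right hc0 (hp1 t)
    rcases le_total x 1 with h1 | h1
    · exact rpow_quadratic_below hq1 hq2 hle (fun _ => by simp) ⟨hx0.le, h1⟩
    · refine rpow_quadratic_above hq1 hq2 h1 (mul_le_mul_of_nonneg_left ?_ hc0)
      have hp := ball_pos (sub01 ht)
      have hxb : ballShape t ^ m * x ^ 2 ≤ U₀ ^ 2 := by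
        rw [hxdef, div_pow, specU_sq hφ (sub01 ht), div_pow, ← mul_div_assoc,
          mul_div_cancel₀ _ (pow_ne_zero _ hp.ne'), div_le_iff₀ (pow_pos hM0 2), ← mul_pow]
        exact (pow_le_pow_left₀ (shape_pos hφ (sub01 ht)).le
          (shape_le_centre hφ (Ioo_subset_Icc_self (sub01 ht))) m).trans hU
      have hpm : ballShape t ^ m ≤ 1 := pow_le_one₀ hp.le (ball_le_one t)
      have hP0 : 0 ≤ ballShape t ^ m := pow_nonneg hp.le _
      have hPx : ballShape t ^ m * x ≤ U₀ := by
        refine le_of_pow_le_pow_left₀ (n := 2) two_ne_zero (by linarith) ?_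
        nlinarith [mul_le_mul_of_nonneg_right hpm (mul_nonneg hP0 (sq_nonneg x))]
      have hb : (θ * ballShape t) ^ m * ((2 + x) / 3) ^ 2 ≤ 1 := by
        rw [mul_pow, mul_assoc]
        refine le_trans (mul_le_mul_of_nonneg_left ?_ (pow_nonneg hθ0 m)) hθ
        nlinarith
      have hy : 0 < (2 + x) / 3 := by linarith
      refine le_of_pow_le_pow_left₀ (n := m) (by omega) (Real.rpow_nonneg hy.le _) ?_
      rw [← Real.rpow_natCast (((2 + x) / 3) ^ (q - 2)) m, ← Real.rpow_mul hy.le,
        show (q - 2) * (m : ℝ) = -((2 : ℕ) : ℝ) by rw [hq]; field_simp; ring,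
        Real.rpow_neg hy.le, Real.rpow_natCast, ← one_div, le_div_iff₀ (pow_pos hy 2)]
      exact hb
  have hW : specExcess m φ ≤
      specQuad m (fun t => 1 - (1 - 2 / (m : ℝ)) * θ * ballShape t) (specV m φ) := by
    refine hexc.trans (le_of_eq ?_)
    rw [specQuad, specQuad, specMean, specMean, specMean, ← mul_div_assoc, ← sub_div,
      ← intervalIntegral.integral_const_mul, ← intervalIntegral.integral_sub
        ((intervalIntegrable_wv2 hm1 hφ).congr fun t _ => by ring) (kF.const_mul _)]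
    congr 1
    refine integral_congr01 fun t _ => ?_
    have : (m : ℝ) / (m - 1) * c₀ = 1 - 2 / (m : ℝ) := by
      have : (m : ℝ) - 1 ≠ 0 := by linarith
      rw [hc₀, hq]
      field_simp
      ring
    rw [← this]
    ring
  have hWm : Measurable fun t => 1 - (1 - 2 / (m : ℝ)) * θ * ballShape t :=
    (continuous_const.sub (continuous_const.mul cont_ball)).measurable
  have h := neg_lin_le (by omega) hφ hx hWm (C := 1) (fun t _ => by
    have h0 : 0 ≤ (1 - 2 / (m : ℝ)) * θ * ballShape t :=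
      mul_nonneg (mul_nonneg (by linarith) hθ0) (Real.sqrt_nonneg _)
    have h1 : (1 - 2 / (m : ℝ)) * θ * ballShape t ≤ 1 := by
      rw [mul_assoc]
      exact mul_le_one₀ (by linarith) (mul_nonneg hθ0 (Real.sqrt_nonneg _)) (hp1 t)
    rw [abs_le]
    constructor <;> linarith) hW
  refine h.trans (le_of_eq ?_)
  congr 1
  funext t
  have hω : 0 ≤ (ballRatio m - (1 - 2 / (m : ℝ)) * θ) * ballShape t := by
    refine mul_nonneg (sub_nonneg.2 ?_) (Real.sqrt_nonneg _)
    exact (mul_le_one₀ (by linarith) hθ0 hθ1).trans (ballRatio_ge_one m)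
  rw [max_eq_left (hω.trans (le_of_eq (by ring)))]
  ring

end Vale.Agent.P237.Quant
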