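import Mathlib
import Vale.Agent.P237.Quant.Picone

/-!
A weighted Poincaré inequality on an interval with singular right end, with a mean condition and a
rank one term, from supersolutions on the three intervals of two nodes, two explicit test
functions and one two by two matrix condition. The test functions need not solve any equation:
what they miss is absorbed by a spare potential `s`.
-/

namespace Vale.Agent.P237.Quant.Picone

open MeasureTheory Set Filter
open scoped Topology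

variable {k q : ℝ → ℝ} {a b : ℝ}

/-- A function with finite form on `[a, b)`. -/
structure AdmissibleIco (k q v v' : ℝ → ℝ) (a b : ℝ) : Prop where
  cont : ContinuousOn v (Ico a b)
  deriv : ∀ x ∈ Ioo a b, HasDerivWithinAt v (v' x) (Ioi x) x
  int_energy : IntervalIntegrable (fun x => k x * v' x ^ 2) volume a b
  int_pot : IntervalIntegrable (fun x => q x * v x ^ 2) volume a b

theorem AdmissibleIco.mono {v v' : ℝ → ℝ} (h : AdmissibleIco k q v v' a b) {c : ℝ}
    (hc : c ∈ Ico a b) : Admissible k q v v' a c := by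
  have hs : uIcc a c ⊆ uIcc a b := by
    rw [uIcc_of_le hc.1, uIcc_of_le (hc.1.trans hc.2.le)]
    exact Icc_subset_Icc le_rfl hc.2.le
  exact ⟨h.cont.mono fun x hx => ⟨hx.1, hx.2.trans_lt hc.2⟩,
    fun x hx => h.deriv x ⟨hx.1, hx.2.trans hc.2⟩, h.int_energy.mono_set hs,
    h.int_pot.mono_set hs⟩

/-- With a spare potential `s` the form of a function vanishing at two nodes is at least
`∫ s w²`, on an interval with singular right end. -/
theorem spare_le_form_of_two_nodes {s w w' φ F χ L : ℝ → ℝ} {ξ η : ℝ} (ha : a ≤ ξ)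
    (hm : ξ ≤ η) (hb : η < b) (hk : ∀ x ∈ Ioo a b, 0 ≤ k x)
    (hw : AdmissibleIco k q w w' a b)
    (hs : IntervalIntegrable (fun x => s x * w x ^ 2) volume a b)
    (hφ : Supersolution k (fun x => q x + s x) φ F a ξ)
    (hχ : Supersolution k (fun x => q x + s x) χ L ξ η)
    (hψ : ∀ᶠ c in 𝓝[<] b, Barrier k (fun x => q x + s x) η c)
    (hFa : F a ≤ 0) (h1 : w ξ = 0) (h2 : w η = 0) :
    ∫ x in a..b, s x * w x ^ 2 ≤ ∫ x in a..b, (k x * w' x ^ 2 - q x * w x ^ 2) := by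
  have hab : a < b := (ha.trans hm).trans_lt hb
  have hqs : AdmissibleIco k (fun x => q x + s x) w w' a b :=
    ⟨hw.cont, hw.deriv, hw.int_energy, (hw.int_pot.add hs).congr fun x _ => by ring⟩
  have h := form_le_of_eventually (c := 0) hab (hqs.int_energy.sub hqs.int_pot) <| by
    filter_upwards [Ioo_mem_nhdsLT hb, hψ] with c hc hB
    exact form_nonneg_of_two_nodes ha hm hc.1.le (fun x hx => hk x ⟨hx.1, hx.2.trans hc.2⟩)
      (hqs.mono ⟨((ha.trans hm).trans_lt hc.1).le, hc.2⟩) hφ hχ hB hFa h1 h2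
  have e : form k (fun x => q x + s x) w w' a b =
      (∫ x in a..b, (k x * w' x ^ 2 - q x * w x ^ 2)) - ∫ x in a..b, s x * w x ^ 2 := by
    rw [← intervalIntegral.integral_sub (hw.int_energy.sub hw.int_pot) hs]
    exact intervalIntegral.integral_congr fun x _ => by ring
  linarith

/-- A test function with its defect: the flux `F = k u'` vanishes at `a` and has right derivative
`-q u - g`. -/
structure Defect (k q g u u' F : ℝ → ℝ) (a b : ℝ) : Prop where
  adm : AdmissibleIco k q u u' a b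
  cont_flux : ContinuousOn F (Ico a b)
  flux_zero : F a = 0
  flux : ∀ x ∈ Ioo a b, F x = k x * u' x
  deriv_flux : ∀ x ∈ Ioo a b, HasDerivWithinAt F (-(q x * u x) - g x) (Ioi x) x

/-- The bilinear form with a test function is the pairing with its defect, if the boundary term
at the right end tends to zero. -/
theorem pairing_Ico {g u u' F w w' : ℝ → ℝ} (hab : a < b) (hu : Defect k q g u u' F a b)
    (hwc : ContinuousOn w (Ico a b)) (hwd : ∀ x ∈ Ioo a b, HasDerivWithinAt w (w' x) (Ioi x) x)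
    (hlim : Tendsto (fun x => F x * w x) (𝓝[<] b) (𝓝 0))
    (hm : IntervalIntegrable (fun x => k x * u' x * w' x) volume a b)
    (hp : IntervalIntegrable (fun x => q x * u x * w x) volume a b)
    (hg : IntervalIntegrable (fun x => g x * w x) volume a b) :
    ∫ x in a..b, (k x * u' x * w' x - q x * u x * w x) = ∫ x in a..b, g x * w x := by
  set f := fun x => k x * u' x * w' x - q x * u x * w x - g x * w x with hf
  have hi : IntervalIntegrable f volume a b := (hm.sub hp).sub hg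
  have hc := intervalIntegral.continuousOn_primitive_interval' hi left_mem_uIcc
  rw [uIcc_of_le hab.le] at hc
  have hl : Tendsto (fun x => ∫ y in a..x, f y) (𝓝[<] b) (𝓝 (∫ y in a..b, f y)) :=
    (hc b (right_mem_Icc.2 hab.le)).mono_left (nhdsWithin_le_iff.2 (Icc_mem_nhdsLT hab))
  have hev : (fun x => F x * w x) =ᶠ[𝓝[<] b] fun x => ∫ y in a..x, f y := by
    filter_upwards [Ioo_mem_nhdsLT hab] with c hc'
    have hsub : uIcc a c ⊆ uIcc a b := by
      rw [uIcc_of_le hc'.1.le, uIcc_of_le hab.le]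
      exact Icc_subset_Icc le_rfl hc'.2.le
    have h := intervalIntegral.integral_eq_sub_of_hasDeriv_right_of_le hc'.1.le
      (f := fun x => F x * w x) (f' := f)
      ((hu.cont_flux.mul hwc).mono fun x hx => ⟨hx.1, hx.2.trans_lt hc'.2⟩)
      (fun x hx => ?_) (hi.mono_set hsub)
    · rw [h, hu.flux_zero, zero_mul, sub_zero]
    · have hx' : x ∈ Ioo a b := ⟨hx.1, hx.2.trans hc'.2⟩
      refine ((hu.deriv_flux x hx').fun_mul (hwd x hx')).congr_deriv ?_
      rw [hu.flux x hx', hf]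
      ring
  have h0 : ∫ y in a..b, f y = 0 := tendsto_nhds_unique hl (hlim.congr' hev)
  rw [hf, intervalIntegral.integral_sub (hm.sub hp) hg] at h0
  exact sub_eq_zero.1 h0

/-- The integrability of all products of two test functions and `v` used below. -/
structure Products (k q g u u' v v' : ℝ → ℝ) (a b : ℝ) : Prop where
  energy : IntervalIntegrable (fun x => k x * u' x * v' x) volume a b
  pot : IntervalIntegrable (fun x => q x * u x * v x) volume a b
  defect : IntervalIntegrable (fun x => g x * v x) volume a b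

theorem integral_combo {ι : Type*} [Fintype ι] {f : ι → ℝ → ℝ} {c : ι → ℝ} {F : ℝ → ℝ}
    (hf : ∀ i, IntervalIntegrable (f i) volume a b) (hF : ∀ x, F x = ∑ i, c i * f i x) :
    IntervalIntegrable F volume a b ∧ ∫ x in a..b, F x = ∑ i, c i * ∫ x in a..b, f i x := by
  have h : ∀ i ∈ Finset.univ, IntervalIntegrable (fun x => c i * f i x) volume a b :=
    fun i _ => (hf i).const_mul _
  refine ⟨(IntervalIntegrable.sum Finset.univ h).congr fun x _ => by simp [hF], ?_⟩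
  simp only [← intervalIntegral.integral_const_mul]
  rw [← intervalIntegral.integral_finsetSum h]
  exact intervalIntegral.integral_congr fun x _ => hF x

/-- Poincaré inequality with a mean condition `∫ n v = 0` and a rank one term `μ (∫ l v)²`: two
nodes with three supersolutions for the potential `q + s`, two test functions `u₁`, `u₂` with
defects `g₁`, `g₂`, and the matrix condition `hM` for the residuals `gᵢ + τᵢ l + σᵢ n`. -/
theorem form_add_penalty_nonneg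
    {s v v' u₁ u₁' g₁ F₁ u₂ u₂' g₂ F₂ l n φ F χ L : ℝ → ℝ}
    {ξ η μ τ₁ τ₂ σ₁ σ₂ H₁₁ H₁₂ H₂₂ : ℝ}
    (ha : a ≤ ξ) (hm : ξ ≤ η) (hb : η < b) (hμ : 0 < μ)
    (hk : ∀ x ∈ Ioo a b, 0 ≤ k x) (hs : ∀ x ∈ Ioo a b, 0 < s x)
    (hv : AdmissibleIco k q v v' a b)
    (d₁ : Defect k q g₁ u₁ u₁' F₁ a b) (d₂ : Defect k q g₂ u₂ u₂' F₂ a b)
    (hdet : u₁ ξ * u₂ η - u₂ ξ * u₁ η ≠ 0)
    (hφ : Supersolution k (fun x => q x + s x) φ F a ξ)
    (hχ : Supersolution k (fun x => q x + s x) χ L ξ η)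
    (hψ : ∀ᶠ c in 𝓝[<] b, Barrier k (fun x => q x + s x) η c)
    (hFa : F a ≤ 0)
    (t₁v : Tendsto (fun x => F₁ x * v x) (𝓝[<] b) (𝓝 0))
    (t₂v : Tendsto (fun x => F₂ x * v x) (𝓝[<] b) (𝓝 0))
    (t₁₁ : Tendsto (fun x => F₁ x * u₁ x) (𝓝[<] b) (𝓝 0))
    (t₁₂ : Tendsto (fun x => F₁ x * u₂ x) (𝓝[<] b) (𝓝 0))
    (t₂₁ : Tendsto (fun x => F₂ x * u₁ x) (𝓝[<] b) (𝓝 0))
    (t₂₂ : Tendsto (fun x => F₂ x * u₂ x) (𝓝[<] b) (𝓝 0))
    (p₁v : Products k q g₁ u₁ u₁' v v' a b) (p₂v : Products k q g₂ u₂ u₂' v v' a b)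
    (p₁₁ : Products k q g₁ u₁ u₁' u₁ u₁' a b) (p₁₂ : Products k q g₁ u₁ u₁' u₂ u₂' a b)
    (p₂₁ : Products k q g₂ u₂ u₂' u₁ u₁' a b) (p₂₂ : Products k q g₂ u₂ u₂' u₂ u₂' a b)
    (isv : IntervalIntegrable (fun x => s x * v x ^ 2) volume a b)
    (is₁ : IntervalIntegrable (fun x => s x * u₁ x ^ 2) volume a b)
    (is₂ : IntervalIntegrable (fun x => s x * u₂ x ^ 2) volume a b)
    (isv₁ : IntervalIntegrable (fun x => s x * u₁ x * v x) volume a b)
    (isv₂ : IntervalIntegrable (fun x => s x * u₂ x * v x) volume a b)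
    (is₁₂ : IntervalIntegrable (fun x => s x * u₁ x * u₂ x) volume a b)
    (ilv : IntervalIntegrable (fun x => l x * v x) volume a b)
    (il₁ : IntervalIntegrable (fun x => l x * u₁ x) volume a b)
    (il₂ : IntervalIntegrable (fun x => l x * u₂ x) volume a b)
    (inv : IntervalIntegrable (fun x => n x * v x) volume a b)
    (in₁ : IntervalIntegrable (fun x => n x * u₁ x) volume a b)
    (in₂ : IntervalIntegrable (fun x => n x * u₂ x) volume a b)
    (i₁₁ : IntervalIntegrable (fun x => (g₁ x + τ₁ * l x + σ₁ * n x) ^ 2 / s x) volume a b)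
    (i₁₂ : IntervalIntegrable (fun x =>
      (g₁ x + τ₁ * l x + σ₁ * n x) * (g₂ x + τ₂ * l x + σ₂ * n x) / s x) volume a b)
    (i₂₂ : IntervalIntegrable (fun x => (g₂ x + τ₂ * l x + σ₂ * n x) ^ 2 / s x) volume a b)
    (hH₁₁ : ∫ x in a..b, (g₁ x + τ₁ * l x + σ₁ * n x) ^ 2 / s x = H₁₁)
    (hH₁₂ : ∫ x in a..b,
      (g₁ x + τ₁ * l x + σ₁ * n x) * (g₂ x + τ₂ * l x + σ₂ * n x) / s x = H₁₂)
    (hH₂₂ : ∫ x in a..b, (g₂ x + τ₂ * l x + σ₂ * n x) ^ 2 / s x = H₂₂)
    (hM : ∀ α β : ℝ, 0 ≤ α ^ 2 * (∫ x in a..b, g₁ x * u₁ x) +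
      2 * α * β * (∫ x in a..b, g₁ x * u₂ x) + β ^ 2 * (∫ x in a..b, g₂ x * u₂ x) +
      2 * (α * τ₁ + β * τ₂) *
        (α * (∫ x in a..b, l x * u₁ x) + β * ∫ x in a..b, l x * u₂ x) +
      2 * (α * σ₁ + β * σ₂) *
        (α * (∫ x in a..b, n x * u₁ x) + β * ∫ x in a..b, n x * u₂ x) -
      (α * τ₁ + β * τ₂) ^ 2 / μ - (α ^ 2 * H₁₁ + 2 * α * β * H₁₂ + β ^ 2 * H₂₂))
    (hmean : ∫ x in a..b, n x * v x = 0) :
    0 ≤ (∫ x in a..b, (k x * v' x ^ 2 - q x * v x ^ 2)) + μ * (∫ x in a..b, l x * v x) ^ 2 := by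
  have hab : a < b := (ha.trans hm).trans_lt hb
  set D := u₁ ξ * u₂ η - u₂ ξ * u₁ η with hD
  set α := (v ξ * u₂ η - u₂ ξ * v η) / D with hα
  set β := (u₁ ξ * v η - v ξ * u₁ η) / D with hβ
  set w := fun x => v x - α * u₁ x - β * u₂ x with hw
  set w' := fun x => v' x - α * u₁' x - β * u₂' x with hw'
  have n1 : w ξ = 0 := by simp only [hw, hα, hβ]; field_simp; rw [hD]; ring
  have n2 : w η = 0 := by simp only [hw, hα, hβ]; field_simp; rw [hD]; ring
  have wc : ContinuousOn w (Ico a b) :=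
    (hv.cont.sub (continuousOn_const.mul d₁.adm.cont)).sub (continuousOn_const.mul d₂.adm.cont)
  have wd : ∀ x ∈ Ioo a b, HasDerivWithinAt w (w' x) (Ioi x) x := fun x hx =>
    ((hv.deriv x hx).fun_sub ((d₁.adm.deriv x hx).const_mul α)).fun_sub
      ((d₂.adm.deriv x hx).const_mul β)
  have wk := (integral_combo (a := a) (b := b) (f := ![fun x => k x * v' x ^ 2, fun x => k x * u₁' x ^ 2,
      fun x => k x * u₂' x ^ 2, fun x => k x * u₁' x * u₂' x, fun x => k x * u₁' x * v' x,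
      fun x => k x * u₂' x * v' x]) (c := ![1, α ^ 2, β ^ 2, 2 * α * β, -(2 * α), -(2 * β)])
    (F := fun x => k x * w' x ^ 2)
    (by simp [Fin.forall_fin_succ, hv.int_energy, d₁.adm.int_energy, d₂.adm.int_energy,
      p₁₂.energy, p₁v.energy, p₂v.energy])
    (fun x => by simp [Fin.sum_univ_succ, hw']; ring)).1
  have wq := (integral_combo (a := a) (b := b) (f := ![fun x => q x * v x ^ 2, fun x => q x * u₁ x ^ 2,
      fun x => q x * u₂ x ^ 2, fun x => q x * u₁ x * u₂ x, fun x => q x * u₁ x * v x,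
      fun x => q x * u₂ x * v x]) (c := ![1, α ^ 2, β ^ 2, 2 * α * β, -(2 * α), -(2 * β)])
    (F := fun x => q x * w x ^ 2)
    (by simp [Fin.forall_fin_succ, hv.int_pot, d₁.adm.int_pot, d₂.adm.int_pot, p₁₂.pot, p₁v.pot,
      p₂v.pot])
    (fun x => by simp [Fin.sum_univ_succ, hw]; ring)).1
  have ws := (integral_combo (a := a) (b := b) (f := ![fun x => s x * v x ^ 2, fun x => s x * u₁ x ^ 2,
      fun x => s x * u₂ x ^ 2, fun x => s x * u₁ x * u₂ x, fun x => s x * u₁ x * v x,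
      fun x => s x * u₂ x * v x]) (c := ![1, α ^ 2, β ^ 2, 2 * α * β, -(2 * α), -(2 * β)])
    (F := fun x => s x * w x ^ 2)
    (by simp [Fin.forall_fin_succ, isv, is₁, is₂, is₁₂, isv₁, isv₂])
    (fun x => by simp [Fin.sum_univ_succ, hw]; ring)).1
  have lw : ∀ {g : ℝ → ℝ}, IntervalIntegrable (fun x => g x * v x) volume a b →
      IntervalIntegrable (fun x => g x * u₁ x) volume a b →
      IntervalIntegrable (fun x => g x * u₂ x) volume a b →
      IntervalIntegrable (fun x => g x * w x) volume a b ∧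
      ∫ x in a..b, g x * v x = (∫ x in a..b, g x * w x) + α * (∫ x in a..b, g x * u₁ x) +
        β * ∫ x in a..b, g x * u₂ x := by
    intro g hgv hg₁ hg₂
    obtain ⟨h, e⟩ := integral_combo (a := a) (b := b) (f := ![fun x => g x * v x, fun x => g x * u₁ x,
        fun x => g x * u₂ x]) (c := ![1, -α, -β]) (F := fun x => g x * w x)
      (by simp [Fin.forall_fin_succ, hgv, hg₁, hg₂])
      (fun x => by simp [Fin.sum_univ_succ, hw]; ring)
    simp [Fin.sum_univ_succ] at e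
    exact ⟨h, by linarith⟩
  have wg₁ := (lw p₁v.defect p₁₁.defect p₁₂.defect).1
  have wg₂ := (lw p₂v.defect p₂₁.defect p₂₂.defect).1
  obtain ⟨wl, el⟩ := lw ilv il₁ il₂
  obtain ⟨wn, en⟩ := lw inv in₁ in₂
  have h0 := spare_le_form_of_two_nodes ha hm hb hk ⟨wc, wd, wk, wq⟩ ws hφ hχ hψ hFa n1 n2
  have tlim : ∀ {F' : ℝ → ℝ}, Tendsto (fun x => F' x * v x) (𝓝[<] b) (𝓝 0) →
      Tendsto (fun x => F' x * u₁ x) (𝓝[<] b) (𝓝 0) →
      Tendsto (fun x => F' x * u₂ x) (𝓝[<] b) (𝓝 0) →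
      Tendsto (fun x => F' x * w x) (𝓝[<] b) (𝓝 0) := fun {F'} h₀ h₁ h₂ => by
    have h := (h₀.sub (h₁.const_mul α)).sub (h₂.const_mul β)
    simp only [mul_zero, sub_zero] at h
    exact h.congr fun x => by simp only [hw]; ring
  have cw : ∀ {u u' g : ℝ → ℝ}, Products k q g u u' v v' a b →
      Products k q g u u' u₁ u₁' a b → Products k q g u u' u₂ u₂' a b →
      IntervalIntegrable (fun x => k x * u' x * w' x) volume a b ∧
      IntervalIntegrable (fun x => q x * u x * w x) volume a b := fun {u u' g} h₀ h₁ h₂ =>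
    ⟨((h₀.energy.sub (h₁.energy.const_mul α)).sub (h₂.energy.const_mul β)).congr
      fun x _ => by simp only [hw']; ring,
    ((h₀.pot.sub (h₁.pot.const_mul α)).sub (h₂.pot.const_mul β)).congr
      fun x _ => by simp only [hw]; ring⟩
  obtain ⟨e₁, q₁⟩ := cw p₁v p₁₁ p₁₂
  obtain ⟨e₂, q₂⟩ := cw p₂v p₂₁ p₂₂
  have cross₁ := pairing_Ico hab d₁ wc wd (tlim t₁v t₁₁ t₁₂) e₁ q₁ wg₁
  have cross₂ := pairing_Ico hab d₂ wc wd (tlim t₂v t₂₁ t₂₂) e₂ q₂ wg₂
  have m₁₁ := pairing_Ico hab d₁ d₁.adm.cont d₁.adm.deriv t₁₁ p₁₁.energy p₁₁.pot p₁₁.defect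
  have m₁₂ := pairing_Ico hab d₁ d₂.adm.cont d₂.adm.deriv t₁₂ p₁₂.energy p₁₂.pot p₁₂.defect
  have m₂₂ := pairing_Ico hab d₂ d₂.adm.cont d₂.adm.deriv t₂₂ p₂₂.energy p₂₂.pot p₂₂.defect
  have hexp : (∫ x in a..b, (k x * v' x ^ 2 - q x * v x ^ 2)) =
      (∫ x in a..b, (k x * w' x ^ 2 - q x * w x ^ 2)) + 2 * α * (∫ x in a..b, g₁ x * w x) +
        2 * β * (∫ x in a..b, g₂ x * w x) + α ^ 2 * (∫ x in a..b, g₁ x * u₁ x) +
        2 * α * β * (∫ x in a..b, g₁ x * u₂ x) + β ^ 2 * (∫ x in a..b, g₂ x * u₂ x) := by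
    obtain ⟨-, e⟩ := integral_combo (a := a) (b := b) (f := ![fun x => k x * w' x ^ 2 - q x * w x ^ 2,
        fun x => k x * u₁' x * w' x - q x * u₁ x * w x,
        fun x => k x * u₂' x * w' x - q x * u₂ x * w x,
        fun x => k x * u₁' x * u₁' x - q x * u₁ x * u₁ x,
        fun x => k x * u₁' x * u₂' x - q x * u₁ x * u₂ x,
        fun x => k x * u₂' x * u₂' x - q x * u₂ x * u₂ x])
      (c := ![1, 2 * α, 2 * β, α ^ 2, 2 * α * β, β ^ 2])
      (F := fun x => k x * v' x ^ 2 - q x * v x ^ 2)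
      (by simp [Fin.forall_fin_succ, wk.sub wq, e₁.sub q₁, e₂.sub q₂,
        p₁₁.energy.sub p₁₁.pot, p₁₂.energy.sub p₁₂.pot, p₂₂.energy.sub p₂₂.pot])
      (fun x => by simp [Fin.sum_univ_succ, hw, hw']; ring)
    simp [Fin.sum_univ_succ, cross₁, cross₂, m₁₁, m₁₂, m₂₂] at e
    linarith
  -- absorb the residual by the spare potential
  set τ := α * τ₁ + β * τ₂ with hτ
  set σ := α * σ₁ + β * σ₂ with hσ
  obtain ⟨I, e⟩ := integral_combo (a := a) (b := b) (f := ![fun x => s x * w x ^ 2, fun x => g₁ x * w x,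
      fun x => g₂ x * w x, fun x => l x * w x, fun x => n x * w x,
      fun x => (g₁ x + τ₁ * l x + σ₁ * n x) ^ 2 / s x,
      fun x => (g₁ x + τ₁ * l x + σ₁ * n x) * (g₂ x + τ₂ * l x + σ₂ * n x) / s x,
      fun x => (g₂ x + τ₂ * l x + σ₂ * n x) ^ 2 / s x])
    (c := ![1, 2 * α, 2 * β, 2 * τ, 2 * σ, α ^ 2, 2 * α * β, β ^ 2])
    (F := fun x => s x * w x ^ 2 + 2 * (α * (g₁ x * w x) + β * (g₂ x * w x) + τ * (l x * w x) +
      σ * (n x * w x)) + (α ^ 2 * ((g₁ x + τ₁ * l x + σ₁ * n x) ^ 2 / s x) +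
      2 * α * β * ((g₁ x + τ₁ * l x + σ₁ * n x) * (g₂ x + τ₂ * l x + σ₂ * n x) / s x) +
      β ^ 2 * ((g₂ x + τ₂ * l x + σ₂ * n x) ^ 2 / s x)))
    (by simp [Fin.forall_fin_succ, ws, wg₁, wg₂, wl, wn, i₁₁, i₁₂, i₂₂])
    (fun x => by simp [Fin.sum_univ_succ]; ring)
  have hsq : 0 ≤ ∫ x in a..b, (s x * w x ^ 2 + 2 * (α * (g₁ x * w x) + β * (g₂ x * w x) +
      τ * (l x * w x) + σ * (n x * w x)) + (α ^ 2 * ((g₁ x + τ₁ * l x + σ₁ * n x) ^ 2 / s x) +
      2 * α * β * ((g₁ x + τ₁ * l x + σ₁ * n x) * (g₂ x + τ₂ * l x + σ₂ * n x) / s x) +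
      β ^ 2 * ((g₂ x + τ₂ * l x + σ₂ * n x) ^ 2 / s x))) := by
    rw [intervalIntegral.integral_of_le hab.le, ← setIntegral_congr_set Ioo_ae_eq_Ioc]
    refine setIntegral_nonneg measurableSet_Ioo fun x hx => ?_
    have := (hs x hx).ne'
    have e : s x * w x ^ 2 + 2 * (α * (g₁ x * w x) +
        β * (g₂ x * w x) + τ * (l x * w x) + σ * (n x * w x)) +
        (α ^ 2 * ((g₁ x + τ₁ * l x + σ₁ * n x) ^ 2 / s x) +
        2 * α * β * ((g₁ x + τ₁ * l x + σ₁ * n x) * (g₂ x + τ₂ * l x + σ₂ * n x) / s x) +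
        β ^ 2 * ((g₂ x + τ₂ * l x + σ₂ * n x) ^ 2 / s x)) =
        (s x * w x + α * (g₁ x + τ₁ * l x + σ₁ * n x) +
          β * (g₂ x + τ₂ * l x + σ₂ * n x)) ^ 2 / s x := by
      rw [hτ, hσ]; field_simp; ring
    rw [e]
    exact div_nonneg (sq_nonneg _) (hs x hx).le
  rw [e] at hsq
  simp [Fin.sum_univ_succ, hH₁₁, hH₁₂, hH₂₂] at hsq
  rw [hmean] at en
  have hM' := hM α β
  set X := ∫ x in a..b, l x * v x
  have hpen : 2 * τ * X - τ ^ 2 / μ ≤ μ * X ^ 2 := by
    have e : μ * X ^ 2 - (2 * τ * X - τ ^ 2 / μ) = (μ * X - τ) ^ 2 / μ := by field_simp; ring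
    linarith [div_nonneg (sq_nonneg (μ * X - τ)) hμ.le]
  rw [hexp]
  rw [el] at hpen ⊢
  have hσn : 2 * σ * ((∫ x in a..b, n x * w x) + α * (∫ x in a..b, n x * u₁ x) +
      β * ∫ x in a..b, n x * u₂ x) = 0 := by rw [← en, mul_zero]
  simp only [hτ, hσ] at hsq hpen hσn hM' ⊢
  linarith [h0, hsq, hM', hpen, hσn]

end Vale.Agent.P237.Quant.Picone
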