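import Mathlib
import Vale.Agent.P237.Quant.NegPotential
import Vale.Agent.P237.Quant.TailFlux
import Vale.Agent.P237.Quant.EnergyPotential
import Vale.Agent.P237.Quant.CertFrame
import Vale.Agent.P237.Quant.BadSet
import Vale.Agent.P237.Quant.Schur

/-!
Assembly of the pure lemma: the reduction with a signed potential on the positive side, the weight
of the certificate, and the translation of the Picone forms to the spectral quantities.
-/

namespace Vale.Agent.P237.Quant

open MeasureTheory Set Filter Topology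

variable {m : ℕ} {φ : ℝ → ℝ}

/-- The coefficient of the energy with the polynomial weight. -/
noncomputable def bregPoly (m : ℕ) (t : ℝ) : ℝ :=
  ballShape t * weightPoly (ballShape t) / (2 * ((m : ℝ) + 1))

theorem ball_mem_Icc (t : ℝ) : ballShape t ∈ Icc (0 : ℝ) 1 :=
  ⟨Real.sqrt_nonneg _, ball_le_one t⟩

theorem bregPoly_nonneg (m : ℕ) (t : ℝ) : 0 ≤ bregPoly m t :=
  div_nonneg (mul_nonneg (Real.sqrt_nonneg _) (weightPoly_mem (ball_mem_Icc t)).1) (by positivity)

theorem measurable_bregPoly (m : ℕ) : Measurable (bregPoly m) := by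
  have := cont_ball.measurable
  unfold bregPoly weightPoly
  fun_prop

theorem bregPoly_mul_le (hm : 1 ≤ m) {t r : ℝ} (ht : t ∈ Ioo (0 : ℝ) 1) (hr : r ∈ Icc (-1 : ℝ) 1) :
    bregPoly m t * r ^ 2 ≤ pureBreg m t r := by
  refine le_trans (mul_le_mul_of_nonneg_right ?_ (sq_nonneg r)) (bregCoeff_mul_le hm ht hr)
  exact div_le_div_of_nonneg_right (mul_le_mul_of_nonneg_left (weightPoly_mem (ball_mem_Icc t)).2
    (Real.sqrt_nonneg _)) (by positivity)

/-- The linear inequality that a certificate provides: energy coefficient `c`, potential `W`, rank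
one coefficient `μ`. -/
def SpecPoincare (m : ℕ) (c : ℝ) (W : ℝ → ℝ) (μ : ℝ) : Prop :=
  ∀ v v', IsSpecTest m (bregPoly m) v v' →
    0 ≤ c * specEnergy m (bregPoly m) v' - specQuad m W v + μ * specLin m v ^ 2

theorem intervalIntegrable_test {Q v v' g : ℝ → ℝ} (hm : 1 ≤ m) (hv : IsSpecTest m Q v v')
    (hg : Measurable g) {C : ℝ} (hC : ∀ t ∈ Ioo (0 : ℝ) 1, |g t| ≤ C) :
    IntervalIntegrable (fun t => ballShape t ^ (m - 1) * (g t * v t ^ 2)) volume 0 1 := by
  obtain ⟨D, hD⟩ := hv.growth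
  refine interval_iff01.2 (Integrable.mono'
    ((interval_iff01.1 (intervalIntegrable_inv_ball_mul
      (continuous_const (y := |C| * D)))).congr_fun (fun t _ => rfl) measurableSet_Ioo) ?_ ?_)
  · exact ((cont_pow _).measurable.aestronglyMeasurable).mul (hg.aestronglyMeasurable.mul
      (((hv.cont.mono Ioo_subset_Ico_self).pow 2).aestronglyMeasurable measurableSet_Ioo))
  · filter_upwards [ae_restrict_mem measurableSet_Ioo] with t ht
    have hp := ball_pos (sub01 ht)
    have hnn : 0 ≤ ballShape t ^ (m - 1) * v t ^ 2 :=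
      mul_nonneg (pow_nonneg hp.le _) (sq_nonneg _)
    have h := hD t ⟨ht.1.le, ht.2⟩
    rw [Real.norm_eq_abs, show ballShape t ^ (m - 1) * (g t * v t ^ 2) =
      g t * (ballShape t ^ (m - 1) * v t ^ 2) by ring, abs_mul, abs_of_nonneg hnn,
      div_mul_eq_mul_div, one_mul, le_div_iff₀ hp]
    calc |g t| * (ballShape t ^ (m - 1) * v t ^ 2) * ballShape t
        ≤ |C| * (ballShape t ^ (m - 1) * v t ^ 2) * ballShape t :=
          mul_le_mul_of_nonneg_right (mul_le_mul_of_nonneg_right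
            ((hC t ht).trans (le_abs_self C)) hnn) hp.le
      _ = |C| * (ballShape t ^ m * v t ^ 2) := by
          rw [show ballShape t ^ m = ballShape t ^ (m - 1) * ballShape t by
            rw [← pow_succ, Nat.sub_add_cancel hm]]
          ring
      _ ≤ |C| * D := mul_le_mul_of_nonneg_left h (abs_nonneg C)

/-- The Picone form gives the linear inequality. -/
theorem specPoincare_of_form (hm : 1 ≤ m) {c μ C : ℝ} {W : ℝ → ℝ} (hWm : Measurable W)
    (hWb : ∀ t ∈ Ioo (0 : ℝ) 1, |W t| ≤ C)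
    (h : ∀ v v', IsSpecTest m (bregPoly m) v v' →
      Picone.AdmissibleIco (certK m c) (fun t => ballShape t ^ (m - 1) * W t) v v' 0 1 →
      0 ≤ (∫ t in (0 : ℝ)..1, (certK m c t * v' t ^ 2 - ballShape t ^ (m - 1) * W t * v t ^ 2)) +
        μ / mass (m - 1) ballShape 1 *
          (∫ t in (0 : ℝ)..1,
            ballShape t ^ (m - 1) * (2 * (ballRatio m * ballShape t - 1)) * v t) ^ 2) :
    SpecPoincare m c W μ := fun v v' hv => by
  have hP := ball_mass_pos (m - 1)
  have hm0 : (m : ℝ) ≠ 0 := Nat.cast_ne_zero.2 (by omega)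
  have ek : ∀ t, certK m c t * v' t ^ 2 =
      c * (4 / m * bregPoly m t * ballShape t ^ (m + 2) * v' t ^ 2) := fun t => by
    simp only [certK, bregPoly]
    rw [pow_succ _ (m + 2)]
    field_simp
    ring
  have iE : IntervalIntegrable (fun t => certK m c t * v' t ^ 2) volume 0 1 :=
    (hv.energy.const_mul c).congr fun t _ => (ek t).symm
  have iW : IntervalIntegrable (fun t => ballShape t ^ (m - 1) * W t * v t ^ 2) volume 0 1 :=
    (intervalIntegrable_test hm hv hWm hWb).congr fun t _ => by ring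
  have h' := h v v' hv ⟨hv.cont, hv.deriv, iE, iW⟩
  rw [intervalIntegral.integral_sub iE iW, integral_congr01 (fun t _ => ek t),
    intervalIntegral.integral_const_mul] at h'
  rw [specEnergy, specQuad, specLin, specMean, specMean,
    integral_congr01 (f := fun t => ballShape t ^ (m - 1) * (W t * v t ^ 2))
      (g := fun t => ballShape t ^ (m - 1) * W t * v t ^ 2) (fun t _ => by ring),
    integral_congr01 (f := fun t => ballShape t ^ (m - 1) *
      (2 * (ballRatio m * ballShape t - 1) * v t))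
      (g := fun t => ballShape t ^ (m - 1) * (2 * (ballRatio m * ballShape t - 1)) * v t)
      (fun t _ => by ring)]
  have key : ∀ A B L P : ℝ, 0 < P → 0 ≤ c * A - B + μ / P * L ^ 2 →
      0 ≤ c * (A / P) - B / P + μ * (L / P) ^ 2 := fun A B L P hP h =>
    (div_nonneg h hP.le).trans_eq (by field_simp)
  exact key _ _ _ _ hP h'

theorem specEnergy_nonneg {Q : ℝ → ℝ} (hQ : ∀ t ∈ Ioo (0 : ℝ) 1, 0 ≤ Q t) (w : ℝ → ℝ) :
    0 ≤ specEnergy m Q w := by
  refine div_nonneg ?_ (ball_mass_pos _).le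
  rw [intervalIntegral.integral_of_le zero_le_one, integral_Ioc_eq_integral_Ioo]
  exact setIntegral_nonneg measurableSet_Ioo fun t ht =>
    mul_nonneg (mul_nonneg (mul_nonneg (by positivity) (hQ t ht))
      (pow_nonneg (Real.sqrt_nonneg _) _)) (sq_nonneg _)

/-- A certificate serves every smaller potential and every larger coefficient. -/
theorem SpecPoincare.mono (hm : 1 ≤ m) {c c' μ μ' C C' : ℝ} {W W' : ℝ → ℝ}
    (h : SpecPoincare m c' W' μ') (hc : c' ≤ c) (hμ : μ' ≤ μ)
    (hWm : Measurable W) (hWb : ∀ t ∈ Ioo (0 : ℝ) 1, |W t| ≤ C)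
    (hWm' : Measurable W') (hWb' : ∀ t ∈ Ioo (0 : ℝ) 1, |W' t| ≤ C')
    (hW : ∀ t ∈ Ioo (0 : ℝ) 1, W t ≤ W' t) : SpecPoincare m c W μ := fun v v' hv => by
  have h0 := h v v' hv
  have hE := mul_le_mul_of_nonneg_right hc (specEnergy_nonneg (m := m) (Q := bregPoly m)
    (fun t _ => bregPoly_nonneg m t) v')
  have hL := mul_le_mul_of_nonneg_right hμ (sq_nonneg (specLin m v))
  have hq : specQuad m W v ≤ specQuad m W' v := by
    refine div_le_div_of_nonneg_right ?_ (ball_mass_pos _).le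
    refine intervalIntegral.integral_mono_on_of_le_Ioo zero_le_one
      (intervalIntegrable_test hm hv hWm hWb) (intervalIntegrable_test hm hv hWm' hWb')
      fun t ht => ?_
    exact mul_le_mul_of_nonneg_left (mul_le_mul_of_nonneg_right (hW t ht) (sq_nonneg _))
      (pow_nonneg (Real.sqrt_nonneg _) _)
  linarith

/-- With a spare constant the inequality forces a test function to vanish. -/
theorem eq_zero_of_poincare (hm : 1 ≤ m) {c μ δ C : ℝ} {W v v' : ℝ → ℝ} (hδ : 0 < δ)
    (hWm : Measurable W) (hWb : ∀ t ∈ Ioo (0 : ℝ) 1, |W t| ≤ C)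
    (hP : SpecPoincare m c (fun t => W t + δ) μ) (hv : IsSpecTest m (bregPoly m) v v')
    (h : c * specEnergy m (bregPoly m) v' - specQuad m W v + μ * specLin m v ^ 2 ≤ 0) :
    ∀ t ∈ Ioo (0 : ℝ) 1, v t = 0 := by
  have h0 := hP v v' hv
  have iW := intervalIntegrable_test hm hv hWm hWb
  have i1 := intervalIntegrable_test hm hv (measurable_const (a := δ)) (C := |δ|) fun _ _ => le_rfl
  have e : specQuad m (fun t => W t + δ) v = specQuad m W v + specQuad m (fun _ => δ) v := by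
    rw [specQuad, specQuad, specQuad, specMean, specMean, specMean, ← add_div,
      ← intervalIntegral.integral_add iW i1]
    congr 1
    exact integral_congr01 fun t _ => by ring
  have hle : (∫ t in (0 : ℝ)..1, ballShape t ^ (m - 1) * (δ * v t ^ 2)) ≤ 0 := by
    have : specQuad m (fun _ => δ) v ≤ 0 := by linarith
    rw [specQuad, specMean, div_le_iff₀ (ball_mass_pos _), zero_mul] at this
    exact this
  have hnn : 0 ≤ᵐ[volume.restrict (Ioo (0 : ℝ) 1)]
      fun t => ballShape t ^ (m - 1) * (δ * v t ^ 2) :=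
    Eventually.of_forall fun t =>
      mul_nonneg (pow_nonneg (Real.sqrt_nonneg _) _) (mul_nonneg hδ.le (sq_nonneg _))
  rw [intervalIntegral.integral_of_le zero_le_one, integral_Ioc_eq_integral_Ioo] at hle
  have hae := (integral_eq_zero_iff_of_nonneg_ae hnn (interval_iff01.1 i1)).1
    (le_antisymm hle (integral_nonneg_of_ae hnn))
  have hv0 : v =ᵐ[volume.restrict (Ioo (0 : ℝ) 1)] fun _ => (0 : ℝ) := by
    filter_upwards [hae, ae_restrict_mem measurableSet_Ioo] with t ht hI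
    simpa [hδ.ne', (pow_pos (ball_pos (sub01 hI)) (m - 1)).ne'] using ht
  exact fun t ht => Measure.eqOn_open_of_ae_eq hv0 isOpen_Ioo (hv.cont.mono Ioo_subset_Ico_self)
    continuousOn_const ht

/-- The reduction with a signed potential `1 - r p` on the positive side. -/
theorem pureLemma_of_signed (hm : 3 ≤ m) {Q W W₁ : ℝ → ℝ} {e₁ e₂ μ₁ μ₂ η : ℝ}
    (hQ0 : ∀ t ∈ Ioo (0 : ℝ) 1, 0 ≤ Q t) (hQm : Measurable Q)
    (hQ : ∀ t ∈ Ioo (0 : ℝ) 1, ∀ r ∈ Icc (-1 : ℝ) 1, Q t * r ^ 2 ≤ pureBreg m t r)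
    (hμ₁ : 0 ≤ μ₁) (hμ₂ : 0 ≤ μ₂)
    (hX : ∀ φ, IsShape φ → powRatio m φ ≤ 1 → convexVal m (pureG m) φ ≤ 0 →
      specExcess m φ ≤ specQuad m W (specV m φ) + specSurplus m Q φ +
        η * specEnergy m Q (fun t => specU' m φ t / specM m φ))
    (hA₁ : ∀ φ, IsShape φ → powRatio m φ ≤ 1 → convexVal m (pureG m) φ ≤ 0 →
      specLin m (specV m φ) < 0 →
      -specLin m (specV m φ) ≤ specQuad m W₁ (specV m φ) ∧ -specLin m (specV m φ) ≤ e₁)
    (hA₂ : ∀ φ, IsShape φ → powRatio m φ ≤ 1 → convexVal m (pureG m) φ ≤ 0 →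
      0 ≤ specLin m (specV m φ) → specLin m (specV m φ) ≤ e₂)
    (hneg : ∀ v v', IsSpecTest m Q v v' →
      (1 - η) * specEnergy m Q v' - specQuad m W v +
        μ₁ * (specLin m v ^ 2 - e₁ * specQuad m W₁ v) ≤ 0 → ∀ t ∈ Ioo (0 : ℝ) 1, v t = 0)
    (hpos : ∀ v v', IsSpecTest m Q v v' →
      (1 - η + μ₂ * e₂) * specEnergy m Q v' - specQuad m W v + μ₂ * (specLin m v ^ 2 +
        e₂ * specQuad m (fun t => ballRatio m * ballShape t - 1) v) ≤ 0 →
      ∀ t ∈ Ioo (0 : ℝ) 1, v t = 0) :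
    PureLemma m := by
  refine pureLemma_of_fluctuation hm hQ0 hQm hQ fun φ hφ hx hV htest hE0 hS0 hsum hlow => ?_
  have hexc := hX φ hφ hx hV
  set v := specV m φ with hv
  set L := specLin m v with hL
  set R := specQuad m (fun t => ballRatio m * ballShape t - 1) v with hR
  set E := specEnergy m Q (fun t => specU' m φ t / specM m φ) with hEdef
  have hdiff : (1 - η) * E ≤ specQuad m W v := by linarith
  rcases lt_or_ge L 0 with hneg' | hpos'
  · obtain ⟨h1, h2⟩ := hA₁ φ hφ hx hV hneg'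
    rw [← hv, ← hL] at h1
    refine hneg v _ htest ?_
    have hA : L ^ 2 ≤ e₁ * specQuad m W₁ v := by
      calc L ^ 2 = (-L) * (-L) := by ring
        _ ≤ e₁ * specQuad m W₁ v := mul_le_mul h2 h1 (by linarith) (by linarith)
    linarith [mul_nonpos_of_nonneg_of_nonpos hμ₁
      (show L ^ 2 - e₁ * specQuad m W₁ v ≤ 0 by linarith)]
  · have h2 := hA₂ φ hφ hx hV hpos'
    refine hpos v _ htest ?_
    have hA : L ^ 2 ≤ e₂ * (-R - E) := by
      calc L ^ 2 = L * L := by ring
        _ ≤ e₂ * (-R - E) := mul_le_mul h2 (by linarith) hpos' (hpos'.trans h2)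
    linarith [mul_nonpos_of_nonneg_of_nonpos hμ₂
      (show L ^ 2 - e₂ * (-R - E) ≤ 0 by linarith)]

/-- The pure lemma from the pieces: the bounds of the linear term, the centre bound, the tail
inequality (by any calibration, case by case in the profile) and the two certificates. -/
theorem pureLemma_of_pieces (hm : 4 ≤ m) {η δ e₁ e₂ μ₁ μ₂ θ U₀ C : ℝ}
    {W : ℝ → ℝ}
    (hδ : 0 < δ) (hμ₁ : 0 ≤ μ₁) (hμ₂ : 0 ≤ μ₂)
    (hθ0 : 0 ≤ θ) (hU₀ : 1 ≤ U₀) (hθ : θ ^ m * ((2 + U₀) / 3) ^ 2 ≤ 1)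
    (hWm : Measurable W) (hWb : ∀ t ∈ Ioo (0 : ℝ) 1, |W t| ≤ C)
    (hlinLow : ∀ φ, IsShape φ → powRatio m φ ≤ 1 → convexVal m (pureG m) φ ≤ 0 →
      -specLin m (specV m φ) ≤ e₁)
    (hlinUp : ∀ φ, IsShape φ → powRatio m φ ≤ 1 → convexVal m (pureG m) φ ≤ 0 →
      specLin m (specV m φ) ≤ e₂)
    (hcentre : ∀ φ, IsShape φ → powRatio m φ ≤ 1 → convexVal m (pureG m) φ ≤ 0 →
      φ 0 ^ m ≤ (U₀ * specM m φ) ^ 2)
    (hX : ∀ φ, IsShape φ → powRatio m φ ≤ 1 → convexVal m (pureG m) φ ≤ 0 →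
      specExcess m φ ≤ specQuad m W (specV m φ) + specSurplus m (bregPoly m) φ +
        η * specEnergy m (bregPoly m) (fun t => specU' m φ t / specM m φ))
    (hcertNeg : SpecPoincare m (1 - η) (fun t => W t +
      μ₁ * e₁ * ((ballRatio m - (1 - 2 / (m : ℝ)) * θ) * ballShape t) + δ) μ₁)
    (hcertPos : SpecPoincare m (1 - η + μ₂ * e₂) (fun t => W t +
      μ₂ * e₂ * (1 - ballRatio m * ballShape t) + δ) μ₂) :
    PureLemma m := by
  have hm1 : 1 ≤ m := by omega
  have hb : ∀ k : ℝ, ∀ f : ℝ → ℝ, Measurable f → ∀ D, (∀ t ∈ Ioo (0 : ℝ) 1, |f t| ≤ D) →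
      Measurable (fun t => W t + k * f t) ∧
        ∀ t ∈ Ioo (0 : ℝ) 1, |W t + k * f t| ≤ C + |k| * D := fun k f hf D hD =>
    ⟨hWm.add (hf.const_mul k), fun t ht => (abs_add_le _ _).trans (add_le_add (hWb t ht)
      ((abs_mul k _).trans_le (mul_le_mul_of_nonneg_left (hD t ht) (abs_nonneg k))))⟩
  set ω := ballRatio m - (1 - 2 / (m : ℝ)) * θ with hω
  have hp : ∀ t, |ω * ballShape t| ≤ |ω| := fun t => by
    rw [abs_mul, abs_of_nonneg (show 0 ≤ ballShape t from Real.sqrt_nonneg _)]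
    exact mul_le_of_le_one_right (abs_nonneg _) (ball_le_one t)
  have m₁ : Measurable fun t => ω * ballShape t := cont_ball.measurable.const_mul ω
  have m₂ : Measurable fun t => 1 - ballRatio m * ballShape t :=
    measurable_const.sub (cont_ball.measurable.const_mul _)
  have b₂ : ∀ t, |1 - ballRatio m * ballShape t| ≤ 1 + ballRatio m := fun t =>
    (abs_sub _ _).trans (add_le_add (le_of_eq abs_one) (ball_bound m))
  refine pureLemma_of_signed (Q := bregPoly m) (W := W) (W₁ := fun t => ω * ballShape t)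
    (e₁ := e₁) (e₂ := e₂) (μ₁ := μ₁) (μ₂ := μ₂) (η := η) (by omega)
    (fun t _ => bregPoly_nonneg m t) (measurable_bregPoly m)
    (fun t ht r hr => bregPoly_mul_le hm1 ht hr) hμ₁ hμ₂
    hX (fun φ hφ hx hV _ => ⟨?_, hlinLow φ hφ hx hV⟩)
    (fun φ hφ hx hV _ => hlinUp φ hφ hx hV) (fun v v' hv h => ?_) fun v v' hv h => ?_
  · exact neg_lin_le_centre (by omega) hφ hx hθ0 hU₀ hθ (hcentre φ hφ hx hV)
  · obtain ⟨hfm, hfb⟩ := hb (μ₁ * e₁) _ m₁ |ω| fun t _ => hp t
    refine eq_zero_of_poincare hm1 hδ hfm hfb hcertNeg hv (le_of_eq_of_le ?_ h)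
    have e : specQuad m (fun t => W t + μ₁ * e₁ * (ω * ballShape t)) v =
        specQuad m W v + μ₁ * e₁ * specQuad m (fun t => ω * ballShape t) v := by
      rw [specQuad, specQuad, specQuad, specMean, specMean, specMean, ← mul_div_assoc, ← add_div,
        ← intervalIntegral.integral_const_mul,
        ← intervalIntegral.integral_add (intervalIntegrable_test hm1 hv hWm hWb)
          ((intervalIntegrable_test hm1 hv m₁ (C := |ω|) fun t _ => hp t).const_mul _)]
      congr 1
      exact integral_congr01 fun t _ => by ring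
    rw [e]
    ring
  · obtain ⟨hfm, hfb⟩ := hb (μ₂ * e₂) _ m₂ (1 + ballRatio m) fun t _ => b₂ t
    refine eq_zero_of_poincare hm1 hδ hfm hfb hcertPos hv (le_of_eq_of_le ?_ h)
    have e : specQuad m (fun t => W t + μ₂ * e₂ * (1 - ballRatio m * ballShape t)) v =
        specQuad m W v - μ₂ * e₂ * specQuad m (fun t => ballRatio m * ballShape t - 1) v := by
      rw [specQuad, specQuad, specQuad, specMean, specMean, specMean, ← mul_div_assoc, ← sub_div,
        ← intervalIntegral.integral_const_mul,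
        ← intervalIntegral.integral_sub (intervalIntegrable_test hm1 hv hWm hWb)
          ((intervalIntegrable_test hm1 hv (g := fun t => ballRatio m * ballShape t - 1)
            ((cont_ball.measurable.const_mul _).sub_const 1) (C := 1 + ballRatio m)
            fun t _ => (abs_sub_comm _ _).trans_le (b₂ t)).const_mul _)]
      congr 1
      exact integral_congr01 fun t _ => by ring
    rw [e]
    ring

/-- The pure lemma with a tail inequality per side. On the negative side the linear term is paid by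
`r p - 1` and the tail potential themselves; the weights of the surplus may be `1 / (1 + μ₁ e₁)`
there and `1 + μ₂ e₂` on the positive side. -/
theorem pureLemma_of_sides (hm : 3 ≤ m) {η₁ η₂ θ₁ θ₂ δ e₁ e₂ μ₁ μ₂ C₁ C₂ : ℝ}
    {W₁ W₂ : ℝ → ℝ} (hδ : 0 < δ) (hμ₁ : 0 ≤ μ₁) (hμ₂ : 0 ≤ μ₂)
    (hW₁ : Measurable W₁) (hW₁b : ∀ t ∈ Ioo (0 : ℝ) 1, |W₁ t| ≤ C₁)
    (hW₂ : Measurable W₂) (hW₂b : ∀ t ∈ Ioo (0 : ℝ) 1, |W₂ t| ≤ C₂)
    (hθ₁ : θ₁ * (1 + μ₁ * e₁) ≤ 1) (hθ₂ : θ₂ ≤ 1 + μ₂ * e₂)
    (hlinLow : ∀ φ, IsShape φ → powRatio m φ ≤ 1 → convexVal m (pureG m) φ ≤ 0 →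
      -specLin m (specV m φ) ≤ e₁)
    (hlinUp : ∀ φ, IsShape φ → powRatio m φ ≤ 1 → convexVal m (pureG m) φ ≤ 0 →
      specLin m (specV m φ) ≤ e₂)
    (hX₁ : ∀ φ, IsShape φ → powRatio m φ ≤ 1 → convexVal m (pureG m) φ ≤ 0 →
      specLin m (specV m φ) < 0 →
      specExcess m φ ≤ specQuad m W₁ (specV m φ) + θ₁ * specSurplus m (bregPoly m) φ +
        η₁ * specEnergy m (bregPoly m) (fun t => specU' m φ t / specM m φ))
    (hX₂ : ∀ φ, IsShape φ → powRatio m φ ≤ 1 → convexVal m (pureG m) φ ≤ 0 →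
      0 ≤ specLin m (specV m φ) →
      specExcess m φ ≤ specQuad m W₂ (specV m φ) + θ₂ * specSurplus m (bregPoly m) φ +
        η₂ * specEnergy m (bregPoly m) (fun t => specU' m φ t / specM m φ))
    (hcertNeg : SpecPoincare m (1 - η₁ * (1 + μ₁ * e₁)) (fun t => (1 + μ₁ * e₁) * W₁ t +
      μ₁ * e₁ * (ballRatio m * ballShape t - 1) + δ) μ₁)
    (hcertPos : SpecPoincare m (1 - η₂ + μ₂ * e₂) (fun t => W₂ t +
      μ₂ * e₂ * (1 - ballRatio m * ballShape t) + δ) μ₂) :
    PureLemma m := by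
  have hm1 : 1 ≤ m := by omega
  refine pureLemma_of_fluctuation hm (fun t _ => bregPoly_nonneg m t) (measurable_bregPoly m)
    (fun t ht r hr => bregPoly_mul_le hm1 ht hr) fun φ hφ hx hV htest hE0 hS0 hsum hlow => ?_
  set v := specV m φ with hv
  set L := specLin m v with hL
  set b : ℝ → ℝ := fun t => ballRatio m * ballShape t - 1 with hb
  set R := specQuad m b v with hR
  set S := specSurplus m (bregPoly m) φ with hS
  set E := specEnergy m (bregPoly m) (fun t => specU' m φ t / specM m φ) with hEdef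
  have hbm : Measurable b := (cont_ball.measurable.const_mul _).sub_const 1
  have hbb : ∀ t ∈ Ioo (0 : ℝ) 1, |b t| ≤ ballRatio m + 1 := fun t _ =>
    (abs_sub _ _).trans (add_le_add (ball_bound m) (le_of_eq abs_one))
  have lin : ∀ (c k : ℝ) (W : ℝ → ℝ) (C : ℝ), Measurable W →
      (∀ t ∈ Ioo (0 : ℝ) 1, |W t| ≤ C) →
      (Measurable fun t => c * W t + k * b t) ∧
      (∀ t ∈ Ioo (0 : ℝ) 1, |c * W t + k * b t| ≤ |c| * C + |k| * (ballRatio m + 1)) ∧
      specQuad m (fun t => c * W t + k * b t) v = c * specQuad m W v + k * R :=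
    fun c k W C hW hWb => by
    refine ⟨(hW.const_mul c).add (hbm.const_mul k), fun t ht => (abs_add_le _ _).trans
      (add_le_add ?_ ?_), ?_⟩
    · rw [abs_mul]; exact mul_le_mul_of_nonneg_left (hWb t ht) (abs_nonneg _)
    · rw [abs_mul]; exact mul_le_mul_of_nonneg_left (hbb t ht) (abs_nonneg _)
    · rw [hR, specQuad, specQuad, specQuad, specMean, specMean, specMean, ← mul_div_assoc,
        ← mul_div_assoc, ← add_div, ← intervalIntegral.integral_const_mul,
        ← intervalIntegral.integral_const_mul,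
        ← intervalIntegral.integral_add ((intervalIntegrable_test hm1 htest hW hWb).const_mul c)
          ((intervalIntegrable_test hm1 htest hbm hbb).const_mul k)]
      congr 1
      exact integral_congr01 fun t _ => by ring
  rcases lt_or_ge L 0 with hneg | hpos
  · have hexc := hX₁ φ hφ hx hV hneg
    have h2 := hlinLow φ hφ hx hV
    rw [← hv, ← hL] at h2
    obtain ⟨hfm, hfb, hfe⟩ := lin (1 + μ₁ * e₁) (μ₁ * e₁) W₁ C₁ hW₁ hW₁b
    refine eq_zero_of_poincare hm1 hδ hfm hfb hcertNeg htest ?_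
    rw [hfe]
    have hsq : L ^ 2 ≤ e₁ * (R + specQuad m W₁ v + θ₁ * S + η₁ * E) := by
      calc L ^ 2 = -L * -L := by ring
        _ ≤ e₁ * (R + specQuad m W₁ v + θ₁ * S + η₁ * E) :=
          mul_le_mul h2 (by linarith) (by linarith) (by linarith)
    linarith [mul_le_mul_of_nonneg_left hsq hμ₁,
      mul_le_mul_of_nonneg_right hθ₁ hS0]
  · have hexc := hX₂ φ hφ hx hV hpos
    have h2 := hlinUp φ hφ hx hV
    rw [← hv, ← hL] at h2
    obtain ⟨hfm, hfb, hfe⟩ := lin 1 (-(μ₂ * e₂)) W₂ C₂ hW₂ hW₂b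
    have e : (fun t => W₂ t + μ₂ * e₂ * (1 - ballRatio m * ballShape t) + δ) =
        fun t => 1 * W₂ t + -(μ₂ * e₂) * b t + δ := by funext t; simp only [hb]; ring
    rw [e] at hcertPos
    refine eq_zero_of_poincare hm1 hδ hfm hfb hcertPos htest ?_
    rw [hfe]
    have hsq : L ^ 2 ≤ e₂ * (-R - E - S) := by
      calc L ^ 2 = L * L := by ring
        _ ≤ e₂ * (-R - E - S) := mul_le_mul h2 (by linarith) hpos (hpos.trans h2)
    linarith [mul_le_mul_of_nonneg_left hsq hμ₂, mul_le_mul_of_nonneg_right hθ₂ hS0]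

end Vale.Agent.P237.Quant
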