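import Mathlib
import Vale.Agent.P237.Quant.PureAssembly

/-!
The linear term bounded by the energy through two fields: the flux of `r p - 1` against `v'` and
against `v v'`. With a bound `d` of the relative moment excess and a Poincare inequality for the
mean-zero fluctuation this bounds the linear term on both sides, and the mean from below.
-/

namespace Vale.Agent.P237.Quant

open MeasureTheory Set Filter Topology

variable {m : ℕ} {φ Q v v' : ℝ → ℝ}

/-- The flux of `r p - 1` from the centre. -/
noncomputable def linFlux (m : ℕ) (t : ℝ) : ℝ :=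
  ∫ s in (0 : ℝ)..t, ballShape s ^ (m - 1) * (ballRatio m * ballShape s - 1)

theorem linFlux_one (hm : 1 ≤ m) : linFlux m 1 = 0 := by
  have i1 : IntervalIntegrable (fun s => ballRatio m * ballShape s ^ m) volume 0 1 :=
    ((cont_pow m).const_smul (ballRatio m)).intervalIntegrable _ _
  have e : (fun s => ballShape s ^ (m - 1) * (ballRatio m * ballShape s - 1)) =
      fun s => ballRatio m * ballShape s ^ m - ballShape s ^ (m - 1) := by
    funext s
    rw [show ballShape s ^ m = ballShape s ^ (m - 1) * ballShape s by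
      rw [← pow_succ, Nat.sub_add_cancel hm]]
    ring
  rw [linFlux, e, intervalIntegral.integral_sub i1 ((cont_pow _).intervalIntegrable _ _),
    intervalIntegral.integral_const_mul]
  exact sub_eq_zero.2 (div_mul_cancel₀ _ (ball_mass_pos m).ne')

theorem cont_linIntegrand (m : ℕ) :
    Continuous fun s => ballShape s ^ (m - 1) * (ballRatio m * ballShape s - 1) :=
  (cont_pow (m - 1)).mul ((cont_ball.const_smul (ballRatio m)).sub continuous_const)

theorem hasDerivAt_linFlux (m : ℕ) (t : ℝ) :
    HasDerivAt (linFlux m) (ballShape t ^ (m - 1) * (ballRatio m * ballShape t - 1)) t :=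
  intervalIntegral.integral_hasDerivAt_right ((cont_linIntegrand m).intervalIntegrable _ _)
    ((cont_linIntegrand m).stronglyMeasurableAtFilter _ _) (cont_linIntegrand m).continuousAt

/-- Near the end the flux is small. -/
theorem abs_linFlux_le (hm : 1 ≤ m) {t : ℝ} (ht : t ∈ Ico (0 : ℝ) 1) :
    |linFlux m t| ≤ (1 - t) * ((ballRatio m + 1) * ballShape t ^ (m - 1)) := by
  have h1 := linFlux_one hm
  have hc := cont_linIntegrand m
  have e : linFlux m t =
      -∫ s in t..1, ballShape s ^ (m - 1) * (ballRatio m * ballShape s - 1) := by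
    rw [linFlux, ← intervalIntegral.integral_add_adjacent_intervals
      (hc.intervalIntegrable 0 t) (hc.intervalIntegrable t 1)] at h1
    rw [linFlux]
    linarith
  rw [e, abs_neg, ← Real.norm_eq_abs]
  refine (intervalIntegral.norm_integral_le_of_norm_le_const
    (f := fun s => ballShape s ^ (m - 1) * (ballRatio m * ballShape s - 1))
    (C := (ballRatio m + 1) * ballShape t ^ (m - 1)) fun s hs => ?_).trans_eq ?_
  · rw [uIoc_of_le ht.2.le] at hs
    rw [Real.norm_eq_abs, abs_mul,
      abs_of_nonneg (pow_nonneg (show 0 ≤ ballShape s from Real.sqrt_nonneg _) _), mul_comm]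
    refine mul_le_mul ((abs_sub _ _).trans (add_le_add (ball_bound m) (le_of_eq abs_one)))
      (pow_le_pow_left₀ (Real.sqrt_nonneg _) (Real.sqrt_le_sqrt ?_) _)
      (pow_nonneg (Real.sqrt_nonneg _) _) (add_nonneg (ballRatio_pos m).le zero_le_one)
    nlinarith [hs.1, hs.2, ht.1]
  · rw [abs_of_nonneg (by linarith [ht.2])]
    ring

/-- The two field inequality: every linear combination of the two terms is at most the energy
plus a quadratic form of the affine weight. -/
theorem mul_lin_add_mul_quad_le (hm : 1 ≤ m) (hv : IsSpecTest m Q v v')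
    (hQ0 : ∀ t ∈ Ioo (0 : ℝ) 1, 0 ≤ Q t) {g₀ g₁ : ℝ}
    (hg : ∀ t ∈ Ioo (0 : ℝ) 1, 0 ≤ g₀ + g₁ * (1 - ballRatio m * ballShape t))
    (hF : ∀ t ∈ Ioo (0 : ℝ) 1, linFlux m t ^ 2 ≤ 4 / m * Q t * ballShape t ^ (m + 2) *
      (ballShape t ^ (m - 1) * (g₀ + g₁ * (1 - ballRatio m * ballShape t))))
    (x y : ℝ) :
    x * specLin m v + y * specQuad m (fun t => ballRatio m * ballShape t - 1) v ≤
      specEnergy m Q v' + x ^ 2 * g₀ - x * y * g₁ * specLin m v +
        y ^ 2 * (g₀ * specQuad m (fun _ => 1) v -
          g₁ * specQuad m (fun t => ballRatio m * ballShape t - 1) v) := by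
  set r := ballRatio m with hr
  set P := mass (m - 1) ballShape 1 with hP
  have hP0 : 0 < P := ball_mass_pos _
  have hm0 : 0 ≤ 4 / (m : ℝ) := by positivity
  -- integrability
  have ib : IntervalIntegrable (fun t => ballShape t ^ (m - 1) * (r * ballShape t - 1)) volume 0 1 :=
    (cont_linIntegrand m).intervalIntegrable _ _
  have iq : ∀ g : ℝ → ℝ, Continuous g →
      IntervalIntegrable (fun t => ballShape t ^ (m - 1) * (g t * v t ^ 2)) volume 0 1 := fun g hgc => by
    obtain ⟨C, hC⟩ := (isCompact_Icc (a := (0 : ℝ)) (b := 1)).exists_bound_of_continuousOn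
      hgc.continuousOn
    exact intervalIntegrable_test hm hv hgc.measurable
      fun t ht => hC t (Ioo_subset_Icc_self ht)
  have iv : ∀ g : ℝ → ℝ, Continuous g →
      IntervalIntegrable (fun t => ballShape t ^ (m - 1) * (g t * v t)) volume 0 1 := fun g hgc => by
    obtain ⟨C, hC⟩ := (isCompact_Icc (a := (0 : ℝ)) (b := 1)).exists_bound_of_continuousOn
      hgc.continuousOn
    refine interval_iff01.2 (Integrable.mono' (interval_iff01.1
      ((((cont_pow (m - 1)).intervalIntegrable (μ := volume) 0 1).add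
        (intervalIntegrable_test hm hv measurable_const (C := 1) (g := fun _ => 1)
          fun _ _ => by simp)).const_mul C)) ?_ ?_)
    · exact ((cont_pow _).measurable.aestronglyMeasurable).mul
        (hgc.measurable.aestronglyMeasurable.mul
          ((hv.cont.mono Ioo_subset_Ico_self).aestronglyMeasurable measurableSet_Ioo))
    · filter_upwards [ae_restrict_mem measurableSet_Ioo] with t ht
      have hw : 0 ≤ ballShape t ^ (m - 1) := pow_nonneg (Real.sqrt_nonneg _) _
      have hC0 : 0 ≤ C := (norm_nonneg _).trans (hC t (Ioo_subset_Icc_self ht))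
      have h1 : |g t| ≤ C := hC t (Ioo_subset_Icc_self ht)
      have h2 : |v t| ≤ 1 + v t ^ 2 := by
        nlinarith [sq_nonneg (|v t| - 1), sq_abs (v t), abs_nonneg (v t)]
      rw [Real.norm_eq_abs, abs_mul, abs_mul, abs_of_nonneg hw]
      calc ballShape t ^ (m - 1) * (|g t| * |v t|)
          ≤ ballShape t ^ (m - 1) * (C * (1 + v t ^ 2)) :=
            mul_le_mul_of_nonneg_left (mul_le_mul h1 h2 (abs_nonneg _) hC0) hw
        _ = _ := by ring
  set A : ℝ → ℝ := fun t => ballShape t ^ (m - 1) * (r * ballShape t - 1) *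
    (2 * x * v t + y * v t ^ 2) with hA
  set B : ℝ → ℝ := fun t => 4 / m * Q t * ballShape t ^ (m + 2) * v' t ^ 2 +
    ballShape t ^ (m - 1) * (g₀ + g₁ * (1 - r * ballShape t)) * (x + y * v t) ^ 2 with hB
  have cb : Continuous fun t => r * ballShape t - 1 :=
    (cont_ball.const_smul r).sub continuous_const
  have cw : Continuous fun t => g₀ + g₁ * (1 - r * ballShape t) :=
    continuous_const.add (continuous_const.mul (continuous_const.sub (cont_ball.const_smul r)))
  have iA : IntervalIntegrable A volume 0 1 :=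
    (((iv _ cb).const_mul (2 * x)).add ((iq _ cb).const_mul y)).congr
      fun t _ => by simp only [hA]; ring
  have iB : IntervalIntegrable B volume 0 1 :=
    (hv.energy.add ((((((cont_pow (m - 1)).mul cw).intervalIntegrable (μ := volume) 0 1).const_mul
      (x ^ 2)).add ((iv _ cw).const_mul (2 * x * y))).add ((iq _ cw).const_mul (y ^ 2)))).congr
      fun t _ => by simp only [hB, Pi.mul_apply]; ring
  set g : ℝ → ℝ := fun t => linFlux m t * (2 * x * v t + y * v t ^ 2) with hgdef
  have key : ∀ b ∈ Ioo (0 : ℝ) 1, (∫ t in (0 : ℝ)..b, (A t - B t)) ≤ g b := by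
    intro b hb
    have hsub : Icc 0 b ⊆ Ico (0 : ℝ) 1 := fun t ht => ⟨ht.1, ht.2.trans_lt hb.2⟩
    have cN : Continuous (linFlux m) :=
      continuous_iff_continuousAt.2 fun t => (hasDerivAt_linFlux m t).continuousAt
    have cv := hv.cont.mono hsub
    have hd : ∀ t ∈ Ioo (0 : ℝ) b, HasDerivWithinAt g
        (A t + linFlux m t * (2 * (x + y * v t) * v' t)) (Ioi t) t := fun t ht => by
      have ht1 : t ∈ Ioo (0 : ℝ) 1 := ⟨ht.1, ht.2.trans hb.2⟩
      have dv := hv.deriv t ht1
      refine ((hasDerivAt_linFlux m t).hasDerivWithinAt.fun_mul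
        ((dv.const_mul (2 * x)).fun_add ((dv.fun_pow 2).const_mul y))).congr_deriv ?_
      simp only [hA]
      push_cast
      ring
    have h := intervalIntegral.integral_le_sub_of_hasDeriv_right_of_le (φ := fun t => A t - B t)
      hb.1.le (cN.continuousOn.mul ((continuousOn_const.mul cv).add
        (continuousOn_const.mul (cv.pow 2)))) hd
      ((intervalIntegrable_iff_integrableOn_Icc_of_le hb.1.le).1 ((iA.sub iB).mono_set (by
        rw [uIcc_of_le hb.1.le, uIcc_of_le zero_le_one]
        exact Icc_subset_Icc le_rfl hb.2.le))) fun t ht => ?_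
    · have h0 : linFlux m 0 = 0 := intervalIntegral.integral_same
      simp only [hgdef, Pi.mul_apply, Pi.add_apply, Pi.pow_apply, h0, zero_mul, sub_zero] at h ⊢
      exact h
    · have ht1 : t ∈ Ioo (0 : ℝ) 1 := ⟨ht.1, ht.2.trans hb.2⟩
      have hp := ball_pos (sub01 ht1)
      have hk : 0 ≤ 4 / m * Q t * ballShape t ^ (m + 2) :=
        mul_nonneg (mul_nonneg hm0 (hQ0 t ht1)) (pow_nonneg hp.le _)
      have hw : 0 ≤ ballShape t ^ (m - 1) * (g₀ + g₁ * (1 - r * ballShape t)) :=
        mul_nonneg (pow_nonneg hp.le _) (hg t ht1)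
      set K := 4 / m * Q t * ballShape t ^ (m + 2) with hK
      set Wt := ballShape t ^ (m - 1) * (g₀ + g₁ * (1 - r * ballShape t)) with hWt
      have hY : (linFlux m t * ((x + y * v t) * v' t)) ^ 2 ≤
          K * v' t ^ 2 * (Wt * (x + y * v t) ^ 2) := by
        calc (linFlux m t * ((x + y * v t) * v' t)) ^ 2
            = linFlux m t ^ 2 * ((x + y * v t) * v' t) ^ 2 := by ring
          _ ≤ K * Wt * ((x + y * v t) * v' t) ^ 2 :=
            mul_le_mul_of_nonneg_right (hF t ht1) (sq_nonneg _)
          _ = _ := by ring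
      show A t - B t ≤ A t + linFlux m t * (2 * (x + y * v t) * v' t)
      have hBe : B t = K * v' t ^ 2 + Wt * (x + y * v t) ^ 2 := by simp only [hB, hK, hWt]
      rw [hBe]
      nlinarith [sq_nonneg (K * v' t ^ 2 - Wt * (x + y * v t) ^ 2),
        mul_nonneg hk (sq_nonneg (v' t)), mul_nonneg hw (sq_nonneg (x + y * v t))]
  -- the end
  obtain ⟨D, hD⟩ := hv.growth
  set S := 2 * (ballRatio m + 1) * ((|x| + |y|) * (1 + |D|)) with hS
  have hbound : ∀ b ∈ Ioo (0 : ℝ) 1, g b ≤ S * ballShape b := by
    intro b hb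
    have hp := ball_pos (sub01 hb)
    have hp1 := ball_le_one b
    have hN := abs_linFlux_le hm ⟨hb.1.le, hb.2⟩
    have hgrow := hD b ⟨hb.1.le, hb.2⟩
    have hp2 : ballShape b ^ 2 = 1 - b ^ 2 := ball_sq (Ioo_subset_Icc_self (sub01 hb))
    have h1b : 1 - b ≤ ballShape b ^ 2 := by rw [hp2]; nlinarith [hb.1, hb.2]
    have hv2 : |2 * x * v b + y * v b ^ 2| ≤ 2 * (|x| + |y|) * (1 + v b ^ 2) := by
      rw [abs_le]
      constructor <;>
        nlinarith [sq_nonneg (|v b| - 1), sq_abs (v b), le_abs_self (x * v b), neg_abs_le (x * v b),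
          abs_mul x (v b), abs_nonneg x, abs_nonneg y, neg_abs_le y, le_abs_self y,
          sq_nonneg (v b), mul_nonneg (abs_nonneg y) (sq_nonneg (v b)),
          mul_le_mul_of_nonneg_right (le_abs_self y) (sq_nonneg (v b)),
          mul_le_mul_of_nonneg_right (neg_abs_le y) (sq_nonneg (v b)),
          mul_nonneg (abs_nonneg x) (sq_nonneg (|v b| - 1))]
    have hpm : ballShape b ^ m * (1 + v b ^ 2) ≤ 1 + |D| := by
      have h1 : ballShape b ^ m ≤ 1 := pow_le_one₀ hp.le hp1
      linarith [le_abs_self D]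
    have hr0 : 0 ≤ ballRatio m + 1 := add_nonneg (ballRatio_pos m).le zero_le_one
    calc g b ≤ |g b| := le_abs_self _
      _ = |linFlux m b| * |2 * x * v b + y * v b ^ 2| := abs_mul _ _
      _ ≤ (1 - b) * ((ballRatio m + 1) * ballShape b ^ (m - 1)) *
          (2 * (|x| + |y|) * (1 + v b ^ 2)) :=
        mul_le_mul hN hv2 (abs_nonneg _) ((abs_nonneg _).trans hN)
      _ ≤ ballShape b ^ 2 * ((ballRatio m + 1) * ballShape b ^ (m - 1)) *
          (2 * (|x| + |y|) * (1 + v b ^ 2)) := by
        refine mul_le_mul_of_nonneg_right (mul_le_mul_of_nonneg_right h1b ?_) ?_ <;> positivity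
      _ = 2 * (ballRatio m + 1) * ((|x| + |y|) * (ballShape b ^ m * (1 + v b ^ 2))) *
          ballShape b := by
        obtain ⟨k, rfl⟩ : ∃ k, m = k + 1 := ⟨m - 1, by omega⟩
        rw [Nat.add_sub_cancel, pow_succ (ballShape b) k]
        ring
      _ ≤ S * ballShape b := by
        rw [hS]
        refine mul_le_mul_of_nonneg_right (mul_le_mul_of_nonneg_left
          (mul_le_mul_of_nonneg_left hpm (by positivity)) (by positivity)) hp.le
  have hlim : Tendsto (fun b => (∫ t in (0 : ℝ)..b, (A t - B t)) - S * ballShape b) (𝓝[<] 1)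
      (𝓝 (∫ t in (0 : ℝ)..1, (A t - B t))) := by
    have hc : ContinuousWithinAt (fun b => (∫ t in (0 : ℝ)..b, (A t - B t)) - S * ballShape b)
        (Icc 0 1) 1 := by
      have h := intervalIntegral.continuousOn_primitive_interval' (iA.sub iB)
        (left_mem_uIcc (a := (0 : ℝ)) (b := 1))
      rw [uIcc_of_le zero_le_one] at h
      exact (h.sub (continuousOn_const.mul cont_ball.continuousOn)) 1 (right_mem_Icc.2 zero_le_one)
    have h := hc.tendsto.mono_left (nhdsWithin_le_of_mem (Icc_mem_nhdsLT (zero_lt_one (α := ℝ))))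
    simpa [ballShape] using h
  have hfin : (∫ t in (0 : ℝ)..1, (A t - B t)) ≤ 0 := le_of_tendsto hlim (by
    filter_upwards [Ioo_mem_nhdsLT (zero_lt_one (α := ℝ))] with b hb
    linarith [key b hb, hbound b hb])
  rw [intervalIntegral.integral_sub iA iB] at hfin
  have i0 : IntervalIntegrable (fun t => ballShape t ^ (m - 1)) volume 0 1 :=
    (cont_pow _).intervalIntegrable _ _
  have eA : (∫ t in (0 : ℝ)..1, A t) =
      (x * specLin m v + y * specQuad m (fun t => r * ballShape t - 1) v) * P := by
    rw [specLin, specQuad, specMean, specMean, add_mul, mul_assoc, mul_assoc,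
      div_mul_cancel₀ _ hP0.ne', div_mul_cancel₀ _ hP0.ne', ← intervalIntegral.integral_const_mul,
      ← intervalIntegral.integral_const_mul, ← intervalIntegral.integral_add
        (((iv _ (cb.const_smul (2 : ℝ))).congr fun t _ => by
          simp only [hr, Pi.smul_apply, smul_eq_mul]).const_mul x) ((iq _ cb).const_mul y)]
    exact integral_congr01 fun t _ => by simp only [hA]; ring
  have iW0 : IntervalIntegrable
      (fun t => ballShape t ^ (m - 1) * (g₀ + g₁ * (1 - r * ballShape t))) volume 0 1 :=
    ((cont_pow (m - 1)).mul cw).intervalIntegrable _ _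
  have eB : (∫ t in (0 : ℝ)..1, B t) = (specEnergy m Q v' + x ^ 2 * g₀ -
      x * y * g₁ * specLin m v + y ^ 2 * (g₀ * specQuad m (fun _ => 1) v -
          g₁ * specQuad m (fun t => r * ballShape t - 1) v)) * P := by
    have hmean : ∫ t in (0 : ℝ)..1, ballShape t ^ (m - 1) * v t = 0 := hv.mean
    have h0 : (∫ t in (0 : ℝ)..1, ballShape t ^ (m - 1) * (g₀ + g₁ * (1 - r * ballShape t))) =
        g₀ * P := by
      have hN1 := linFlux_one hm
      rw [linFlux] at hN1
      rw [integral_congr01 (g := fun t => g₀ * ballShape t ^ (m - 1) -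
        g₁ * (ballShape t ^ (m - 1) * (r * ballShape t - 1))) (fun t _ => by ring),
        intervalIntegral.integral_sub (i0.const_mul _) (ib.const_mul _),
        intervalIntegral.integral_const_mul, intervalIntegral.integral_const_mul, hN1, mul_zero,
        sub_zero]
      rfl
    have h1 : (∫ t in (0 : ℝ)..1,
        ballShape t ^ (m - 1) * ((g₀ + g₁ * (1 - r * ballShape t)) * v t)) =
        -(g₁ / 2) * (specLin m v * P) := by
      rw [specLin, specMean, div_mul_cancel₀ _ hP0.ne', ← intervalIntegral.integral_const_mul,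
        integral_congr01 (g := fun t => g₀ * (ballShape t ^ (m - 1) * v t) +
          -(g₁ / 2) * (ballShape t ^ (m - 1) * (2 * (r * ballShape t - 1) * v t)))
          (fun t _ => by ring),
        intervalIntegral.integral_add (((iv _ continuous_const).congr fun t _ => by
          rw [one_mul]).const_mul g₀) (((iv _ (cb.const_smul (2 : ℝ))).congr fun t _ => by
          simp only [hr, Pi.smul_apply, smul_eq_mul]).const_mul _),
        intervalIntegral.integral_const_mul, hmean, mul_zero, zero_add]
    have h2 : (∫ t in (0 : ℝ)..1,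
        ballShape t ^ (m - 1) * ((g₀ + g₁ * (1 - r * ballShape t)) * v t ^ 2)) =
        (g₀ * specQuad m (fun _ => 1) v -
          g₁ * specQuad m (fun t => r * ballShape t - 1) v) * P := by
      rw [specQuad, specQuad, specMean, specMean, sub_mul, mul_assoc, mul_assoc,
        div_mul_cancel₀ _ hP0.ne', div_mul_cancel₀ _ hP0.ne', ← intervalIntegral.integral_const_mul,
        ← intervalIntegral.integral_const_mul,
        ← intervalIntegral.integral_sub ((iq _ continuous_const).const_mul g₀)
          ((iq _ cb).const_mul g₁)]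
      exact integral_congr01 fun t _ => by ring
    rw [integral_congr01 (g := fun t => 4 / m * Q t * ballShape t ^ (m + 2) * v' t ^ 2 +
        (x ^ 2 * (ballShape t ^ (m - 1) * (g₀ + g₁ * (1 - r * ballShape t))) +
          2 * x * y * (ballShape t ^ (m - 1) * ((g₀ + g₁ * (1 - r * ballShape t)) * v t)) +
          y ^ 2 * (ballShape t ^ (m - 1) * ((g₀ + g₁ * (1 - r * ballShape t)) * v t ^ 2))))
      (fun t _ => by simp only [hB]; ring),
      intervalIntegral.integral_add hv.energy (((iW0.const_mul _).add ((iv _ cw).const_mul _)).add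
        ((iq _ cw).const_mul _)),
      intervalIntegral.integral_add ((iW0.const_mul _).add ((iv _ cw).const_mul _))
        ((iq _ cw).const_mul _),
      intervalIntegral.integral_add (iW0.const_mul _) ((iv _ cw).const_mul _),
      intervalIntegral.integral_const_mul, intervalIntegral.integral_const_mul,
      intervalIntegral.integral_const_mul, h0, h1, h2,
      show (∫ t in (0 : ℝ)..1, 4 / m * Q t * ballShape t ^ (m + 2) * v' t ^ 2) =
        specEnergy m Q v' * P from (div_mul_cancel₀ _ hP0.ne').symm]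
    ring
  rw [eA, eB] at hfin
  have : (x * specLin m v + y * specQuad m (fun t => r * ballShape t - 1) v) * P ≤
      (specEnergy m Q v' + x ^ 2 * g₀ - x * y * g₁ * specLin m v +
        y ^ 2 * (g₀ * specQuad m (fun _ => 1) v -
          g₁ * specQuad m (fun t => r * ballShape t - 1) v)) * P := by linarith
  exact le_of_mul_le_mul_right this hP0

/-- On a profile with nonpositive value and relative moment excess at most `d`, a Poincare
inequality bounds the linear term: for every `x, y`. -/
theorem mul_specLin_le (hm : 1 ≤ m) (hφ : IsShape φ) (hV : convexVal m (pureG m) φ ≤ 0)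
    {g₀ g₁ d a b : ℝ} (hd : 0 ≤ d) (hd1 : d * a < 1 + d) (ha : 0 ≤ a)
    (hg₀ : 0 ≤ g₀)
    (hg : ∀ t ∈ Ioo (0 : ℝ) 1, 0 ≤ g₀ + g₁ * (1 - ballRatio m * ballShape t))
    (hF : ∀ t ∈ Ioo (0 : ℝ) 1, linFlux m t ^ 2 ≤ 4 / m * bregPoly m t * ballShape t ^ (m + 2) *
      (ballShape t ^ (m - 1) * (g₀ + g₁ * (1 - ballRatio m * ballShape t))))
    (hD : (∫ t in (0 : ℝ)..1, φ t ^ m / ballShape t) ≤ (1 + d) * ballRatio m * mass m φ 1)
    (hP : specQuad m (fun _ => 1) (specV m φ) ≤
      a * specEnergy m (bregPoly m) (fun t => specU' m φ t / specM m φ) + b) :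
    mass m φ 1 ≤ (1 + (a * d + b * (1 + d)) / (1 + d - a * d)) * specM m φ ^ 2 * mass m ballShape 1 ∧
      ∀ x y : ℝ, 0 ≤ 1 + y + y ^ 2 * g₁ →
        (x - y) * (1 + y * g₁) * specLin m (specV m φ) ≤ x ^ 2 * g₀ +
          (1 + y + y ^ 2 * g₁) * (d * (1 + b) / (1 + d - a * d)) +
          y ^ 2 * g₀ * ((a * d + b * (1 + d)) / (1 + d - a * d)) := by
  have hQ0 : ∀ t ∈ Ioo (0 : ℝ) 1, 0 ≤ bregPoly m t := fun t _ => bregPoly_nonneg m t
  have hQ := fun t ht r hr => bregPoly_mul_le (m := m) hm (t := t) (r := r) ht hr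
  have hsum := sum_nonpos hm hφ hQ0 (measurable_bregPoly m) hQ hV
  obtain ⟨iEn, -, -, -⟩ := goal_le_value hm hφ hQ0 (measurable_bregPoly m) hQ
  have htest := isSpecTest_specV hm hφ iEn
  have hf := mul_lin_add_mul_quad_le hm htest hQ0 hg hF
  set v := specV m φ with hv
  set r := ballRatio m with hr
  set L := specLin m v with hL
  set R := specQuad m (fun t => r * ballShape t - 1) v with hR
  set q := specQuad m (fun _ => 1) v with hq
  set E := specEnergy m (bregPoly m) (fun t => specU' m φ t / specM m φ) with hE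
  set P := mass (m - 1) ballShape 1 with hPdef
  have hP0 : 0 < P := ball_mass_pos _
  set X := r * mass m φ 1 / specM m φ ^ 2 / P with hX
  have hM0 := specM_pos hm hφ
  -- the two expansions
  have eX : X = 1 + q + L + R := by
    have h := mass_expand hm hφ
    have i1 := intervalIntegrable_quad hm hφ (g := fun _ => (1 : ℝ)) measurable_const (C := 1)
      fun _ _ => by simp
    have i2 := intervalIntegrable_quad hm hφ (g := fun t => r * ballShape t - 1)
      ((cont_ball.const_smul r).measurable.sub_const 1) (C := r + 1)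
      fun t _ => (abs_sub _ _).trans (add_le_add (ball_bound m) (le_of_eq abs_one))
    have e : (∫ t in (0 : ℝ)..1, ballShape t ^ (m - 1) * (r * ballShape t * v t ^ 2)) =
        (q + R) * P := by
      rw [hq, hR, specQuad, specQuad, specMean, specMean, add_mul, div_mul_cancel₀ _ hP0.ne',
        div_mul_cancel₀ _ hP0.ne', ← intervalIntegral.integral_add i1 i2]
      exact integral_congr01 fun t _ => by ring
    rw [hX, h, e]
    field_simp
    ring
  have e2 : (∫ t in (0 : ℝ)..1, φ t ^ m / ballShape t) / specM m φ ^ 2 = (1 + q) * P := by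
    rw [sq_expand hm hφ, hq, specQuad, specMean, one_add_mul, div_mul_cancel₀ _ hP0.ne']
    congr 1
    exact integral_congr01 fun t _ => by ring
  have hdX : 1 + q ≤ (1 + d) * X := by
    refine le_of_mul_le_mul_right ?_ hP0
    rw [← e2, hX, mul_assoc (1 + d) _ P, div_mul_cancel₀ _ hP0.ne',
      mul_div_assoc', ← mul_assoc]
    exact div_le_div_of_nonneg_right hD (sq_nonneg _)
  set Δ := -(L + R) with hΔ
  have hEn : 0 ≤ E := by
    refine div_nonneg (intervalIntegral.integral_nonneg_of_ae_restrict zero_le_one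
      (Eventually.of_forall fun t => ?_)) hP0.le
    simp only [Pi.zero_apply]
    exact mul_nonneg (mul_nonneg (mul_nonneg (by positivity) (bregPoly_nonneg m t))
      (pow_nonneg (Real.sqrt_nonneg _) _)) (sq_nonneg _)
  have hEΔ : E ≤ Δ := by linarith
  have hΔq : (1 + d) * Δ ≤ d * (1 + q) := by
    rw [eX] at hdX
    simp only [hΔ]
    linarith
  have hqΔ : q ≤ a * Δ + b := hP.trans (by linarith [mul_le_mul_of_nonneg_left hEΔ ha])
  have hden : 0 < 1 + d - a * d := by linarith
  have hΔmax : Δ ≤ d * (1 + b) / (1 + d - a * d) := by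
    rw [le_div_iff₀ hden]
    linarith [mul_le_mul_of_nonneg_left hqΔ hd]
  have hqmax : q ≤ (a * d + b * (1 + d)) / (1 + d - a * d) := by
    rw [le_div_iff₀ hden]
    linarith [mul_le_mul_of_nonneg_left hqΔ (show 0 ≤ 1 + d by linarith),
      mul_le_mul_of_nonneg_left hΔq ha]
  refine ⟨?_, fun x y hy => ?_⟩
  · have hX1 : X ≤ 1 + (a * d + b * (1 + d)) / (1 + d - a * d) := by linarith
    rw [hX, div_le_iff₀ hP0, div_le_iff₀ (pow_pos hM0 2)] at hX1
    have hS := ball_mass_pos m
    have : r * mass m φ 1 * mass m ballShape 1 = mass m φ 1 * P := by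
      rw [hr, ballRatio, ← hPdef]
      field_simp
    refine le_of_mul_le_mul_right ?_ hP0
    calc mass m φ 1 * P = r * mass m φ 1 * mass m ballShape 1 := this.symm
      _ ≤ _ := mul_le_mul_of_nonneg_right hX1 hS.le
      _ = _ := by ring
  · have h := hf x y
    have h1 := mul_le_mul_of_nonneg_left hΔmax hy
    have h2 := mul_le_mul_of_nonneg_left hqmax (show 0 ≤ y ^ 2 * g₀ by positivity)
    have hRe : R = -L - Δ := by simp only [hΔ]; ring
    rw [hRe] at h
    linarith

end Vale.Agent.P237.Quant
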