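import Mathlib
import Vale.Agent.P237.Quant.Spectral
import Vale.Agent.P237.Quant.BadSet

/-!
The linear term is bounded below for every profile, because a profile decreases: at least
`2 (r_m / r_(m/2) - 1)` for the moment ratios of the ball at the exponents `m` and `m / 2`, with
rational bounds for these ratios.
-/

namespace Vale.Agent.P237.Quant

open MeasureTheory Set Filter Topology

variable {m : ℕ} {φ : ℝ → ℝ} {a : ℝ}

/-- The ball mass at a real exponent. -/
noncomputable def realMass (a : ℝ) : ℝ := ∫ t in (0 : ℝ)..1, ballShape t ^ a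

theorem cont_rpow (ha : 0 ≤ a) : Continuous fun t => ballShape t ^ a :=
  cont_ball.rpow_const fun _ => Or.inr ha

theorem realMass_natCast (k : ℕ) : realMass (k : ℝ) = mass k ballShape 1 := by
  simp only [realMass, mass, Real.rpow_natCast]

theorem realMass_pos (ha : 0 ≤ a) : 0 < realMass a :=
  intervalIntegral.intervalIntegral_pos_of_pos_on ((cont_rpow ha).intervalIntegrable _ _)
    (fun _ ht => Real.rpow_pos_of_pos (ball_pos (sub01 ht)) a) zero_lt_one

theorem realMass_rec (ha : 0 ≤ a) : (a + 3) * realMass (a + 2) = (a + 2) * realMass a := by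
  have i1 := ((cont_rpow (show 0 ≤ a + 2 by linarith)).intervalIntegrable
    (μ := volume) 0 1).const_mul (a + 3)
  have i2 := ((cont_rpow ha).intervalIntegrable (μ := volume) 0 1).const_mul (a + 2)
  have h : (∫ t in (0 : ℝ)..1,
      ((a + 3) * ballShape t ^ (a + 2) - (a + 2) * ballShape t ^ a)) = 0 := by
    rw [intervalIntegral.integral_eq_sub_of_hasDerivAt_of_le zero_le_one
      (f := fun t => t * ballShape t ^ (a + 2))
      (continuous_id.mul (cont_rpow (by linarith))).continuousOn (fun t ht => ?_) (i1.sub i2)]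
    · simp [ballShape, Real.zero_rpow (show a + 2 ≠ 0 by linarith)]
    · have hI : t ∈ Ioo (-1 : ℝ) 1 := sub01 ht
      have hp := ball_pos hI
      refine ((hasDerivAt_id' t).mul ((hasDerivAt_ball hI).rpow_const
        (p := a + 2) (Or.inl hp.ne'))).congr_deriv ?_
      have hs := ball_sq (Ioo_subset_Icc_self hI)
      rw [show a + 2 - 1 = a + 1 by ring, Real.rpow_add_one hp.ne', Real.rpow_add hp,
        Real.rpow_two]
      field_simp
      linear_combination (-(a + 2)) * hs
  rw [intervalIntegral.integral_sub i1 i2, intervalIntegral.integral_const_mul,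
    intervalIntegral.integral_const_mul] at h
  rw [realMass, realMass]
  linarith

private theorem quad_expand (ha : 0 ≤ a) (l : ℝ) :
    0 ≤ realMass a - (1 + 2 * l) * realMass (a + 1) + (2 * l + l ^ 2) * realMass (a + 2) -
      l ^ 2 * realMass (a + 3) := by
  have i : ∀ k c : ℝ, 0 ≤ k → IntervalIntegrable (fun t => c * ballShape t ^ (a + k)) volume 0 1 :=
    fun k c hk => ((cont_rpow (by linarith)).intervalIntegrable _ _).const_mul c
  have i0 := (cont_rpow ha).intervalIntegrable (μ := volume) 0 1
  have h : 0 ≤ ∫ t in (0 : ℝ)..1, (ballShape t ^ a - (1 + 2 * l) * ballShape t ^ (a + 1) +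
      (2 * l + l ^ 2) * ballShape t ^ (a + 2) - l ^ 2 * ballShape t ^ (a + 3)) := by
    refine intervalIntegral.integral_nonneg_of_ae_restrict zero_le_one ?_
    rw [← restrict_Ioo_eq_restrict_Icc]
    filter_upwards [ae_restrict_mem measurableSet_Ioo] with t ht
    have hp := ball_pos (sub01 ht)
    have key : 0 ≤ ballShape t ^ a * ((1 - ballShape t) * (1 - l * ballShape t) ^ 2) :=
      mul_nonneg (Real.rpow_nonneg hp.le a)
        (mul_nonneg (sub_nonneg.2 (ball_le_one t)) (sq_nonneg _))
    rw [Real.rpow_add hp, Real.rpow_add hp, Real.rpow_add hp, Real.rpow_one, Real.rpow_two,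
      show (3 : ℝ) = ((3 : ℕ) : ℝ) by norm_num, Real.rpow_natCast]
    simp only [Pi.zero_apply]
    linarith
  rw [intervalIntegral.integral_sub ((i0.sub (i 1 _ zero_le_one)).add (i 2 _ (by norm_num)))
      (i 3 _ (by norm_num)),
    intervalIntegral.integral_add (i0.sub (i 1 _ zero_le_one)) (i 2 _ (by norm_num)),
    intervalIntegral.integral_sub i0 (i 1 _ zero_le_one), intervalIntegral.integral_const_mul,
    intervalIntegral.integral_const_mul, intervalIntegral.integral_const_mul] at h
  exact h

/-- The rational upper bound of the ratio of consecutive masses. -/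
noncomputable def ratioUpper (a l : ℝ) : ℝ :=
  (1 + (2 * l + l ^ 2) * ((a + 2) / (a + 3))) /
    ((1 + 2 * l) * ((a + 1) / (a + 2)) + l ^ 2 * ((a + 1) / (a + 2)) * ((a + 3) / (a + 4)))

/-- The rational lower bound of the ratio of consecutive masses. -/
noncomputable def ratioLower (a l : ℝ) : ℝ :=
  (1 + 2 * l + l ^ 2 * ((a + 2) / (a + 3))) / (1 + (2 * l + l ^ 2) * ((a + 1) / (a + 2)))

theorem le_ratioUpper (ha : 1 ≤ a) {l : ℝ} (hl : 0 ≤ l) :
    realMass (a - 1) ≤ ratioUpper a l * realMass a := by
  have h1 := realMass_rec (a := a - 1) (by linarith)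
  have h2 := realMass_rec (a := a) (by linarith)
  have h3 := realMass_rec (a := a + 1) (by linarith)
  rw [show a - 1 + 3 = a + 2 by ring, show a - 1 + 2 = a + 1 by ring] at h1
  rw [show a + 1 + 3 = a + 4 by ring, show a + 1 + 2 = a + 3 by ring] at h3
  have hq := quad_expand (a := a) (by linarith) l
  have e1 : realMass (a + 1) = (a + 1) / (a + 2) * realMass (a - 1) := by
    field_simp; linarith
  have e2 : realMass (a + 2) = (a + 2) / (a + 3) * realMass a := by field_simp; linarith
  have e3 : realMass (a + 3) = (a + 3) / (a + 4) * realMass (a + 1) := by field_simp; linarith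
  rw [e3, e2, e1] at hq
  rw [ratioUpper, div_mul_eq_mul_div, le_div_iff₀ (by positivity)]
  linarith

theorem ratioLower_le (ha : 1 ≤ a) {l : ℝ} (hl : 0 ≤ l) :
    ratioLower a l * realMass a ≤ realMass (a - 1) := by
  have h1 := realMass_rec (a := a - 1) (by linarith)
  have h2 := realMass_rec (a := a) (by linarith)
  rw [show a - 1 + 3 = a + 2 by ring, show a - 1 + 2 = a + 1 by ring] at h1
  have hq := quad_expand (a := a - 1) (by linarith) l
  rw [show a - 1 + 1 = a by ring, show a - 1 + 2 = a + 1 by ring,
    show a - 1 + 3 = a + 2 by ring] at hq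
  have e1 : realMass (a + 1) = (a + 1) / (a + 2) * realMass (a - 1) := by
    field_simp; linarith
  have e2 : realMass (a + 2) = (a + 2) / (a + 3) * realMass a := by field_simp; linarith
  rw [e2, e1] at hq
  rw [ratioLower, div_mul_eq_mul_div, div_le_iff₀ (by positivity)]
  linarith

/-- The bound of the negative linear term. -/
noncomputable def linearLower (m : ℕ) : ℝ :=
  2 * (1 - ballRatio m * realMass ((m : ℝ) / 2) / realMass ((m : ℝ) / 2 - 1))

/-- A decreasing profile bounds the linear term below. -/
theorem neg_specLin_le (hm : 2 ≤ m) (hφ : IsShape φ) :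
    -specLin m (specV m φ) ≤ linearLower m := by
  have hm1 : 1 ≤ m := by omega
  have ha : (0 : ℝ) ≤ (m : ℝ) / 2 - 1 := by
    have : (2 : ℝ) ≤ m := by exact_mod_cast hm
    linarith
  set α : ℝ := (m : ℝ) / 2 with hα
  set P := mass (m - 1) ballShape 1 with hPdef
  have hP0 : 0 < P := ball_mass_pos _
  set M := specM m φ with hMdef
  have hM0 : 0 < M := specM_pos hm1 hφ
  set ψ : ℝ → ℝ := fun t => √(φ t ^ m) with hψ
  have hψc : ContinuousOn ψ (Ioo (0 : ℝ) 1) :=
    (((shape_continuousOn hφ).mono sub01).pow m).sqrt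
  have hψb : ∀ t ∈ Ioo (0 : ℝ) 1, |ψ t| ≤ √(φ 0 ^ m) := fun t ht => by
    have hI := Ioo_subset_Icc_self (sub01 ht)
    rw [abs_of_nonneg (Real.sqrt_nonneg _)]
    exact Real.sqrt_le_sqrt (pow_le_pow_left₀ (hφ.nonneg t hI) (shape_le_centre hφ hI) m)
  have hb : ∀ c : ℝ, 0 ≤ c →
      IntervalIntegrable (fun t => ballShape t ^ c * ψ t) volume 0 1 := fun c hc => by
    refine interval_iff01.2 (Integrable.bdd_mul (c := √(φ 0 ^ m)) (f := ψ)
      (interval_iff01.1 ((cont_rpow hc).intervalIntegrable _ _))
      (hψc.aestronglyMeasurable measurableSet_Ioo) ?_ |>.congr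
      (Eventually.of_forall fun t => mul_comm _ _))
    filter_upwards [ae_restrict_mem measurableSet_Ioo] with t ht
    exact hψb t ht
  have jA := hb α (by linarith)
  have jB := hb (α - 1) ha
  -- the two moments of `specU`
  have eu : ∀ t ∈ Ioo (0 : ℝ) 1, ballShape t ^ (m - 1) * specU m φ t = ballShape t ^ (α - 1) * ψ t ∧
      ballShape t ^ (m - 1) * (ballShape t * specU m φ t) = ballShape t ^ α * ψ t := by
    intro t ht
    have hp := ball_pos (sub01 ht)
    have hq : 0 < ballShape t ^ α := Real.rpow_pos_of_pos hp α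
    have es : √(ballShape t ^ m) = ballShape t ^ α := by
      rw [Real.sqrt_eq_rpow, ← Real.rpow_natCast (ballShape t) m, ← Real.rpow_mul hp.le, hα]
      congr 1
      ring
    have e2 : ballShape t ^ m = ballShape t ^ α * ballShape t ^ α := by
      rw [← es, Real.mul_self_sqrt (pow_nonneg hp.le m)]
    have h2 : ballShape t ^ (m - 1) * (ballShape t * specU m φ t) = ballShape t ^ α * ψ t := by
      rw [← mul_assoc, ← pow_succ, Nat.sub_add_cancel hm1, specU, div_pow,
        Real.sqrt_div' _ (pow_nonneg hp.le m), es, e2]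
      simp only [hψ]
      field_simp
    refine ⟨?_, h2⟩
    rw [Real.rpow_sub_one hp.ne', div_mul_eq_mul_div, ← h2]
    field_simp
  set A := ∫ t in (0 : ℝ)..1, ballShape t ^ α * ψ t with hA
  set B := ∫ t in (0 : ℝ)..1, ballShape t ^ (α - 1) * ψ t with hB
  have hBM : B = M * P := by
    rw [hMdef, ← specM_mul]
    exact integral_congr01 fun t ht => ((eu t ht).1).symm
  have hB0 : 0 < B := by rw [hBM]; exact mul_pos hM0 hP0
  have hA0 : 0 < A := intervalIntegral.intervalIntegral_pos_of_pos_on jA
    (fun t ht => mul_pos (Real.rpow_pos_of_pos (ball_pos (sub01 ht)) α)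
      (Real.sqrt_pos.2 (pow_pos (shape_pos hφ (sub01 ht)) m))) zero_lt_one
  have hJ1 := realMass_pos ha
  have hJ0 := realMass_pos (a := α) (by linarith)
  -- the crossing
  have hcross : realMass α * B ≤ A * realMass (α - 1) := by
    have e1 : ∀ t ∈ Ioo (0 : ℝ) 1,
        1 / ballShape t * ballShape t ^ α = ballShape t ^ (α - 1) := fun t ht => by
      rw [Real.rpow_sub_one (ball_pos (sub01 ht)).ne', one_div_mul_eq_div]
    have hci : IntervalIntegrable
        (fun t => 1 / ballShape t * (realMass α / A * (ballShape t ^ α * ψ t))) volume 0 1 := by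
      refine interval_iff01.2 ((interval_iff01.1 (jB.const_mul (realMass α / A))).congr_fun
        (fun t ht => ?_) measurableSet_Ioo)
      dsimp only
      rw [← e1 t ht]
      ring
    have h := integral_mul_le_of_crossing zero_le_one monotoneOn_inv_ball
      (f := fun t => realMass α / A * (ballShape t ^ α * ψ t)) (h := fun t => ballShape t ^ α)
      (fun t ht hlt t' ht' htt => ?_) (jA.const_mul _)
      ((cont_rpow (by linarith)).intervalIntegrable _ _) hci
      (intervalIntegrable_inv_ball_mul (cont_rpow (by linarith)))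
      (by rw [intervalIntegral.integral_const_mul, ← hA, div_mul_cancel₀ _ hA0.ne']; rfl)
    · rw [integral_congr01 (g := fun t => realMass α / A * (ballShape t ^ (α - 1) * ψ t))
        (fun t ht => by rw [← e1 t ht]; ring), intervalIntegral.integral_const_mul,
        integral_congr01 (g := fun t => ballShape t ^ (α - 1)) e1, ← hB, div_mul_eq_mul_div,
        div_le_iff₀ hA0] at h
      rw [mul_comm A]
      exact h
    · have hp' : 0 < ballShape t' ^ α := Real.rpow_pos_of_pos (ball_pos (sub01 ht')) α
      have hp : 0 < ballShape t ^ α := Real.rpow_pos_of_pos (ball_pos (sub01 ht)) α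
      have h1 : 1 < realMass α / A * ψ t := by
        refine (mul_lt_mul_iff_of_pos_left hp).1 ?_
        rw [mul_one]
        exact hlt.trans_eq (by ring)
      have h2 : ψ t ≤ ψ t' := Real.sqrt_le_sqrt (pow_le_pow_left₀
        (hφ.nonneg t (Ioo_subset_Icc_self (sub01 ht)))
        (shape_antitoneOn hφ (Ioo_subset_Icc_self ht') (Ioo_subset_Icc_self ht) htt) m)
      have h3 : 1 ≤ realMass α / A * ψ t' :=
        h1.le.trans (mul_le_mul_of_nonneg_left h2 (div_pos hJ0 hA0).le)
      calc ballShape t' ^ α = ballShape t' ^ α * 1 := (mul_one _).symm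
        _ ≤ ballShape t' ^ α * (realMass α / A * ψ t') := mul_le_mul_of_nonneg_left h3 hp'.le
        _ = _ := by ring
  -- the linear term
  have eL : specLin m (specV m φ) = 2 * (ballRatio m * A / B - 1) := by
    have j1 : IntervalIntegrable (fun t => ballShape t ^ (m - 1) * (ballShape t * specU m φ t))
        volume 0 1 := interval_iff01.2 ((interval_iff01.1 jA).congr_fun
          (fun t ht => ((eu t ht).2).symm) measurableSet_Ioo)
    have j2 := intervalIntegrable_wu hm1 hφ
    have i0 : IntervalIntegrable (fun t => ballShape t ^ (m - 1)) volume 0 1 :=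
      (cont_pow _).intervalIntegrable _ _
    have i1 : IntervalIntegrable (fun t => ballShape t ^ m) volume 0 1 :=
      (cont_pow _).intervalIntegrable _ _
    have e : (∫ t in (0 : ℝ)..1, ballShape t ^ (m - 1) *
          (2 * (ballRatio m * ballShape t - 1) * specV m φ t)) =
        2 * ballRatio m / M * A - 2 / M * B - (2 * ballRatio m * mass m ballShape 1 - 2 * P) := by
      rw [hA, hB, ← integral_congr01 (fun t ht => (eu t ht).1),
        ← integral_congr01 (fun t ht => (eu t ht).2), ← hPdef.symm,
        mass, mass, ← intervalIntegral.integral_const_mul, ← intervalIntegral.integral_const_mul,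
        ← intervalIntegral.integral_const_mul, ← intervalIntegral.integral_const_mul,
        ← intervalIntegral.integral_sub (j1.const_mul _) (j2.const_mul _),
        ← intervalIntegral.integral_sub (i1.const_mul _) (i0.const_mul _),
        ← intervalIntegral.integral_sub ((j1.const_mul _).sub (j2.const_mul _))
          ((i1.const_mul _).sub (i0.const_mul _))]
      refine integral_congr01 fun t _ => ?_
      rw [specV, ← hMdef, show ballShape t ^ m = ballShape t ^ (m - 1) * ballShape t by
        rw [← pow_succ, Nat.sub_add_cancel hm1]]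
      ring
    have hS : ballRatio m * mass m ballShape 1 = P := div_mul_cancel₀ _ (ball_mass_pos m).ne'
    rw [specLin, specMean, e, ← hPdef, mul_assoc (2 : ℝ) (ballRatio m), hS, hBM]
    field_simp
    ring
  have h : realMass α / realMass (α - 1) ≤ A / B := by
    rw [div_le_div_iff₀ hJ1 hB0]
    exact hcross
  have h' := mul_le_mul_of_nonneg_left h (ballRatio_pos m).le
  rw [eL, linearLower]
  rw [← mul_div_assoc, ← mul_div_assoc] at h'
  linarith

/-- The bound in closed form. -/
theorem linearLower_le (hm : 4 ≤ m) {l l' : ℝ} (hl : 0 ≤ l) (hl' : 0 ≤ l') :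
    linearLower m ≤ 2 * (1 - ratioLower (m : ℝ) l / ratioUpper ((m : ℝ) / 2) l') := by
  have hm4 : (4 : ℝ) ≤ m := by exact_mod_cast hm
  have h1 := ratioLower_le (a := (m : ℝ)) (by linarith) hl
  have h2 := le_ratioUpper (a := (m : ℝ) / 2) (by linarith) hl'
  have hJ1 := realMass_pos (a := (m : ℝ) / 2 - 1) (by linarith)
  have hU : 0 < ratioUpper ((m : ℝ) / 2) l' := by
    refine div_pos ?_ ?_ <;> positivity
  have hr : ratioLower (m : ℝ) l ≤ ballRatio m := by
    rw [show ((m : ℝ) - 1) = ((m - 1 : ℕ) : ℝ) by rw [Nat.cast_sub (by omega)]; norm_num,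
      realMass_natCast, realMass_natCast] at h1
    rw [ballRatio, le_div_iff₀ (ball_mass_pos m)]
    exact h1
  have h3 : (ratioUpper ((m : ℝ) / 2) l')⁻¹ ≤
      realMass ((m : ℝ) / 2) / realMass ((m : ℝ) / 2 - 1) := by
    rw [le_div_iff₀ hJ1, inv_mul_le_iff₀ hU]
    exact h2
  have h4 : ratioLower (m : ℝ) l / ratioUpper ((m : ℝ) / 2) l' ≤
      ballRatio m * (realMass ((m : ℝ) / 2) / realMass ((m : ℝ) / 2 - 1)) := by
    rw [div_eq_mul_inv]
    exact mul_le_mul hr h3 (inv_nonneg.2 hU.le) (ballRatio_pos m).le
  rw [linearLower, mul_div_assoc]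
  linarith

end Vale.Agent.P237.Quant
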