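import Mathlib
import Vale.Agent.P237.Quant.Spectral

/-!
One chord from the centre bounds the logarithmic derivative and the size of a profile beyond its
right end: if `φ t₁ ≤ φ 0 * (1 - s * t₁)`, then past `t₁` the profile stays below the line, decays
at least like it, and `shapeRho ≤ (t - s) / (1 - s t)`, which is the tangent shifted by `artanh s`.
-/

namespace Vale.Agent.P237.Quant

open MeasureTheory Set Filter Topology

variable {m : ℕ} {φ : ℝ → ℝ} {t₁ s t : ℝ}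

/-- Concavity between the centre and `t`, at an interior point `t₁`. -/
theorem centre_between (hφ : IsShape φ) (ht₁ : t₁ ∈ Ioo (0 : ℝ) 1) (ht : t ∈ Ico t₁ 1) :
    (t - t₁) * φ 0 + t₁ * φ t ≤ t * φ t₁ := by
  have htp : 0 < t := ht₁.1.trans_le ht.1
  have h := hφ.concave.2 (show (0 : ℝ) ∈ Icc (-1 : ℝ) 1 by norm_num)
    (show t ∈ Icc (-1 : ℝ) 1 from ⟨by linarith, ht.2.le⟩)
    (show 0 ≤ (t - t₁) / t from div_nonneg (by linarith [ht.1]) htp.le)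
    (show 0 ≤ t₁ / t from div_nonneg ht₁.1.le htp.le) (by field_simp; ring)
  simp only [smul_eq_mul, mul_zero, zero_add] at h
  rw [div_mul_cancel₀ _ htp.ne', div_mul_eq_mul_div, div_mul_eq_mul_div, ← add_div,
    div_le_iff₀ htp] at h
  linarith

theorem chord_line_le (hφ : IsShape φ) (ht₁ : t₁ ∈ Ioo (0 : ℝ) 1)
    (hc : φ t₁ ≤ φ 0 * (1 - s * t₁)) (ht : t ∈ Ico t₁ 1) :
    φ t ≤ φ 0 * (1 - s * t) ∧ 0 < 1 - s * t := by
  have h0 : 0 < φ 0 := shape_pos hφ (by norm_num)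
  have hpos := shape_pos hφ (t := t) ⟨by linarith [ht₁.1, ht.1], ht.2⟩
  have h := centre_between hφ ht₁ ht
  have h' := mul_le_mul_of_nonneg_left hc (show 0 ≤ t by linarith [ht₁.1, ht.1])
  have hle : t₁ * φ t ≤ t₁ * (φ 0 * (1 - s * t)) := by linarith
  have hle' := le_of_mul_le_mul_left hle ht₁.1
  exact ⟨hle', (mul_pos_iff_of_pos_left h0).1 (hpos.trans_le hle')⟩

theorem dright_le_chord (hφ : IsShape φ) (ht₁ : t₁ ∈ Ioo (0 : ℝ) 1)
    (hc : φ t₁ ≤ φ 0 * (1 - s * t₁)) (ht : t ∈ Ico t₁ 1) :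
    dright φ t ≤ -(s * φ 0) := by
  obtain ⟨hl, -⟩ := chord_line_le hφ ht₁ hc ht
  have ht0 : 0 < t := ht₁.1.trans_le ht.1
  have hI : t ∈ Ioo (-1 : ℝ) 1 := ⟨by linarith, ht.2⟩
  refine le_of_tendsto ((hasDerivWithinAt_iff_tendsto_slope' self_notMem_Ioi).1
    (hasDerivWithinAt_dright hφ hI)) ?_
  filter_upwards [Ioo_mem_nhdsGT ht.2] with y hy
  have h1 := hφ.concave.slope_anti_adjacent (show (0 : ℝ) ∈ Icc (-1 : ℝ) 1 by norm_num)
    (show y ∈ Icc (-1 : ℝ) 1 from ⟨by linarith [hy.1], hy.2.le⟩) ht0 hy.1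
  rw [slope_def_field]
  refine h1.trans ?_
  rw [sub_zero, div_le_iff₀ ht0]
  linarith

/-- Past the chord the logarithmic derivative is at most the shifted tangent. -/
theorem shapeRho_le_chord (hφ : IsShape φ) (ht₁ : t₁ ∈ Ioo (0 : ℝ) 1) (hs : 0 ≤ s)
    (hc : φ t₁ ≤ φ 0 * (1 - s * t₁)) (ht : t ∈ Ico t₁ 1) :
    shapeRho φ t ≤ (t - s) / (1 - s * t) := by
  obtain ⟨hl, hd0⟩ := chord_line_le hφ ht₁ hc ht
  have ht0 : 0 < t := ht₁.1.trans_le ht.1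
  have hpos := shape_pos hφ (t := t) ⟨by linarith, ht.2⟩
  have hd := dright_le_chord hφ ht₁ hc ht
  have hp : 0 ≤ 1 - t ^ 2 := by nlinarith [ht.2]
  have h1 : dright φ t / φ t ≤ -(s / (1 - s * t)) := by
    rw [div_le_iff₀ hpos]
    refine hd.trans ?_
    rw [neg_mul, neg_le_neg_iff, div_mul_eq_mul_div, div_le_iff₀ hd0]
    calc s * φ t ≤ s * (φ 0 * (1 - s * t)) := mul_le_mul_of_nonneg_left hl hs
      _ = s * φ 0 * (1 - s * t) := by ring
  have h2 := mul_le_mul_of_nonneg_left h1 hp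
  have e : (t - s) / (1 - s * t) = t + (1 - t ^ 2) * -(s / (1 - s * t)) := by
    rw [mul_neg, ← mul_div_assoc, ← sub_eq_add_neg, eq_sub_iff_add_eq, ← add_div,
      div_eq_iff hd0.ne']
    ring
  rw [shapeRho, e, mul_div_assoc]
  linarith

/-- Past the chord the profile decays at least like the line. -/
theorem chord_decay (hφ : IsShape φ) (ht₁ : t₁ ∈ Ioo (0 : ℝ) 1) (hs : 0 ≤ s)
    (hc : φ t₁ ≤ φ 0 * (1 - s * t₁)) (ht : t ∈ Ico t₁ 1) :
    φ t * (1 - s * t₁) ≤ φ t₁ * (1 - s * t) := by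
  have h := centre_between hφ ht₁ ht
  have hd1 := (chord_line_le hφ ht₁ hc (t := t₁) ⟨le_rfl, ht₁.2⟩).2
  -- `t₁ φ t ≤ t φ t₁ - (t - t₁) φ 0`
  have h' := mul_le_mul_of_nonneg_right h hd1.le
  have h'' := mul_le_mul_of_nonneg_left hc (show 0 ≤ t - t₁ by linarith [ht.1])
  refine le_of_mul_le_mul_left ?_ ht₁.1
  linarith

/-- The same for `specU`. -/
theorem specU_le_chord (hφ : IsShape φ) (ht₁ : t₁ ∈ Ioo (0 : ℝ) 1) (hs : 0 ≤ s)
    (hc : φ t₁ ≤ φ 0 * (1 - s * t₁)) (ht : t ∈ Ico t₁ 1) :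
    specU m φ t ≤ specU m φ t₁ *
      √((ballShape t₁ * (1 - s * t) / (ballShape t * (1 - s * t₁))) ^ m) := by
  have hd1 := (chord_line_le hφ ht₁ hc (t := t₁) ⟨le_rfl, ht₁.2⟩).2
  have hI : t ∈ Ioo (-1 : ℝ) 1 := ⟨by linarith [ht₁.1, ht.1], ht.2⟩
  have hp1 := ball_pos (sub01 ht₁)
  have hp := ball_pos hI
  have hq : 0 ≤ φ t₁ / ballShape t₁ := (div_pos (shape_pos hφ (sub01 ht₁)) hp1).le
  rw [specU, specU, ← Real.sqrt_mul (pow_nonneg hq m), ← mul_pow]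
  refine Real.sqrt_le_sqrt (pow_le_pow_left₀ (div_pos (shape_pos hφ hI) hp).le ?_ m)
  rw [show φ t₁ / ballShape t₁ * (ballShape t₁ * (1 - s * t) / (ballShape t * (1 - s * t₁))) =
    φ t₁ * (1 - s * t) / (1 - s * t₁) / ballShape t by field_simp]
  refine div_le_div_of_nonneg_right ?_ hp.le
  rw [le_div_iff₀ hd1]
  exact chord_decay hφ ht₁ hs hc ht

/-- An upper bound of `specU` at `t₁` and a lower bound at the centre give the chord. -/
theorem chord_of_bounds (hm : 1 ≤ m) (hφ : IsShape φ) (ht₁ : t₁ ∈ Ioo (0 : ℝ) 1) {U₁ u₀ : ℝ}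
    (hu₀ : 0 < u₀) (hU : specU m φ t₁ ≤ specM m φ * U₁) (hu : specM m φ * u₀ ≤ specU m φ 0)
    (hs : 0 ≤ 1 - s * t₁) (h : ballShape t₁ ^ m * (U₁ / u₀) ^ 2 ≤ (1 - s * t₁) ^ m) :
    φ t₁ ≤ φ 0 * (1 - s * t₁) := by
  have hM := specM_pos hm hφ
  have h00 : (0 : ℝ) ∈ Ioo (-1 : ℝ) 1 := by norm_num
  have h0 : 0 < φ 0 := shape_pos hφ h00
  have hp1 := ball_pos (sub01 ht₁)
  have hnn : 0 ≤ specU m φ t₁ := Real.sqrt_nonneg _
  have a1 := pow_le_pow_left₀ hnn hU 2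
  have a0 := pow_le_pow_left₀ (mul_nonneg hM.le hu₀.le) hu 2
  rw [specU_sq hφ (sub01 ht₁), mul_pow] at a1
  rw [specU_sq hφ h00, mul_pow, show ballShape 0 = 1 by simp [ballShape], div_one] at a0
  rw [div_pow, div_le_iff₀ (pow_pos hp1 _)] at a1
  refine (pow_le_pow_iff_left₀ (shape_pos hφ (sub01 ht₁)).le (mul_nonneg h0.le hs)
    (by omega : m ≠ 0)).1 ?_
  rw [mul_pow]
  calc φ t₁ ^ m ≤ specM m φ ^ 2 * U₁ ^ 2 * ballShape t₁ ^ m := a1
    _ = specM m φ ^ 2 * u₀ ^ 2 * (ballShape t₁ ^ m * (U₁ / u₀) ^ 2) := by field_simp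
    _ ≤ φ 0 ^ m * (1 - s * t₁) ^ m := mul_le_mul a0 h (by positivity) (pow_nonneg h0.le m)

end Vale.Agent.P237.Quant
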