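import Mathlib
import Vale.Agent.P237.Quant.PureAssembly
import Vale.Agent.P237.Quant.ChordBound
import Vale.Agent.P237.Quant.CentreBound

/-!
The centre and envelope inputs of the assembly from a centre bound in mass, a lower bound of the
mean and one chord.
-/

namespace Vale.Agent.P237.Quant

open MeasureTheory Set Filter Topology

variable {m : ℕ} {φ : ℝ → ℝ}

/-- The centre input from a bound `φ 0 ^ m * A ≤ mass` and a lower bound of the mean. -/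
theorem centre_of_mass {A s U₀ : ℝ} (hA : 0 < A)
    (hc : φ 0 ^ m * A ≤ mass m φ 1)
    (hs : mass m φ 1 ≤ s * specM m φ ^ 2 * mass m ballShape 1)
    (hU : s * mass m ballShape 1 ≤ U₀ ^ 2 * A) :
    φ 0 ^ m ≤ (U₀ * specM m φ) ^ 2 := by
  refine le_of_mul_le_mul_right ?_ hA
  linarith [mul_le_mul_of_nonneg_right hU (sq_nonneg (specM m φ))]

/-- The centre input from the algebraic criterion of `centre_bound`. -/
theorem centre_of_criterion (hm : 1 ≤ m) (hφ : IsShape φ) (hV : convexVal m (pureG m) φ ≤ 0)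
    {c s U₀ : ℝ} (hc : c ∈ Ioc (0 : ℝ) 1)
    (h : 1 / (((m : ℝ) + 2) * ((m : ℝ) + 3) * c ^ 2) + 120 * (Real.pi / 2 - 7 / 6) /
        (((m : ℝ) + 2) * ((m : ℝ) + 3) * ((m : ℝ) + 4) * ((m : ℝ) + 5) * c ^ 4) <
      (1 - (1 - c) ^ (m + 1)) / (2 * ((m : ℝ) + 1)))
    (hs : mass m φ 1 ≤ s * specM m φ ^ 2 * mass m ballShape 1)
    (hU : s * mass m ballShape 1 ≤ U₀ ^ 2 * ((1 - (1 - c) ^ (m + 1)) / (((m : ℝ) + 1) * c))) :
    φ 0 ^ m ≤ (U₀ * specM m φ) ^ 2 := by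
  refine centre_of_mass ?_ (centre_bound hm hφ hV hc h) hs hU
  have h1 : (1 - c) ^ (m + 1) < 1 :=
    pow_lt_one₀ (by linarith [hc.2]) (by linarith [hc.1]) (by omega)
  exact div_pos (by linarith) (mul_pos (by positivity) hc.1)

/-- The envelope of one chord: flat before `t₁`, the shifted ball after. -/
noncomputable def chordEnv (m : ℕ) (U₀ U₁ t₁ s t : ℝ) : ℝ :=
  if t < t₁ then U₀ / √(ballShape t ^ m)
  else min (U₀ / √(ballShape t ^ m))
    (U₁ * √((ballShape t₁ * (1 - s * t) / (ballShape t * (1 - s * t₁))) ^ m))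

/-- The slope bound of one chord. -/
noncomputable def chordSlope (t₁ s t : ℝ) : ℝ := if t < t₁ then t else (t - s) / (1 - s * t)

theorem specU_le_flat (hm : 1 ≤ m) (hφ : IsShape φ) {U₀ : ℝ} (hU₀ : 0 ≤ U₀)
    (hc : φ 0 ^ m ≤ (U₀ * specM m φ) ^ 2) {t : ℝ} (ht : t ∈ Ioo (0 : ℝ) 1) :
    specU m φ t ≤ U₀ / √(ballShape t ^ m) * specM m φ := by
  have hp := ball_pos (sub01 ht)
  have hI := Ioo_subset_Icc_self (sub01 ht)
  have hM := (specM_pos hm hφ).le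
  rw [specU, div_pow, Real.sqrt_div' _ (pow_nonneg hp.le _), div_mul_eq_mul_div]
  refine div_le_div_of_nonneg_right ?_ (Real.sqrt_nonneg _)
  exact (Real.sqrt_le_sqrt ((pow_le_pow_left₀ (hφ.nonneg t hI) (shape_le_centre hφ hI) m).trans
    hc)).trans_eq (Real.sqrt_sq (mul_nonneg hU₀ hM))

/-- The envelope input from the centre input and the bounds at one chord point. -/
theorem env_of_chord (hm : 1 ≤ m) (hφ : IsShape φ) {U₀ U₁ u₀ t₁ s : ℝ} (hU₀ : 0 ≤ U₀)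
    (hc : φ 0 ^ m ≤ (U₀ * specM m φ) ^ 2) (ht₁ : t₁ ∈ Ioo (0 : ℝ) 1) (hs : 0 ≤ s)
    (hs1 : 0 ≤ 1 - s * t₁) (hu₀ : 0 < u₀) (hU₁ : specU m φ t₁ ≤ specM m φ * U₁)
    (hu : specM m φ * u₀ ≤ specU m φ 0)
    (h : ballShape t₁ ^ m * (U₁ / u₀) ^ 2 ≤ (1 - s * t₁) ^ m) {t : ℝ} (ht : t ∈ Ioo (0 : ℝ) 1) :
    specU m φ t ≤ chordEnv m U₀ U₁ t₁ s t * specM m φ ∧ shapeRho φ t ≤ chordSlope t₁ s t := by
  have hflat := specU_le_flat hm hφ hU₀ hc ht
  rw [chordEnv, chordSlope]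
  split_ifs with h1
  · exact ⟨hflat, (shapeRho_range hφ ht).2⟩
  · have hcut := chord_of_bounds hm hφ ht₁ hu₀ hU₁ hu hs1 h
    have hI : t ∈ Ico t₁ 1 := ⟨not_lt.1 h1, ht.2⟩
    refine ⟨?_, shapeRho_le_chord hφ ht₁ hs hcut hI⟩
    rw [min_mul_of_nonneg _ _ (specM_pos hm hφ).le]
    refine le_min hflat ?_
    refine (specU_le_chord hφ ht₁ hs hcut hI).trans ?_
    exact (mul_le_mul_of_nonneg_right hU₁ (Real.sqrt_nonneg _)).trans_eq (by ring)

end Vale.Agent.P237.Quant
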