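import Mathlib
import Vale.Agent.P237.Quant.PureInputs
import Vale.Agent.P237.Quant.LinearCauchy
import Vale.Agent.P237.Quant.LinearLower
import Vale.Agent.P237.Quant.CertQuad

/-!
The assembly wired to the landed inputs: certificates checked in the kernel, the Cauchy bound of
the mean, the centre criterion and the lower bound of the linear term.
-/

namespace Vale.Agent.P237.Quant

open MeasureTheory Set

variable {m : ℕ}

/-- A checked certificate serves every potential below its own. -/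
theorem specPoincare_of_cert {K : CertPot} {P₀ P₁ P₂ : CertFam} {G : CertGrid} {D : CertTests}
    {tg t0 t1 t2 t3 ts tm : List WeightCert.Tree}
    (hS : superCheck K P₀ P₁ P₂ G tg t0 t1 t2 t3 = true) (hQ : D.check K G ts tm = true)
    (hm : 5 ≤ m) (hr : G.Range m) {c μ C : ℝ} {W : ℝ → ℝ} (hc : K.cen.eval (certS m) ≤ c)
    (hμ : D.mu.eval (certS m) * ((m : ℝ) + 1) ≤ μ) (hWm : Measurable W)
    (hWb : ∀ t ∈ Ioo (0 : ℝ) 1, |W t| ≤ C) (hW : ∀ t ∈ Ioo (0 : ℝ) 1, W t ≤ K.W m t) :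
    SpecPoincare m c W μ := by
  obtain ⟨C', -, hC'⟩ := bounded_unit (continuous_certW K m)
  exact (specPoincare_cert hS hQ hm hr).mono (by omega) hc hμ hWm hWb
    (continuous_certW K m).measurable (fun t ht => hC' t (Ioo_subset_Icc_self ht)) hW

/-- A checked certificate with a split outer interval serves every potential below its own. -/
theorem specPoincare_of_split {K : CertPot} {P₀ P₁ P₂ P₃ : CertFam} {G : CertGrid} {Z : Lin}
    {D : CertTests} {tg t0 t1 t2 tj t3 t4 ts tm : List WeightCert.Tree}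
    (hS : splitCheck K P₀ P₁ P₂ P₃ G Z tg t0 t1 t2 tj t3 t4 = true)
    (hQ : D.check K G ts tm = true) (hm : 5 ≤ m) (hr : G.Range m) {c μ C : ℝ} {W : ℝ → ℝ}
    (hc : K.cen.eval (certS m) ≤ c) (hμ : D.mu.eval (certS m) * ((m : ℝ) + 1) ≤ μ)
    (hWm : Measurable W) (hWb : ∀ t ∈ Ioo (0 : ℝ) 1, |W t| ≤ C)
    (hW : ∀ t ∈ Ioo (0 : ℝ) 1, W t ≤ K.W m t) : SpecPoincare m c W μ := by
  obtain ⟨C', -, hC'⟩ := bounded_unit (continuous_certW K m)
  exact (specPoincare_split hS hQ hm hr).mono (by omega) hc hμ hWm hWb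
    (continuous_certW K m).measurable (fun t ht => hC' t (Ioo_subset_Icc_self ht)) hW

/-- The pure lemma from the inputs that are still open: the moment excess `d`, a Poincare bound
`(a, b)`, the upper bound of the linear term and the tail inequality. The rest is checked: two
certificates, the flux of the affine weight and the criterion of the centre bound. -/
theorem pureLemma_of_inputs (hm : 5 ≤ m) {η δ e₁ e₂ μ₁ μ₂ θ U₀ C g₀ g₁ d a b c : ℝ} {W : ℝ → ℝ}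
    {Kn Kp : CertPot} {Pn₀ Pn₁ Pn₂ Pp₀ Pp₁ Pp₂ : CertFam} {Gn Gp : CertGrid}
    {Dn Dp : CertTests} {tgn t0n t1n t2n t3n tsn tmn tgp t0p t1p t2p t3p tsp tmp :
      List WeightCert.Tree}
    (hSn : superCheck Kn Pn₀ Pn₁ Pn₂ Gn tgn t0n t1n t2n t3n = true)
    (hQn : Dn.check Kn Gn tsn tmn = true) (hrn : Gn.Range m)
    (hSp : superCheck Kp Pp₀ Pp₁ Pp₂ Gp tgp t0p t1p t2p t3p = true)
    (hQp : Dp.check Kp Gp tsp tmp = true) (hrp : Gp.Range m)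
    (hcn : Kn.cen.eval (certS m) ≤ 1 - η) (hcp : Kp.cen.eval (certS m) ≤ 1 - η + μ₂ * e₂)
    (hμn : Dn.mu.eval (certS m) * ((m : ℝ) + 1) ≤ μ₁)
    (hμp : Dp.mu.eval (certS m) * ((m : ℝ) + 1) ≤ μ₂)
    (hWn : ∀ t ∈ Ioo (0 : ℝ) 1,
      W t + μ₁ * e₁ * ((ballRatio m - (1 - 2 / (m : ℝ)) * θ) * ballShape t) + δ ≤ Kn.W m t)
    (hWp : ∀ t ∈ Ioo (0 : ℝ) 1,
      W t + μ₂ * e₂ * (1 - ballRatio m * ballShape t) + δ ≤ Kp.W m t)
    (hδ : 0 < δ) (hμ₁ : 0 ≤ μ₁) (hμ₂ : 0 ≤ μ₂)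
    (hθ0 : 0 ≤ θ) (hU₀ : 1 ≤ U₀) (hθ : θ ^ m * ((2 + U₀) / 3) ^ 2 ≤ 1)
    (hWm : Measurable W) (hWb : ∀ t ∈ Ioo (0 : ℝ) 1, |W t| ≤ C) (he₁ : linearLower m ≤ e₁)
    (hd : 0 ≤ d) (hd1 : d * a < 1 + d) (ha : 0 ≤ a) (hg₀ : 0 ≤ g₀)
    (hg : ∀ t ∈ Ioo (0 : ℝ) 1, 0 ≤ g₀ + g₁ * (1 - ballRatio m * ballShape t))
    (hF : ∀ t ∈ Ioo (0 : ℝ) 1, linFlux m t ^ 2 ≤ 4 / m * bregPoly m t * ballShape t ^ (m + 2) *
      (ballShape t ^ (m - 1) * (g₀ + g₁ * (1 - ballRatio m * ballShape t))))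
    (hc : c ∈ Ioc (0 : ℝ) 1)
    (hcrit : 1 / (((m : ℝ) + 2) * ((m : ℝ) + 3) * c ^ 2) + 120 * (Real.pi / 2 - 7 / 6) /
        (((m : ℝ) + 2) * ((m : ℝ) + 3) * ((m : ℝ) + 4) * ((m : ℝ) + 5) * c ^ 4) <
      (1 - (1 - c) ^ (m + 1)) / (2 * ((m : ℝ) + 1)))
    (hU : (1 + (a * d + b * (1 + d)) / (1 + d - a * d)) * mass m ballShape 1 ≤
      U₀ ^ 2 * ((1 - (1 - c) ^ (m + 1)) / (((m : ℝ) + 1) * c)))
    (hD : ∀ φ, IsShape φ → powRatio m φ ≤ 1 → convexVal m (pureG m) φ ≤ 0 →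
      (∫ t in (0 : ℝ)..1, φ t ^ m / ballShape t) ≤ (1 + d) * ballRatio m * mass m φ 1)
    (hP : ∀ φ, IsShape φ → powRatio m φ ≤ 1 → convexVal m (pureG m) φ ≤ 0 →
      specQuad m (fun _ => 1) (specV m φ) ≤
        a * specEnergy m (bregPoly m) (fun t => specU' m φ t / specM m φ) + b)
    (hlinUp : ∀ φ, IsShape φ → powRatio m φ ≤ 1 → convexVal m (pureG m) φ ≤ 0 →
      specLin m (specV m φ) ≤ e₂)
    (hX : ∀ φ, IsShape φ → powRatio m φ ≤ 1 → convexVal m (pureG m) φ ≤ 0 →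
      specExcess m φ ≤ specQuad m W (specV m φ) + specSurplus m (bregPoly m) φ +
        η * specEnergy m (bregPoly m) (fun t => specU' m φ t / specM m φ)) :
    PureLemma m := by
  have hm1 : 1 ≤ m := by omega
  have bnd : ∀ (k₀ k₁ k₂ : ℝ), ∀ t ∈ Ioo (0 : ℝ) 1,
      |W t + k₀ * (k₁ + k₂ * ballShape t) + δ| ≤ C + |k₀| * (|k₁| + |k₂|) + |δ| := fun k₀ k₁ k₂ t ht => by
    refine (abs_add_le _ _).trans (add_le_add ((abs_add_le _ _).trans (add_le_add (hWb t ht) ?_))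
      le_rfl)
    rw [abs_mul]
    refine mul_le_mul_of_nonneg_left ((abs_add_le _ _).trans (add_le_add le_rfl ?_)) (abs_nonneg _)
    rw [abs_mul, abs_of_nonneg (show 0 ≤ ballShape t from Real.sqrt_nonneg _)]
    exact mul_le_of_le_one_right (abs_nonneg _) (ball_le_one t)
  have meas : ∀ (k₀ k₁ k₂ : ℝ), Measurable fun t => W t + k₀ * (k₁ + k₂ * ballShape t) + δ :=
    fun k₀ k₁ k₂ =>
      (hWm.add ((measurable_const.add (cont_ball.measurable.const_mul k₂)).const_mul k₀)).add_const δ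
  refine pureLemma_of_pieces (by omega) hδ hμ₁ hμ₂ hθ0 hU₀ hθ hWm hWb
    (fun φ hφ _ _ => (neg_specLin_le (by omega) hφ).trans he₁) hlinUp (fun φ hφ hx hV => ?_) hX
    ?_ ?_
  · obtain ⟨hs, -⟩ := mul_specLin_le hm1 hφ hV hd hd1 ha hg₀ hg hF (hD φ hφ hx hV) (hP φ hφ hx hV)
    exact centre_of_criterion hm1 hφ hV hc hcrit hs hU
  · refine specPoincare_of_cert
      (C := C + |μ₁ * e₁| * (|(0 : ℝ)| + |ballRatio m - (1 - 2 / (m : ℝ)) * θ|) + |δ|) hSn hQn hm hrn hcn hμn ?_ (fun t ht => ?_) hWn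
    · simpa using meas (μ₁ * e₁) 0 (ballRatio m - (1 - 2 / (m : ℝ)) * θ)
    · simpa using bnd (μ₁ * e₁) 0 (ballRatio m - (1 - 2 / (m : ℝ)) * θ) t ht
  · refine specPoincare_of_cert
      (C := C + |μ₂ * e₂| * (|(1 : ℝ)| + |(-ballRatio m)|) + |δ|) hSp hQp hm hrp hcp hμp ?_ (fun t ht => ?_) hWp
    · simpa [sub_eq_add_neg] using meas (μ₂ * e₂) 1 (-ballRatio m)
    · simpa [sub_eq_add_neg] using bnd (μ₂ * e₂) 1 (-ballRatio m) t ht

end Vale.Agent.P237.Quant
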