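import Vale.Agent.P237.Quant.GeneralAssembly
import Vale.Agent.P237.Quant.PureCert

/-!
From a spectral certificate to the spectral inequality of a row of the positive side: the
comparison of the two potentials is affine in `1/n` and is decided at the ends of the range.
-/

namespace Vale.Agent.P237.Quant

open Set

/-- The value of an affine datum at a rational. -/
def Lin.evalQ (l : Lin) (x : ℚ) : ℚ := (l.a + l.b * x) / ((l.k : ℚ) + 1)

theorem Lin.cast_evalQ (l : Lin) (x : ℚ) : ((l.evalQ x : ℚ) : ℝ) = l.eval (x : ℝ) := by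
  simp only [Lin.evalQ, Lin.eval]
  push_cast
  ring

/-- The grid contains the range of a row. -/
def CertGrid.coversRow (G : CertGrid) (R : DimRange) : Bool :=
  decide (0 < G.D) && decide (G.lo < G.hi) && decide (1 ≤ R.lo) &&
    decide (G.D ≤ G.hi * (R.lo : ℤ)) &&
    (if R.hi = 0 then decide (G.lo = 0) else decide (0 ≤ G.lo) && decide (G.lo * (R.hi : ℤ) ≤ G.D))

theorem CertGrid.range_of_covers {G : CertGrid} {R : DimRange} (h : G.coversRow R = true) {m : ℕ}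
    (hm : R.Mem (m + 1)) : G.Range m := by
  simp only [CertGrid.coversRow, Bool.and_eq_true, decide_eq_true_eq] at h
  obtain ⟨⟨⟨⟨hD, hlt⟩, h1⟩, hhi⟩, hlo⟩ := h
  have hn : (0 : ℝ) < (m : ℝ) + 1 := by positivity
  have hDr : (0 : ℝ) < G.D := by exact_mod_cast hD
  have hs : certS m * G.D = G.D / ((m : ℝ) + 1) := by rw [certS]; ring
  refine ⟨hDr, hlt, ?_, ?_⟩
  · rw [hs, le_div_iff₀ hn]
    by_cases he : R.hi = 0
    · simp only [he, if_true, decide_eq_true_eq] at hlo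
      simp [hlo, hDr.le]
    · simp only [if_neg he, Bool.and_eq_true, decide_eq_true_eq] at hlo
      have h2 : m + 1 ≤ R.hi := hm.2.resolve_left he
      have h3 : (G.lo : ℝ) * R.hi ≤ G.D := by exact_mod_cast hlo.2
      have h0 : (0 : ℝ) ≤ G.lo := by exact_mod_cast hlo.1
      have h4 : (m : ℝ) + 1 ≤ R.hi := by exact_mod_cast h2
      exact (mul_le_mul_of_nonneg_left h4 h0).trans h3
  · rw [hs, div_le_iff₀ hn]
    have h3 : (G.D : ℝ) ≤ G.hi * R.lo := by exact_mod_cast hhi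
    have h4 : (R.lo : ℝ) ≤ (m : ℝ) + 1 := by exact_mod_cast hm.1
    have h0 : (0 : ℝ) ≤ G.hi := by
      by_contra hc
      nlinarith [mul_nonneg (neg_nonneg.2 (not_le.1 hc).le) (Nat.cast_nonneg R.lo : (0 : ℝ) ≤ R.lo)]
    exact h3.trans (mul_le_mul_of_nonneg_left h4 h0)

/-- The conditions on a potential at one value `x` of `1/n`. -/
def PosRow.potAt (R : PosRow) (K : CertPot) (mu : Lin) (x : ℚ) : Bool :=
  decide (R.a / 2 ≤ K.A.evalQ x) && decide (R.f / 4 ≤ K.B.evalQ x) &&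
    decide ((1 - x) * R.lam / 2 + 1 / 2000 ≤ K.la.evalQ x) &&
    decide ((1 - x) * (R.cy + R.mu * R.e2) / 2 ≤ K.lb.evalQ x) &&
    decide (-(R.mu * R.e2) / 2 * (1 / 2 - 41 / 100 * x) ≤ K.lc.evalQ x) &&
    decide (K.cen.evalQ x ≤ 1 - R.eta + R.mu * R.e2) && decide (mu.evalQ x ≤ R.mu)

/-- The conditions at both ends of the range. -/
def PosRow.potOK (R : PosRow) (K : CertPot) (mu : Lin) (G : CertGrid) : Bool :=
  decide (6 ≤ R.dims.lo) && decide (0 ≤ R.mu * R.e2) && G.coversRow R.dims &&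
    R.potAt K mu (if R.dims.hi = 0 then 0 else 1 / (R.dims.hi : ℚ)) &&
    R.potAt K mu (1 / (R.dims.lo : ℚ))

/-- An affine inequality from both ends. -/
theorem affine_le {p q r u x₀ x₁ x : ℝ} (h₀ : p + q * x₀ ≤ r + u * x₀)
    (h₁ : p + q * x₁ ≤ r + u * x₁) (hx₀ : x₀ ≤ x) (hx₁ : x ≤ x₁) :
    p + q * x ≤ r + u * x := by
  rcases le_total q u with h | h
  · nlinarith [mul_nonneg (sub_nonneg.2 h) (sub_nonneg.2 hx₀)]
  · nlinarith [mul_nonneg (sub_nonneg.2 h) (sub_nonneg.2 hx₁)]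

/-- The facts of the check at any value of `1/n` in between. -/
theorem PosRow.pot_facts {R : PosRow} {K : CertPot} {mu : Lin} {x₀ x₁ : ℚ}
    (h₀ : R.potAt K mu x₀ = true) (h₁ : R.potAt K mu x₁ = true) {x : ℝ} (hx₀ : (x₀ : ℝ) ≤ x)
    (hx₁ : x ≤ (x₁ : ℝ)) :
    (R.a : ℝ) / 2 ≤ K.A.eval x ∧ (R.f : ℝ) / 4 ≤ K.B.eval x ∧
      (1 - x) * (R.lam : ℝ) / 2 + 1 / 2000 ≤ K.la.eval x ∧
      (1 - x) * ((R.cy : ℝ) + R.mu * R.e2) / 2 ≤ K.lb.eval x ∧
      -((R.mu : ℝ) * R.e2) / 2 * (1 / 2 - 41 / 100 * x) ≤ K.lc.eval x ∧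
      K.cen.eval x ≤ 1 - (R.eta : ℝ) + R.mu * R.e2 ∧ mu.eval x ≤ (R.mu : ℝ) := by
  simp only [PosRow.potAt, Bool.and_eq_true, decide_eq_true_eq] at h₀ h₁
  obtain ⟨⟨⟨⟨⟨⟨a0, b0⟩, c0⟩, d0⟩, e0⟩, f0⟩, g0⟩ := h₀
  obtain ⟨⟨⟨⟨⟨⟨a1, b1⟩, c1⟩, d1⟩, e1⟩, f1⟩, g1⟩ := h₁
  rify [Lin.cast_evalQ] at a0 b0 c0 d0 e0 f0 g0 a1 b1 c1 d1 e1 f1 g1
  have mono : ∀ (p q : ℝ) (l : Lin), p + q * (x₀ : ℝ) ≤ l.eval x₀ → p + q * (x₁ : ℝ) ≤ l.eval x₁ →
      p + q * x ≤ l.eval x := fun p q l u₀ u₁ => by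
    have e : ∀ z : ℝ, l.eval z = (l.a : ℝ) / ((l.k : ℝ) + 1) + (l.b : ℝ) / ((l.k : ℝ) + 1) * z :=
      fun z => by simp only [Lin.eval]; ring
    rw [e] at u₀ u₁ ⊢
    exact affine_le u₀ u₁ hx₀ hx₁
  have anti : ∀ (r : ℝ) (l : Lin), l.eval x₀ ≤ r → l.eval x₁ ≤ r → l.eval x ≤ r := fun r l u₀ u₁ => by
    have e : ∀ z : ℝ, l.eval z = (l.a : ℝ) / ((l.k : ℝ) + 1) + (l.b : ℝ) / ((l.k : ℝ) + 1) * z :=
      fun z => by simp only [Lin.eval]; ring
    rw [e] at u₀ u₁ ⊢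
    simpa using affine_le (r := r) (u := 0) (by linarith) (by linarith) hx₀ hx₁
  refine ⟨?_, ?_, ?_, ?_, ?_, anti _ _ f0 f1, anti _ _ g0 g1⟩
  · simpa using mono ((R.a : ℝ) / 2) 0 K.A (by linarith) (by linarith)
  · simpa using mono ((R.f : ℝ) / 4) 0 K.B (by linarith) (by linarith)
  · have := mono ((R.lam : ℝ) / 2 + 1 / 2000) (-((R.lam : ℝ) / 2)) K.la (by linarith) (by linarith)
    linarith
  · have := mono (((R.cy : ℝ) + R.mu * R.e2) / 2) (-(((R.cy : ℝ) + R.mu * R.e2) / 2)) K.lb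
      (by linarith) (by linarith)
    linarith
  · have := mono (-((R.mu : ℝ) * R.e2) / 2 * (1 / 2))
      ((R.mu : ℝ) * R.e2 / 2 * (41 / 100)) K.lc (by linarith) (by linarith)
    linarith

/-- A certificate gives the spectral inequality of a row. -/
theorem PosRow.spectral_of_cert {R : PosRow} {K : CertPot} {mu : Lin} {G : CertGrid}
    (hok : R.potOK K mu G = true)
    (hspec : ∀ m : ℕ, 5 ≤ m → G.Range m →
      SpecPoincare m (K.cen.eval (certS m)) (K.W m) (mu.eval (certS m) * ((m : ℝ) + 1))) :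
    R.Spectral := by
  simp only [PosRow.potOK, Bool.and_eq_true, decide_eq_true_eq] at hok
  obtain ⟨⟨⟨⟨h6, hτ⟩, hG⟩, h₀⟩, h₁⟩ := hok
  intro m hm hmem
  set n : ℝ := (m : ℝ) + 1 with hn
  set s := certS m with hs
  have hn0 : 0 < n := by positivity
  have hsn : s * n = 1 := by rw [hs, certS, hn, one_div, inv_mul_cancel₀ hn0.ne']
  have hs0 : 0 < s := certS_pos m
  have hlo : (R.dims.lo : ℝ) ≤ n := by rw [hn]; exact_mod_cast hmem.1
  have hx₁ : s ≤ (((1 / (R.dims.lo : ℚ)) : ℚ) : ℝ) := by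
    push_cast
    rw [hs, certS]
    exact one_div_le_one_div_of_le (by exact_mod_cast (show 0 < R.dims.lo by omega)) hlo
  have hx₀ : (((if R.dims.hi = 0 then 0 else 1 / (R.dims.hi : ℚ)) : ℚ) : ℝ) ≤ s := by
    split_ifs with he
    · simpa using hs0.le
    · push_cast
      rw [hs, certS]
      exact one_div_le_one_div_of_le hn0 (by exact_mod_cast hmem.2.resolve_left he)
  obtain ⟨fA, fB, fla, flb, flc, fcen, fmu⟩ := PosRow.pot_facts h₀ h₁ hx₀ hx₁
  set τ : ℝ := (R.mu : ℝ) * R.e2 with hτd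
  have hτ0 : 0 ≤ τ := by rw [hτd]; exact_mod_cast hτ
  have hcont : Continuous fun t =>
      R.W m t + τ * (1 - ballRatio m * ballShape t) + 1 / (1000 * ((m : ℝ) + 1)) := by
    have := R.continuous_W m
    have := cont_ball
    fun_prop
  obtain ⟨C, -, hC⟩ := bounded_unit hcont
  obtain ⟨C', -, hC'⟩ := bounded_unit (continuous_certW K m)
  refine (hspec m hm (CertGrid.range_of_covers hG hmem)).mono (by omega) fcen
    (mul_le_mul_of_nonneg_right fmu hn0.le) hcont.measurable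
    (fun t ht => hC t (Ioo_subset_Icc_self ht)) (continuous_certW K m).measurable
    (fun t ht => hC' t (Ioo_subset_Icc_self ht)) fun t ht => ?_
  set p := ballShape t with hp
  set y := certY m t with hyd
  have hp0 : 0 ≤ p := Real.sqrt_nonneg _
  have hy : 0 ≤ y := mul_nonneg (by positivity) (sub_nonneg.2 (ball_le_one t))
  have hX : 0 ≤ weightPoly p * (n * t ^ 2) :=
    mul_nonneg (weightPoly_mem (ball_mem_Icc t)).1 (by positivity)
  have hm0 : (0 : ℝ) < m := by exact_mod_cast (show 0 < m by omega)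
  have hms : (m : ℝ) * s = 1 - s := by rw [hn] at hsn; linear_combination hsn
  have hs6 : s ≤ 1 / 6 := (sixth_bound hm).2
  have eW : (m : ℝ) / 2 * R.W m t = max ((R.a : ℝ) / 2)
      ((R.f : ℝ) / 4 * (weightPoly p * (n * t ^ 2))) +
      (1 - s) / 2 * ((R.lam : ℝ) + (R.cy : ℝ) * y) := by
    have hi : ∀ z : ℝ, z / n = z * s := fun z => by
      rw [eq_comm, eq_div_iff hn0.ne', mul_assoc, hsn, mul_one]
    rw [PosRow.W, ← hp, ← hn, hi, ← hms, hyd, certY, ← hp, ← hn,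
      show (R.a : ℝ) / 2 = (R.a : ℝ) * (1 / 2) by ring,
      show (R.f : ℝ) / 4 * (weightPoly p * (n * t ^ 2)) =
        (R.f : ℝ) / 2 * weightPoly p * (n * t ^ 2) * (1 / 2) by ring,
      ← max_mul_of_nonneg _ _ (by norm_num : (0 : ℝ) ≤ 1 / 2)]
    field_simp
  have eτ : (m : ℝ) / 2 * (1 - ballRatio m * p) ≤
      (1 - s) / 2 * y - (1 - s) / 2 * p * (1 / 2 + s / 8 - s ^ 2 / 16 - s ^ 3 / 24) := by
    have h1 : ratioCubic m 1 ≤ ballRatio m := (ballRatio_bracket (by omega)).1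
    have h2 : (m : ℝ) / 2 * (1 - ballRatio m * p) ≤ (m : ℝ) / 2 * (1 - ratioCubic m 1 * p) :=
      mul_le_mul_of_nonneg_left (by nlinarith [mul_le_mul_of_nonneg_right h1 hp0]) (by positivity)
    refine h2.trans (le_of_eq ?_)
    have hmn : (m : ℝ) = n - 1 := by rw [hn]; ring
    have hr : ratioCubic m 1 = 1 + s / 2 + s ^ 2 / 8 - s ^ 3 / 16 - s ^ 4 / 24 := by
      simp only [ratioCubic, hs, certS]; ring
    rw [hr, hyd, certY, ← hp, ← hn, hmn]
    linear_combination ((1 - p) / 2 - p * (1 / 4 + s / 16 - s ^ 2 / 32 - s ^ 3 / 48)) * hsn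
  have eδ : (m : ℝ) / 2 * (1 / (1000 * n)) ≤ 1 / 2000 := by
    rw [hn]
    rw [mul_one_div, div_le_iff₀ (by positivity)]
    linarith
  have key : (m : ℝ) / 2 * (R.W m t + τ * (1 - ballRatio m * p) + 1 / (1000 * ((m : ℝ) + 1))) ≤
      K.Q m t := by
    rw [mul_add, mul_add, eW]
    have h1 := mul_le_mul_of_nonneg_left eτ hτ0
    have hmax : max ((R.a : ℝ) / 2) ((R.f : ℝ) / 4 * (weightPoly p * (n * t ^ 2))) ≤
        max (K.A.eval s) (K.B.eval s * weightPoly p * (n * t ^ 2)) :=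
      max_le_max fA (by rw [mul_assoc]; exact mul_le_mul_of_nonneg_right fB hX)
    have hb := mul_le_mul_of_nonneg_right flb hy
    have hbr : (1 - s) * (1 / 2 + s / 8 - s ^ 2 / 16 - s ^ 3 / 24) ≥ 1 / 2 - 41 / 100 * s := by
      nlinarith [mul_nonneg hs0.le (mul_nonneg hs0.le hs0.le), sq_nonneg s]
    have hc1 := mul_le_mul_of_nonneg_left hbr (mul_nonneg hτ0 hp0)
    have hc2 := mul_le_mul_of_nonneg_right flc hp0
    simp only [CertPot.Q, ← hp, ← hn, ← hs, ← hyd]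
    clear_value p y s n τ
    linarith only [eδ, h1, hmax, fla, hb, hc1, hc2]
  calc R.W m t + τ * (1 - ballRatio m * p) + 1 / (1000 * ((m : ℝ) + 1))
      = 2 / m * ((m : ℝ) / 2 * (R.W m t + τ * (1 - ballRatio m * p) +
          1 / (1000 * ((m : ℝ) + 1)))) := by field_simp
    _ ≤ 2 / m * K.Q m t := mul_le_mul_of_nonneg_left key (by positivity)
    _ = K.W m t := rfl

end Vale.Agent.P237.Quant
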