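import Vale.Agent.P237.Quant.CertDefs

/-!
Evaluating a certificate piece by piece: a list of checks splits into its members and a subdivided
rectangle into its parts, so that the kernel never holds more than a few leaves at a time.
-/

namespace Vale.Agent.P237.Quant

open Four.Checker

theorem checkAll_headTail {B : Box} {l : List QP} {T : WeightCert.Tree}
    {r : List WeightCert.Tree} (hl : l.isEmpty = false)
    (h1 : QP.checkTree (l.headD (QP.const 0 0)) B T = true) (h2 : checkAll B l.tail r = true) :
    checkAll B l (T :: r) = true := by
  cases l <;> simp_all [checkAll]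

theorem checkTree_cutT {A : QP} {B : Box} {m : ℤ} {a b : WeightCert.Tree}
    (hm : decide (B.ta < m ∧ m < B.tb) = true) (ha : QP.checkTree A { B with tb := m } a = true)
    (hb : QP.checkTree A { B with ta := m } b = true) :
    QP.checkTree A B (.cutT m a b) = true := by
  simp only [QP.checkTree, hm, ha, hb, Bool.and_self]

theorem checkTree_cutY {A : QP} {B : Box} {m : ℤ} {a b : WeightCert.Tree}
    (hm : decide (B.ya < m ∧ m < B.yb) = true) (ha : QP.checkTree A { B with yb := m } a = true)
    (hb : QP.checkTree A { B with ya := m } b = true) :
    QP.checkTree A B (.cutY m a b) = true := by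
  simp only [QP.checkTree, hm, ha, hb, Bool.and_self]

end Vale.Agent.P237.Quant
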