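import Vale.Agent.P237.Quant.CertSplit

/-!
The quadratic condition of a certificate from its three parts, so that they can be evaluated in
separate modules.
-/

namespace Vale.Agent.P237.Quant

open Four.Checker

theorem CertTests.check_of_parts {D : CertTests} {K : CertPot} {G : CertGrid}
    {ts tm : List WeightCert.Tree} (h0 : D.shapeOK K = true)
    (h1 : checkAll G.box (D.scalars K G) ts = true) (h2 : checkAll G.box (D.matrix K) tm = true) :
    D.check K G ts tm = true := by
  simp only [CertTests.check, h0, h1, h2, Bool.and_self]

end Vale.Agent.P237.Quant
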