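import Mathlib
import Vale.Agent.P237.Quant.PureAssembly

/-!
The linear inequality of the assembly from a certificate: three supersolutions, two test functions
with their defects and one quadratic inequality. All integrability and end conditions are
discharged here, for test functions of size `O(p ^ (-2))`.
-/

namespace Vale.Agent.P237.Quant

open MeasureTheory Set Filter Topology

variable {m : ℕ}

/-- A test function of a certificate with its derivative and its defect. -/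
structure CertTestFun (m : ℕ) (c : ℝ) (W u u' g : ℝ → ℝ) : Prop where
  deriv : ∀ t ∈ Ico (0 : ℝ) 1, HasDerivAt u (u' t) t
  deriv_flux : ∀ t ∈ Ico (0 : ℝ) 1, HasDerivAt (fun x => certK m c x * u' x)
    (-(ballShape t ^ (m - 1) * W t * u t) - g t) t
  deriv_zero : u' 0 = 0
  cont_deriv : ContinuousOn u' (Ioo 0 1)
  meas : Measurable g
  bound : ∃ B : ℝ, 0 ≤ B ∧ ∀ t ∈ Ioo (0 : ℝ) 1, |u t| ≤ B / ballShape t ^ 2 ∧
    |u' t| ≤ B / ballShape t ^ 4 ∧ |g t| ≤ ballShape t ^ (m - 1) * (B / ballShape t ^ 2)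

theorem pow_pred_le (hm : 4 ≤ m) {p : ℝ} (hp : 0 < p) (hp1 : p ≤ 1) :
    p ^ (m - 1) / p ^ 4 ≤ 1 / p := by
  rw [div_le_div_iff₀ (pow_pos hp 4) hp, one_mul, ← pow_succ, Nat.sub_add_cancel (by omega : 1 ≤ m)]
  exact pow_le_pow_of_le_one hp.le hp1 hm

theorem weightPoly_le_one {x : ℝ} (hx : x ∈ Icc (0 : ℝ) 1) : weightPoly x ≤ 1 := by
  obtain ⟨h0, h1⟩ := hx
  have a : 0 ≤ 1 - x / 2 - x * (1 - x) / 4 := by nlinarith
  have b : 0 ≤ (7 / 250 : ℝ) * x ^ 2 * (1 - x) * (1 + 9 * x) :=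
    mul_nonneg (mul_nonneg (by positivity) (by linarith)) (by positivity)
  unfold weightPoly
  linarith [mul_nonneg (sq_nonneg x) a]

theorem abs_certK_le (m : ℕ) (c t : ℝ) :
    |certK m c t| ≤ |c * (2 / (((m : ℝ) + 1) * m))| * ballShape t ^ (m + 3) := by
  have h := weightPoly_mem (ball_mem_Icc t)
  rw [certK, abs_mul, abs_mul, abs_of_nonneg h.1,
    abs_of_nonneg (pow_nonneg (ball_mem_Icc t).1 (m + 3))]
  exact mul_le_mul_of_nonneg_right (mul_le_of_le_one_right (abs_nonneg _)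
    (weightPoly_le_one (ball_mem_Icc t))) (pow_nonneg (ball_mem_Icc t).1 _)

theorem continuous_certK (m : ℕ) (c : ℝ) : Continuous (certK m c) := by
  have := cont_ball
  unfold certK weightPoly
  fun_prop

variable {v v' : ℝ → ℝ} {Q : ℝ → ℝ}

/-- Products with the weight of two functions of size `O(p ^ (-2))`. -/
theorem integrable_small (hm : 4 ≤ m) {a b : ℝ → ℝ}
    (ha : AEStronglyMeasurable a (volume.restrict (Ioo (0 : ℝ) 1)))
    (hb : AEStronglyMeasurable b (volume.restrict (Ioo (0 : ℝ) 1))) {A B : ℝ}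
    (hA : ∀ t ∈ Ioo (0 : ℝ) 1, |a t| ≤ A / ballShape t ^ 2)
    (hB : ∀ t ∈ Ioo (0 : ℝ) 1, |b t| ≤ B / ballShape t ^ 2) :
    IntervalIntegrable (fun t => ballShape t ^ (m - 1) * a t * b t) volume 0 1 := by
  refine interval_iff01.2 (Integrable.mono'
    ((interval_iff01.1 (intervalIntegrable_inv_ball_mul
      (continuous_const (y := |A * B|)))).congr_fun (fun t _ => rfl) measurableSet_Ioo) ?_ ?_)
  · exact (((cont_pow _).measurable.aestronglyMeasurable).mul ha).mul hb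
  · filter_upwards [ae_restrict_mem measurableSet_Ioo] with t ht
    have hp := ball_pos (sub01 ht)
    have hA0 := (abs_nonneg _).trans (hA t ht)
    have h := mul_le_mul (hA t ht) (hB t ht) (abs_nonneg _) hA0
    rw [Real.norm_eq_abs, abs_mul, abs_mul, abs_of_nonneg (pow_nonneg hp.le _), mul_assoc]
    refine (mul_le_mul_of_nonneg_left h (pow_nonneg hp.le _)).trans ?_
    rw [div_mul_div_comm, ← pow_add, show ballShape t ^ (m - 1) * (A * B / ballShape t ^ (2 + 2)) =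
      A * B * (ballShape t ^ (m - 1) / ballShape t ^ 4) by ring, mul_comm (1 / ballShape t)]
    exact (mul_le_mul_of_nonneg_right (le_abs_self _) (by positivity)).trans
      (mul_le_mul_of_nonneg_left (pow_pred_le hm hp (ball_le_one t)) (abs_nonneg _))

theorem measurable_test_fun (hv : IsSpecTest m Q v v') :
    AEStronglyMeasurable v (volume.restrict (Ioo (0 : ℝ) 1)) :=
  (hv.cont.mono Ioo_subset_Ico_self).aestronglyMeasurable measurableSet_Ioo

/-- Products with the weight of a function of size `O(p ^ (-2))` and a test function. -/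
theorem integrable_small_test (hm : 4 ≤ m) (hv : IsSpecTest m Q v v') {a : ℝ → ℝ}
    (ha : AEStronglyMeasurable a (volume.restrict (Ioo (0 : ℝ) 1))) {A : ℝ}
    (hA : ∀ t ∈ Ioo (0 : ℝ) 1, |a t| ≤ A / ballShape t ^ 2) :
    IntervalIntegrable (fun t => ballShape t ^ (m - 1) * a t * v t) volume 0 1 := by
  have i1 := intervalIntegrable_test (m := m) (by omega) hv (measurable_const (a := (1 : ℝ)))
    (C := 1) fun _ _ => by simp
  have i2 := integrable_small (a := fun t => A / ballShape t ^ 2) (b := fun t => A / ballShape t ^ 2)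
    hm ((measurable_const.div (cont_ball.measurable.pow_const 2)).aestronglyMeasurable)
    ((measurable_const.div (cont_ball.measurable.pow_const 2)).aestronglyMeasurable)
    (A := |A|) (B := |A|) (fun t _ => by rw [abs_div, abs_of_nonneg (sq_nonneg (ballShape t))])
    fun t _ => by rw [abs_div, abs_of_nonneg (sq_nonneg (ballShape t))]
  refine interval_iff01.2 (Integrable.mono' (interval_iff01.1 (i1.add i2)) ?_ ?_)
  · exact (((cont_pow _).measurable.aestronglyMeasurable).mul ha).mul (measurable_test_fun hv)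
  · filter_upwards [ae_restrict_mem measurableSet_Ioo] with t ht
    have hp := ball_pos (sub01 ht)
    have h := hA t ht
    have h2 : |a t| * |v t| ≤ A / ballShape t ^ 2 * |v t| :=
      mul_le_mul_of_nonneg_right h (abs_nonneg _)
    have h3 : A / ballShape t ^ 2 * |v t| ≤ (A / ballShape t ^ 2) ^ 2 + v t ^ 2 := by
      nlinarith [sq_nonneg (A / ballShape t ^ 2 - |v t|), sq_abs (v t),
        mul_nonneg ((abs_nonneg (a t)).trans h) (abs_nonneg (v t))]
    rw [Real.norm_eq_abs, abs_mul, abs_mul, abs_of_nonneg (pow_nonneg hp.le _), mul_assoc]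
    refine (mul_le_mul_of_nonneg_left (h2.trans h3) (pow_nonneg hp.le _)).trans (le_of_eq ?_)
    ring

/-- Products with the energy weight, between two functions of finite energy. -/
theorem integrable_energy_mul {k a b : ℝ → ℝ} (hk : Continuous k)
    (hk0 : ∀ t ∈ Ioo (0 : ℝ) 1, 0 ≤ k t)
    (ha : AEStronglyMeasurable a (volume.restrict (Ioo (0 : ℝ) 1)))
    (hb : AEStronglyMeasurable b (volume.restrict (Ioo (0 : ℝ) 1)))
    (iA : IntervalIntegrable (fun t => k t * a t ^ 2) volume 0 1)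
    (iB : IntervalIntegrable (fun t => k t * b t ^ 2) volume 0 1) :
    IntervalIntegrable (fun t => k t * a t * b t) volume 0 1 := by
  refine interval_iff01.2 (Integrable.mono' (interval_iff01.1 (iA.add iB))
    ((hk.aestronglyMeasurable.mul ha).mul hb) ?_)
  filter_upwards [ae_restrict_mem measurableSet_Ioo] with t ht
  have h : |a t| * |b t| ≤ a t ^ 2 + b t ^ 2 := by
    nlinarith [sq_nonneg (|a t| - |b t|), sq_abs (a t), sq_abs (b t),
      mul_nonneg (abs_nonneg (a t)) (abs_nonneg (b t))]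
  rw [Real.norm_eq_abs, abs_mul, abs_mul, abs_of_nonneg (hk0 t ht), mul_assoc]
  exact (mul_le_mul_of_nonneg_left h (hk0 t ht)).trans_eq (mul_add _ _ _)

theorem measurable_test_deriv (hv : IsSpecTest m Q v v') :
    AEStronglyMeasurable v' (volume.restrict (Ioo (0 : ℝ) 1)) := by
  have h : AEMeasurable (fun t => derivWithin v (Ioi t) t) (volume.restrict (Ioo (0 : ℝ) 1)) :=
    (measurable_derivWithin_Ioi v).aemeasurable
  refine (h.congr ?_).aestronglyMeasurable
  filter_upwards [ae_restrict_mem measurableSet_Ioo] with t ht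
  exact (hv.deriv t ht).derivWithin (uniqueDiffWithinAt_Ioi t)

/-- The certificate gives the linear inequality. -/
theorem specPoincare_of_schur (hm : 4 ≤ m) {c μ σ₀ C : ℝ} (hc : 0 ≤ c) (hμ : 0 < μ)
    {W σ : ℝ → ℝ} (hWm : Measurable W) (hWb : ∀ t ∈ Ioo (0 : ℝ) 1, |W t| ≤ C)
    (hσm : Measurable σ) (hσ₀ : 0 < σ₀) {S : ℝ}
    (hσb : ∀ t ∈ Ioo (0 : ℝ) 1, σ₀ ≤ σ t ∧ σ t ≤ S)
    {u₁ u₁' g₁ u₂ u₂' g₂ φ F χ L : ℝ → ℝ} {ξ η τ₁ τ₂ κ₁ κ₂ : ℝ}
    (hξ : 0 ≤ ξ) (hξη : ξ ≤ η) (hη : η < 1)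
    (T₁ : CertTestFun m c W u₁ u₁' g₁) (T₂ : CertTestFun m c W u₂ u₂' g₂)
    (hdet : u₁ ξ * u₂ η - u₂ ξ * u₁ η ≠ 0)
    (hφ : Picone.Supersolution (certK m c)
      (fun t => ballShape t ^ (m - 1) * W t + ballShape t ^ (m - 1) * σ t) φ F 0 ξ)
    (hχ : Picone.Supersolution (certK m c)
      (fun t => ballShape t ^ (m - 1) * W t + ballShape t ^ (m - 1) * σ t) χ L ξ η)
    (hψ : ∀ᶠ b in 𝓝[<] (1 : ℝ), Picone.Barrier (certK m c)
      (fun t => ballShape t ^ (m - 1) * W t + ballShape t ^ (m - 1) * σ t) η b)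
    (hF0 : F 0 ≤ 0)
    (hM : ∀ α β : ℝ, 0 ≤
      α ^ 2 * (∫ t in (0 : ℝ)..1, g₁ t * u₁ t) +
      2 * α * β * (∫ t in (0 : ℝ)..1, g₁ t * u₂ t) + β ^ 2 * (∫ t in (0 : ℝ)..1, g₂ t * u₂ t) +
      2 * (α * τ₁ + β * τ₂) * (α * (∫ t in (0 : ℝ)..1,
          ballShape t ^ (m - 1) * (2 * (ballRatio m * ballShape t - 1)) * u₁ t) +
        β * ∫ t in (0 : ℝ)..1,
          ballShape t ^ (m - 1) * (2 * (ballRatio m * ballShape t - 1)) * u₂ t) +
      2 * (α * κ₁ + β * κ₂) * (α * (∫ t in (0 : ℝ)..1, ballShape t ^ (m - 1) * u₁ t) +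
        β * ∫ t in (0 : ℝ)..1, ballShape t ^ (m - 1) * u₂ t) -
      (α * τ₁ + β * τ₂) ^ 2 / (μ / mass (m - 1) ballShape 1) -
      (α ^ 2 * (∫ t in (0 : ℝ)..1,
          (g₁ t + τ₁ * (ballShape t ^ (m - 1) * (2 * (ballRatio m * ballShape t - 1))) +
            κ₁ * ballShape t ^ (m - 1)) ^ 2 / (ballShape t ^ (m - 1) * σ t)) +
        2 * α * β * (∫ t in (0 : ℝ)..1,
          (g₁ t + τ₁ * (ballShape t ^ (m - 1) * (2 * (ballRatio m * ballShape t - 1))) +
            κ₁ * ballShape t ^ (m - 1)) *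
          (g₂ t + τ₂ * (ballShape t ^ (m - 1) * (2 * (ballRatio m * ballShape t - 1))) +
            κ₂ * ballShape t ^ (m - 1)) / (ballShape t ^ (m - 1) * σ t)) +
        β ^ 2 * (∫ t in (0 : ℝ)..1,
          (g₂ t + τ₂ * (ballShape t ^ (m - 1) * (2 * (ballRatio m * ballShape t - 1))) +
            κ₂ * ballShape t ^ (m - 1)) ^ 2 / (ballShape t ^ (m - 1) * σ t)))) :
    SpecPoincare m c W μ := by
  have hm1 : 1 ≤ m := by omega
  refine specPoincare_of_form hm1 hWm hWb fun v v' hv hA => ?_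
  set μ' := μ / mass (m - 1) ballShape 1 with hμ'
  have hμ0 : 0 < μ' := div_pos hμ (ball_mass_pos _)
  obtain ⟨D, hD⟩ := hv.growth
  obtain ⟨B₁, hB₁0, hB₁⟩ := T₁.bound
  obtain ⟨B₂, hB₂0, hB₂⟩ := T₂.bound
  have hk0 : ∀ t ∈ Ioo (0 : ℝ) 1, 0 ≤ certK m c t := fun t ht =>
    mul_nonneg (mul_nonneg (mul_nonneg hc (by positivity)) (weightPoly_mem (ball_mem_Icc t)).1)
      (pow_nonneg (Real.sqrt_nonneg _) _)
  set μr : Measure ℝ := volume.restrict (Ioo (0 : ℝ) 1) with hμr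
  set lf : ℝ → ℝ := fun t => 2 * (ballRatio m * ballShape t - 1) with hlf
  have hp2 : ∀ t ∈ Ioo (0 : ℝ) 1, ∀ {x A : ℝ}, |x| ≤ A → |x| ≤ A / ballShape t ^ 2 :=
    fun t ht x A h => h.trans (le_div_self ((abs_nonneg x).trans h) (pow_pos (ball_pos (sub01 ht)) 2)
      (pow_le_one₀ (ball_pos (sub01 ht)).le (ball_le_one t)))
  have ml : AEStronglyMeasurable lf μr :=
    (((cont_ball.const_smul (ballRatio m)).sub continuous_const).const_smul
      (2 : ℝ)).aestronglyMeasurable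
  have bl : ∀ t ∈ Ioo (0 : ℝ) 1, |lf t| ≤ 2 * (ballRatio m + 1) / ballShape t ^ 2 := fun t ht => by
    refine hp2 t ht ?_
    rw [hlf, abs_mul, abs_two]
    exact mul_le_mul_of_nonneg_left ((abs_sub _ _).trans (add_le_add (ball_bound m)
      (le_of_eq abs_one))) zero_le_two
  have mone : AEStronglyMeasurable (fun _ : ℝ => (1 : ℝ)) μr := aestronglyMeasurable_const
  have bone : ∀ t ∈ Ioo (0 : ℝ) 1, |(1 : ℝ)| ≤ 1 / ballShape t ^ 2 := fun t ht =>
    hp2 t ht (le_of_eq abs_one)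
  have mW : AEStronglyMeasurable W μr := hWm.aestronglyMeasurable
  have mσ : AEStronglyMeasurable σ μr := hσm.aestronglyMeasurable
  -- the facts about one test function
  have key : ∀ {u u' g : ℝ → ℝ} {B : ℝ}, CertTestFun m c W u u' g → 0 ≤ B →
      (∀ t ∈ Ioo (0 : ℝ) 1, |u t| ≤ B / ballShape t ^ 2 ∧
        |u' t| ≤ B / ballShape t ^ 4 ∧ |g t| ≤ ballShape t ^ (m - 1) * (B / ballShape t ^ 2)) →
      AEStronglyMeasurable u μr ∧ AEStronglyMeasurable u' μr ∧
      AEStronglyMeasurable (fun t => g t / ballShape t ^ (m - 1)) μr ∧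
      (∀ t ∈ Ioo (0 : ℝ) 1, |g t / ballShape t ^ (m - 1)| ≤ B / ballShape t ^ 2) ∧
      Picone.Defect (certK m c) (fun t => ballShape t ^ (m - 1) * W t) g u u'
        (fun t => certK m c t * u' t) 0 1 ∧
      (∀ t ∈ Ioo (0 : ℝ) 1, |certK m c t * u' t| ≤
        |c * (2 / (((m : ℝ) + 1) * m))| * B * ballShape t ^ (m - 1)) := by
    intro u u' g B T hB0 hB
    have hu : ContinuousOn u (Ioo 0 1) := fun t ht =>
      (T.deriv t (Ioo_subset_Ico_self ht)).continuousAt.continuousWithinAt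
    have mu : AEStronglyMeasurable u μr := hu.aestronglyMeasurable measurableSet_Ioo
    have mu' : AEStronglyMeasurable u' μr := T.cont_deriv.aestronglyMeasurable measurableSet_Ioo
    have bF : ∀ t ∈ Ioo (0 : ℝ) 1, |certK m c t * u' t| ≤
        |c * (2 / (((m : ℝ) + 1) * m))| * B * ballShape t ^ (m - 1) := fun t ht => by
      have hp := ball_pos (sub01 ht)
      rw [abs_mul]
      refine (mul_le_mul (abs_certK_le m c t) (hB t ht).2.1 (abs_nonneg _)
        (mul_nonneg (abs_nonneg _) (pow_nonneg hp.le _))).trans (le_of_eq ?_)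
      rw [show m + 3 = m - 1 + 4 by omega, pow_add]
      field_simp
    have iW : IntervalIntegrable (fun t => ballShape t ^ (m - 1) * (u t * W t) * u t) volume 0 1 := by
      refine integrable_small hm (mu.mul mW) mu (A := B * |C|) (B := B) (fun t ht => ?_)
        fun t ht => (hB t ht).1
      rw [abs_mul, ← div_mul_eq_mul_div]
      exact mul_le_mul (hB t ht).1 ((hWb t ht).trans (le_abs_self C)) (abs_nonneg _)
        ((abs_nonneg _).trans (hB t ht).1)
    have iE : IntervalIntegrable (fun t => certK m c t * u' t ^ 2) volume 0 1 := by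
      set K := |c * (2 / (((m : ℝ) + 1) * m))| with hK
      have i := integrable_small (a := fun t => B / ballShape t ^ 2)
        (b := fun t => K * B / ballShape t ^ 2) hm
        ((measurable_const.div (cont_ball.measurable.pow_const 2)).aestronglyMeasurable)
        ((measurable_const.div (cont_ball.measurable.pow_const 2)).aestronglyMeasurable)
        (A := B) (B := K * B)
        (fun t _ => (abs_of_nonneg (div_nonneg hB0 (sq_nonneg _))).le)
        fun t _ => (abs_of_nonneg (div_nonneg (mul_nonneg (abs_nonneg _) hB0) (sq_nonneg _))).le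
      refine interval_iff01.2 (Integrable.mono' (interval_iff01.1 i)
        ((continuous_certK m c).aestronglyMeasurable.mul (mu'.pow 2)) ?_)
      filter_upwards [ae_restrict_mem measurableSet_Ioo] with t ht
      rw [Real.norm_eq_abs, sq, ← mul_assoc, abs_mul]
      refine (mul_le_mul (bF t ht) (hB t ht).2.1 (abs_nonneg _)
        ((abs_nonneg _).trans (bF t ht))).trans (le_of_eq ?_)
      rw [hK]
      field_simp
    refine ⟨mu, mu', (T.meas.div (cont_pow _).measurable).aestronglyMeasurable, fun t ht => ?_,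
      ⟨⟨fun t ht => (T.deriv t ht).continuousAt.continuousWithinAt,
        fun t ht => (T.deriv t (Ioo_subset_Ico_self ht)).hasDerivWithinAt, iE,
        iW.congr fun t _ => by ring⟩,
      fun t ht => (T.deriv_flux t ht).continuousAt.continuousWithinAt,
      by simp [T.deriv_zero], fun t _ => rfl,
      fun t ht => (T.deriv_flux t (Ioo_subset_Ico_self ht)).hasDerivWithinAt⟩, bF⟩
    rw [abs_div, abs_of_nonneg (pow_nonneg (ball_pos (sub01 ht)).le _),
      div_le_iff₀ (pow_pos (ball_pos (sub01 ht)) _), mul_comm]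
    exact (hB t ht).2.2
  obtain ⟨mu₁, mu₁', mg₁, bg₁, d₁, bF₁⟩ := key T₁ hB₁0 hB₁
  obtain ⟨mu₂, mu₂', mg₂, bg₂, d₂, bF₂⟩ := key T₂ hB₂0 hB₂
  -- limits at one
  have hlim : Tendsto ballShape (𝓝[<] (1 : ℝ)) (𝓝 0) :=
    (cont_ball.tendsto' 1 0 (by simp [ballShape])).mono_left nhdsWithin_le_nhds
  have tv : ∀ {F : ℝ → ℝ} {K : ℝ},
      (∀ t ∈ Ioo (0 : ℝ) 1, |F t| ≤ K * ballShape t ^ (m - 1)) →
      Tendsto (fun t => F t * v t) (𝓝[<] (1 : ℝ)) (𝓝 0) := fun {F K} hF => by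
    have h0 : Tendsto (fun t => |K| * √(ballShape t ^ (m - 2) * D)) (𝓝[<] (1 : ℝ)) (𝓝 0) := by
      simpa [zero_pow (show m - 2 ≠ 0 by omega)] using
        (((hlim.pow (m - 2)).mul_const D).sqrt).const_mul |K|
    refine squeeze_zero_norm' ?_ h0
    filter_upwards [Ioo_mem_nhdsLT (zero_lt_one (α := ℝ))] with t ht
    have hp := ball_pos (sub01 ht)
    rw [Real.norm_eq_abs, abs_mul]
    refine (mul_le_mul_of_nonneg_right ((hF t ht).trans (mul_le_mul_of_nonneg_right (le_abs_self K)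
      (pow_nonneg hp.le _))) (abs_nonneg _)).trans ?_
    rw [mul_assoc]
    refine mul_le_mul_of_nonneg_left (Real.le_sqrt_of_sq_le ?_) (abs_nonneg K)
    rw [mul_pow, sq_abs, ← pow_mul]
    calc ballShape t ^ ((m - 1) * 2) * v t ^ 2
        = ballShape t ^ (m - 2) * (ballShape t ^ m * v t ^ 2) := by
          rw [show (m - 1) * 2 = m - 2 + m by omega, pow_add]; ring
      _ ≤ _ := mul_le_mul_of_nonneg_left (hD t ⟨ht.1.le, ht.2⟩) (pow_nonneg hp.le _)
  have tu : ∀ {F u : ℝ → ℝ} {K B : ℝ},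
      (∀ t ∈ Ioo (0 : ℝ) 1, |F t| ≤ K * ballShape t ^ (m - 1)) →
      (∀ t ∈ Ioo (0 : ℝ) 1, |u t| ≤ B / ballShape t ^ 2) →
      Tendsto (fun t => F t * u t) (𝓝[<] (1 : ℝ)) (𝓝 0) := fun {F u K B} hF hu => by
    have h0 : Tendsto (fun t => K * B * ballShape t ^ (m - 3)) (𝓝[<] (1 : ℝ)) (𝓝 0) := by
      simpa [zero_pow (show m - 3 ≠ 0 by omega)] using (hlim.pow (m - 3)).const_mul (K * B)
    refine squeeze_zero_norm' ?_ h0
    filter_upwards [Ioo_mem_nhdsLT (zero_lt_one (α := ℝ))] with t ht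
    have hp := ball_pos (sub01 ht)
    rw [Real.norm_eq_abs, abs_mul]
    refine (mul_le_mul (hF t ht) (hu t ht) (abs_nonneg _)
      ((abs_nonneg _).trans (hF t ht))).trans (le_of_eq ?_)
    rw [show m - 1 = m - 3 + 2 by omega, pow_add]
    field_simp
  have bu₁ : ∀ t ∈ Ioo (0 : ℝ) 1, |u₁ t| ≤ B₁ / ballShape t ^ 2 := fun t ht => (hB₁ t ht).1
  have bu₂ : ∀ t ∈ Ioo (0 : ℝ) 1, |u₂ t| ≤ B₂ / ballShape t ^ 2 := fun t ht => (hB₂ t ht).1
  have bW : ∀ {u : ℝ → ℝ} {B : ℝ}, (∀ t ∈ Ioo (0 : ℝ) 1, |u t| ≤ B / ballShape t ^ 2) →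
      ∀ t ∈ Ioo (0 : ℝ) 1, |u t * W t| ≤ B * |C| / ballShape t ^ 2 := fun {u B} hu t ht => by
    rw [abs_mul, ← div_mul_eq_mul_div]
    exact mul_le_mul (hu t ht) ((hWb t ht).trans (le_abs_self C)) (abs_nonneg _)
      ((abs_nonneg _).trans (hu t ht))
  have bσ : ∀ {u : ℝ → ℝ} {B : ℝ}, (∀ t ∈ Ioo (0 : ℝ) 1, |u t| ≤ B / ballShape t ^ 2) →
      ∀ t ∈ Ioo (0 : ℝ) 1, |u t * σ t| ≤ B * S / ballShape t ^ 2 := fun {u B} hu t ht => by
    rw [abs_mul, ← div_mul_eq_mul_div]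
    exact mul_le_mul (hu t ht) ((abs_of_nonneg (hσ₀.le.trans (hσb t ht).1)).trans_le (hσb t ht).2)
      (abs_nonneg _) ((abs_nonneg _).trans (hu t ht))
  have cong : ∀ {f g : ℝ → ℝ}, IntervalIntegrable f volume 0 1 →
      (∀ t ∈ Ioo (0 : ℝ) 1, f t = g t) → IntervalIntegrable g volume 0 1 := fun {f g} h e =>
    interval_iff01.2 ((interval_iff01.1 h).congr_fun e measurableSet_Ioo)
  have gp : ∀ (g : ℝ → ℝ), ∀ t ∈ Ioo (0 : ℝ) 1,
      g t = ballShape t ^ (m - 1) * (g t / ballShape t ^ (m - 1)) := fun g t ht => by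
    rw [mul_div_cancel₀ _ (pow_ne_zero _ (ball_pos (sub01 ht)).ne')]
  have prod : ∀ {u u' g w w' : ℝ → ℝ} {B Bw : ℝ},
      AEStronglyMeasurable u μr → AEStronglyMeasurable u' μr →
      AEStronglyMeasurable (fun t => g t / ballShape t ^ (m - 1)) μr →
      (∀ t ∈ Ioo (0 : ℝ) 1, |u t| ≤ B / ballShape t ^ 2) →
      (∀ t ∈ Ioo (0 : ℝ) 1, |g t / ballShape t ^ (m - 1)| ≤ B / ballShape t ^ 2) →
      IntervalIntegrable (fun t => certK m c t * u' t ^ 2) volume 0 1 →
      AEStronglyMeasurable w μr → AEStronglyMeasurable w' μr →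
      (∀ t ∈ Ioo (0 : ℝ) 1, |w t| ≤ Bw / ballShape t ^ 2) →
      IntervalIntegrable (fun t => certK m c t * w' t ^ 2) volume 0 1 →
      Picone.Products (certK m c) (fun t => ballShape t ^ (m - 1) * W t) g u u' w w' 0 1 :=
    fun {u u' g w w' B Bw} mu mu' mg bu bg iu mw mw' bw iw =>
      ⟨integrable_energy_mul (continuous_certK m c) hk0 mu' mw' iu iw,
        (integrable_small hm (mu.mul mW) mw (bW bu) bw).congr fun t _ => by
          simp only [Pi.mul_apply]; ring,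
        cong (integrable_small hm mg mw bg bw) fun t ht => by rw [← gp g t ht]⟩
  have prodv : ∀ {u u' g : ℝ → ℝ} {B : ℝ},
      AEStronglyMeasurable u μr → AEStronglyMeasurable u' μr →
      AEStronglyMeasurable (fun t => g t / ballShape t ^ (m - 1)) μr →
      (∀ t ∈ Ioo (0 : ℝ) 1, |u t| ≤ B / ballShape t ^ 2) →
      (∀ t ∈ Ioo (0 : ℝ) 1, |g t / ballShape t ^ (m - 1)| ≤ B / ballShape t ^ 2) →
      IntervalIntegrable (fun t => certK m c t * u' t ^ 2) volume 0 1 →
      Picone.Products (certK m c) (fun t => ballShape t ^ (m - 1) * W t) g u u' v v' 0 1 :=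
    fun {u u' g B} mu mu' mg bu bg iu =>
      ⟨integrable_energy_mul (continuous_certK m c) hk0 mu' (measurable_test_deriv hv) iu
          hA.int_energy,
        (integrable_small_test hm hv (mu.mul mW) (bW bu)).congr fun t _ => by
          simp only [Pi.mul_apply]; ring,
        cong (integrable_small_test hm hv mg bg) fun t ht => by rw [← gp g t ht]⟩
  have hh : ∀ {g : ℝ → ℝ} {B : ℝ} (τ κ : ℝ),
      AEStronglyMeasurable (fun t => g t / ballShape t ^ (m - 1)) μr →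
      (∀ t ∈ Ioo (0 : ℝ) 1, |g t / ballShape t ^ (m - 1)| ≤ B / ballShape t ^ 2) →
      AEStronglyMeasurable (fun t => g t / ballShape t ^ (m - 1) + τ * lf t + κ) μr ∧
      ∀ t ∈ Ioo (0 : ℝ) 1, |g t / ballShape t ^ (m - 1) + τ * lf t + κ| ≤
        (B + |τ| * (2 * (ballRatio m + 1)) + |κ|) / ballShape t ^ 2 := fun {g B} τ κ mg bg => by
    refine ⟨(mg.add (ml.const_mul τ)).add aestronglyMeasurable_const, fun t ht => ?_⟩
    rw [add_div, add_div]
    refine (abs_add_le _ _).trans (add_le_add ((abs_add_le _ _).trans (add_le_add (bg t ht) ?_))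
      (hp2 t ht le_rfl))
    rw [abs_mul, mul_div_assoc]
    exact mul_le_mul_of_nonneg_left (bl t ht) (abs_nonneg _)
  obtain ⟨mh₁, bh₁⟩ := hh τ₁ κ₁ mg₁ bg₁
  obtain ⟨mh₂, bh₂⟩ := hh τ₂ κ₂ mg₂ bg₂
  have res : ∀ {a b : ℝ → ℝ} {A B : ℝ}, AEStronglyMeasurable a μr → AEStronglyMeasurable b μr →
      (∀ t ∈ Ioo (0 : ℝ) 1, |a t| ≤ A / ballShape t ^ 2) →
      (∀ t ∈ Ioo (0 : ℝ) 1, |b t| ≤ B / ballShape t ^ 2) →
      IntervalIntegrable (fun t => ballShape t ^ (m - 1) * (a t / σ t) * b t) volume 0 1 :=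
    fun {a b A B} ma mb ha hb => integrable_small (A := A / σ₀) hm
      (ma.aemeasurable.div mσ.aemeasurable).aestronglyMeasurable mb (fun t ht => by
      rw [abs_div, abs_of_nonneg (hσ₀.le.trans (hσb t ht).1), div_right_comm]
      exact div_le_div₀ ((abs_nonneg _).trans (ha t ht)) (ha t ht) hσ₀ (hσb t ht).1) hb
  have expand : ∀ (g h : ℝ → ℝ) (τ κ τ' κ' : ℝ), ∀ t ∈ Ioo (0 : ℝ) 1,
      ballShape t ^ (m - 1) * ((g t / ballShape t ^ (m - 1) + τ * lf t + κ) / σ t) *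
          (h t / ballShape t ^ (m - 1) + τ' * lf t + κ') =
        (g t + τ * (ballShape t ^ (m - 1) * lf t) + κ * ballShape t ^ (m - 1)) *
          (h t + τ' * (ballShape t ^ (m - 1) * lf t) + κ' * ballShape t ^ (m - 1)) /
          (ballShape t ^ (m - 1) * σ t) := fun g h τ κ τ' κ' t ht => by
    have := (pow_ne_zero (m - 1) (ball_pos (sub01 ht)).ne')
    have := (hσ₀.trans_le (hσb t ht).1).ne'
    field_simp
  have main := Picone.form_add_penalty_nonneg (k := certK m c)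
    (q := fun t => ballShape t ^ (m - 1) * W t) (a := 0) (b := 1)
    (s := fun t => ballShape t ^ (m - 1) * σ t) (l := fun t => ballShape t ^ (m - 1) * lf t)
    (n := fun t => ballShape t ^ (m - 1)) hξ hξη hη hμ0 hk0
    (fun t ht => mul_pos (pow_pos (ball_pos (sub01 ht)) _) (hσ₀.trans_le (hσb t ht).1))
    hA d₁ d₂ hdet hφ hχ hψ hF0 (tv bF₁) (tv bF₂) (tu bF₁ bu₁) (tu bF₁ bu₂) (tu bF₂ bu₁)
    (tu bF₂ bu₂) (prodv mu₁ mu₁' mg₁ bu₁ bg₁ d₁.adm.int_energy)
    (prodv mu₂ mu₂' mg₂ bu₂ bg₂ d₂.adm.int_energy)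
    (prod mu₁ mu₁' mg₁ bu₁ bg₁ d₁.adm.int_energy mu₁ mu₁' bu₁ d₁.adm.int_energy)
    (prod mu₁ mu₁' mg₁ bu₁ bg₁ d₁.adm.int_energy mu₂ mu₂' bu₂ d₂.adm.int_energy)
    (prod mu₂ mu₂' mg₂ bu₂ bg₂ d₂.adm.int_energy mu₁ mu₁' bu₁ d₁.adm.int_energy)
    (prod mu₂ mu₂' mg₂ bu₂ bg₂ d₂.adm.int_energy mu₂ mu₂' bu₂ d₂.adm.int_energy)
    ((intervalIntegrable_test hm1 hv hσm (C := S) fun t ht =>
      (abs_of_nonneg (hσ₀.le.trans (hσb t ht).1)).trans_le (hσb t ht).2).congr fun t _ => by ring)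
    ((integrable_small hm (mu₁.mul mσ) mu₁ (bσ bu₁) bu₁).congr fun t _ => by
      simp only [Pi.mul_apply]; ring)
    ((integrable_small hm (mu₂.mul mσ) mu₂ (bσ bu₂) bu₂).congr fun t _ => by
      simp only [Pi.mul_apply]; ring)
    ((integrable_small_test hm hv (mu₁.mul mσ) (bσ bu₁)).congr fun t _ => by
      simp only [Pi.mul_apply]; ring)
    ((integrable_small_test hm hv (mu₂.mul mσ) (bσ bu₂)).congr fun t _ => by
      simp only [Pi.mul_apply]; ring)
    ((integrable_small hm (mu₁.mul mσ) mu₂ (bσ bu₁) bu₂).congr fun t _ => by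
      simp only [Pi.mul_apply]; ring)
    (integrable_small_test hm hv ml bl) (integrable_small hm ml mu₁ bl bu₁)
    (integrable_small hm ml mu₂ bl bu₂)
    ((integrable_small_test hm hv mone bone).congr fun t _ => by ring)
    ((integrable_small hm mone mu₁ bone bu₁).congr fun t _ => by ring)
    ((integrable_small hm mone mu₂ bone bu₂).congr fun t _ => by ring)
    (cong (res mh₁ mh₁ bh₁ bh₁) fun t ht => by rw [expand g₁ g₁ τ₁ κ₁ τ₁ κ₁ t ht, sq])
    (cong (res mh₁ mh₂ bh₁ bh₂) (expand g₁ g₂ τ₁ κ₁ τ₂ κ₂))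
    (cong (res mh₂ mh₂ bh₂ bh₂) fun t ht => by rw [expand g₂ g₂ τ₂ κ₂ τ₂ κ₂ t ht, sq])
    rfl rfl rfl hM hv.mean
  exact main

end Vale.Agent.P237.Quant
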