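import Vale.Agent.P237.Quant.CertFamily
import Vale.Agent.P237.Quant.SchurBridge

/-!
The supersolutions of a spectral certificate from kernel checks: four regions in `(1/n, y)` and,
for large `y`, in `(p, 1/y)`; every datum is affine in `1/n`.
-/

namespace Vale.Agent.P237.Quant

open MeasureTheory Set Filter Four.Checker QP
open scoped Topology

namespace Lin

/-- The value. -/
noncomputable def eval (l : Lin) (s : ℝ) : ℝ := (l.a + l.b * s) / ((l.k : ℝ) + 1)

theorem val_qp (l : Lin) {S : QP} {x y s : ℝ} (h : S.val x y = s) :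
    (l.qp S).val x y = l.eval s := by
  simp only [qp, eval, val_add, val_mul, val_const, h]
  ring

end Lin

/-- `1 / (m + 1)`. -/
noncomputable def certS (m : ℕ) : ℝ := 1 / ((m : ℝ) + 1)

namespace CertPot

/-- The potential, in the unit `2 / m`. -/
noncomputable def Q (K : CertPot) (m : ℕ) (t : ℝ) : ℝ :=
  max (K.A.eval (certS m)) (K.B.eval (certS m) * weightPoly (ballShape t) *
      (((m : ℝ) + 1) * t ^ 2)) +
    (K.la.eval (certS m) + K.lb.eval (certS m) * certY m t + K.lc.eval (certS m) * ballShape t)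

/-- The potential. -/
noncomputable def W (K : CertPot) (m : ℕ) (t : ℝ) : ℝ := 2 / m * K.Q m t

/-- The spare. -/
noncomputable def spare (K : CertPot) (m : ℕ) : ℝ := 2 / m * K.s0.eval (certS m)

end CertPot

/-- The family at a value of `s`. -/
noncomputable def CertFam.fam (P : CertFam) (s : ℝ) : Fam :=
  ⟨P.a₁.eval s, P.b₁.eval s, P.a₂.eval s, P.b₂.eval s, P.a₃.eval s, P.b₃.eval s, P.e₁.eval s,
    P.e₂.eval s, P.e₃.eval s⟩

/-- The chart is valid at a point. -/
structure Chart.At (R : Chart) (m : ℕ) (t x y : ℝ) : Prop where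
  c : R.c.val x y = ballShape t
  T : R.T.val x y = t ^ 2
  S : R.S.val x y = R.Z.val x y * (((m : ℝ) + 1) * t ^ 2)
  Z : 0 < R.Z.val x y
  w : 0 < R.w.val x y
  v : R.v.val x y = certY m t * R.w.val x y
  zw : R.Z.val x y = R.w.val x y
  s : R.s.val x y = certS m

/-- The pointwise content of the checks. -/
theorem op_of_polys {K : CertPot} {P : CertFam} {R : Chart} {m : ℕ} {t x y : ℝ}
    (hR : R.At m t x y) (h : ∀ A ∈ superPolys K P R, 0 ≤ A.val x y) :
    (P.fam (certS m)).Pos (certY m t) ∧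
      K.Q m t + K.s0.eval (certS m) ≤ K.cen.eval (certS m) *
        certOp m (P.g.eval (certS m)) (P.fam (certS m)).L (P.fam (certS m)).L' t := by
  simp only [superPolys, List.forall_mem_cons, List.not_mem_nil, IsEmpty.forall_iff,
    implies_true, and_true] at h
  obtain ⟨hA, hB, h1, h2, h3⟩ := h
  have eq : ∀ l : Lin, (l.qp R.s).val x y = l.eval (certS m) := fun l => l.val_qp hR.s
  have hw := hR.w
  simp only [val_sub, val_add, val_mul, val_const, eq, hR.v] at h1 h2 h3
  have pos : ∀ α β : ℝ, 0 ≤ α * R.w.val x y + β * (certY m t * R.w.val x y) -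
      ((1 : ℤ) : ℝ) / (((999999 : ℕ) : ℝ) + 1) * R.w.val x y → 0 < α + β * certY m t :=
    fun α β hh => by
      push_cast at hh
      by_contra hc
      nlinarith [mul_nonpos_of_nonpos_of_nonneg (not_lt.1 hc) hw.le]
  have hpos : (P.fam (certS m)).Pos (certY m t) := ⟨pos _ _ h1, pos _ _ h2, pos _ _ h3⟩
  refine ⟨hpos, ?_⟩
  have hop := val_famOp (F := P.fam (certS m)) (g := P.g.qp R.s) x y
    (a₁ := P.a₁.qp R.s) (b₁ := P.b₁.qp R.s) (a₂ := P.a₂.qp R.s) (b₂ := P.b₂.qp R.s)
    (a₃ := P.a₃.qp R.s) (b₃ := P.b₃.qp R.s) (e₁ := P.e₁.qp R.s) (e₂ := P.e₂.qp R.s)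
    (e₃ := P.e₃.qp R.s) ⟨eq _, eq _, eq _, eq _, eq _, eq _, eq _, eq _, eq _⟩ hpos hR.v hR.c hR.T
    hR.S (eq _)
  have hD : (famD (P.a₁.qp R.s) (P.b₁.qp R.s) (P.a₂.qp R.s) (P.b₂.qp R.s) (P.a₃.qp R.s)
      (P.b₃.qp R.s) R.w R.v).val x y = (P.fam (certS m)).D (R.w.val x y) (R.v.val x y) := by
    simp only [famD, Fam.D, CertFam.fam, val_mul, val_add, eq]
  have hD0 : 0 < (P.fam (certS m)).D (R.w.val x y) (R.v.val x y) := by
    rw [hR.v]
    have f : ∀ α β : ℝ, α * R.w.val x y + β * (certY m t * R.w.val x y) =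
        (α + β * certY m t) * R.w.val x y := fun α β => by ring
    simp only [Fam.D, f]
    exact mul_pos (mul_pos (mul_pos hpos.1 hw) (mul_pos hpos.2.1 hw)) (mul_pos hpos.2.2 hw)
  simp only [val_sub, val_add, val_mul, eq, hop, hD, val_kappa, hR.c, hR.S] at hA hB
  rw [hR.v, ← hR.zw] at hA hB hD0
  set D := (P.fam (certS m)).D (R.Z.val x y) (certY m t * R.Z.val x y)
  set O := certOp m (P.g.eval (certS m)) (P.fam (certS m)).L (P.fam (certS m)).L' t
  set l := K.la.eval (certS m) + K.lb.eval (certS m) * certY m t + K.lc.eval (certS m) * ballShape t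
    with hl
  have hf : 0 < R.Z.val x y * (D * D) := mul_pos hR.Z (mul_pos hD0 hD0)
  have key : ∀ q : ℝ, 0 ≤ R.Z.val x y * (D * D) *
      (K.cen.eval (certS m) * O - (q + l + K.s0.eval (certS m))) →
      q + l + K.s0.eval (certS m) ≤ K.cen.eval (certS m) * O :=
    fun q hq => sub_nonneg.1 (nonneg_of_mul_nonneg_right hq hf)
  have kA := key (K.A.eval (certS m)) (hA.trans_eq (by rw [hl]; ring))
  have kB := key (K.B.eval (certS m) * weightPoly (ballShape t) * (((m : ℝ) + 1) * t ^ 2))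
    (hB.trans_eq (by rw [hl]; ring))
  rcases max_choice (K.A.eval (certS m))
    (K.B.eval (certS m) * weightPoly (ballShape t) * (((m : ℝ) + 1) * t ^ 2)) with e | e <;>
    rw [CertPot.Q, ← hl, e] <;> assumption

/-- The sign of the flux. -/
theorem flux_nonneg_of_poly {K : CertPot} {P : CertFam} {R : Chart} {m : ℕ} {t x y : ℝ}
    (hR : R.At m t x y) (ht : t ∈ Ioo (0 : ℝ) 1) (hc : 0 ≤ K.cen.eval (certS m))
    (hpos : (P.fam (certS m)).Pos (certY m t)) (h : 0 ≤ (fluxPoly P R).val x y) :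
    0 ≤ certFlux m (K.cen.eval (certS m)) (P.g.eval (certS m)) (P.fam (certS m)).u
      (P.fam (certS m)).L t := by
  have eq : ∀ l : Lin, (l.qp R.s).val x y = l.eval (certS m) := fun l => l.val_qp hR.s
  set F := P.fam (certS m) with hF
  have eD : (famD (P.a₁.qp R.s) (P.b₁.qp R.s) (P.a₂.qp R.s) (P.b₂.qp R.s) (P.a₃.qp R.s)
      (P.b₃.qp R.s) R.w R.v).val x y = F.D (R.w.val x y) (R.v.val x y) := by
    simp only [famD, Fam.D, hF, CertFam.fam, val_mul, val_add, eq]
  have eN : (famN (P.a₁.qp R.s) (P.b₁.qp R.s) (P.a₂.qp R.s) (P.b₂.qp R.s) (P.a₃.qp R.s)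
      (P.b₃.qp R.s) (P.e₁.qp R.s) (P.e₂.qp R.s) (P.e₃.qp R.s) R.w R.v).val x y =
      F.N (R.w.val x y) (R.v.val x y) := by
    simp only [famN, Fam.N, hF, CertFam.fam, val_mul, val_add, eq]
  simp only [fluxPoly, val_mul, val_add, eD, eN, hR.c, eq] at h
  have hw := hR.w
  have hD0 : 0 < F.D (R.w.val x y) (R.v.val x y) := by
    rw [hR.v]
    have f : ∀ α β : ℝ, α * R.w.val x y + β * (certY m t * R.w.val x y) =
        (α + β * certY m t) * R.w.val x y := fun α β => by ring
    simp only [Fam.D, f]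
    exact mul_pos (mul_pos (mul_pos hpos.1 hw) (mul_pos hpos.2.1 hw)) (mul_pos hpos.2.2 hw)
  have hL := F.L_mul_D hpos hR.v
  have hC : 0 ≤ ballShape t * F.L (certY m t) + P.g.eval (certS m) := by
    refine nonneg_of_mul_nonneg_right (h.trans_eq ?_) (mul_pos hD0 hD0)
    linear_combination (-(ballShape t * F.D (R.w.val x y) (R.v.val x y))) * hL
  have hp := ball_pos (sub01 ht)
  exact mul_nonneg (mul_nonneg (mul_nonneg (mul_nonneg hc (by positivity))
      (weightPoly_mem (ball_mem_Icc t)).1) (pow_nonneg hp.le _))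
    (mul_nonneg (mul_nonneg (F.u_pos hpos).le (Real.rpow_nonneg hp.le _))
      (div_nonneg (mul_nonneg (mul_nonneg (by positivity) ht.1.le) hC) (sq_nonneg _)))

namespace CertGrid

variable (G : CertGrid)

/-- The range of `1/n`. -/
def Range (m : ℕ) : Prop :=
  (0 : ℝ) < G.D ∧ G.lo < G.hi ∧ (G.lo : ℝ) ≤ certS m * G.D ∧ certS m * G.D ≤ G.hi

end CertGrid

theorem checkAll_sound {B : Box} {x y : ℝ} (hm : Packed.memC B x y) :
    ∀ {l : List QP} {r : List WeightCert.Tree}, checkAll B l r = true → ∀ A ∈ l, 0 ≤ A.val x y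
  | [], _, _ => by simp
  | A :: l, [], h => by simp [checkAll] at h
  | A :: l, T :: r, h => by
      simp only [checkAll, Bool.and_eq_true] at h
      intro a ha
      rcases List.mem_cons.1 ha with e | e
      · exact e ▸ val_nonneg h.1 hm
      · exact checkAll_sound hm h.2 a e

/-- Where `y` is a given number. -/
noncomputable def nodeT (m : ℕ) (Y : ℝ) : ℝ := √(1 - (1 - certS m * Y) ^ 2)

theorem certS_pos (m : ℕ) : 0 < certS m := by unfold certS; positivity

theorem certY_eq (m : ℕ) (t : ℝ) : certY m t = (1 - ballShape t) / certS m := by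
  rw [certY, certS, div_div_eq_mul_div, div_one, mul_comm]

theorem nodeT_mem {m : ℕ} {Y : ℝ} (h0 : 0 < Y) (h1 : certS m * Y < 1) :
    0 < nodeT m Y ∧ nodeT m Y < 1 ∧ ballShape (nodeT m Y) = 1 - certS m * Y := by
  have hs := mul_pos (certS_pos m) h0
  have h2 : (1 - certS m * Y) ^ 2 < 1 := by nlinarith
  refine ⟨Real.sqrt_pos.2 (by linarith), ?_, ?_⟩
  · rw [nodeT, Real.sqrt_lt' one_pos]
    nlinarith
  · rw [ballShape, nodeT, Real.sq_sqrt (by linarith), sub_sub_cancel, Real.sqrt_sq (by linarith)]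

theorem certY_node {m : ℕ} {Y : ℝ} (h0 : 0 < Y) (h1 : certS m * Y < 1) :
    certY m (nodeT m Y) = Y := by
  rw [certY_eq, (nodeT_mem h0 h1).2.2, sub_sub_cancel, mul_div_cancel_left₀ _ (certS_pos m).ne']

theorem certY_mono {m : ℕ} {a b : ℝ} (ha : 0 ≤ a) (hab : a ≤ b) : certY m a ≤ certY m b := by
  refine mul_le_mul_of_nonneg_left (sub_le_sub_left (Real.sqrt_le_sqrt ?_) 1) (by positivity)
  nlinarith [pow_le_pow_left₀ ha hab 2]

theorem certY_zero (m : ℕ) : certY m 0 = 0 := by simp [certY, ballShape]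

/-- A finite chart at a point. -/
theorem chart_at {lo hi : QP} {m : ℕ} {t y : ℝ} (ht : t ∈ Icc (0 : ℝ) 1)
    (h : lo.val (certS m) y + y * (hi.val (certS m) y - lo.val (certS m) y) = certY m t) :
    (CertGrid.chart lo hi).At m t (certS m) y := by
  have hp2 : ballShape t ^ 2 = 1 - t ^ 2 := ball_sq ⟨by linarith [ht.1], ht.2⟩
  have e1 : certS m * certY m t = 1 - ballShape t := by
    rw [certY_eq, mul_div_cancel₀ _ (certS_pos m).ne']
  constructor <;>
    simp only [CertGrid.chart, val_mul, val_add, val_sub, val_const, val_X, val_Y, h, Int.cast_one,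
      Nat.cast_zero, zero_add, div_one, e1, mul_one, zero_lt_one, sub_sub_cancel]
  · linear_combination -hp2
  · rw [certY_eq, div_mul_eq_mul_div, certS, div_div_eq_mul_div, div_one]
    linear_combination (-((m : ℝ) + 1)) * hp2

/-- The chart of large `y` at a point. -/
theorem farChart_at {m : ℕ} {t : ℝ} (ht : t ∈ Icc (0 : ℝ) 1) (hy : 0 < certY m t) :
    CertGrid.farChart.At m t (ballShape t) (1 / certY m t) := by
  have hp2 : ballShape t ^ 2 = 1 - t ^ 2 := ball_sq ⟨by linarith [ht.1], ht.2⟩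
  have hn : ((m : ℝ) + 1) ≠ 0 := by positivity
  have hy' : 1 - ballShape t ≠ 0 := by
    intro h
    simp [certY, h] at hy
  constructor <;>
    simp only [CertGrid.farChart, val_mul, val_add, val_sub, val_const, val_X, val_Y, Int.cast_one,
      Nat.cast_zero, zero_add, div_one, one_div_pos, hy, mul_one_div_cancel hy.ne']
  · linear_combination -hp2
  · rw [certY]
    field_simp
    linear_combination -hp2
  · rw [certY, certS]
    field_simp

/-- The chart of large `y` at a point, in the variables `p` and `1/n`. -/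
theorem farChartS_at {m : ℕ} {t : ℝ} (ht : t ∈ Icc (0 : ℝ) 1) :
    CertGrid.farChartS.At m t (ballShape t) (certS m) := by
  have hp2 : ballShape t ^ 2 = 1 - t ^ 2 := ball_sq ⟨by linarith [ht.1], ht.2⟩
  have hn : ((m : ℝ) + 1) ≠ 0 := by positivity
  constructor <;>
    simp only [CertGrid.farChartS, val_mul, val_sub, val_const, val_X, val_Y, Int.cast_one,
      Nat.cast_zero, zero_add, div_one, certS_pos]
  · linear_combination -hp2
  · rw [certS]
    field_simp
    linear_combination -hp2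
  · rw [certY_eq, div_mul_cancel₀ _ (certS_pos m).ne']

/-- What the checks of the supersolutions give. -/
def SuperOK (K : CertPot) (G : CertGrid) (m : ℕ) : Prop :=
  let c := K.cen.eval (certS m)
  let q := fun t => ballShape t ^ (m - 1) * K.W m t + ballShape t ^ (m - 1) * K.spare m
  let ξ := nodeT m (G.Y₁.eval (certS m))
  let η := nodeT m (G.Y₂.eval (certS m))
  0 ≤ c ∧ 0 ≤ K.s0.eval (certS m) ∧
  0 < G.Y₁.eval (certS m) ∧ G.Y₁.eval (certS m) < G.Y₂.eval (certS m) ∧
    certS m * G.Y₂.eval (certS m) < 1 ∧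
  ∃ φ F χ L : ℝ → ℝ, Picone.Supersolution (certK m c) q φ F 0 ξ ∧
    Picone.Supersolution (certK m c) q χ L ξ η ∧
    (∀ᶠ b in 𝓝[<] (1 : ℝ), Picone.Barrier (certK m c) q η b) ∧ F 0 ≤ 0

/-- The supersolution of a family, from the pointwise inequality. -/
theorem super_of_op {K : CertPot} {P : CertFam} {m : ℕ} (hm : 1 ≤ m) {a b : ℝ} (ha : 0 ≤ a)
    (hb : b < 1) (hh : ∀ t ∈ Icc a b, (P.fam (certS m)).Pos (certY m t) ∧
      K.Q m t + K.s0.eval (certS m) ≤ K.cen.eval (certS m) *
        certOp m (P.g.eval (certS m)) (P.fam (certS m)).L (P.fam (certS m)).L' t) :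
    Picone.Supersolution (certK m (K.cen.eval (certS m)))
      (fun t => ballShape t ^ (m - 1) * K.W m t + ballShape t ^ (m - 1) * K.spare m)
      (certFun m (P.g.eval (certS m)) (P.fam (certS m)).u)
      (certFlux m (K.cen.eval (certS m)) (P.g.eval (certS m)) (P.fam (certS m)).u
        (P.fam (certS m)).L) a b := by
  have e : (fun t => 2 / (m : ℝ) * ballShape t ^ (m - 1) * (K.Q m t + K.s0.eval (certS m))) =
      fun t => ballShape t ^ (m - 1) * K.W m t + ballShape t ^ (m - 1) * K.spare m := by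
    funext t
    simp only [CertPot.W, CertPot.spare]
    ring
  rw [← e]
  exact supersolution_of_op hm ha hb
    (fun t ht => ⟨(P.fam _).u_pos (hh t ht).1, (P.fam _).hasDerivAt_u (hh t ht).1,
      (P.fam _).hasDerivAt_L (hh t ht).1⟩) fun t ht => (hh t (Ioo_subset_Icc_self ht)).2

theorem CertGrid.memC_box {G : CertGrid} {m : ℕ} (hr : G.Range m) {y : ℝ}
    (hy : y ∈ Icc (0 : ℝ) 1) : Packed.memC G.box (certS m) y := by
  obtain ⟨hD, hlt, hlo, hhi⟩ := hr
  exact ⟨hD, hlt, (show (0 : ℤ) < G.D by exact_mod_cast hD), hlo, hhi,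
    by simpa [CertGrid.box] using mul_nonneg hy.1 hD.le, mul_le_of_le_one_left hD.le hy.2⟩

/-- A point of a finite chart. -/
theorem exists_chart {lo hi : QP} {m : ℕ} {u v t : ℝ} (hl : ∀ y, lo.val (certS m) y = u)
    (hh : ∀ y, hi.val (certS m) y = v) (huv : u < v) (ht : t ∈ Icc (0 : ℝ) 1)
    (h1 : u ≤ certY m t) (h2 : certY m t ≤ v) :
    ∃ y ∈ Icc (0 : ℝ) 1, (CertGrid.chart lo hi).At m t (certS m) y := by
  have hd : 0 < v - u := sub_pos.2 huv
  refine ⟨(certY m t - u) / (v - u), ⟨div_nonneg (sub_nonneg.2 h1) hd.le,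
    (div_le_one hd).2 (by linarith)⟩, chart_at ht ?_⟩
  rw [hl, hh, div_mul_cancel₀ _ hd.ne']
  ring

theorem val_qp_X (l : Lin) (m : ℕ) (y : ℝ) : (l.qp X).val (certS m) y = l.eval (certS m) :=
  l.val_qp (val_X _ y)

/-- The supersolution of a finite chart. -/
theorem super_fin {K : CertPot} {P : CertFam} {G : CertGrid} {lo hi : QP}
    {T : List WeightCert.Tree} (h : checkAll G.box (superPolys K P (CertGrid.chart lo hi)) T = true)
    {m : ℕ} (hm : 1 ≤ m) (hr : G.Range m) {u v : ℝ} (hl : ∀ y, lo.val (certS m) y = u)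
    (hh : ∀ y, hi.val (certS m) y = v) (huv : u < v) {a b : ℝ} (ha : 0 ≤ a) (hb : b < 1)
    (hu : u ≤ certY m a) (hv : certY m b ≤ v) :
    Picone.Supersolution (certK m (K.cen.eval (certS m)))
      (fun t => ballShape t ^ (m - 1) * K.W m t + ballShape t ^ (m - 1) * K.spare m)
      (certFun m (P.g.eval (certS m)) (P.fam (certS m)).u)
      (certFlux m (K.cen.eval (certS m)) (P.g.eval (certS m)) (P.fam (certS m)).u
        (P.fam (certS m)).L) a b := by
  refine super_of_op hm ha hb fun t ht => ?_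
  obtain ⟨y, hy, hR⟩ := exists_chart hl hh huv ⟨ha.trans ht.1, ht.2.trans hb.le⟩
    (hu.trans (certY_mono ha ht.1)) ((certY_mono (ha.trans ht.1) ht.2).trans hv)
  exact op_of_polys hR (checkAll_sound (CertGrid.memC_box hr hy) h)

/-- The numbers of the grid. -/
structure CertGrid.Facts (G : CertGrid) (m : ℕ) : Prop where
  y1 : 0 < G.Y₁.eval (certS m)
  y12 : G.Y₁.eval (certS m) < G.Y₂.eval (certS m)
  y23 : G.Y₂.eval (certS m) < G.Y₃.eval (certS m)
  s2 : certS m * G.Y₂.eval (certS m) < 1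
  far : 0 < (G.wb : ℝ) * G.Y₃.eval (certS m) - G.D ∧
    0 < G.D * (certS m * G.Y₃.eval (certS m)) + (G.pb - G.D) ∧ (0 : ℝ) < G.pb ∧
    (0 : ℝ) < G.wb - G.lo

theorem CertGrid.facts_of_check {G : CertGrid} {T : List WeightCert.Tree}
    (h : checkAll G.box G.gridPolys T = true) {m : ℕ} (hr : G.Range m) : G.Facts m := by
  have hgr := checkAll_sound (CertGrid.memC_box hr (y := 0) ⟨le_rfl, zero_le_one⟩) h
  simp only [List.forall_mem_cons, CertGrid.gridPolys, List.not_mem_nil, IsEmpty.forall_iff,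
    implies_true, and_true, val_add, val_sub, val_mul, val_const, val_X, val_qp_X] at hgr
  push_cast at hgr
  obtain ⟨g1, g2, g3, g4, g5, g6, g7, g8⟩ := hgr
  exact ⟨by linarith, by linarith, by linarith, by linarith, by linarith, by linarith, by linarith,
    by linarith⟩

theorem checkAll_tail {B : Box} {A : QP} {l : List QP} :
    ∀ {r : List WeightCert.Tree}, checkAll B (A :: l) r = true →
      ∃ r', checkAll B l r' = true
  | [], h => by simp [checkAll] at h
  | T :: r, h => by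
      simp only [checkAll, Bool.and_eq_true] at h
      exact ⟨r, h.2⟩

/-- The last supersolution, up to the end. -/
theorem super_tail {K : CertPot} {P : CertFam} {G : CertGrid} {Yl : Lin}
    {T₂ T₃ : List WeightCert.Tree}
    (h2 : checkAll G.box (fluxPoly P (CertGrid.chart (Yl.qp X) (G.Y₃.qp X)) ::
      superPolys K P (CertGrid.chart (Yl.qp X) (G.Y₃.qp X))) T₂ = true)
    (h3 : checkAll G.farBox (fluxPoly P CertGrid.farChart :: superPolys K P CertGrid.farChart) T₃
      = true ∨ checkAll G.farBoxS (fluxPoly P CertGrid.farChartS ::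
        superPolys K P CertGrid.farChartS) T₃ = true) {m : ℕ} (hm : 1 ≤ m) (hr : G.Range m) (hc : 0 ≤ K.cen.eval (certS m))
    (hG : G.Facts m) (h0 : 0 < Yl.eval (certS m))
    (h23 : Yl.eval (certS m) < G.Y₃.eval (certS m)) (hs : certS m * Yl.eval (certS m) < 1) :
    ∀ b ∈ Ioo (nodeT m (Yl.eval (certS m))) (1 : ℝ),
      Picone.Supersolution (certK m (K.cen.eval (certS m)))
        (fun t => ballShape t ^ (m - 1) * K.W m t + ballShape t ^ (m - 1) * K.spare m)
        (certFun m (P.g.eval (certS m)) (P.fam (certS m)).u)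
        (certFlux m (K.cen.eval (certS m)) (P.g.eval (certS m)) (P.fam (certS m)).u
          (P.fam (certS m)).L) (nodeT m (Yl.eval (certS m))) b ∧
      0 ≤ certFlux m (K.cen.eval (certS m)) (P.g.eval (certS m)) (P.fam (certS m)).u
        (P.fam (certS m)).L b := by
  obtain ⟨η0, η1, -⟩ := nodeT_mem h0 hs
  have eY := certY_node h0 hs
  set s := certS m with hsdef
  set η := nodeT m (Yl.eval s)
  obtain ⟨g5, g6, g7, g8⟩ := hG.far
  obtain ⟨hD, hlt, hlo, hhi⟩ := hr
  have key : ∀ t ∈ Ico η 1, ((P.fam s).Pos (certY m t) ∧ K.Q m t + K.s0.eval s ≤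
      K.cen.eval s * certOp m (P.g.eval s) (P.fam s).L (P.fam s).L' t) ∧
      0 ≤ certFlux m (K.cen.eval s) (P.g.eval s) (P.fam s).u (P.fam s).L t := fun t ht => by
    have htI : t ∈ Icc (0 : ℝ) 1 := ⟨η0.le.trans ht.1, ht.2.le⟩
    have htO : t ∈ Ioo (0 : ℝ) 1 := ⟨η0.trans_le ht.1, ht.2⟩
    have hlow : Yl.eval s ≤ certY m t := eY.symm.le.trans (certY_mono η0.le ht.1)
    rcases le_or_gt (certY m t) (G.Y₃.eval s) with hle | hgt
    · obtain ⟨y, hy, hR⟩ := exists_chart (lo := Yl.qp X) (hi := G.Y₃.qp X) (val_qp_X _ m)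
        (val_qp_X _ m) h23 htI hlow hle
      have hh := checkAll_sound (CertGrid.memC_box ⟨hD, hlt, hlo, hhi⟩ hy) h2
      have := op_of_polys hR fun A hA => hh A (List.mem_cons_of_mem _ hA)
      exact ⟨this, flux_nonneg_of_poly hR htO hc this.1 (hh _ (List.mem_cons_self ..))⟩
    · have hY3 : 0 < G.Y₃.eval s := h0.trans h23
      have hy0 : 0 < certY m t := hY3.trans hgt
      have hR := farChart_at htI hy0
      have hp := ball_pos (sub01 htO)
      have hwb : (0 : ℝ) < G.wb := by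
        by_contra hc'
        nlinarith [mul_nonpos_of_nonpos_of_nonneg (not_lt.1 hc') hY3.le]
      have hsy : s * certY m t = 1 - ballShape t := by
        rw [hsdef, certY_eq, mul_div_cancel₀ _ (certS_pos m).ne']
      rcases h3 with h3 | h3
      · have hmem' : Packed.memC G.farBox (ballShape t) (1 / certY m t) := by
          refine ⟨hD, by exact_mod_cast g7, by exact_mod_cast (show (G.lo : ℝ) < G.wb by linarith),
            by simpa [CertGrid.farBox] using mul_nonneg hp.le hD.le, ?_, ?_, ?_⟩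
          · simp only [CertGrid.farBox]
            nlinarith [mul_le_mul_of_nonneg_left hgt.le (mul_nonneg hD.le
              (show 0 ≤ s from (certS_pos m).le))]
          · simp only [CertGrid.farBox]
            rw [one_div_mul_eq_div, le_div_iff₀ hy0]
            nlinarith [mul_le_mul_of_nonneg_right hlo hy0.le, mul_nonneg hp.le hD.le]
          simp only [CertGrid.farBox]
          rw [one_div_mul_eq_div, div_le_iff₀ hy0]
          nlinarith [mul_le_mul_of_nonneg_left hgt.le hwb.le]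
        have hh := checkAll_sound hmem' h3
        have := op_of_polys hR fun A hA => hh A (List.mem_cons_of_mem _ hA)
        exact ⟨this, flux_nonneg_of_poly hR htO hc this.1 (hh _ (List.mem_cons_self ..))⟩
      · have hmem' : Packed.memC G.farBoxS (ballShape t) s := by
          refine ⟨hD, by exact_mod_cast g7, hlt,
            by simpa [CertGrid.farBoxS] using mul_nonneg hp.le hD.le, ?_, hlo, hhi⟩
          simp only [CertGrid.farBoxS]
          nlinarith [mul_le_mul_of_nonneg_left hgt.le (mul_nonneg hD.le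
            (show 0 ≤ s from (certS_pos m).le))]
        have hR' := farChartS_at (m := m) htI
        have hh := checkAll_sound hmem' h3
        have := op_of_polys hR' fun A hA => hh A (List.mem_cons_of_mem _ hA)
        exact ⟨this, flux_nonneg_of_poly hR' htO hc this.1 (hh _ (List.mem_cons_self ..))⟩
  exact fun b hb => ⟨super_of_op hm η0.le hb.2 fun t ht => (key t ⟨ht.1, ht.2.trans_lt hb.2⟩).1,
    (key b ⟨hb.1.le, hb.2⟩).2⟩

/-- The first two supersolutions. -/
theorem super_inner {K : CertPot} {P₀ P₁ : CertFam} {G : CertGrid}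
    {T₀ T₁ : List WeightCert.Tree}
    (h0 : checkAll G.box (superPolys K P₀ (CertGrid.chart (const 0 0) (G.Y₁.qp X))) T₀ = true)
    (h1 : checkAll G.box (superPolys K P₁ (CertGrid.chart (G.Y₁.qp X) (G.Y₂.qp X))) T₁ = true)
    {m : ℕ} (hm : 1 ≤ m) (hr : G.Range m) (hG : G.Facts m) :
    let c := K.cen.eval (certS m)
    let q := fun t => ballShape t ^ (m - 1) * K.W m t + ballShape t ^ (m - 1) * K.spare m
    let ξ := nodeT m (G.Y₁.eval (certS m))
    let η := nodeT m (G.Y₂.eval (certS m))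
    ∃ φ F χ L : ℝ → ℝ, Picone.Supersolution (certK m c) q φ F 0 ξ ∧
      Picone.Supersolution (certK m c) q χ L ξ η ∧ F 0 ≤ 0 := by
  intro c q ξ η
  have s1 : certS m * G.Y₁.eval (certS m) < 1 :=
    (mul_lt_mul_of_pos_left hG.y12 (certS_pos m)).trans hG.s2
  obtain ⟨ξ0, ξ1, -⟩ := nodeT_mem hG.y1 s1
  obtain ⟨-, η1, -⟩ := nodeT_mem (hG.y1.trans hG.y12) hG.s2
  exact ⟨_, _, _, _,
    super_fin h0 hm hr (u := 0) (fun y => by simp [val_const]) (val_qp_X _ m) hG.y1 le_rfl ξ1
      (certY_zero m).symm.le (certY_node hG.y1 s1).le,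
    super_fin h1 hm hr (val_qp_X _ m) (val_qp_X _ m) hG.y12 ξ0.le η1 (certY_node hG.y1 s1).symm.le
      (certY_node (hG.y1.trans hG.y12) hG.s2).le, certFlux_zero.le⟩

/-- The three supersolutions of a certificate. -/
theorem super_of_check {K : CertPot} {P₀ P₁ P₂ : CertFam} {G : CertGrid}
    {tg t0 t1 t2 t3 : List WeightCert.Tree} (h : superCheck K P₀ P₁ P₂ G tg t0 t1 t2 t3 = true)
    {m : ℕ} (hm : 1 ≤ m) (hr : G.Range m) : SuperOK K G m := by
  simp only [superCheck, Bool.and_eq_true] at h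
  obtain ⟨⟨⟨⟨hg, h0⟩, h1⟩, h2⟩, h3⟩ := h
  have hgr := checkAll_sound (CertGrid.memC_box hr (y := 0) ⟨le_rfl, zero_le_one⟩) hg
  simp only [List.forall_mem_cons, val_qp_X] at hgr
  obtain ⟨gc, gs, -⟩ := hgr
  obtain ⟨_, hg'⟩ := checkAll_tail hg
  obtain ⟨_, hg''⟩ := checkAll_tail hg'
  have hG := CertGrid.facts_of_check hg'' hr
  obtain ⟨φ, F, χ, L, hφ, hχ, hF⟩ := super_inner h0 h1 hm hr hG
  have ht := super_tail h2 (Or.inl h3) hm hr gc hG (hG.y1.trans hG.y12) hG.y23 hG.s2
  obtain ⟨-, η1, -⟩ := nodeT_mem (hG.y1.trans hG.y12) hG.s2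
  exact ⟨gc, gs, hG.y1, hG.y12, hG.s2, φ, F, χ, L, hφ, hχ,
    eventually_of_mem (Ioo_mem_nhdsLT η1) fun b hb => (ht b hb).1.barrier hb.1.le (ht b hb).2, hF⟩

/-- The sign of the jump of the log derivatives from the polynomial. -/
theorem junction_of_poly {K : CertPot} {P P' : CertFam} {R : Chart} {m : ℕ} {t x y : ℝ}
    (hR : R.At m t x y) (ht : t ∈ Ioo (0 : ℝ) 1) (hc : 0 ≤ K.cen.eval (certS m))
    (hpos : (P.fam (certS m)).Pos (certY m t)) (hpos' : (P'.fam (certS m)).Pos (certY m t))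
    (h : 0 ≤ (junctionPoly P P' R).val x y) :
    certFlux m (K.cen.eval (certS m)) (P'.g.eval (certS m)) (P'.fam (certS m)).u
        (P'.fam (certS m)).L t * certFun m (P.g.eval (certS m)) (P.fam (certS m)).u t ≤
      certFlux m (K.cen.eval (certS m)) (P.g.eval (certS m)) (P.fam (certS m)).u
        (P.fam (certS m)).L t * certFun m (P'.g.eval (certS m)) (P'.fam (certS m)).u t := by
  have eq : ∀ l : Lin, (l.qp R.s).val x y = l.eval (certS m) := fun l => l.val_qp hR.s
  have hw := hR.w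
  have eD : ∀ S : CertFam, (famD (S.a₁.qp R.s) (S.b₁.qp R.s) (S.a₂.qp R.s) (S.b₂.qp R.s)
      (S.a₃.qp R.s) (S.b₃.qp R.s) R.w R.v).val x y =
      (S.fam (certS m)).D (R.w.val x y) (R.v.val x y) := fun S => by
    simp only [famD, Fam.D, CertFam.fam, val_mul, val_add, eq]
  have eN : ∀ S : CertFam, (famN (S.a₁.qp R.s) (S.b₁.qp R.s) (S.a₂.qp R.s) (S.b₂.qp R.s)
      (S.a₃.qp R.s) (S.b₃.qp R.s) (S.e₁.qp R.s) (S.e₂.qp R.s) (S.e₃.qp R.s) R.w R.v).val x y =
      (S.fam (certS m)).N (R.w.val x y) (R.v.val x y) := fun S => by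
    simp only [famN, Fam.N, CertFam.fam, val_mul, val_add, eq]
  simp only [junctionPoly, val_mul, val_add, val_sub, eD, eN, hR.c, eq] at h
  have hD : ∀ S : CertFam, (S.fam (certS m)).Pos (certY m t) →
      0 < (S.fam (certS m)).D (R.w.val x y) (R.v.val x y) := fun S hS => by
    rw [hR.v]
    have f : ∀ α β : ℝ, α * R.w.val x y + β * (certY m t * R.w.val x y) =
        (α + β * certY m t) * R.w.val x y := fun α β => by ring
    simp only [Fam.D, f]
    exact mul_pos (mul_pos (mul_pos hS.1 hw) (mul_pos hS.2.1 hw)) (mul_pos hS.2.2 hw)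
  have hL := (P.fam (certS m)).L_mul_D hpos hR.v
  have hL' := (P'.fam (certS m)).L_mul_D hpos' hR.v
  have hDD := mul_pos (hD P hpos) (hD P' hpos')
  have hC : ballShape t * (P'.fam (certS m)).L (certY m t) + P'.g.eval (certS m) ≤
      ballShape t * (P.fam (certS m)).L (certY m t) + P.g.eval (certS m) := by
    refine le_of_sub_nonneg (nonneg_of_mul_nonneg_right (h.trans_eq ?_) hDD)
    linear_combination (-(ballShape t * (P'.fam (certS m)).D (R.w.val x y) (R.v.val x y))) * hL +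
      (ballShape t * (P.fam (certS m)).D (R.w.val x y) (R.v.val x y)) * hL'
  have hp := ball_pos (sub01 ht)
  have hk : 0 ≤ certK m (K.cen.eval (certS m)) t :=
    mul_nonneg (mul_nonneg (mul_nonneg hc (by positivity))
      (weightPoly_mem (ball_mem_Icc t)).1) (pow_nonneg hp.le _)
  simp only [certFlux, certField]
  have hu : 0 ≤ certFun m (P.g.eval (certS m)) (P.fam (certS m)).u t :=
    mul_nonneg ((P.fam (certS m)).u_pos hpos).le (Real.rpow_nonneg hp.le _)
  have hu' : 0 ≤ certFun m (P'.g.eval (certS m)) (P'.fam (certS m)).u t :=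
    mul_nonneg ((P'.fam (certS m)).u_pos hpos').le (Real.rpow_nonneg hp.le _)
  have hA : (0 : ℝ) ≤ ((m : ℝ) + 1) * t / ballShape t ^ 2 :=
    div_nonneg (mul_nonneg (by positivity) ht.1.le) (sq_nonneg _)
  have := mul_le_mul_of_nonneg_left hC (mul_nonneg (mul_nonneg (mul_nonneg hk hu) hu') hA)
  refine le_trans (le_of_eq ?_) (this.trans (le_of_eq ?_)) <;> ring

/-- The supersolutions with the outer interval split. -/
theorem super_of_split {K : CertPot} {P₀ P₁ P₂ P₃ : CertFam} {G : CertGrid} {Z : Lin}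
    {tg t0 t1 t2 tj t3 t4 : List WeightCert.Tree}
    (h : splitCheck K P₀ P₁ P₂ P₃ G Z tg t0 t1 t2 tj t3 t4 = true) {m : ℕ} (hm : 1 ≤ m)
    (hr : G.Range m) : SuperOK K G m := by
  simp only [splitCheck, Bool.and_eq_true] at h
  obtain ⟨⟨⟨⟨⟨⟨hg, h0⟩, h1⟩, h2⟩, hj⟩, h3⟩, h4⟩ := h
  have hgr := checkAll_sound (CertGrid.memC_box hr (y := 0) ⟨le_rfl, zero_le_one⟩) hg
  simp only [List.forall_mem_cons, val_sub, val_mul, val_const, val_X, val_qp_X] at hgr
  push_cast at hgr
  obtain ⟨gc, gs, ga, gb, gz, -⟩ := hgr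
  obtain ⟨_, k1⟩ := checkAll_tail hg
  obtain ⟨_, k2⟩ := checkAll_tail k1
  obtain ⟨_, k3⟩ := checkAll_tail k2
  obtain ⟨_, k4⟩ := checkAll_tail k3
  obtain ⟨_, k5⟩ := checkAll_tail k4
  have hG := CertGrid.facts_of_check k5 hr
  obtain ⟨φ, F, χ, L, hφ, hχ, hF⟩ := super_inner h0 h1 hm hr hG
  set z := Z.eval (certS m) with hz
  have hY2 := hG.y1.trans hG.y12
  have h2z : G.Y₂.eval (certS m) < z := by linarith
  have hsz : certS m * z < 1 := by linarith
  obtain ⟨η0, -, -⟩ := nodeT_mem hY2 hG.s2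
  obtain ⟨ζ0, ζ1, -⟩ := nodeT_mem (hY2.trans h2z) hsz
  have hηζ : nodeT m (G.Y₂.eval (certS m)) ≤ nodeT m z := by
    refine Real.sqrt_le_sqrt ?_
    nlinarith [mul_lt_mul_of_pos_left h2z (certS_pos m)]
  have eζ := certY_node (hY2.trans h2z) hsz
  have hs2 := super_fin h2 hm hr (val_qp_X _ m) (val_qp_X _ m) h2z η0.le ζ1
    (certY_node hY2 hG.s2).symm.le eζ.le
  have h4' : checkAll G.farBox (fluxPoly P₃ CertGrid.farChart ::
      superPolys K P₃ CertGrid.farChart) t4 = true ∨ checkAll G.farBoxS (fluxPoly P₃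
      CertGrid.farChartS :: superPolys K P₃ CertGrid.farChartS) t4 = true := by
    split_ifs at h4 with hl
    exacts [Or.inl h4, Or.inr h4]
  have ht := super_tail h3 h4' hm hr gc hG (hY2.trans h2z) (by linarith) hsz
  refine ⟨gc, gs, hG.y1, hG.y12, hG.s2, φ, F, χ, L, hφ, hχ,
    eventually_of_mem (Ioo_mem_nhdsLT ζ1) fun b hb => ?_, hF⟩
  have htO : nodeT m z ∈ Ioo (0 : ℝ) 1 := ⟨ζ0, ζ1⟩
  have m0 := CertGrid.memC_box hr (y := 0) ⟨le_rfl, zero_le_one⟩
  have at₁ : (CertGrid.chart (Z.qp X) (Z.qp X)).At m (nodeT m z) (certS m) 0 :=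
    chart_at ⟨ζ0.le, ζ1.le⟩ (by rw [eζ, val_qp_X]; ring)
  have at₂ : (CertGrid.chart (G.Y₂.qp X) (Z.qp X)).At m (nodeT m z) (certS m) 1 :=
    chart_at ⟨ζ0.le, ζ1.le⟩ (by rw [eζ, val_qp_X, val_qp_X]; ring)
  have at₃ : (CertGrid.chart (Z.qp X) (G.Y₃.qp X)).At m (nodeT m z) (certS m) 0 :=
    chart_at ⟨ζ0.le, ζ1.le⟩ (by rw [eζ, val_qp_X]; ring)
  refine Picone.barrier_of_glue hηζ hb.1.le hs2 (ht b hb).1 ?_ (ht b hb).2
  exact junction_of_poly at₁ htO gc
    (op_of_polys at₂ (checkAll_sound (CertGrid.memC_box hr ⟨zero_le_one, le_rfl⟩) h2)).1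
    (op_of_polys at₃ fun A hA => checkAll_sound m0 h3 A (List.mem_cons_of_mem _ hA)).1
    (checkAll_sound m0 hj _ (List.mem_cons_self ..))

end Vale.Agent.P237.Quant
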