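import Mathlib
import Vale.Agent.P237.Quant.Spectral

/-!
A closed envelope of a profile with power ratio at most one. Below a point `s` the profile is at
least the exponential through its values at `0` and `s`; the power constraint leaves only so much
room for the mass, so the value at `s` is exponentially small. The bound depends on `s` only
through `S = s / (r ^ m * V₀)`, with `V₀` the mass of the ball profile and `r` its ratio.
-/

namespace Vale.Agent.P237.Quant

open MeasureTheory Set Real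

variable {m : ℕ} {φ : ℝ → ℝ}

/-- The numerator of the envelope function. -/
noncomputable def envNum (l : ℝ) : ℝ := 2 - (2 + l) * exp (-l)

/-- The envelope function, increasing with slope at most one half. -/
noncomputable def envFun (l : ℝ) : ℝ := l / envNum l

theorem envNum_pos {l : ℝ} (hl : 0 < l) : 0 < envNum l := by
  rw [envNum, exp_neg, sub_pos, ← div_eq_mul_inv, div_lt_iff₀ (exp_pos l)]
  have := quadratic_le_exp_of_nonneg hl.le
  nlinarith

theorem hasDerivAt_envFun {l : ℝ} (hl : 0 < l) :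
    HasDerivAt envFun ((2 - (2 + 2 * l + l ^ 2) * exp (-l)) / envNum l ^ 2) l := by
  have hN : HasDerivAt envNum ((1 + l) * exp (-l)) l := by
    unfold envNum
    refine (((hasDerivAt_id' l).const_add 2).mul ((hasDerivAt_neg l).exp)).const_sub 2
      |>.congr_deriv ?_
    ring
  refine ((hasDerivAt_id' l).div hN (envNum_pos hl).ne').congr_deriv ?_
  rw [envNum]
  ring

theorem strictMonoOn_envFun : StrictMonoOn envFun (Ioi 0) := by
  refine strictMonoOn_of_deriv_pos (convex_Ioi 0)
    (fun l hl => (hasDerivAt_envFun hl).continuousAt.continuousWithinAt) fun l hl => ?_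
  rw [interior_Ioi] at hl
  rw [(hasDerivAt_envFun hl).deriv]
  refine div_pos ?_ (pow_pos (envNum_pos hl) 2)
  rw [exp_neg, sub_pos, ← div_eq_mul_inv, div_lt_iff₀ (exp_pos l)]
  have h3 := Real.sum_le_exp_of_nonneg (le_of_lt hl) 4
  simp only [Finset.sum_range_succ, Finset.sum_range_zero, Nat.factorial] at h3
  norm_num at h3
  nlinarith [pow_pos (show (0 : ℝ) < l from hl) 3]

/-- Below two, the exponential is below the Cayley transform. -/
theorem exp_mul_two_sub_le {l : ℝ} (hl : 0 ≤ l) : exp l * (2 - l) ≤ 2 + l := by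
  have h : MonotoneOn (fun x => 2 + x - exp x * (2 - x)) (Ici 0) := by
    refine monotoneOn_of_hasDerivWithinAt_nonneg (f' := fun x => 1 - exp x * (1 - x))
      (convex_Ici 0) (Continuous.continuousOn (by fun_prop)) (fun x _ => ?_) fun x _ => ?_
    · refine (HasDerivAt.hasDerivWithinAt ?_)
      refine (((hasDerivAt_id' x).const_add 2).sub
        ((Real.hasDerivAt_exp x).mul ((hasDerivAt_id' x).const_sub 2))).congr_deriv ?_
      ring
    · have h1 := mul_le_mul_of_nonneg_left (add_one_le_exp (-x)) (exp_pos x).le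
      rw [← exp_add, add_neg_cancel, exp_zero] at h1
      linarith
  have := h self_mem_Ici hl hl
  simpa using this

/-- The envelope function grows at most at half speed. -/
theorem envFun_sub_le {k l : ℝ} (hk : 0 < k) (hkl : k ≤ l) :
    envFun l - envFun k ≤ (l - k) / 2 := by
  have h : MonotoneOn (fun x => x / 2 - envFun x) (Ioi 0) := by
    refine monotoneOn_of_hasDerivWithinAt_nonneg
      (f' := fun x => 1 / 2 - (2 - (2 + 2 * x + x ^ 2) * exp (-x)) / envNum x ^ 2) (convex_Ioi 0)
      (fun x hx => ((continuousAt_id.div_const 2).sub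
        (hasDerivAt_envFun hx).continuousAt).continuousWithinAt) (fun x hx => ?_) fun x hx => ?_
    · rw [interior_Ioi] at hx
      exact (((hasDerivAt_id' x).div_const 2).sub (hasDerivAt_envFun hx)).hasDerivWithinAt
    · rw [interior_Ioi] at hx
      rw [sub_nonneg, div_le_iff₀ (pow_pos (envNum_pos hx) 2), envNum, exp_neg]
      have he := exp_pos x
      have h1 : exp x * (4 - 2 * x ^ 2) ≤ (2 + x) ^ 2 := by
        rcases le_total (4 - 2 * x ^ 2) 0 with h0 | h0
        · nlinarith
        · have h2 : (exp x * (2 - x)) * (2 + x) ≤ (2 + x) * (2 + x) :=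
            mul_le_mul_of_nonneg_right (exp_mul_two_sub_le (le_of_lt hx))
              (by linarith [show (0 : ℝ) < x from hx])
          nlinarith
      field_simp
      linarith
  have := h (show k ∈ Ioi (0 : ℝ) from hk) (show l ∈ Ioi (0 : ℝ) from hk.trans_le hkl) hkl
  simp only at this
  linarith

/-- An elementary bound between two exponentials. -/
theorem exp_gap_le {β l : ℝ} (hβ : 0 < β) (hl : 0 ≤ l) :
    (1 - β) * envNum l ≤ (1 - exp (-(β * l))) / β - β * (1 - exp (-l)) := by
  have h : MonotoneOn (fun x => (1 - exp (-(β * x))) / β - β * (1 - exp (-x)) -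
      (1 - β) * envNum x) (Ici 0) := by
    refine monotoneOn_of_hasDerivWithinAt_nonneg
      (f' := fun x => exp (-(β * x)) - β * exp (-x) - (1 - β) * ((1 + x) * exp (-x)))
      (convex_Ici 0) ((by unfold envNum; fun_prop : Continuous _).continuousOn) (fun x _ => ?_)
      fun x _ => ?_
    · refine HasDerivAt.hasDerivWithinAt ?_
      unfold envNum
      refine ((((((hasDerivAt_id' x).const_mul β).neg.exp).const_sub 1).div_const β).sub
        ((((hasDerivAt_neg x).exp).const_sub 1).const_mul β) |>.sub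
        ((((((hasDerivAt_id' x).const_add 2).mul ((hasDerivAt_neg x).exp))).const_sub 2).const_mul
          (1 - β))).congr_deriv ?_
      simp only [Pi.neg_apply]
      field_simp
      ring
    · rw [show -(β * x) = -x + (1 - β) * x by ring, exp_add]
      have := mul_le_mul_of_nonneg_left (add_one_le_exp ((1 - β) * x)) (exp_pos (-x)).le
      linarith
  have := h self_mem_Ici hl hl
  simp [envNum] at this ⊢
  linarith

/-- The Padé bound of the logarithm. -/
theorem log_one_add_le {x : ℝ} (hx : 0 ≤ x) : log (1 + x) ≤ x * (6 + x) / (6 + 4 * x) := by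
  have h : MonotoneOn (fun y => y * (6 + y) / (6 + 4 * y) - log (1 + y)) (Ici 0) := by
    refine monotoneOn_of_hasDerivWithinAt_nonneg
      (f' := fun y => 4 * y ^ 3 / ((6 + 4 * y) ^ 2 * (1 + y))) (convex_Ici 0)
      (ContinuousOn.sub (ContinuousOn.div (by fun_prop) (by fun_prop) fun y (hy : 0 ≤ y) => ne_of_gt
        (by linarith)) (ContinuousOn.log (by fun_prop) fun y (hy : 0 ≤ y) => ne_of_gt (by linarith)))
      (fun y hy => ?_) fun y hy => ?_
    · rw [interior_Ici] at hy
      have hy : 0 < y := hy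
      refine HasDerivAt.hasDerivWithinAt ?_
      refine ((((hasDerivAt_id' y).mul ((hasDerivAt_id' y).const_add 6)).div
        (((hasDerivAt_id' y).const_mul 4).const_add 6) (by linarith)).sub
        (((hasDerivAt_id' y).const_add 1).log (by linarith))).congr_deriv ?_
      simp only [Pi.mul_apply]
      field_simp
      ring
    · rw [interior_Ici] at hy
      have hy : 0 < y := hy
      positivity
  have := h self_mem_Ici hx hx
  simp only [mul_zero, add_zero, zero_mul, zero_div, log_one, sub_zero] at this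
  linarith

/-- Below a level `y` the power `k` grows faster than `k / (k + 1)` of the next power over `y`. -/
theorem pow_gap_le (k : ℕ) {a b y : ℝ} (hb : 0 ≤ b) (hba : b ≤ a) (hay : a ≤ y) :
    (k : ℝ) / (k + 1) * (a ^ (k + 1) - b ^ (k + 1)) ≤ y * (a ^ k - b ^ k) := by
  refine le_trans ?_ (mul_le_mul_of_nonneg_right hay (sub_nonneg.2 (pow_le_pow_left₀ hb hba k)))
  rw [div_mul_eq_mul_div, div_le_iff₀ (by positivity)]
  rcases hb.eq_or_lt with rfl | hb
  · rcases k with _ | k
    · simp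
    simp only [zero_pow (Nat.succ_ne_zero _), sub_zero]
    have := pow_nonneg (hb.trans hba) (k + 1 + 1)
    push_cast
    nlinarith [pow_succ a (k + 1)]
  have h := mul_le_mul_of_nonneg_left
    (one_add_mul_le_pow (a := a / b - 1) (by linarith [div_nonneg (hb.le.trans hba) hb.le]) (k + 1))
    (pow_nonneg hb.le (k + 1))
  rw [← mul_pow, show b * (1 + (a / b - 1)) = a by field_simp; ring, mul_add, mul_sub,
    mul_one] at h
  have e : b ^ (k + 1) * ((((k + 1 : ℕ) : ℝ)) * (a / b)) = (k + 1 : ℝ) * (a * b ^ k) := by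
    push_cast
    field_simp
    ring
  push_cast at h e
  nlinarith [pow_succ a k]

/-- Between the centre and `s` the profile is above the exponential through both values. -/
theorem exp_chord_le (hφ : IsShape φ) {s l : ℝ} (hs : s ∈ Ioo (0 : ℝ) 1)
    (hc : φ 0 * exp (-(l * s)) ≤ φ s) {t : ℝ} (ht : t ∈ Icc 0 s) :
    φ 0 * exp (-(l * t)) ≤ φ t := by
  have hw0 : 0 ≤ 1 - t / s := by
    rw [sub_nonneg, div_le_one hs.1]
    exact ht.2
  have hw1 : 0 ≤ t / s := div_nonneg ht.1 hs.1.le
  have h := hφ.concave.2 (show (0 : ℝ) ∈ Icc (-1 : ℝ) 1 by norm_num)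
    (show s ∈ Icc (-1 : ℝ) 1 from ⟨by linarith [hs.1], hs.2.le⟩) hw0 hw1 (by ring)
  simp only [smul_eq_mul, mul_zero, zero_add, div_mul_cancel₀ _ hs.1.ne'] at h
  have he := convexOn_exp.2 (mem_univ 0) (mem_univ (-(l * s))) hw0 hw1 (by ring)
  simp only [smul_eq_mul, mul_zero, zero_add, exp_zero, mul_one] at he
  rw [show t / s * -(l * s) = -(l * t) by field_simp [hs.1.ne']] at he
  calc φ 0 * exp (-(l * t)) ≤ φ 0 * ((1 - t / s) + t / s * exp (-(l * s))) :=
        mul_le_mul_of_nonneg_left he hφ.centre.le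
    _ = (1 - t / s) * φ 0 + t / s * (φ 0 * exp (-(l * s))) := by ring
    _ ≤ (1 - t / s) * φ 0 + t / s * φ s := by gcongr
    _ ≤ φ t := h

theorem integral_exp_neg {c s : ℝ} (hc : c ≠ 0) :
    ∫ t in (0 : ℝ)..s, exp (-(c * t)) = (1 - exp (-(c * s))) / c := by
  rw [intervalIntegral.integral_eq_sub_of_hasDerivAt (f := fun t => -exp (-(c * t)) / c)
    (fun t _ => ?_) ((by fun_prop : Continuous _).intervalIntegrable _ _)]
  · simp only [mul_zero, neg_zero, exp_zero]
    ring
  · refine ((((hasDerivAt_id' t).const_mul c).neg.exp).neg.div_const c).congr_deriv ?_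
    simp only [Pi.neg_apply]
    field_simp

/-- The power constraint in the form used here. -/
theorem power_mass_le (hm : 1 ≤ m) (hφ : IsShape φ) (hx : powRatio m φ ≤ 1) :
    0 < mass m φ 1 ∧ (∫ t in (0 : ℝ)..1, φ t ^ (m - 1)) ^ m ≤
      ballRatio m ^ m * mass m ballShape 1 * mass m φ 1 ^ (m - 1) := by
  have hV : 0 < mass m φ 1 :=
    intervalIntegral.intervalIntegral_pos_of_pos_on (intervalIntegrable_shape_pow01 hφ m)
      (fun s hs => pow_pos (shape_pos hφ (sub01 hs)) m) zero_lt_one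
  refine ⟨hV, ?_⟩
  obtain ⟨k, rfl⟩ : ∃ k, m = k + 1 := ⟨m - 1, by omega⟩
  have hS := ball_mass_pos (k + 1)
  have hP := ball_mass_pos k
  have hb : powVal (k + 1) ballShape =
      mass k ballShape 1 ^ (k + 1) / mass (k + 1) ballShape 1 ^ k := rfl
  rw [powRatio, div_le_one (hb ▸ div_pos (pow_pos hP _) (pow_pos hS _)), powVal, hb,
    Nat.add_sub_cancel, div_le_iff₀ (pow_pos hV _)] at hx
  refine hx.trans (le_of_eq ?_)
  rw [ballRatio, Nat.add_sub_cancel, div_pow, pow_succ (mass (k + 1) ballShape 1)]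
  field_simp

theorem intervalIntegrable_shape_pow_sub (hφ : IsShape φ) {a b : ℝ} (ha : 0 ≤ a) (hab : a ≤ b)
    (hb : b ≤ 1) (j : ℕ) : IntervalIntegrable (fun t => φ t ^ j) volume a b :=
  (intervalIntegrable_shape_pow01 hφ j).mono_set (by
    rw [uIcc_of_le hab, uIcc_of_le zero_le_one]
    exact Icc_subset_Icc ha hb)

/-- The centre is at least the mass over the power integral. -/
theorem mass_le_centre (hm : 1 ≤ m) (hφ : IsShape φ) (hx : powRatio m φ ≤ 1) :
    mass m φ 1 ≤ φ 0 ^ m * (ballRatio m ^ m * mass m ballShape 1) := by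
  obtain ⟨hV, hP⟩ := power_mass_le hm hφ hx
  obtain ⟨k, rfl⟩ : ∃ k, m = k + 1 := ⟨m - 1, by omega⟩
  have h : mass (k + 1) φ 1 ≤ φ 0 * ∫ t in (0 : ℝ)..1, φ t ^ k := by
    rw [mass, ← intervalIntegral.integral_const_mul]
    refine intervalIntegral.integral_mono_on zero_le_one (intervalIntegrable_shape_pow01 hφ _)
      ((intervalIntegrable_shape_pow01 hφ k).const_mul _) fun t ht => ?_
    have hI : t ∈ Icc (-1 : ℝ) 1 := ⟨by linarith [ht.1], ht.2⟩
    rw [pow_succ']
    exact mul_le_mul_of_nonneg_right (shape_le_centre hφ hI) (pow_nonneg (hφ.nonneg t hI) k)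
  have h2 := (pow_le_pow_left₀ hV.le h (k + 1)).trans_eq (mul_pow _ _ _)
  rw [Nat.add_sub_cancel] at hP
  have h3 := h2.trans (mul_le_mul_of_nonneg_left hP (pow_nonneg hφ.centre.le _))
  rw [pow_succ' (mass (k + 1) φ 1)] at h3
  exact le_of_mul_le_mul_right (h3.trans_eq (by ring)) (pow_pos hV k)

/-- The exponential below the profile and the power constraint, with the variable `W`. -/
theorem exp_tent_le (hm : 2 ≤ m) (hφ : IsShape φ) {s l : ℝ}
    (hs : s ∈ Ioo (0 : ℝ) 1) (hl : 0 < l) (hc : φ 0 * exp (-(l / m)) ≤ φ s) :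
    φ 0 ^ m * s * envNum l / l ≤
      m * (φ 0 * ∫ t in (0 : ℝ)..1, φ t ^ (m - 1)) - (m - 1) * mass m φ 1 := by
  obtain ⟨k, rfl⟩ : ∃ k, m = k + 1 := ⟨m - 1, by omega⟩
  have hk : (1 : ℝ) ≤ k := by exact_mod_cast (by omega : 1 ≤ k)
  obtain ⟨hs0, hs1⟩ := hs
  set y := φ 0 with hy
  have hy0 : 0 < y := hφ.centre
  set c := l / (((k + 1 : ℕ) : ℝ)) / s with hcdef
  have hc0 : 0 < c := div_pos (div_pos hl (by positivity)) hs0
  have hcs : c * s = l / ((k + 1 : ℕ) : ℝ) := div_mul_cancel₀ _ hs0.ne'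
  rw [← hcs] at hc
  set β : ℝ := (k : ℝ) / (k + 1) with hβ
  set D : ℝ → ℝ := fun t => y * φ t ^ k - β * φ t ^ (k + 1) with hD
  have iD : ∀ {a b : ℝ}, 0 ≤ a → a ≤ b → b ≤ 1 → IntervalIntegrable D volume a b :=
    fun ha hab hb => ((intervalIntegrable_shape_pow_sub hφ ha hab hb k).const_mul y).sub
      ((intervalIntegrable_shape_pow_sub hφ ha hab hb (k + 1)).const_mul β)
  have htail : 0 ≤ ∫ t in s..1, D t := intervalIntegral.integral_nonneg hs1.le fun t ht => by
    have hI : t ∈ Icc (-1 : ℝ) 1 := ⟨by linarith [ht.1], ht.2⟩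
    have h := pow_gap_le k le_rfl (hφ.nonneg t hI) (shape_le_centre hφ hI)
    rw [zero_pow (by omega : k ≠ 0), zero_pow (Nat.succ_ne_zero k), sub_zero, sub_zero] at h
    exact sub_nonneg.2 h
  have hhead : (∫ t in (0 : ℝ)..s, (y * (y * exp (-(c * t))) ^ k -
      β * (y * exp (-(c * t))) ^ (k + 1))) ≤ ∫ t in (0 : ℝ)..s, D t := by
    refine intervalIntegral.integral_mono_on hs0.le ((by fun_prop : Continuous _).intervalIntegrable _ _)
      (iD le_rfl hs0.le hs1.le) fun t ht => ?_
    have h := pow_gap_le k (mul_pos hy0 (exp_pos _)).le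
      (exp_chord_le hφ ⟨hs0, hs1⟩ hc ht)
      (shape_le_centre hφ ⟨by linarith [ht.1], by linarith [ht.2]⟩)
    simp only [hD]
    linarith
  have e1 : ∀ j : ℕ, ∀ t, (y * exp (-(c * t))) ^ j = y ^ j * exp (-((j : ℝ) * c * t)) :=
    fun j t => by
      rw [mul_pow, ← exp_nat_mul]
      ring_nf
  have hsum : (∫ t in (0 : ℝ)..1, D t) =
      y * (∫ t in (0 : ℝ)..1, φ t ^ k) - β * mass (k + 1) φ 1 := by
    rw [intervalIntegral.integral_sub ((intervalIntegrable_shape_pow01 hφ k).const_mul y)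
      ((intervalIntegrable_shape_pow01 hφ (k + 1)).const_mul β),
      intervalIntegral.integral_const_mul, intervalIntegral.integral_const_mul, mass]
  rw [← intervalIntegral.integral_add_adjacent_intervals (iD le_rfl hs0.le hs1.le)
    (iD hs0.le hs1.le le_rfl)] at hsum
  simp only [e1] at hhead
  rw [intervalIntegral.integral_sub ((by fun_prop : Continuous _).intervalIntegrable _ _)
      ((by fun_prop : Continuous _).intervalIntegrable _ _),
    intervalIntegral.integral_const_mul, intervalIntegral.integral_const_mul,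
    intervalIntegral.integral_const_mul, intervalIntegral.integral_const_mul,
    integral_exp_neg (by positivity), integral_exp_neg (by positivity)] at hhead
  have ek : (k : ℝ) * c * s = β * l := by
    rw [mul_assoc, hcs, hβ]
    push_cast
    ring
  have ek1 : ((k + 1 : ℕ) : ℝ) * c * s = l := by
    rw [mul_assoc, hcs, mul_div_cancel₀ _ (by positivity)]
  rw [ek, ek1] at hhead
  have hgap := mul_le_mul_of_nonneg_left (exp_gap_le (β := β) (by positivity) hl.le)
    (show 0 ≤ y ^ (k + 1) * s / l by positivity)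
  have e2 : y * (y ^ k * ((1 - exp (-(β * l))) / ((k : ℝ) * c))) -
      β * (y ^ (k + 1) * ((1 - exp (-l)) / (((k + 1 : ℕ) : ℝ) * c))) =
      y ^ (k + 1) * s / l * ((1 - exp (-(β * l))) / β - β * (1 - exp (-l))) := by
    rw [hcdef, hβ]
    push_cast
    field_simp
    ring
  rw [e2] at hhead
  have key : y ^ (k + 1) * s / l * ((1 - β) * envNum l) ≤
      y * (∫ t in (0 : ℝ)..1, φ t ^ k) - β * mass (k + 1) φ 1 := by linarith
  have := mul_le_mul_of_nonneg_left key (show (0 : ℝ) ≤ k + 1 by positivity)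
  rw [Nat.add_sub_cancel]
  push_cast
  rw [add_sub_cancel_right, hβ] at *
  field_simp at this ⊢
  linarith

/-- The envelope: with `S` a lower bound of `s / (r ^ m * V₀)`, the value at `s` is below the
exponential of `δ - k`. The hypothesis `hk` places `k` and the polynomial one `δ`. -/
theorem exp_envelope (hm : 4 ≤ m) (hφ : IsShape φ) (hx : powRatio m φ ≤ 1) {s S k δ : ℝ}
    (hs : s ∈ Ioo (0 : ℝ) 1) (hS0 : 0 < S)
    (hS : S * (ballRatio m ^ m * mass m ballShape 1) ≤ s)
    (hk0 : 0 < k) (hk : envFun k ≤ S)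
    (hδ : ∀ x : ℝ, 0 ≤ x → 4 * x * (6 + x) * (1 + 4 * x) ≤
      2 * S * x ^ 2 * (6 + 4 * x + x ^ 2) * (6 + 4 * x) + δ * (1 + 4 * x) * (6 + 4 * x)) :
    φ s ^ m * (ballRatio m ^ m * mass m ballShape 1) ≤ exp (δ - k) * mass m φ 1 := by
  have hm1 : 1 ≤ m := by omega
  obtain ⟨hV, hP⟩ := power_mass_le hm1 hφ hx
  have hWy := mass_le_centre hm1 hφ hx
  set κ := ballRatio m ^ m * mass m ballShape 1 with hκ
  have hκ0 : 0 < κ := mul_pos (pow_pos (ballRatio_pos m) m) (ball_mass_pos m)
  set V := mass m φ 1 with hVdef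
  set W := φ 0 ^ m * κ / V with hWdef
  have hW1 : 1 ≤ W := by rw [hWdef, le_div_iff₀ hV]; linarith
  have hW0 : 0 < W := zero_lt_one.trans_le hW1
  have hys : 0 < φ s := shape_pos hφ (sub01 hs)
  set a := φ s ^ m * κ / V with hadef
  have ha0 : 0 < a := by positivity
  suffices a ≤ exp (δ - k) by rwa [hadef, div_le_iff₀ hV] at this
  by_contra! hcon
  obtain ⟨ε, hε, hεa⟩ : ∃ ε > 0, δ + ε - k < log a := by
    have := (lt_log_iff_exp_lt ha0).2 hcon
    exact ⟨(log a - (δ - k)) / 2, by linarith, by linarith⟩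
  set l := log W + k - δ - ε with hldef
  have hsy : φ s ≤ φ 0 := shape_le_centre hφ ⟨by linarith [hs.1], hs.2.le⟩
  have haW : log a ≤ log W := log_le_log ha0 (by
    rw [hWdef, hadef]
    gcongr)
  have hl : 0 < l := by rw [hldef]; linarith
  have hla : log W - log a < l := by rw [hldef]; linarith
  -- the profile is above the exponential
  have hc : φ 0 * exp (-(l / m)) ≤ φ s := by
    refine (pow_le_pow_iff_left₀ (by have := hφ.centre; positivity) hys.le (by omega : m ≠ 0)).1 ?_
    rw [mul_pow, ← exp_nat_mul, show (m : ℝ) * -(l / m) = -l by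
      have : (m : ℝ) ≠ 0 := Nat.cast_ne_zero.2 (by omega)
      field_simp]
    have h1 : exp (-l) ≤ a / W := by
      rw [← exp_log (div_pos ha0 hW0), log_div ha0.ne' hW0.ne']
      exact exp_le_exp.2 (by linarith)
    calc φ 0 ^ m * exp (-l) ≤ φ 0 ^ m * (a / W) :=
          mul_le_mul_of_nonneg_left h1 (pow_nonneg hφ.centre.le m)
      _ = φ s ^ m := by
          rw [hadef, hWdef]
          have := pow_pos hφ.centre m
          field_simp
  have htent := exp_tent_le (by omega) hφ hs hl hc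
  set P := ∫ t in (0 : ℝ)..1, φ t ^ (m - 1) with hPdef
  set ρ := φ 0 * P / V with hρ
  have hP0 : 0 ≤ P := intervalIntegral.integral_nonneg zero_le_one fun t ht =>
    pow_nonneg (hφ.nonneg t ⟨by linarith [ht.1], ht.2⟩) _
  have hρ0 : 0 ≤ ρ := div_nonneg (mul_nonneg hφ.centre.le hP0) hV.le
  have hρW : ρ ^ m ≤ W := by
    rw [hρ, hWdef, div_pow, mul_pow, div_le_div_iff₀ (pow_pos hV m) hV]
    obtain ⟨j, rfl⟩ : ∃ j, m = j + 1 := ⟨m - 1, by omega⟩
    calc φ 0 ^ (j + 1) * P ^ (j + 1) * V ≤ φ 0 ^ (j + 1) * (κ * V ^ j) * V := by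
          have := pow_nonneg hφ.centre.le (j + 1)
          rw [Nat.add_sub_cancel] at hP
          gcongr
      _ = φ 0 ^ (j + 1) * κ * V ^ (j + 1) := by ring
  -- `W = (1 + x) ^ 4`
  set x := W ^ ((1 : ℝ) / 4) - 1 with hxdef
  have hv1 : 1 ≤ W ^ ((1 : ℝ) / 4) := one_le_rpow hW1 (by norm_num)
  have hx0 : 0 ≤ x := by linarith
  have hWx : W = (1 + x) ^ 4 := by
    rw [hxdef, add_sub_cancel, ← rpow_natCast, ← rpow_mul hW0.le]
    norm_num
  have hm4 : (4 : ℝ) ≤ m := by exact_mod_cast hm
  have hρx : (m : ℝ) * ρ - (m - 1) ≤ 1 + 4 * x := by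
    have h1 : ρ ≤ 1 + 4 / m * x := by
      refine (pow_le_pow_iff_left₀ hρ0 (by positivity) (by omega : m ≠ 0)).1 (hρW.trans ?_)
      rw [hWx]
      have h2 := rpow_one_add_le_one_add_mul_self (s := x) (by linarith)
        (p := 4 / (m : ℝ)) (by positivity) ((div_le_one (by linarith)).2 hm4)
      calc (1 + x) ^ (4 : ℕ) = ((1 + x) ^ (4 / (m : ℝ))) ^ m := by
            rw [← rpow_natCast (((1 + x) ^ (4 / (m : ℝ)))) m, ← rpow_mul (by linarith),
              div_mul_cancel₀ _ (by positivity), ← rpow_natCast]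
            norm_num
        _ ≤ _ := pow_le_pow_left₀ (rpow_nonneg (by linarith) _) h2 m
    have h3 := mul_le_mul_of_nonneg_left h1 (show (0 : ℝ) ≤ m by positivity)
    rw [mul_add, ← mul_assoc, mul_div_cancel₀ _ (by positivity : (m : ℝ) ≠ 0)] at h3
    linarith
  have hN := envNum_pos hl
  have hh : S * W / (1 + 4 * x) ≤ envFun l := by
    have h2 : W * S * envNum l / l ≤ (m : ℝ) * ρ - (m - 1) := by
      have e : φ 0 ^ m * s * envNum l / l / V = W * (s / κ) * envNum l / l := by
        rw [hWdef]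
        field_simp
      have h := div_le_div_of_nonneg_right htent hV.le
      rw [e, sub_div, mul_div_assoc (m : ℝ), ← hρ, mul_div_assoc _ V, div_self hV.ne', mul_one] at h
      refine le_trans ?_ h
      gcongr
      rwa [le_div_iff₀ hκ0]
    have h3 := h2.trans hρx
    rw [envFun, div_le_div_iff₀ (by linarith) hN]
    rw [div_le_iff₀ hl] at h3
    linarith
  have hlog : log W ≤ 4 * (x * (6 + x) / (6 + 4 * x)) := by
    rw [hWx, log_pow]
    push_cast
    linarith [log_one_add_le hx0]
  have hpoly : 4 * (x * (6 + x) / (6 + 4 * x)) ≤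
      2 * (S * W / (1 + 4 * x) - S) + δ := by
    have hd := hδ x hx0
    have e : 2 * (S * W / (1 + 4 * x) - S) + δ -
        4 * (x * (6 + x) / (6 + 4 * x)) = (2 * S * x ^ 2 * (6 + 4 * x + x ^ 2) * (6 + 4 * x) +
          δ * (1 + 4 * x) * (6 + 4 * x) - 4 * x * (6 + x) * (1 + 4 * x)) /
          ((1 + 4 * x) * (6 + 4 * x)) := by
      rw [hWx]
      field_simp
      ring
    have := div_nonneg (sub_nonneg.2 hd)
      (show 0 ≤ (1 + 4 * x) * (6 + 4 * x) by positivity)
    linarith
  have hG : S ≤ S * W / (1 + 4 * x) := by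
    rw [le_div_iff₀ (by positivity)]
    refine mul_le_mul_of_nonneg_left ?_ hS0.le
    rw [hWx]
    nlinarith [sq_nonneg x, mul_nonneg hx0 (sq_nonneg x), pow_nonneg hx0 4]
  rcases lt_or_ge l k with hlk | hlk
  · linarith [strictMonoOn_envFun hl hk0 hlk]
  · linarith [envFun_sub_le hk0 hlk]

/-- The envelope for `specU`, relative to the mass. -/
theorem specU_sq_le_envelope (hm : 4 ≤ m) (hφ : IsShape φ) (hx : powRatio m φ ≤ 1) {s S k δ : ℝ}
    (hs : s ∈ Ioo (0 : ℝ) 1) (hS0 : 0 < S)
    (hS : S * (ballRatio m ^ m * mass m ballShape 1) ≤ s)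
    (hk0 : 0 < k) (hk : envFun k ≤ S)
    (hδ : ∀ x : ℝ, 0 ≤ x → 4 * x * (6 + x) * (1 + 4 * x) ≤
      2 * S * x ^ 2 * (6 + 4 * x + x ^ 2) * (6 + 4 * x) + δ * (1 + 4 * x) * (6 + 4 * x)) :
    specU m φ s ^ 2 ≤ exp (δ - k) / (ballRatio m * ballShape s) ^ m *
      (mass m φ 1 / mass m ballShape 1) := by
  have hr := ballRatio_pos m
  have hp := ball_pos (sub01 hs)
  have hB := ball_mass_pos m
  have h := exp_envelope hm hφ hx hs hS0 hS hk0 hk hδ
  rw [specU_sq hφ (sub01 hs), div_pow, mul_pow, div_mul_div_comm,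
    div_le_div_iff₀ (pow_pos hp m) (by positivity)]
  calc φ s ^ m * (ballRatio m ^ m * ballShape s ^ m * mass m ballShape 1)
      = φ s ^ m * (ballRatio m ^ m * mass m ballShape 1) * ballShape s ^ m := by ring
    _ ≤ exp (δ - k) * mass m φ 1 * ballShape s ^ m :=
        mul_le_mul_of_nonneg_right h (pow_nonneg hp.le m)

/-- The mean of `specU` is at most the root of the relative mass. -/
theorem specM_sq_le_mass (hm : 2 ≤ m) (hφ : IsShape φ) (hx : powRatio m φ ≤ 1) :
    specM m φ ^ 2 ≤ mass m φ 1 / mass m ballShape 1 := by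
  have hm1 : 1 ≤ m := by omega
  have hM := specM_pos hm1 hφ
  have hS := ball_mass_pos m
  have hP := ball_mass_pos (m - 1)
  have i0 : IntervalIntegrable (fun t => ballShape t ^ (m - 1) * (fun _ : ℝ => (0 : ℝ)) t)
      volume 0 1 := by simp
  have h1 := excess_le hm hφ i0 fun t ht => by
    have hq : (1 : ℝ) ≤ 2 - 2 / (m : ℝ) := by
      have : 2 / (m : ℝ) ≤ 1 := (div_le_one (by positivity)).2 (by exact_mod_cast hm)
      linarith
    have hu := div_pos (specU_pos (m := m) hφ (sub01 ht)) hM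
    have h := one_add_mul_self_le_rpow_one_add
      (s := specU m φ t / specM m φ - 1) (by linarith) hq
    rw [add_sub_cancel] at h
    simpa [specV] using h
  have h2 := excess_lower hm hφ hx
  have he := mass_expand hm1 hφ
  have h3 : specQuad m (fun t => ballRatio m * ballShape t - 1) (specV m φ) +
      specQuad m (fun _ => 1) (specV m φ) = (∫ t in (0 : ℝ)..1, ballShape t ^ (m - 1) *
        (ballRatio m * ballShape t * specV m φ t ^ 2)) / mass (m - 1) ballShape 1 := by
    have k1 := intervalIntegrable_quad hm1 hφ (g := fun t => ballRatio m * ballShape t - 1)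
      ((cont_ball.const_smul (ballRatio m)).measurable.sub_const 1) (C := ballRatio m + 1)
      fun t _ => (abs_sub _ _).trans (add_le_add (ball_bound m) (le_of_eq abs_one))
    have k2 := intervalIntegrable_quad hm1 hφ (g := fun _ => (1 : ℝ)) measurable_const (C := 1)
      fun t _ => le_of_eq abs_one
    rw [specQuad, specQuad, specMean, specMean, ← add_div,
      ← intervalIntegral.integral_add k1 k2]
    congr 1
    exact integral_congr01 fun t _ => by ring
  have h0 : specMean m (fun _ : ℝ => (0 : ℝ)) = 0 := by simp [specMean]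
  rw [h0, mul_zero, sub_zero] at h1
  have h4 : 0 ≤ specLin m (specV m φ) + (∫ t in (0 : ℝ)..1, ballShape t ^ (m - 1) *
      (ballRatio m * ballShape t * specV m φ t ^ 2)) / mass (m - 1) ballShape 1 := by linarith
  have h5 := mul_nonneg h4 hP.le
  rw [add_mul, div_mul_cancel₀ _ hP.ne'] at h5
  have h6 : mass (m - 1) ballShape 1 ≤ ballRatio m * mass m φ 1 / specM m φ ^ 2 := by
    rw [he]
    linarith
  rw [le_div_iff₀ (pow_pos hM 2)] at h6
  rw [le_div_iff₀ hS]
  refine le_of_mul_le_mul_left ?_ (ballRatio_pos m)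
  calc ballRatio m * (specM m φ ^ 2 * mass m ballShape 1)
      = (ballRatio m * mass m ballShape 1) * specM m φ ^ 2 := by ring
    _ = mass (m - 1) ballShape 1 * specM m φ ^ 2 := by rw [ballRatio, div_mul_cancel₀ _ hS.ne']
    _ ≤ ballRatio m * mass m φ 1 := h6

/-- The centre of `specU` is at least a fixed multiple of the mean. -/
theorem specU_centre_lower (hm : 2 ≤ m) (hφ : IsShape φ) (hx : powRatio m φ ≤ 1) {u₀ : ℝ}
    (hu : 0 ≤ u₀) (h : u₀ ^ 2 * ballRatio m ^ m ≤ 1) :
    specM m φ * u₀ ≤ specU m φ 0 := by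
  have hB := ball_mass_pos m
  refine (pow_le_pow_iff_left₀ (mul_nonneg (specM_pos (by omega) hφ).le hu)
    (specU_pos hφ (by norm_num)).le two_ne_zero).1 ?_
  rw [specU_sq hφ (by norm_num), show ballShape 0 = 1 by simp [ballShape], div_one, mul_pow]
  calc specM m φ ^ 2 * u₀ ^ 2 ≤ mass m φ 1 / mass m ballShape 1 * u₀ ^ 2 :=
        mul_le_mul_of_nonneg_right (specM_sq_le_mass hm hφ hx) (sq_nonneg _)
    _ ≤ φ 0 ^ m * ballRatio m ^ m * u₀ ^ 2 := by
        refine mul_le_mul_of_nonneg_right ?_ (sq_nonneg _)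
        rw [div_le_iff₀ hB]
        linarith [mass_le_centre (by omega) hφ hx]
    _ = φ 0 ^ m * (u₀ ^ 2 * ballRatio m ^ m) := by ring
    _ ≤ φ 0 ^ m := mul_le_of_le_one_right (pow_nonneg hφ.centre.le m) h

/-- The envelope in the form of `chord_of_bounds`, given the mass against the squared mean. -/
theorem specU_le_envelope (hm : 4 ≤ m) (hφ : IsShape φ) (hx : powRatio m φ ≤ 1)
    {s S k δ σ U : ℝ} (hM : mass m φ 1 / mass m ballShape 1 ≤ σ * specM m φ ^ 2)
    (hs : s ∈ Ioo (0 : ℝ) 1) (hS0 : 0 < S)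
    (hS : S * (ballRatio m ^ m * mass m ballShape 1) ≤ s)
    (hk0 : 0 < k) (hk : envFun k ≤ S)
    (hδ : ∀ x : ℝ, 0 ≤ x → 4 * x * (6 + x) * (1 + 4 * x) ≤
      2 * S * x ^ 2 * (6 + 4 * x + x ^ 2) * (6 + 4 * x) + δ * (1 + 4 * x) * (6 + 4 * x))
    (hU0 : 0 ≤ U) (hU : σ * exp (δ - k) ≤ U ^ 2 * (ballRatio m * ballShape s) ^ m) :
    specU m φ s ≤ specM m φ * U := by
  refine (pow_le_pow_iff_left₀ (specU_pos hφ (sub01 hs)).le
    (mul_nonneg (specM_pos (by omega) hφ).le hU0) two_ne_zero).1 ?_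
  have hd : 0 < (ballRatio m * ballShape s) ^ m :=
    pow_pos (mul_pos (ballRatio_pos m) (ball_pos (sub01 hs))) m
  calc specU m φ s ^ 2 ≤ exp (δ - k) / (ballRatio m * ballShape s) ^ m *
        (mass m φ 1 / mass m ballShape 1) := specU_sq_le_envelope hm hφ hx hs hS0 hS hk0 hk hδ
    _ ≤ exp (δ - k) / (ballRatio m * ballShape s) ^ m * (σ * specM m φ ^ 2) :=
        mul_le_mul_of_nonneg_left hM (by positivity)
    _ = specM m φ ^ 2 * (σ * exp (δ - k) / (ballRatio m * ballShape s) ^ m) := by ring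
    _ ≤ specM m φ ^ 2 * U ^ 2 := by
        refine mul_le_mul_of_nonneg_left ?_ (sq_nonneg _)
        rwa [div_le_iff₀ hd]
    _ = (specM m φ * U) ^ 2 := (mul_pow _ _ _).symm

end Vale.Agent.P237.Quant
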