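import Vale.Agent.P237.Quant.WeightCurv

/-!
Moments of the ball profile: the recursions in the power and in the exponent of `t`, and a
bracket of third order for the ratio of consecutive masses.
-/

namespace Vale.Agent.P237.Quant

open MeasureTheory Set Filter Topology

/-- `∫₀¹ p ^ a t ^ (2 j)`. -/
noncomputable def ballMom (a j : ℕ) : ℝ := ∫ t in (0 : ℝ)..1, ballShape t ^ a * t ^ (2 * j)

theorem ballMom_zero (a : ℕ) : ballMom a 0 = mass a ballShape 1 := by
  simp [ballMom, mass]

theorem ballMom_intervalIntegrable (a j : ℕ) :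
    IntervalIntegrable (fun t => ballShape t ^ a * t ^ (2 * j)) volume 0 1 :=
  ((cont_pow a).mul (continuous_id.pow _)).intervalIntegrable _ _

theorem ballMom_succ_eq (a j : ℕ) : ballMom a (j + 1) = ballMom a j - ballMom (a + 2) j := by
  rw [ballMom, ballMom, ballMom, ← intervalIntegral.integral_sub (ballMom_intervalIntegrable a j)
    (ballMom_intervalIntegrable (a + 2) j)]
  refine intervalIntegral.integral_congr fun t ht => ?_
  rw [uIcc_of_le zero_le_one] at ht
  rw [pow_add _ a 2, ball_sq ⟨by linarith [ht.1], ht.2⟩, show 2 * (j + 1) = 2 * j + 2 by ring,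
    pow_add t]
  ring

theorem ballMom_add_two (j : ℕ) : ∀ a : ℕ,
    ((a : ℝ) + 2 * j + 3) * ballMom (a + 2) j = ((a : ℝ) + 2) * ballMom a j := by
  induction j with
  | zero => intro a; simp only [ballMom_zero, Nat.cast_zero, mul_zero, add_zero]; exact ball_mass_rec a
  | succ j ih =>
    intro a
    have h1 := ih a
    have h2 := ih (a + 2)
    rw [ballMom_succ_eq a j, ballMom_succ_eq (a + 2) j]
    push_cast at h2 ⊢
    linear_combination h1 - h2

theorem ballMom_succ (a j : ℕ) :
    ((a : ℝ) + 2 * j + 3) * ballMom a (j + 1) = (2 * (j : ℝ) + 1) * ballMom a j := by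
  rw [ballMom_succ_eq]
  linear_combination -ballMom_add_two j a

theorem ballMom_pred (m : ℕ) :
    mass (m - 1) ballShape 1 = ballRatio m * mass m ballShape 1 := by
  rw [ballRatio, div_mul_cancel₀ _ (ball_mass_pos m).ne']

/-- The product of two consecutive ratios. -/
theorem ballRatio_mul_succ {m : ℕ} (hm : 1 ≤ m) :
    ballRatio m * ballRatio (m + 1) = ((m : ℝ) + 2) / (m + 1) := by
  obtain ⟨k, rfl⟩ : ∃ k, m = k + 1 := ⟨m - 1, by omega⟩
  have h := ball_mass_rec k
  have := ball_mass_pos (k + 1)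
  have := ball_mass_pos (k + 2)
  rw [ballRatio, ballRatio, Nat.add_sub_cancel, Nat.add_sub_cancel,
    div_mul_div_cancel₀ (ball_mass_pos (k + 1)).ne', show k + 1 + 1 = k + 2 from rfl,
    div_eq_div_iff (ball_mass_pos (k + 2)).ne' (by positivity)]
  push_cast
  linear_combination -h

theorem ballRatio_le {m : ℕ} (hm : 1 ≤ m) : ballRatio m ≤ ((m : ℝ) + 2) / (m + 1) := by
  rw [← ballRatio_mul_succ hm]
  exact le_mul_of_one_le_right (zero_le_one.trans (one_le_ballRatio m)) (one_le_ballRatio _)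

/-- The approximation of third order to the ratio at `s = 1 / (m + 1)`, lowered by `u s⁴ / 24`. -/
noncomputable def ratioCubic (m : ℕ) (u : ℝ) : ℝ :=
  let s := 1 / ((m : ℝ) + 1)
  1 + s / 2 + s ^ 2 * (1 / 8 - s / 16 - u * s ^ 2 / 24)

theorem ratioCubic_pos (m : ℕ) {u : ℝ} (hu : u ∈ Icc (0 : ℝ) 1) : 0 < ratioCubic m u := by
  have h0 : (0 : ℝ) ≤ 1 / ((m : ℝ) + 1) := by positivity
  have h1 : 1 / ((m : ℝ) + 1) ≤ 1 := by
    rw [div_le_one (by positivity)]; linarith [(Nat.cast_nonneg m : (0 : ℝ) ≤ m)]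
  simp only [ratioCubic]
  set s := 1 / ((m : ℝ) + 1)
  have : s ^ 2 ≤ 1 := pow_le_one₀ h0 h1
  have : 0 ≤ 1 / 8 - s / 16 - u * s ^ 2 / 24 := by nlinarith [hu.1, hu.2, sq_nonneg s]
  positivity

/-- Iteration of the two-step recursion. -/
theorem ballRatio_iterate {m : ℕ} (hm : 1 ≤ m) (S : ℕ → ℝ) (θ : ℝ) (up : Bool) (hθ : 0 ≤ θ)
    (h0 : ballRatio m = θ * S m)
    (hstep : ∀ k, m ≤ k → if up then S (k + 2) ≤ ((k : ℝ) + 1) * ((k : ℝ) + 3) / ((k : ℝ) + 2) ^ 2 * S k
      else ((k : ℝ) + 1) * ((k : ℝ) + 3) / ((k : ℝ) + 2) ^ 2 * S k ≤ S (k + 2)) :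
    ∀ j, if up then θ * S (m + 2 * j) ≤ ballRatio (m + 2 * j)
      else ballRatio (m + 2 * j) ≤ θ * S (m + 2 * j) := by
  intro j
  induction j with
  | zero => cases up <;> simp [h0]
  | succ j ih =>
    rw [show m + 2 * (j + 1) = (m + 2 * j) + 2 by ring, ballRatio_add_two (by omega)]
    have h := hstep (m + 2 * j) (by omega)
    set k := m + 2 * j
    have hf : (0 : ℝ) ≤ ((k : ℝ) + 1) * ((k : ℝ) + 3) / ((k : ℝ) + 2) ^ 2 := by positivity
    cases up
    · simp only [Bool.false_eq_true, if_false] at h ih ⊢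
      nlinarith [mul_le_mul_of_nonneg_left ih hf, mul_le_mul_of_nonneg_left h hθ]
    · simp only [if_true] at h ih ⊢
      nlinarith [mul_le_mul_of_nonneg_left ih hf, mul_le_mul_of_nonneg_left h hθ]

theorem ratioCubic_step (k : ℕ) (hk : 3 ≤ k) :
    ratioCubic (k + 2) 0 ≤ ((k : ℝ) + 1) * ((k : ℝ) + 3) / ((k : ℝ) + 2) ^ 2 * ratioCubic k 0 ∧
      ((k : ℝ) + 1) * ((k : ℝ) + 3) / ((k : ℝ) + 2) ^ 2 * ratioCubic k 1 ≤ ratioCubic (k + 2) 1 := by
  obtain ⟨i, rfl⟩ : ∃ i, k = i + 3 := ⟨k - 3, by omega⟩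
  have hi : (0 : ℝ) ≤ i := Nat.cast_nonneg i
  simp only [ratioCubic]
  push_cast
  constructor <;> rw [← sub_nonneg] <;> field_simp <;> ring_nf <;> positivity

/-- The bracket of third order. -/
theorem ballRatio_bracket {m : ℕ} (hm : 3 ≤ m) :
    ratioCubic m 1 ≤ ballRatio m ∧ ballRatio m ≤ ratioCubic m 0 := by
  have lim : Tendsto (fun j : ℕ => ((m + 2 * j : ℕ) : ℝ)) atTop atTop :=
    tendsto_natCast_atTop_atTop.comp (tendsto_atTop_mono (fun j => by simp only [id]; omega) tendsto_id)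
  have hs : Tendsto (fun j : ℕ => 1 / (((m + 2 * j : ℕ) : ℝ) + 1)) atTop (𝓝 0) := by
    simp only [one_div]
    exact (lim.atTop_add tendsto_const_nhds).inv_tendsto_atTop
  have hS : ∀ u, Tendsto (fun j => ratioCubic (m + 2 * j) u) atTop (𝓝 1) := fun u => by
    have h : Continuous fun s : ℝ => 1 + s / 2 + s ^ 2 * (1 / 8 - s / 16 - u * s ^ 2 / 24) := by
      fun_prop
    have h' := (h.tendsto 0).comp hs
    simp only [zero_div, add_zero, ne_eq, OfNat.ofNat_ne_zero, not_false_eq_true, zero_pow,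
      mul_zero, zero_mul] at h'
    exact h'.congr fun j => rfl
  have hr : Tendsto (fun j => ballRatio (m + 2 * j)) atTop (𝓝 1) := by
    refine tendsto_of_tendsto_of_tendsto_of_le_of_le tendsto_const_nhds
      (show Tendsto (fun j : ℕ => 1 + 1 / (((m + 2 * j : ℕ) : ℝ) + 1)) atTop (𝓝 1) by
        simpa using tendsto_const_nhds.add hs) (fun j => one_le_ballRatio _) fun j => ?_
    refine (ballRatio_le (by omega)).trans (le_of_eq ?_)
    field_simp
    ring
  constructor
  · have hp := ratioCubic_pos m (u := 1) (by norm_num)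
    have h := ballRatio_iterate (by omega) (fun k => ratioCubic k 1) (ballRatio m / ratioCubic m 1)
      false (div_nonneg (zero_le_one.trans (one_le_ballRatio m)) hp.le)
      (by rw [div_mul_cancel₀ _ hp.ne'])
      fun k hk => (ratioCubic_step k (hm.trans hk)).2
    simp only [Bool.false_eq_true, if_false] at h
    have := le_of_tendsto_of_tendsto' hr ((hS 1).const_mul _) h
    rwa [mul_one, le_div_iff₀ hp, one_mul] at this
  · have hp := ratioCubic_pos m (u := 0) (by norm_num)
    have h := ballRatio_iterate (by omega) (fun k => ratioCubic k 0) (ballRatio m / ratioCubic m 0)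
      true (div_nonneg (zero_le_one.trans (one_le_ballRatio m)) hp.le)
      (by rw [div_mul_cancel₀ _ hp.ne'])
      fun k hk => (ratioCubic_step k (hm.trans hk)).1
    simp only [if_true] at h
    have := le_of_tendsto_of_tendsto' ((hS 0).const_mul _) hr h
    rwa [mul_one, div_le_iff₀ hp, one_mul] at this

end Vale.Agent.P237.Quant
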