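import Mathlib
import Vale.Agent.P237.Quant.ChordEnvelope

/-!
The slope of the chord from the centre. With the value at `s` above the exponential of rate `l`, the
cheapest way to place the mass under the power constraint is a flat top followed by that
exponential; this forces `φ s ^ m ≤ exp (-l) * φ 0 ^ m` under one inequality in `l` and
`S = s / (r ^ m * V₀)`, whatever the centre is.
-/

namespace Vale.Agent.P237.Quant

open MeasureTheory Set Real

variable {m : ℕ} {φ : ℝ → ℝ}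

/-- Above a level `b` the power `k` grows slower than `k / (k + 1)` of the next power over `b`. -/
theorem pow_gap_ge (k : ℕ) {a b : ℝ} (hb : 0 ≤ b) (hba : b ≤ a) :
    b * (a ^ k - b ^ k) ≤ (k : ℝ) / (k + 1) * (a ^ (k + 1) - b ^ (k + 1)) := by
  rw [div_mul_eq_mul_div, le_div_iff₀ (by positivity)]
  rcases (hb.trans hba).eq_or_lt with h0 | ha
  · obtain rfl : b = a := le_antisymm hba (h0 ▸ hb)
    simp
  have h := mul_le_mul_of_nonneg_left
    (one_add_mul_le_pow (a := b / a - 1) (by linarith [div_nonneg hb ha.le]) (k + 1))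
    (pow_nonneg ha.le (k + 1))
  rw [← mul_pow, show a * (1 + (b / a - 1)) = b by field_simp; ring, mul_add, mul_sub,
    mul_one] at h
  have e : a ^ (k + 1) * ((((k + 1 : ℕ) : ℝ)) * (b / a)) = (k + 1 : ℝ) * (b * a ^ k) := by
    push_cast
    field_simp
    ring
  push_cast at h e
  nlinarith [pow_succ b k]

/-- The function weighed in the bathtub step. -/
def tubFun (k : ℕ) (y μ x : ℝ) : ℝ := y * x ^ k - μ * x ^ (k + 1)

theorem min_le_tubFun (k : ℕ) {y μ a b x : ℝ} (hμ : 0 < μ) (ha : 0 ≤ a) (hax : a ≤ x)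
    (hxb : x ≤ b) : min (tubFun k y μ a) (tubFun k y μ b) ≤ tubFun k y μ x := by
  have hk : (0 : ℝ) < k + 1 := by positivity
  rcases le_total (μ * (k + 1) * x) (y * k) with h | h
  · refine (min_le_left _ _).trans (sub_nonneg.1 ?_)
    have h1 := pow_gap_le k ha hax le_rfl
    have h2 := mul_le_mul_of_nonneg_left h1 (show 0 ≤ μ * (k + 1) by positivity)
    have h3 := mul_le_mul_of_nonneg_right h (sub_nonneg.2 (pow_le_pow_left₀ ha hax k))
    have e : μ * (k + 1) * ((k : ℝ) / (k + 1) * (x ^ (k + 1) - a ^ (k + 1))) =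
        k * (μ * (x ^ (k + 1) - a ^ (k + 1))) := by field_simp
    rw [e] at h2
    rcases k.eq_zero_or_pos with rfl | hk0
    · simp only [tubFun, pow_zero, zero_add, pow_one, CharP.cast_eq_zero, mul_zero,
        mul_one] at h ⊢
      nlinarith [mul_nonneg hμ.le (ha.trans hax)]
    refine nonneg_of_mul_nonneg_right ?_ (Nat.cast_pos.2 hk0)
    simp only [tubFun]
    linarith
  · refine (min_le_right _ _).trans (sub_nonneg.1 ?_)
    have hx : 0 ≤ x := ha.trans hax
    have h1 := pow_gap_ge k hx hxb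
    have h2 := mul_le_mul_of_nonneg_left h1 (show 0 ≤ μ * (k + 1) by positivity)
    have h3 := mul_le_mul_of_nonneg_right h (sub_nonneg.2 (pow_le_pow_left₀ hx hxb k))
    have e : μ * (k + 1) * ((k : ℝ) / (k + 1) * (b ^ (k + 1) - x ^ (k + 1))) =
        k * (μ * (b ^ (k + 1) - x ^ (k + 1))) := by field_simp
    rw [e] at h2
    rcases k.eq_zero_or_pos with rfl | hk0
    · simp only [tubFun, pow_zero, zero_add, pow_one, mul_one]
      nlinarith
    refine nonneg_of_mul_nonneg_right ?_ (Nat.cast_pos.2 hk0)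
    simp only [tubFun]
    linarith

theorem tubFun_mono (k : ℕ) {y μ a b : ℝ} (hμ : 0 < μ) (ha : 0 ≤ a) (hab : a ≤ b)
    (hb : μ * (k + 1) * b ≤ y * k) : tubFun k y μ a ≤ tubFun k y μ b := by
  rcases k.eq_zero_or_pos with rfl | hk0
  · have : b ≤ 0 := by
      simp only [CharP.cast_eq_zero, zero_add, mul_one, mul_zero] at hb
      nlinarith
    obtain rfl : a = b := le_antisymm hab (this.trans ha)
    rfl
  have h1 := pow_gap_le k ha hab le_rfl
  have h2 := mul_le_mul_of_nonneg_left h1 (show 0 ≤ μ * (k + 1) by positivity)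
  have h3 := mul_le_mul_of_nonneg_right hb (sub_nonneg.2 (pow_le_pow_left₀ ha hab k))
  have e : μ * (k + 1) * ((k : ℝ) / (k + 1) * (b ^ (k + 1) - a ^ (k + 1))) =
      k * (μ * (b ^ (k + 1) - a ^ (k + 1))) := by field_simp
  rw [e] at h2
  refine sub_nonneg.1 (nonneg_of_mul_nonneg_right ?_ (Nat.cast_pos.2 hk0))
  simp only [tubFun]
  linarith

/-- The multiplier that levels the function at `c` and at the top. -/
theorem exists_tub_multiplier {k : ℕ} (hk : 1 ≤ k) {y c : ℝ} (hc : 0 ≤ c) (hcy : c ≤ y)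
    (hy : 0 < y) : ∃ μ, 0 < μ ∧ μ ≤ 1 ∧ μ * (k + 1) * c ≤ y * k ∧
      tubFun k y μ c = tubFun k y μ y := by
  have hk0 : (0 : ℝ) < k := by exact_mod_cast hk
  rcases hcy.eq_or_lt with rfl | hlt
  · exact ⟨k / (k + 1), by positivity, (div_le_one (by positivity)).2 (by linarith),
      le_of_eq (by field_simp), rfl⟩
  have hd : 0 < y ^ (k + 1) - c ^ (k + 1) :=
    sub_pos.2 (pow_lt_pow_left₀ hlt hc (Nat.succ_ne_zero k))
  have hn : 0 < y ^ k - c ^ k := sub_pos.2 (pow_lt_pow_left₀ hlt hc (by omega))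
  refine ⟨y * (y ^ k - c ^ k) / (y ^ (k + 1) - c ^ (k + 1)), by positivity, ?_, ?_, ?_⟩
  · rw [div_le_one hd]
    nlinarith [pow_succ' y k, pow_succ' c k, mul_nonneg (pow_nonneg hc k) (sub_nonneg.2 hcy)]
  · rw [div_mul_eq_mul_div, div_mul_eq_mul_div, div_le_iff₀ hd]
    have h := mul_le_mul_of_nonneg_left (pow_gap_ge k hc hcy)
      (show 0 ≤ y * (k + 1) by positivity)
    have e : y * (k + 1) * ((k : ℝ) / (k + 1) * (y ^ (k + 1) - c ^ (k + 1))) =
        y * k * (y ^ (k + 1) - c ^ (k + 1)) := by field_simp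
    rw [e] at h
    linarith
  · simp only [tubFun]
    field_simp
    ring

/-- The bathtub step: a flat top up to `τ`, then the exponential. -/
theorem flat_exp_le (hm : 2 ≤ m) (hφ : IsShape φ) {s c τ : ℝ} (hs : s ∈ Ioo (0 : ℝ) 1)
    (hτ : τ ∈ Icc 0 s) (hc0 : 0 ≤ c) (hc : φ 0 * exp (-(c * s)) ≤ φ s)
    (hV : φ 0 ^ m * τ + ∫ t in τ..s, (φ 0 * exp (-(c * t))) ^ m = mass m φ 1) :
    φ 0 ^ m * τ + φ 0 * (∫ t in τ..s, (φ 0 * exp (-(c * t))) ^ (m - 1)) ≤
      φ 0 * ∫ t in (0 : ℝ)..1, φ t ^ (m - 1) := by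
  obtain ⟨k, rfl⟩ : ∃ k, m = k + 1 := ⟨m - 1, by omega⟩
  rw [Nat.add_sub_cancel]
  obtain ⟨hs0, hs1⟩ := hs
  set y := φ 0 with hy
  have hy0 : 0 < y := hφ.centre
  set χ : ℝ → ℝ := fun t => y * exp (-(c * t)) with hχ
  have hχy : ∀ t, 0 ≤ t → χ t ≤ y := fun t ht =>
    mul_le_of_le_one_right hy0.le (exp_le_one_iff.2 (by nlinarith))
  have hχ0 : ∀ t, 0 < χ t := fun t => mul_pos hy0 (exp_pos _)
  have hanti : ∀ a b, a ≤ b → χ b ≤ χ a := fun a b hab =>
    mul_le_mul_of_nonneg_left (exp_le_exp.2 (by nlinarith)) hy0.le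
  obtain ⟨μ, hμ0, hμ1, hμc, hμe⟩ :=
    exists_tub_multiplier (k := k) (by omega) (hχ0 τ).le (hχy τ hτ.1) hy0
  have hgy : 0 ≤ tubFun k y μ y := by
    simp only [tubFun]
    nlinarith [pow_succ' y k, pow_pos hy0 (k + 1)]
  set D : ℝ → ℝ := fun t => tubFun k y μ (φ t) with hD
  have iD : ∀ {a b : ℝ}, 0 ≤ a → a ≤ b → b ≤ 1 → IntervalIntegrable D volume a b :=
    fun ha hab hb => ((intervalIntegrable_shape_pow_sub hφ ha hab hb k).const_mul y).sub
      ((intervalIntegrable_shape_pow_sub hφ ha hab hb (k + 1)).const_mul μ)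
  have hφy : ∀ t ∈ Icc (0 : ℝ) 1, φ t ≤ y ∧ 0 ≤ φ t := fun t ht =>
    ⟨shape_le_centre hφ ⟨by linarith [ht.1], ht.2⟩, hφ.nonneg t ⟨by linarith [ht.1], ht.2⟩⟩
  have h1 : τ * tubFun k y μ y ≤ ∫ t in (0 : ℝ)..τ, D t := by
    have h := intervalIntegral.integral_mono_on hτ.1 (f := fun _ => tubFun k y μ y)
      intervalIntegrable_const (iD le_rfl hτ.1 (hτ.2.trans hs1.le)) fun t ht => by
        have hts : t ∈ Icc 0 s := ⟨ht.1, ht.2.trans hτ.2⟩
        obtain ⟨hty, -⟩ := hφy t ⟨ht.1, by linarith [hts.2]⟩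
        have hge : χ τ ≤ φ t := (hanti t τ ht.2).trans (exp_chord_le hφ ⟨hs0, hs1⟩ hc hts)
        have h := min_le_tubFun k (y := y) hμ0 (hχ0 τ).le hge hty
        rwa [hμe, min_self] at h
    rw [intervalIntegral.integral_const, smul_eq_mul, sub_zero] at h
    exact h
  have h2 : (∫ t in τ..s, tubFun k y μ (χ t)) ≤ ∫ t in τ..s, D t := by
    refine intervalIntegral.integral_mono_on hτ.2
      ((by unfold tubFun; fun_prop : Continuous _).intervalIntegrable _ _)
      (iD hτ.1 hτ.2 hs1.le) fun t ht => ?_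
    have hts : t ∈ Icc 0 s := ⟨hτ.1.trans ht.1, ht.2⟩
    obtain ⟨hty, -⟩ := hφy t ⟨hts.1, by linarith [hts.2]⟩
    have h := min_le_tubFun k (y := y) hμ0 (hχ0 t).le (exp_chord_le hφ ⟨hs0, hs1⟩ hc hts) hty
    rwa [min_eq_left] at h
    rw [← hμe]
    exact tubFun_mono k hμ0 (hχ0 t).le (hanti τ t ht.1) hμc
  have h3 : 0 ≤ ∫ t in s..1, D t := intervalIntegral.integral_nonneg hs1.le fun t ht => by
    obtain ⟨hty, ht0⟩ := hφy t ⟨hs0.le.trans ht.1, ht.2⟩
    have h := min_le_tubFun k (y := y) hμ0 le_rfl ht0 hty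
    have e : tubFun k y μ 0 = 0 := by
      simp [tubFun, zero_pow (show k ≠ 0 by omega)]
    rw [e, min_eq_left hgy] at h
    exact h
  have hsum : (∫ t in (0 : ℝ)..1, D t) =
      y * (∫ t in (0 : ℝ)..1, φ t ^ k) - μ * mass (k + 1) φ 1 := by
    simp only [hD, tubFun]
    rw [intervalIntegral.integral_sub ((intervalIntegrable_shape_pow01 hφ k).const_mul y)
      ((intervalIntegrable_shape_pow01 hφ (k + 1)).const_mul μ),
      intervalIntegral.integral_const_mul, intervalIntegral.integral_const_mul, mass]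
  rw [← intervalIntegral.integral_add_adjacent_intervals (iD le_rfl hτ.1 (hτ.2.trans hs1.le))
    (iD hτ.1 (hτ.2.trans hs1.le) le_rfl), ← intervalIntegral.integral_add_adjacent_intervals
    (iD hτ.1 hτ.2 hs1.le) (iD hs0.le hs1.le le_rfl)] at hsum
  simp only [tubFun, hχ] at h2
  rw [intervalIntegral.integral_sub ((by fun_prop : Continuous _).intervalIntegrable _ _)
      ((by fun_prop : Continuous _).intervalIntegrable _ _),
    intervalIntegral.integral_const_mul, intervalIntegral.integral_const_mul] at h2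
  have e : τ * tubFun k y μ y = y ^ (k + 1) * τ - μ * (y ^ (k + 1) * τ) := by
    simp only [tubFun]
    ring
  rw [← hV, mul_add] at hsum
  linarith

/-- The mass under the flat top of length `A` and the exponential of rate `l`. -/
noncomputable def tubMass (l A : ℝ) : ℝ := A + exp (-A) - exp (-l)

/-- Its gain in the power integral, relative to the mass. -/
noncomputable def tubGain (l A : ℝ) : ℝ :=
  ((1 + A) * exp (-A) - (1 + l) * exp (-l)) / tubMass l A

theorem tubMass_pos {l A : ℝ} (hl : 0 < l) (hA : A ∈ Icc 0 l) : 0 < tubMass l A := by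
  rw [tubMass]
  rcases hA.1.eq_or_lt with h | h
  · subst h
    rw [neg_zero, exp_zero, zero_add, sub_pos, exp_lt_one_iff]
    linarith
  · have := exp_le_exp.2 (show -l ≤ -A by linarith [hA.2])
    linarith

theorem antitoneOn_tubNum : AntitoneOn (fun x : ℝ => (1 + x) * exp (-x)) (Ici 0) := by
  refine antitoneOn_of_hasDerivWithinAt_nonpos (f' := fun x => -(x * exp (-x))) (convex_Ici 0)
    (by fun_prop) (fun x _ => HasDerivAt.hasDerivWithinAt ?_) fun x hx => ?_
  · refine (((hasDerivAt_id' x).const_add 1).mul ((hasDerivAt_neg x).exp)).congr_deriv ?_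
    ring
  · rw [interior_Ici] at hx
    exact neg_nonpos.2 (mul_nonneg (le_of_lt hx) (exp_pos _).le)

theorem tub_exp_gap {β l A : ℝ} (hβ : 0 < β) (hA : A ∈ Icc 0 l) :
    exp (-A) - exp (-l) + (1 - β) * ((1 + A) * exp (-A) - (1 + l) * exp (-l)) ≤
      (exp (-(β * A)) - exp (-(β * l))) / β := by
  have h : AntitoneOn (fun x => exp (-(β * x)) / β - exp (-x) -
      (1 - β) * ((1 + x) * exp (-x))) (Ici 0) := by
    refine antitoneOn_of_hasDerivWithinAt_nonpos
      (f' := fun x => -exp (-(β * x)) + exp (-x) + (1 - β) * (x * exp (-x)))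
      (convex_Ici 0) (by fun_prop) (fun x _ => HasDerivAt.hasDerivWithinAt ?_) fun x _ => ?_
    · refine (((((hasDerivAt_id' x).const_mul β).neg.exp).div_const β).sub
        ((hasDerivAt_neg x).exp) |>.sub
        ((((hasDerivAt_id' x).const_add 1).mul ((hasDerivAt_neg x).exp)).const_mul
          (1 - β))).congr_deriv ?_
      simp only [Pi.neg_apply]
      field_simp
      ring
    · rw [show -(β * x) = -x + (1 - β) * x by ring, exp_add]
      have := mul_le_mul_of_nonneg_left (add_one_le_exp ((1 - β) * x)) (exp_pos (-x)).le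
      linarith
  have := h (show A ∈ Ici (0 : ℝ) from hA.1) (show l ∈ Ici (0 : ℝ) from hA.1.trans hA.2) hA.2
  simp only at this
  rw [sub_div]
  linarith

/-- The slope bound. -/
theorem chord_slope (hm : 4 ≤ m) (hφ : IsShape φ) (hx : powRatio m φ ≤ 1) {s S l : ℝ}
    (hs : s ∈ Ioo (0 : ℝ) 1) (hS1 : 1 ≤ S)
    (hS : S * (ballRatio m ^ m * mass m ballShape 1) ≤ s) (hl : 0 < l)
    (hcond : ∀ A ∈ Icc 0 l, l < S * tubMass l A * (1 + tubGain l A / 4) ^ 4) :
    φ s ^ m ≤ exp (-l) * φ 0 ^ m := by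
  have hm1 : 1 ≤ m := by omega
  obtain ⟨hV, hP⟩ := power_mass_le hm1 hφ hx
  have hWy := mass_le_centre hm1 hφ hx
  obtain ⟨k, rfl⟩ : ∃ k, m = k + 1 := ⟨m - 1, by omega⟩
  obtain ⟨hs0, hs1⟩ := hs
  by_contra! hcon
  set y := φ 0 with hy
  have hy0 : 0 < y := hφ.centre
  set κ := ballRatio (k + 1) ^ (k + 1) * mass (k + 1) ballShape 1 with hκ
  have hκ0 : 0 < κ := mul_pos (pow_pos (ballRatio_pos _) _) (ball_mass_pos _)
  set V := mass (k + 1) φ 1 with hVdef
  have hk : (3 : ℝ) ≤ k := by exact_mod_cast (by omega : 3 ≤ k)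
  set c := l / (((k + 1 : ℕ) : ℝ)) / s with hcdef
  have hc0 : 0 < c := div_pos (div_pos hl (by positivity)) hs0
  have hcs : c * s = l / ((k + 1 : ℕ) : ℝ) := div_mul_cancel₀ _ hs0.ne'
  have hc : y * exp (-(c * s)) ≤ φ s := by
    refine (pow_le_pow_iff_left₀ (by positivity) (shape_pos hφ (sub01 ⟨hs0, hs1⟩)).le
      (Nat.succ_ne_zero k)).1 ?_
    rw [mul_pow, ← exp_nat_mul, hcs, mul_neg,
      mul_div_cancel₀ _ (Nat.cast_ne_zero.2 (Nat.succ_ne_zero k)), mul_comm]
    exact hcon.le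
  set χ : ℝ → ℝ := fun t => y * exp (-(c * t)) with hχ
  set G : ℝ → ℝ := fun τ => y ^ (k + 1) * τ + ∫ t in τ..s, χ t ^ (k + 1) with hG
  have iχ : ∀ a b, IntervalIntegrable (fun t => χ t ^ (k + 1)) volume a b := fun a b =>
    (by fun_prop : Continuous fun t => χ t ^ (k + 1)).intervalIntegrable _ _
  have hGc : Continuous G := by
    have e : G = fun τ => y ^ (k + 1) * τ + ((∫ t in (0 : ℝ)..s, χ t ^ (k + 1)) -
        ∫ t in (0 : ℝ)..τ, χ t ^ (k + 1)) := funext fun τ => by
      rw [hG, ← intervalIntegral.integral_add_adjacent_intervals (iχ 0 τ) (iχ τ s)]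
      ring
    rw [e]
    exact (continuous_const.mul continuous_id).add
      (continuous_const.sub (intervalIntegral.continuous_primitive (fun a b => iχ a b) 0))
  have hG0 : G 0 ≤ V := by
    simp only [hG, mul_zero, zero_add]
    rw [hVdef, mass, ← intervalIntegral.integral_add_adjacent_intervals
      (intervalIntegrable_shape_pow_sub hφ le_rfl hs0.le hs1.le (k + 1))
      (intervalIntegrable_shape_pow_sub hφ hs0.le hs1.le le_rfl (k + 1))]
    refine le_add_of_le_of_nonneg (intervalIntegral.integral_mono_on hs0.le (iχ 0 s)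
      (intervalIntegrable_shape_pow_sub hφ le_rfl hs0.le hs1.le (k + 1)) fun t ht =>
        pow_le_pow_left₀ (mul_pos hy0 (exp_pos _)).le (exp_chord_le hφ ⟨hs0, hs1⟩ hc ht) _) ?_
    exact intervalIntegral.integral_nonneg hs1.le fun t ht =>
      pow_nonneg (hφ.nonneg t ⟨by linarith [ht.1], ht.2⟩) _
  have hGs : V ≤ G s := by
    simp only [hG, intervalIntegral.integral_same, add_zero]
    refine hWy.trans (mul_le_mul_of_nonneg_left ?_ (pow_nonneg hy0.le _))
    exact (le_mul_of_one_le_left hκ0.le hS1).trans hS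
  obtain ⟨τ, hτ, hτV⟩ := intermediate_value_Icc hs0.le hGc.continuousOn
    (show V ∈ Icc (G 0) (G s) from ⟨hG0, hGs⟩)
  simp only [hG] at hτV
  have hflat := flat_exp_le (by omega) hφ ⟨hs0, hs1⟩ hτ hc0.le hc hτV
  rw [Nat.add_sub_cancel] at hflat hP
  set A := l * τ / s with hAdef
  have hA : A ∈ Icc 0 l := ⟨by have := hτ.1; positivity, by
    rw [hAdef, div_le_iff₀ hs0]
    exact mul_le_mul_of_nonneg_left hτ.2 hl.le⟩
  have hF := tubMass_pos hl hA
  have e1 : ∀ j : ℕ, ∀ t, (y * exp (-(c * t))) ^ j = y ^ j * exp (-((j : ℝ) * c * t)) :=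
    fun j t => by
      rw [mul_pow, ← exp_nat_mul]
      ring_nf
  have eI : ∀ d : ℝ, d ≠ 0 → (∫ t in τ..s, exp (-(d * t))) =
      (exp (-(d * τ)) - exp (-(d * s))) / d := fun d hd => by
    rw [← intervalIntegral.integral_interval_sub_left
      ((by fun_prop : Continuous _).intervalIntegrable 0 s)
      ((by fun_prop : Continuous _).intervalIntegrable 0 τ), integral_exp_neg hd,
      integral_exp_neg hd]
    ring
  set β : ℝ := (k : ℝ) / (k + 1) with hβ
  have hβ0 : 0 < β := by positivity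
  have ek : (k : ℝ) * c * s = β * l ∧ ((k + 1 : ℕ) : ℝ) * c * s = l ∧
      (k : ℝ) * c * τ = β * A ∧ ((k + 1 : ℕ) : ℝ) * c * τ = A := by
    rw [hcdef, hAdef, hβ]
    push_cast
    refine ⟨?_, ?_, ?_, ?_⟩ <;> field_simp
  simp only [hχ, ← hy, e1] at hflat hτV
  rw [intervalIntegral.integral_const_mul, eI _ (by positivity), ek.1, ek.2.2.1] at hflat
  rw [intervalIntegral.integral_const_mul, eI _ (by positivity), ek.2.1, ek.2.2.2] at hτV
  have hVF : V = y ^ (k + 1) * s / l * tubMass l A := by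
    rw [← hτV, tubMass, hcdef, hAdef]
    push_cast
    field_simp
    ring
  have hyP : y ^ (k + 1) * s / l * (A + (exp (-(β * A)) - exp (-(β * l))) / β) ≤
      y * ∫ t in (0 : ℝ)..1, φ t ^ k := by
    refine le_trans (le_of_eq ?_) hflat
    rw [hcdef, hAdef, hβ]
    push_cast
    field_simp
    ring
  set P := ∫ t in (0 : ℝ)..1, φ t ^ k with hPdef
  set R := tubGain l A with hR
  have hR0 : 0 ≤ R := div_nonneg (sub_nonneg.2 (antitoneOn_tubNum hA.1 hl.le hA.2)) hF.le
  have hy1 : 0 < y ^ (k + 1) * s / l := by positivity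
  have hρ : (1 + R / (k + 1)) * V ≤ y * P := by
    refine le_trans ?_ hyP
    have h := mul_le_mul_of_nonneg_left (tub_exp_gap hβ0 hA) hy1.le
    have e : (1 + R / (k + 1)) * V = y ^ (k + 1) * s / l * (A + (exp (-A) - exp (-l) +
        (1 - β) * ((1 + A) * exp (-A) - (1 + l) * exp (-l)))) := by
      rw [hVF, hR, tubGain, hβ]
      have := hF.ne'
      simp only [tubMass] at this ⊢
      field_simp
      ring
    rw [e]
    linarith [mul_le_mul_of_nonneg_left (le_refl A) hy1.le]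
  have hpow : (1 + R / 4) ^ 4 * V ≤ y ^ (k + 1) * κ := by
    have h4 : (1 + R / 4) ^ 4 ≤ (1 + R / (k + 1)) ^ (k + 1) := by
      have h2 := rpow_one_add_le_one_add_mul_self (s := R / 4) (by linarith)
        (p := 4 / ((k : ℝ) + 1)) (by positivity) ((div_le_one (by positivity)).2 (by linarith))
      rw [show 4 / ((k : ℝ) + 1) * (R / 4) = R / (k + 1) by field_simp] at h2
      refine le_trans (le_of_eq ?_)
        (pow_le_pow_left₀ (rpow_nonneg (by linarith) _) h2 (k + 1))
      rw [← rpow_natCast (((1 + R / 4) ^ (4 / ((k : ℝ) + 1)))), ← rpow_mul (by linarith),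
        Nat.cast_succ, div_mul_cancel₀ _ (by positivity), ← rpow_natCast]
      norm_num
    have h5 := pow_le_pow_left₀ (by positivity) hρ (k + 1)
    rw [mul_pow, mul_pow] at h5
    have h6 := h5.trans (mul_le_mul_of_nonneg_left hP (pow_nonneg hy0.le _))
    rw [pow_succ' V] at h6
    have h7 : (1 + R / (k + 1)) ^ (k + 1) * V ≤ y ^ (k + 1) * κ :=
      le_of_mul_le_mul_right (by linarith) (pow_pos hV k)
    exact (mul_le_mul_of_nonneg_right h4 hV.le).trans h7
  rw [hVF] at hpow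
  have hlast := hcond A hA
  have h8 : (1 + R / 4) ^ 4 * tubMass l A * s ≤ κ * l := by
    refine le_of_mul_le_mul_left ?_ (pow_pos hy0 (k + 1))
    calc y ^ (k + 1) * ((1 + R / 4) ^ 4 * tubMass l A * s)
        = (1 + R / 4) ^ 4 * (y ^ (k + 1) * s / l * tubMass l A) * l := by field_simp
      _ ≤ y ^ (k + 1) * κ * l := mul_le_mul_of_nonneg_right hpow hl.le
      _ = y ^ (k + 1) * (κ * l) := by ring
  have h9 : S * κ * ((1 + R / 4) ^ 4 * tubMass l A) ≤ s * ((1 + R / 4) ^ 4 * tubMass l A) :=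
    mul_le_mul_of_nonneg_right hS (by positivity)
  have h10 := mul_lt_mul_of_pos_right hlast hκ0
  linarith

/-- The chord of `ChordBound` from the slope bound. -/
theorem chord_of_slope (hm : 1 ≤ m) (hφ : IsShape φ) {t₁ s l : ℝ} (ht₁ : t₁ ∈ Ioo (0 : ℝ) 1)
    (h : φ t₁ ^ m ≤ exp (-l) * φ 0 ^ m) (hs : 0 ≤ 1 - s * t₁)
    (hl : exp (-l) ≤ (1 - s * t₁) ^ m) : φ t₁ ≤ φ 0 * (1 - s * t₁) := by
  refine (pow_le_pow_iff_left₀ (shape_pos hφ (sub01 ht₁)).le (mul_nonneg hφ.centre.le hs)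
    (by omega : m ≠ 0)).1 ?_
  rw [mul_pow, mul_comm]
  exact h.trans (mul_le_mul_of_nonneg_right hl (pow_nonneg hφ.centre.le m))

end Vale.Agent.P237.Quant
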