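import Mathlib
import Vale.Agent.P237.Quant.ChordSlope

/-!
The power constraint inside a window. If a profile, relative to its centre, lies between two
functions `a` and `b`, then for any multiplier `μ` the concave `x ^ (m - 1) - μ * x ^ m` is at
least the smaller of its values at `a` and `b`, so a power ratio at most one limits the mass and
gives one scalar inequality. Windows come from values at finitely many points by concavity.
-/

namespace Vale.Agent.P237.Quant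

open MeasureTheory Set Real

variable {m : ℕ} {φ : ℝ → ℝ}

/-- The smaller end value of the weighed function on a window. -/
noncomputable def windowMin (k : ℕ) (μ : ℝ) (a b : ℝ → ℝ) : ℝ :=
  ∫ t in (0 : ℝ)..1, min (tubFun k 1 μ (a t)) (tubFun k 1 μ (b t))

/-- Concavity at three ordered points. -/
theorem shape_three (hφ : IsShape φ) {p q t : ℝ} (hp : -1 ≤ p) (hpq : p ≤ q) (hqt : q ≤ t)
    (ht : t ≤ 1) : (t - q) * φ p + (q - p) * φ t ≤ (t - p) * φ q := by
  rcases (hpq.trans hqt).eq_or_lt with h | h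
  · obtain rfl : p = q := le_antisymm hpq (hqt.trans h.ge)
    obtain rfl : p = t := h
    simp
  have := hφ.concave.2 (show p ∈ Icc (-1 : ℝ) 1 from ⟨hp, h.le.trans ht⟩)
    (show t ∈ Icc (-1 : ℝ) 1 from ⟨hp.trans h.le, ht⟩)
    (show 0 ≤ (t - q) / (t - p) from div_nonneg (sub_nonneg.2 hqt) (sub_pos.2 h).le)
    (show 0 ≤ (q - p) / (t - p) from div_nonneg (sub_nonneg.2 hpq) (sub_pos.2 h).le)
    (by rw [← add_div, show t - q + (q - p) = t - p by ring, div_self (sub_pos.2 h).ne'])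
  simp only [smul_eq_mul] at this
  rw [show (t - q) / (t - p) * p + (q - p) / (t - p) * t = q by
    field_simp [(sub_pos.2 h).ne']; ring, div_mul_eq_mul_div, div_mul_eq_mul_div, ← add_div,
    div_le_iff₀ (sub_pos.2 h)] at this
  linarith

/-- Between two points the profile is above the line through lower bounds of its values. -/
theorem line_le_shape (hφ : IsShape φ) {p q t x y : ℝ} (hp : -1 ≤ p) (hpq : p < q) (hq : q ≤ 1)
    (ht : t ∈ Icc p q) (hx : x ≤ φ p / φ 0) (hy : y ≤ φ q / φ 0) :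
    ((q - t) * x + (t - p) * y) / (q - p) ≤ φ t / φ 0 := by
  have h := shape_three hφ hp ht.1 ht.2 hq
  rw [le_div_iff₀ hφ.centre] at hx hy
  rw [div_le_div_iff₀ (sub_pos.2 hpq) hφ.centre]
  have h1 := mul_le_mul_of_nonneg_left hx (sub_nonneg.2 ht.2)
  have h2 := mul_le_mul_of_nonneg_left hy (sub_nonneg.2 ht.1)
  linarith

/-- Past two points the profile is below the line through a lower bound at the first and an upper
bound at the second. -/
theorem shape_le_line_right (hφ : IsShape φ) {p q t x y : ℝ} (hp : -1 ≤ p) (hpq : p < q)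
    (hqt : q ≤ t) (ht : t ≤ 1) (hx : x ≤ φ p / φ 0) (hy : φ q / φ 0 ≤ y) :
    φ t / φ 0 ≤ ((t - p) * y - (t - q) * x) / (q - p) := by
  have h := shape_three hφ hp hpq.le hqt ht
  rw [le_div_iff₀ hφ.centre] at hx
  rw [div_le_iff₀ hφ.centre] at hy
  rw [div_le_div_iff₀ hφ.centre (sub_pos.2 hpq)]
  have h1 := mul_le_mul_of_nonneg_left hx (sub_nonneg.2 hqt)
  have h2 := mul_le_mul_of_nonneg_left hy (show 0 ≤ t - p by linarith)
  linarith

/-- Before two points the profile is below the line through an upper bound at the first and a lower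
bound at the second. -/
theorem shape_le_line_left (hφ : IsShape φ) {p q t x y : ℝ} (ht : -1 ≤ t) (htp : t ≤ p)
    (hpq : p < q) (hq : q ≤ 1) (hx : φ p / φ 0 ≤ x) (hy : y ≤ φ q / φ 0) :
    φ t / φ 0 ≤ ((q - t) * x - (p - t) * y) / (q - p) := by
  have h := shape_three hφ ht htp hpq.le hq
  rw [le_div_iff₀ hφ.centre] at hy
  rw [div_le_iff₀ hφ.centre] at hx
  rw [div_le_div_iff₀ hφ.centre (sub_pos.2 hpq)]
  have h1 := mul_le_mul_of_nonneg_left hx (show 0 ≤ q - t by linarith)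
  have h2 := mul_le_mul_of_nonneg_left hy (sub_nonneg.2 htp)
  linarith

theorem shape_ratio_mem (hφ : IsShape φ) {t : ℝ} (ht : t ∈ Icc (-1 : ℝ) 1) :
    φ t / φ 0 ∈ Icc (0 : ℝ) 1 :=
  ⟨div_nonneg (hφ.nonneg t ht) hφ.centre.le, (div_le_one hφ.centre).2 (shape_le_centre hφ ht)⟩

/-- The multiplier inequality on a window. -/
theorem window_le_power (hm : 2 ≤ m) (hφ : IsShape φ) {a b : ℝ → ℝ} {μ : ℝ} (hμ : 0 < μ)
    (ha : ∀ t ∈ Ioo (0 : ℝ) 1, 0 ≤ a t ∧ a t ≤ φ t / φ 0)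
    (hb : ∀ t ∈ Ioo (0 : ℝ) 1, φ t / φ 0 ≤ b t)
    (hi : IntervalIntegrable (fun t => min (tubFun (m - 1) 1 μ (a t)) (tubFun (m - 1) 1 μ (b t)))
      volume 0 1) :
    μ * (mass m φ 1 / φ 0 ^ m) + windowMin (m - 1) μ a b ≤
      (∫ t in (0 : ℝ)..1, φ t ^ (m - 1)) / φ 0 ^ (m - 1) := by
  obtain ⟨k, rfl⟩ : ∃ k, m = k + 1 := ⟨m - 1, by omega⟩
  rw [Nat.add_sub_cancel] at hi ⊢
  have i1 := (intervalIntegrable_shape_pow01 hφ k).div_const (φ 0 ^ k)
  have i2 := ((intervalIntegrable_shape_pow01 hφ (k + 1)).div_const (φ 0 ^ (k + 1))).const_mul μ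
  have h := intervalIntegral.integral_mono_on_of_le_Ioo zero_le_one hi (i1.sub i2)
    fun t ht => ?_
  · rw [intervalIntegral.integral_sub i1 i2, intervalIntegral.integral_const_mul,
      intervalIntegral.integral_div, intervalIntegral.integral_div] at h
    rw [windowMin, mass]
    linarith
  · have h1 := min_le_tubFun k (y := 1) hμ (ha t ht).1 (ha t ht).2 (hb t ht)
    refine h1.trans (le_of_eq ?_)
    simp only [tubFun, div_pow, one_mul]

/-- The power constraint on a window, with the relative mass. -/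
theorem window_pow_le (hm : 2 ≤ m) (hφ : IsShape φ) (hx : powRatio m φ ≤ 1) {a b : ℝ → ℝ} {μ : ℝ}
    (hμ : 0 < μ) (ha : ∀ t ∈ Ioo (0 : ℝ) 1, 0 ≤ a t ∧ a t ≤ φ t / φ 0)
    (hb : ∀ t ∈ Ioo (0 : ℝ) 1, φ t / φ 0 ≤ b t)
    (hi : IntervalIntegrable (fun t => min (tubFun (m - 1) 1 μ (a t)) (tubFun (m - 1) 1 μ (b t)))
      volume 0 1)
    (h0 : 0 ≤ μ * (mass m φ 1 / φ 0 ^ m) + windowMin (m - 1) μ a b) :
    (μ * (mass m φ 1 / φ 0 ^ m) + windowMin (m - 1) μ a b) ^ m ≤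
      ballRatio m ^ m * mass m ballShape 1 * (mass m φ 1 / φ 0 ^ m) ^ (m - 1) := by
  refine (pow_le_pow_left₀ h0 (window_le_power hm hφ hμ ha hb hi) m).trans ?_
  obtain ⟨hV, hP⟩ := power_mass_le (by omega) hφ hx
  rw [div_pow, div_pow, ← pow_mul, ← pow_mul, mul_comm (m - 1) m, ← mul_div_assoc]
  exact div_le_div_of_nonneg_right hP (pow_nonneg hφ.centre.le _)

/-- Weighted arithmetic and geometric means. -/
theorem mul_pow_le_add_pow (k : ℕ) {x K : ℝ} (hx : 0 ≤ x) (hK : 0 ≤ K) :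
    K * x ^ k * ((k : ℝ) + 1) ^ (k + 1) ≤ (k : ℝ) ^ k * (x + K) ^ (k + 1) := by
  rcases k.eq_zero_or_pos with rfl | hk
  · simp
    linarith
  have hk0 : (0 : ℝ) < k := by exact_mod_cast hk
  rcases (add_nonneg hx hK).eq_or_lt with h | hs
  · obtain rfl : x = 0 := by linarith
    obtain rfl : K = 0 := by linarith
    simp
  set z := ((k : ℝ) + 1) * x / (k * (x + K)) with hz
  have hz0 : 0 ≤ z := by positivity
  have key : z ^ k * ((k : ℝ) + 1 - k * z) ≤ 1 := by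
    rcases le_total z 1 with h | h
    · have := pow_gap_le k (y := 1) hz0 h le_rfl
      rw [one_pow, one_pow, div_mul_eq_mul_div, div_le_iff₀ (by positivity)] at this
      rw [pow_succ z k] at this
      linarith
    · have := pow_gap_ge k (b := 1) zero_le_one h
      rw [one_pow, one_pow, div_mul_eq_mul_div, le_div_iff₀ (by positivity)] at this
      rw [pow_succ z k] at this
      linarith
  have e : z ^ k * ((k : ℝ) + 1 - k * z) =
      K * x ^ k * ((k : ℝ) + 1) ^ (k + 1) / ((k : ℝ) ^ k * (x + K) ^ (k + 1)) := by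
    rw [hz, div_pow, mul_pow, mul_pow]
    field_simp
    ring
  rwa [e, div_le_one (by positivity)] at key

/-- The scalar inequality of a window. -/
theorem window_scalar (hm : 2 ≤ m) (hφ : IsShape φ) (hx : powRatio m φ ≤ 1) {a b : ℝ → ℝ} {μ : ℝ}
    (hμ : 0 < μ) (ha : ∀ t ∈ Ioo (0 : ℝ) 1, 0 ≤ a t ∧ a t ≤ φ t / φ 0)
    (hb : ∀ t ∈ Ioo (0 : ℝ) 1, φ t / φ 0 ≤ b t)
    (hi : IntervalIntegrable (fun t => min (tubFun (m - 1) 1 μ (a t)) (tubFun (m - 1) 1 μ (b t)))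
      volume 0 1) :
    windowMin (m - 1) μ a b * μ ^ (m - 1) * (m : ℝ) ^ m ≤
      ((m - 1 : ℕ) : ℝ) ^ (m - 1) * (ballRatio m ^ m * mass m ballShape 1) := by
  have hκ : 0 < ballRatio m ^ m * mass m ballShape 1 :=
    mul_pos (pow_pos (ballRatio_pos m) m) (ball_mass_pos m)
  rcases le_or_gt (windowMin (m - 1) μ a b) 0 with hK | hK
  · exact (mul_nonpos_of_nonpos_of_nonneg (mul_nonpos_of_nonpos_of_nonneg hK
      (pow_nonneg hμ.le _)) (pow_nonneg (Nat.cast_nonneg m) m)).trans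
      (mul_nonneg (pow_nonneg (Nat.cast_nonneg _) _) hκ.le)
  obtain ⟨hV, -⟩ := power_mass_le (by omega) hφ hx
  have hVh : 0 < mass m φ 1 / φ 0 ^ m := div_pos hV (pow_pos hφ.centre m)
  have h1 := window_pow_le hm hφ hx hμ ha hb hi (by positivity)
  obtain ⟨k, rfl⟩ : ∃ k, m = k + 1 := ⟨m - 1, by omega⟩
  rw [Nat.add_sub_cancel] at *
  have h2 := (mul_pow_le_add_pow k (mul_nonneg hμ.le hVh.le) hK.le).trans
    (mul_le_mul_of_nonneg_left h1 (pow_nonneg (Nat.cast_nonneg k) k))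
  rw [mul_pow] at h2
  push_cast
  refine le_of_mul_le_mul_right ?_ (pow_pos hVh k)
  linarith

/-- The line through `(p, x)` and `(q, y)`. -/
noncomputable def lineThrough (p x q y t : ℝ) : ℝ := ((q - t) * x + (t - p) * y) / (q - p)

/-- The lower window of values at least `l₁` at `p` and `l₂` at `q`. -/
noncomputable def twoPointLow (p l₁ q l₂ t : ℝ) : ℝ :=
  if t ≤ p then lineThrough 0 1 p l₁ t
  else if t ≤ q then lineThrough p l₁ q l₂ t else lineThrough q l₂ 1 0 t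

/-- The upper window of values in `[l₁, h₁]` at `p` and in `[l₂, h₂]` at `q`. -/
noncomputable def twoPointHigh (p l₁ h₁ q l₂ h₂ t : ℝ) : ℝ :=
  if t ≤ p then min 1 (lineThrough p h₁ q l₂ t)
  else if t ≤ q then lineThrough 0 1 p h₁ t
  else min (lineThrough 0 1 q h₂ t) (min (lineThrough 0 1 p h₁ t) (lineThrough p l₁ q h₂ t))

theorem measurable_twoPointLow (p l₁ q l₂ : ℝ) : Measurable (twoPointLow p l₁ q l₂) := by
  unfold twoPointLow lineThrough
  refine Measurable.ite measurableSet_Iic (by fun_prop) ?_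
  exact Measurable.ite measurableSet_Iic (by fun_prop) (by fun_prop)

theorem measurable_twoPointHigh (p l₁ h₁ q l₂ h₂ : ℝ) :
    Measurable (twoPointHigh p l₁ h₁ q l₂ h₂) := by
  unfold twoPointHigh lineThrough
  refine Measurable.ite measurableSet_Iic (by fun_prop) ?_
  exact Measurable.ite measurableSet_Iic (by fun_prop) (by fun_prop)

/-- The window that values at two points give. -/
theorem twoPoint_window (hφ : IsShape φ) {p q l₁ h₁ l₂ h₂ : ℝ} (hp : 0 < p) (hpq : p < q)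
    (hq : q < 1) (hl₁ : 0 ≤ l₁) (hl₂ : 0 ≤ l₂) (h₁p : φ p / φ 0 ∈ Icc l₁ h₁)
    (h₂q : φ q / φ 0 ∈ Icc l₂ h₂) {t : ℝ} (ht : t ∈ Ioo (0 : ℝ) 1) :
    0 ≤ twoPointLow p l₁ q l₂ t ∧ twoPointLow p l₁ q l₂ t ≤ φ t / φ 0 ∧
      φ t / φ 0 ≤ twoPointHigh p l₁ h₁ q l₂ h₂ t := by
  have h1 : φ 1 / φ 0 ∈ Icc (0 : ℝ) 1 := shape_ratio_mem hφ (by norm_num)
  have h0 : φ 0 / φ 0 = 1 := div_self hφ.centre.ne'
  have hlow : ∀ {a b x y : ℝ}, 0 ≤ a → a < b → b ≤ 1 → t ∈ Icc a b → 0 ≤ x → 0 ≤ y →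
      x ≤ φ a / φ 0 → y ≤ φ b / φ 0 →
      0 ≤ lineThrough a x b y t ∧ lineThrough a x b y t ≤ φ t / φ 0 :=
    fun ha hab hb htab hx hy hxa hyb => ⟨div_nonneg (add_nonneg
      (mul_nonneg (sub_nonneg.2 htab.2) hx) (mul_nonneg (sub_nonneg.2 htab.1) hy))
      (sub_pos.2 hab).le, line_le_shape hφ (by linarith) hab hb htab hxa hyb⟩
  have hright : ∀ {a b x y : ℝ}, 0 ≤ a → a < b → b ≤ t → x ≤ φ a / φ 0 → φ b / φ 0 ≤ y →
      φ t / φ 0 ≤ lineThrough a x b y t := fun ha hab hbt hxa hyb => by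
    refine (shape_le_line_right hφ (by linarith) hab hbt ht.2.le hxa hyb).trans_eq ?_
    rw [lineThrough]
    ring
  rw [twoPointLow, twoPointHigh]
  by_cases htp : t ≤ p
  · rw [if_pos htp, if_pos htp]
    obtain ⟨e1, e2⟩ := hlow le_rfl hp (by linarith) ⟨ht.1.le, htp⟩ zero_le_one hl₁ h0.ge h₁p.1
    refine ⟨e1, e2, le_min (shape_ratio_mem hφ ⟨by linarith [ht.1], ht.2.le⟩).2 ?_⟩
    refine (shape_le_line_left hφ (by linarith [ht.1]) htp hpq hq.le h₁p.2 h₂q.1).trans_eq ?_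
    rw [lineThrough]
    ring
  rw [if_neg htp, if_neg htp]
  by_cases htq : t ≤ q
  · rw [if_pos htq, if_pos htq]
    obtain ⟨e1, e2⟩ := hlow hp.le hpq hq.le ⟨(not_le.1 htp).le, htq⟩ hl₁ hl₂ h₁p.1 h₂q.1
    exact ⟨e1, e2, hright le_rfl hp (not_le.1 htp).le h0.ge h₁p.2⟩
  rw [if_neg htq, if_neg htq]
  have htq' := (not_le.1 htq).le
  obtain ⟨e1, e2⟩ := hlow (by linarith) hq le_rfl ⟨htq', ht.2.le⟩ hl₂ le_rfl h₂q.1 h1.1
  exact ⟨e1, e2, le_min (hright le_rfl (by linarith) htq' h0.ge h₂q.2) (le_min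
    (hright le_rfl hp (by linarith) h0.ge h₁p.2) (hright hp.le hpq htq' h₁p.1 h₂q.2))⟩

/-- A measurable bounded window gives an integrable minimum. -/
theorem intervalIntegrable_window {k : ℕ} {μ : ℝ} {a b : ℝ → ℝ} (ha : Measurable a)
    (hb : Measurable b) {B : ℝ} (hab : ∀ t ∈ Ioo (0 : ℝ) 1, |a t| ≤ B ∧ |b t| ≤ B) :
    IntervalIntegrable (fun t => min (tubFun k 1 μ (a t)) (tubFun k 1 μ (b t))) volume 0 1 := by
  refine interval_iff01.2 (IntegrableOn.of_bound measure_Ioo_lt_top ?_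
    (B ^ k + |μ| * B ^ (k + 1)) ?_)
  · have : Measurable fun t => min (tubFun k 1 μ (a t)) (tubFun k 1 μ (b t)) := by
      unfold tubFun
      fun_prop
    exact this.aestronglyMeasurable
  filter_upwards [ae_restrict_mem measurableSet_Ioo] with t ht
  have h : ∀ x, |x| ≤ B → |tubFun k 1 μ x| ≤ B ^ k + |μ| * B ^ (k + 1) := fun x hx => by
    rw [tubFun, one_mul]
    refine (abs_sub _ _).trans ?_
    rw [abs_mul, abs_pow, abs_pow]
    gcongr
  rw [Real.norm_eq_abs]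
  rcases le_total (tubFun k 1 μ (a t)) (tubFun k 1 μ (b t)) with h' | h'
  · rw [min_eq_left h']
    exact h _ (hab t ht).1
  · rw [min_eq_right h']
    exact h _ (hab t ht).2

theorem min_le_tubFun' (k : ℕ) {μ a b x : ℝ} (ha : 0 ≤ a) (hax : a ≤ x) (hxb : x ≤ b) :
    min (tubFun k 1 μ a) (tubFun k 1 μ b) ≤ tubFun k 1 μ x := by
  rcases le_or_gt μ 0 with hμ | hμ
  · refine (min_le_left _ _).trans ?_
    simp only [tubFun, one_mul]
    have h1 := pow_le_pow_left₀ ha hax k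
    have h2 := mul_le_mul_of_nonpos_left (pow_le_pow_left₀ ha hax (k + 1)) hμ
    linarith
  · exact min_le_tubFun k (y := 1) hμ ha hax hxb

/-- A window with a multiplier that varies: `μ + ν (w - c)`, for a weight `w` whose mean is at
least `c`. -/
theorem window_moment_le (hm : 2 ≤ m) (hφ : IsShape φ) {a b w : ℝ → ℝ} {μ ν c : ℝ} (hν : 0 ≤ ν)
    (ha : ∀ t ∈ Ioo (0 : ℝ) 1, 0 ≤ a t ∧ a t ≤ φ t / φ 0)
    (hb : ∀ t ∈ Ioo (0 : ℝ) 1, φ t / φ 0 ≤ b t)
    (hw : IntervalIntegrable (fun t => w t * φ t ^ m) volume 0 1)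
    (hc : c * mass m φ 1 ≤ ∫ t in (0 : ℝ)..1, w t * φ t ^ m)
    (hi : IntervalIntegrable (fun t => min (tubFun (m - 1) 1 (μ + ν * (w t - c)) (a t))
      (tubFun (m - 1) 1 (μ + ν * (w t - c)) (b t))) volume 0 1) :
    μ * (mass m φ 1 / φ 0 ^ m) + (∫ t in (0 : ℝ)..1,
      min (tubFun (m - 1) 1 (μ + ν * (w t - c)) (a t))
        (tubFun (m - 1) 1 (μ + ν * (w t - c)) (b t))) ≤
      (∫ t in (0 : ℝ)..1, φ t ^ (m - 1)) / φ 0 ^ (m - 1) := by
  obtain ⟨k, rfl⟩ : ∃ k, m = k + 1 := ⟨m - 1, by omega⟩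
  rw [Nat.add_sub_cancel] at hi ⊢
  have i1 := (intervalIntegrable_shape_pow01 hφ k).div_const (φ 0 ^ k)
  have i2 := ((intervalIntegrable_shape_pow01 hφ (k + 1)).div_const (φ 0 ^ (k + 1))).const_mul
    (μ - ν * c)
  have i3 := (hw.div_const (φ 0 ^ (k + 1))).const_mul ν
  have h := intervalIntegral.integral_mono_on_of_le_Ioo zero_le_one hi (i1.sub (i2.add i3))
    fun t ht => ?_
  · rw [intervalIntegral.integral_sub i1 (i2.add i3), intervalIntegral.integral_add i2 i3,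
      intervalIntegral.integral_const_mul, intervalIntegral.integral_const_mul,
      intervalIntegral.integral_div, intervalIntegral.integral_div,
      intervalIntegral.integral_div] at h
    have h2 := mul_le_mul_of_nonneg_left
      (div_le_div_of_nonneg_right hc (pow_nonneg hφ.centre.le (k + 1))) hν
    rw [mul_div_assoc] at h2
    rw [mass] at h2 ⊢
    linarith
  · have h1 := min_le_tubFun' k (μ := μ + ν * (w t - c)) (ha t ht).1 (ha t ht).2 (hb t ht)
    refine h1.trans (le_of_eq ?_)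
    simp only [tubFun, div_pow, one_mul]
    ring

/-- The scalar inequality of a window with a moment. -/
theorem window_moment_scalar (hm : 2 ≤ m) (hφ : IsShape φ) (hx : powRatio m φ ≤ 1)
    {a b w : ℝ → ℝ} {μ ν c K : ℝ} (hμ : 0 ≤ μ) (hν : 0 ≤ ν) (hK : 0 ≤ K)
    (ha : ∀ t ∈ Ioo (0 : ℝ) 1, 0 ≤ a t ∧ a t ≤ φ t / φ 0)
    (hb : ∀ t ∈ Ioo (0 : ℝ) 1, φ t / φ 0 ≤ b t)
    (hw : IntervalIntegrable (fun t => w t * φ t ^ m) volume 0 1)
    (hc : c * mass m φ 1 ≤ ∫ t in (0 : ℝ)..1, w t * φ t ^ m)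
    (hi : IntervalIntegrable (fun t => min (tubFun (m - 1) 1 (μ + ν * (w t - c)) (a t))
      (tubFun (m - 1) 1 (μ + ν * (w t - c)) (b t))) volume 0 1)
    (hKi : K ≤ ∫ t in (0 : ℝ)..1, min (tubFun (m - 1) 1 (μ + ν * (w t - c)) (a t))
      (tubFun (m - 1) 1 (μ + ν * (w t - c)) (b t))) :
    K * μ ^ (m - 1) * (m : ℝ) ^ m ≤
      ((m - 1 : ℕ) : ℝ) ^ (m - 1) * (ballRatio m ^ m * mass m ballShape 1) := by
  obtain ⟨hV, hP⟩ := power_mass_le (by omega) hφ hx
  have hVh : 0 < mass m φ 1 / φ 0 ^ m := div_pos hV (pow_pos hφ.centre m)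
  have h1 : μ * (mass m φ 1 / φ 0 ^ m) + K ≤ _ :=
    (add_le_add le_rfl hKi).trans (window_moment_le hm hφ hν ha hb hw hc hi)
  have h2 : (μ * (mass m φ 1 / φ 0 ^ m) + K) ^ m ≤
      ballRatio m ^ m * mass m ballShape 1 * (mass m φ 1 / φ 0 ^ m) ^ (m - 1) := by
    refine (pow_le_pow_left₀ (add_nonneg (mul_nonneg hμ hVh.le) hK) h1 m).trans ?_
    rw [div_pow, div_pow, ← pow_mul, ← pow_mul, mul_comm (m - 1) m, ← mul_div_assoc]
    exact div_le_div_of_nonneg_right hP (pow_nonneg hφ.centre.le _)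
  obtain ⟨k, rfl⟩ : ∃ k, m = k + 1 := ⟨m - 1, by omega⟩
  rw [Nat.add_sub_cancel] at *
  have h3 := (mul_pow_le_add_pow k (mul_nonneg hμ hVh.le) hK).trans
    (mul_le_mul_of_nonneg_left h2 (pow_nonneg (Nat.cast_nonneg k) k))
  rw [mul_pow] at h3
  push_cast
  refine le_of_mul_le_mul_right ?_ (pow_pos hVh k)
  linarith

end Vale.Agent.P237.Quant
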