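import Mathlib
import Vale.Agent.P237.Quant.PowerWindow
import Vale.Agent.P237.Quant.Moments

/-!
The slope of the chord from the centre by one scalar inequality: if `φ t₁` were above
`φ 0 * (1 - s * t₁)`, the profile would be above a broken line, and the power constraint on the
window between that line and `φ 0` fails as soon as one closed expression exceeds the constant
of the ball.
-/

namespace Vale.Agent.P237.Quant

open MeasureTheory Set Real

variable {m : ℕ} {φ : ℝ → ℝ}

/-- An antiderivative of `tubFun (m - 1) 1 μ`. -/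
noncomputable def tubPrim (m : ℕ) (μ x : ℝ) : ℝ := x ^ m / m - μ * x ^ (m + 1) / ((m : ℝ) + 1)

theorem integral_tub_affine (k : ℕ) (μ α : ℝ) {β : ℝ} (hβ : β ≠ 0) (p q : ℝ) :
    (∫ t in p..q, tubFun k 1 μ (α + β * t)) =
      (tubPrim (k + 1) μ (α + β * q) - tubPrim (k + 1) μ (α + β * p)) / β := by
  rw [sub_div, intervalIntegral.integral_eq_sub_of_hasDerivAt
    (f := fun t => tubPrim (k + 1) μ (α + β * t) / β) (fun t _ => ?_)
    ((by unfold tubFun; fun_prop : Continuous _).intervalIntegrable _ _)]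
  have hl : HasDerivAt (fun t => α + β * t) β t :=
    (((hasDerivAt_id' t).const_mul β).const_add α).congr_deriv (mul_one β)
  unfold tubPrim tubFun
  refine ((((hl.pow (k + 1)).div_const _).sub
    (((hl.pow (k + 1 + 1)).const_mul μ).div_const _)).div_const β).congr_deriv ?_
  simp only [Nat.add_sub_cancel]
  push_cast
  field_simp

/-- The integral of the window of a chord with slope `s` up to `t₁`, split where it meets `w`. -/
noncomputable def chordGain (m : ℕ) (μ s t₁ w : ℝ) : ℝ :=
  (1 - w) / s * tubFun (m - 1) 1 μ w + (tubPrim m μ w - tubPrim m μ (1 - s * t₁)) / s +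
    (1 - t₁) / (1 - s * t₁) * (tubPrim m μ (1 - s * t₁) - tubPrim m μ 0)

/-- The slope bound from one scalar inequality. -/
theorem chord_scalar (hm : 2 ≤ m) (hφ : IsShape φ) (hx : powRatio m φ ≤ 1) {t₁ s w μ κ : ℝ}
    (ht₁ : t₁ ∈ Ioo (0 : ℝ) 1) (hs : 0 < s) (hv : 0 < 1 - s * t₁) (hw : 1 - s * t₁ ≤ w)
    (hw1 : w ≤ 1) (hμ : 0 < μ) (hμw : μ * (m : ℝ) * w ≤ (m : ℝ) - 1)
    (hg : tubFun (m - 1) 1 μ w ≤ 1 - μ)
    (hκ : ballRatio m ^ m * mass m ballShape 1 ≤ κ)
    (hcond : ((m - 1 : ℕ) : ℝ) ^ (m - 1) * κ <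
      chordGain m μ s t₁ w * μ ^ (m - 1) * (m : ℝ) ^ m) :
    φ t₁ ≤ φ 0 * (1 - s * t₁) := by
  by_contra! hcon
  obtain ⟨ht0, ht1⟩ := ht₁
  set v := 1 - s * t₁ with hvdef
  set c := (1 - w) / s with hcdef
  have hc0 : 0 ≤ c := div_nonneg (sub_nonneg.2 hw1) hs.le
  have hct : c ≤ t₁ := by rw [hcdef, div_le_iff₀ hs]; linarith
  set β₂ := -(v / (1 - t₁)) with hβ₂
  set a : ℝ → ℝ := fun t => if t ≤ t₁ then 1 + -s * t else v / (1 - t₁) + β₂ * t with ha_def
  have hvt : v ≤ φ t₁ / φ 0 := by rw [le_div_iff₀ hφ.centre]; linarith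
  have hmem : ∀ t ∈ Ioo (0 : ℝ) 1, 0 ≤ a t ∧ a t ≤ φ t / φ 0 := fun t ht => by
    simp only [ha_def]
    by_cases h : t ≤ t₁
    · rw [if_pos h]
      refine ⟨by nlinarith, ?_⟩
      refine le_trans (le_of_eq ?_) (line_le_shape hφ (by norm_num) ht0 ht1.le ⟨ht.1.le, h⟩
        (le_of_eq (div_self hφ.centre.ne').symm) hvt)
      rw [hvdef]
      field_simp
      ring
    · rw [if_neg h]
      have e : v / (1 - t₁) + β₂ * t = ((1 - t) * v + (t - t₁) * 0) / (1 - t₁) := by
        rw [hβ₂]; ring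
      rw [e]
      exact ⟨div_nonneg (by nlinarith [ht.2]) (by linarith),
        line_le_shape hφ (by linarith) ht1 le_rfl ⟨(not_le.1 h).le, ht.2.le⟩ hvt
          (shape_ratio_mem hφ (by norm_num)).1⟩
  have hb : ∀ t ∈ Ioo (0 : ℝ) 1, φ t / φ 0 ≤ (fun _ : ℝ => (1 : ℝ)) t := fun t ht =>
    (shape_ratio_mem hφ ⟨by linarith [ht.1], ht.2.le⟩).2
  have ha1 : ∀ t ∈ Ioo (0 : ℝ) 1, a t ≤ 1 := fun t ht => (hmem t ht).2.trans (hb t ht)
  have hi : IntervalIntegrable (fun t => min (tubFun (m - 1) 1 μ (a t))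
      (tubFun (m - 1) 1 μ ((fun _ : ℝ => (1 : ℝ)) t))) volume 0 1 := by
    refine intervalIntegrable_window ?_ measurable_const (B := 1) fun t ht => ?_
    · exact Measurable.ite measurableSet_Iic (by fun_prop) (by fun_prop)
    · exact ⟨abs_le.2 ⟨by linarith [(hmem t ht).1], ha1 t ht⟩, le_of_eq abs_one⟩
  have h := window_scalar hm hφ hx hμ hmem hb hi
  obtain ⟨k, rfl⟩ : ∃ k, m = k + 1 := ⟨m - 1, by omega⟩
  simp only [chordGain, ← hvdef, ← hcdef] at hcond
  rw [Nat.add_sub_cancel] at *
  simp only [windowMin] at h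
  set D : ℝ → ℝ := fun t => min (tubFun k 1 μ (a t)) (tubFun k 1 μ 1) with hD
  have hg1 : tubFun k 1 μ 1 = 1 - μ := by simp [tubFun]
  have iD : ∀ {p q : ℝ}, 0 ≤ p → p ≤ q → q ≤ 1 → IntervalIntegrable D volume p q :=
    fun hp hpq hq => hi.mono_set (by
      rw [uIcc_of_le hpq, uIcc_of_le zero_le_one]
      exact Icc_subset_Icc hp hq)
  -- where the line is below `w` the minimum is its own value
  have hlow : ∀ x, 0 ≤ x → x ≤ w → tubFun k 1 μ x = min (tubFun k 1 μ x) (tubFun k 1 μ 1) :=
    fun x hx0 hxw => (min_eq_left ((tubFun_mono k hμ hx0 hxw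
      (by push_cast at hμw; linarith)).trans (hg.trans hg1.ge))).symm
  have hI : ∀ {p q : ℝ}, p ≤ q → ∀ α β : ℝ, IntervalIntegrable D volume p q → β ≠ 0 →
      (∀ t ∈ Ioo p q, tubFun k 1 μ (α + β * t) ≤ D t) →
      (tubPrim (k + 1) μ (α + β * q) - tubPrim (k + 1) μ (α + β * p)) / β ≤ ∫ t in p..q, D t :=
    fun hpq α β hint hβ hle => by
      rw [← integral_tub_affine k μ α hβ]
      exact intervalIntegral.integral_mono_on_of_le_Ioo hpq
        ((by unfold tubFun; fun_prop : Continuous _).intervalIntegrable _ _) hint hle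
  have h1 : c * tubFun k 1 μ w ≤ ∫ t in (0 : ℝ)..c, D t := by
    have := intervalIntegral.integral_mono_on_of_le_Ioo hc0 (f := fun _ => tubFun k 1 μ w)
      intervalIntegrable_const (iD le_rfl hc0 (by linarith)) fun t ht => by
        have ht' : t ∈ Ioo (0 : ℝ) 1 := ⟨ht.1, by linarith [ht.2]⟩
        have hwt : w ≤ a t := by
          simp only [ha_def]
          rw [if_pos (by linarith [ht.2])]
          have := ht.2
          rw [hcdef, lt_div_iff₀ hs] at this
          linarith
        have hgw : tubFun k 1 μ w ≤ tubFun k 1 μ 1 := hg.trans hg1.ge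
        refine le_min ?_ hgw
        have := min_le_tubFun k (y := 1) hμ (hv.le.trans hw) hwt (ha1 t ht')
        rwa [min_eq_left hgw] at this
    rw [intervalIntegral.integral_const, smul_eq_mul, sub_zero] at this
    exact this
  have h2 : (tubPrim (k + 1) μ w - tubPrim (k + 1) μ v) / s ≤ ∫ t in c..t₁, D t := by
    refine le_trans (le_of_eq ?_) (hI hct 1 (-s) (iD hc0 hct ht1.le) (neg_ne_zero.2 hs.ne')
      fun t ht => ?_)
    · rw [show 1 + -s * t₁ = v by ring, show 1 + -s * c = w by rw [hcdef]; field_simp; ring]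
      field_simp
      ring
    · have ht' : t ∈ Ioo (0 : ℝ) 1 := ⟨by linarith [ht.1], by linarith [ht.2]⟩
      have e : a t = 1 + -s * t := by simp only [ha_def]; rw [if_pos ht.2.le]
      have hle : a t ≤ w := by
        have := ht.1
        rw [hcdef, div_lt_iff₀ hs] at this
        rw [e]; linarith
      rw [hD, ← e]
      exact le_of_eq (hlow _ (hmem t ht').1 hle)
  have h3 : (1 - t₁) / v * (tubPrim (k + 1) μ v - tubPrim (k + 1) μ 0) ≤
      ∫ t in t₁..1, D t := by
    refine le_trans (le_of_eq ?_) (hI ht1.le (v / (1 - t₁)) β₂ (iD ht0.le ht1.le le_rfl)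
      (neg_ne_zero.2 (div_pos hv (by linarith)).ne') fun t ht => ?_)
    · have h1t : (1 : ℝ) - t₁ ≠ 0 := by linarith
      rw [show v / (1 - t₁) + β₂ * 1 = 0 by rw [hβ₂]; ring,
        show v / (1 - t₁) + β₂ * t₁ = v by rw [hβ₂]; field_simp; ring, hβ₂]
      field_simp
      ring
    · have ht' : t ∈ Ioo (0 : ℝ) 1 := ⟨ht0.trans ht.1, ht.2⟩
      have e : a t = v / (1 - t₁) + β₂ * t := by
        simp only [ha_def]; rw [if_neg (not_le.2 ht.1)]
      have hle : a t ≤ w := by
        refine le_trans ?_ hw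
        rw [e, hβ₂, ← sub_nonneg]
        have : v - (v / (1 - t₁) + -(v / (1 - t₁)) * t) = v * (t - t₁) / (1 - t₁) := by
          have h1t : (1 : ℝ) - t₁ ≠ 0 := by linarith
          field_simp
          ring
        rw [this]
        exact div_nonneg (mul_nonneg hv.le (by linarith [ht.1])) (by linarith)
      rw [hD, ← e]
      exact le_of_eq (hlow _ (hmem t ht').1 hle)
  rw [← intervalIntegral.integral_add_adjacent_intervals (iD le_rfl hc0 (hct.trans ht1.le))
    (iD hc0 (hct.trans ht1.le) le_rfl), ← intervalIntegral.integral_add_adjacent_intervals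
    (iD hc0 hct ht1.le) (iD ht0.le ht1.le le_rfl)] at h
  have h4 := mul_le_mul_of_nonneg_right (mul_le_mul_of_nonneg_right
    (add_le_add (add_le_add h1 h2) h3) (pow_nonneg hμ.le k))
    (pow_nonneg (Nat.cast_nonneg (k + 1) : (0 : ℝ) ≤ _) (k + 1))
  have h5 := mul_le_mul_of_nonneg_left hκ (pow_nonneg (Nat.cast_nonneg k : (0 : ℝ) ≤ _) k)
  linarith

/-- Consecutive masses of the ball profile. -/
theorem ball_mass_product : ∀ k : ℕ,
    ((k : ℝ) + 2) * (mass k ballShape 1 * mass (k + 1) ballShape 1) = Real.pi / 2 := by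
  intro k
  induction k with
  | zero =>
    have h1 : mass 1 ballShape 1 = Real.pi / 4 := by
      have hs := intervalIntegral.integral_add_adjacent_intervals (μ := volume) (a := (-1 : ℝ))
        (b := 0) (c := 1) (f := fun t => ballShape t)
        (cont_ball.intervalIntegrable _ _) (cont_ball.intervalIntegrable _ _)
      have hn : (∫ t in (-1 : ℝ)..0, ballShape t) = ∫ t in (0 : ℝ)..1, ballShape t := by
        have := intervalIntegral.integral_comp_neg (fun t => ballShape t) (a := (0 : ℝ)) (b := 1)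
        simp only [neg_zero] at this
        rw [← this]
        exact intervalIntegral.integral_congr fun t _ => by simp [ballShape]
      rw [hn] at hs
      have hh : (∫ t in (-1 : ℝ)..1, ballShape t) = Real.pi / 2 := integral_sqrt_one_sub_sq
      simp only [mass, pow_one]
      linarith
    rw [show mass 0 ballShape 1 = 1 by simp [mass], h1]
    push_cast
    ring
  | succ k ih =>
    have h := ball_mass_rec k
    push_cast at h ⊢
    linear_combination ih + mass (k + 1) ballShape 1 * h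

/-- The constant of the ball, exactly and closed. -/
theorem ball_const_le (hm : 3 ≤ m) :
    ballRatio m ^ m * mass m ballShape 1 * √((m : ℝ) + 1) ≤
      √(π / 2) * exp (1 / 2 - 3 / (4 * ((m : ℝ) + 1))) := by
  obtain ⟨j, rfl⟩ : ∃ j, m = j + 1 := ⟨m - 1, by omega⟩
  set r := ballRatio (j + 1) with hr
  have hr0 : 0 < r := ballRatio_pos _
  have hV := ball_mass_pos (j + 1)
  have hP : mass j ballShape 1 = r * mass (j + 1) ballShape 1 := by
    rw [hr, ← ballMom_pred, Nat.add_sub_cancel]
  have hprod := ball_mass_product j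
  rw [hP] at hprod
  set d : ℝ := 1 / (((j + 1 : ℕ) : ℝ) + 1) with hd
  have hd0 : 0 ≤ d := by positivity
  have hre : r ≤ exp (d / 2) := by
    refine (ballRatio_bracket hm).2.trans ?_
    refine le_trans ?_ (Real.sum_le_exp_of_nonneg (by positivity) 3)
    simp only [ratioCubic, ← hd, Finset.sum_range_succ, Finset.sum_range_zero, Nat.factorial]
    norm_num
    nlinarith [pow_nonneg hd0 3]
  refine (pow_le_pow_iff_left₀ (by positivity) (by positivity) two_ne_zero).1 ?_
  rw [mul_pow, mul_pow _ (exp _), sq_sqrt (by positivity), sq_sqrt (by positivity),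
    ← exp_nat_mul]
  calc (r ^ (j + 1) * mass (j + 1) ballShape 1) ^ 2 * (((j + 1 : ℕ) : ℝ) + 1)
      = r ^ (2 * j + 1) * (((j : ℝ) + 2) * (r * mass (j + 1) ballShape 1 *
          mass (j + 1) ballShape 1)) := by push_cast; ring
    _ = r ^ (2 * j + 1) * (π / 2) := by rw [hprod]
    _ ≤ exp (d / 2) ^ (2 * j + 1) * (π / 2) :=
        mul_le_mul_of_nonneg_right (pow_le_pow_left₀ hr0.le hre _) (by positivity)
    _ = _ := by
        rw [← exp_nat_mul, mul_comm, hd]
        congr 2
        push_cast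
        field_simp
        ring

end Vale.Agent.P237.Quant
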