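import Mathlib
import Vale.Agent.P237.Quant.ChordScalar

/-!
The slope of the chord from the centre, uniformly in the dimension: for `n = m + 1 ≥ 35` a profile
with power ratio at most one is below `φ 0 (1 - s t)` at `t = 12 √n / (3 n + 16)`, with
`s = 1.04 / √(n + 2/3)`; in particular at `tanh (4 / √n)` with `tanh (1.04 / √n)`.
-/

namespace Vale.Agent.P237.Quant

open MeasureTheory Set Real

variable {m : ℕ} {φ : ℝ → ℝ}

/-- The point of the uniform bound. -/
noncomputable def uniPoint (n : ℝ) : ℝ := 12 * √n / (3 * n + 16)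

/-- The slope of the uniform bound. -/
noncomputable def uniSlope (n : ℝ) : ℝ := 26 / 25 / √(n + 2 / 3)

/-- A lower bound of `m s t` at the uniform point and slope, in `l = 1 / n`. -/
noncomputable def uniExp (l : ℝ) : ℝ := 416 / 100 * (1 - l) / ((1 + 16 / 3 * l) * (1 + l / 3))

theorem sq_exp_le {a : ℝ} (ha : 0 ≤ a) : 1 - a ≤ exp (-(a + a ^ 2 / 2)) := by
  rcases le_or_gt 1 a with h | h
  · linarith [exp_pos (-(a + a ^ 2 / 2))]
  have hd : ∀ x, HasDerivAt (fun x : ℝ => exp (x + x ^ 2 / 2) * (1 - x))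
      (-(exp (x + x ^ 2 / 2) * x ^ 2)) x := fun x => by
    refine ((((hasDerivAt_id' x).add ((hasDerivAt_pow 2 x).div_const 2)).exp).mul
      ((hasDerivAt_id' x).const_sub 1)).congr_deriv ?_
    simp only [Pi.add_apply]
    push_cast
    ring
  have hanti : AntitoneOn (fun x : ℝ => exp (x + x ^ 2 / 2) * (1 - x)) (Ici 0) :=
    antitoneOn_of_hasDerivWithinAt_nonpos (convex_Ici 0) (by fun_prop)
      (fun x _ => (hd x).hasDerivWithinAt) fun x _ => neg_nonpos.2 (by positivity)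
  have h0 := hanti self_mem_Ici ha ha
  simp only [zero_pow, zero_div, add_zero, exp_zero, sub_zero, mul_one, ne_eq,
    OfNat.ofNat_ne_zero, not_false_eq_true] at h0
  rw [exp_neg, ← one_div, le_div_iff₀ (exp_pos _)]
  linarith

theorem exp_chord_bound {l : ℝ} (hl : l ∈ Icc (0 : ℝ) (1 / 35)) :
    exp (96 / 5 * l) ≤ 1 + 128 / 5 * l := by
  have h := convexOn_exp.2 (mem_univ 0) (mem_univ (96 / 175 : ℝ))
    (show 0 ≤ 1 - 35 * l by linarith [hl.2]) (show 0 ≤ 35 * l by linarith [hl.1]) (by ring)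
  simp only [smul_eq_mul, mul_zero, zero_add, exp_zero, mul_one] at h
  rw [show 35 * l * (96 / 175) = 96 / 5 * l by ring] at h
  have he : exp (96 / 175 : ℝ) ≤ 1 + 128 / 175 := by
    refine (Real.exp_bound' (by norm_num) (by norm_num) (n := 7) (by norm_num)).trans ?_
    norm_num [Finset.sum_range_succ, Nat.factorial]
  have := mul_le_mul_of_nonneg_left he (show 0 ≤ 35 * l by linarith [hl.1])
  linarith

theorem uni_consts :
    (5819760 : ℝ) / 10000000 ≤ exp (-1) / (1 - exp (-1)) ∧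
      exp (-1) / (1 - exp (-1)) ≤ 581977 / 1000000 ∧
      exp (-(416 / 100 : ℝ)) ≤ 15608 / 1000000 ∧
      (151895 : ℝ) / 100000 ≤ exp (418023 / 1000000) ∧
      √(π / 2) * exp (1 / 2) ≤ 206637 / 100000 := by
  have h1 := Real.exp_neg_one_gt_d9
  have h2 := Real.exp_neg_one_lt_d9
  refine ⟨?_, ?_, ?_, ?_, ?_⟩
  · rw [le_div_iff₀ (by linarith)]; linarith
  · rw [div_le_iff₀ (by linarith)]; linarith
  · rw [exp_neg, inv_le_comm₀ (exp_pos _) (by norm_num),
      show (416 / 100 : ℝ) = (4 : ℕ) * (1 : ℝ) + 16 / 100 by norm_num, exp_add, exp_nat_mul]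
    refine le_trans ?_ (mul_le_mul (pow_le_pow_left₀ (by norm_num) Real.exp_one_gt_d9.le 4)
      (Real.sum_le_exp_of_nonneg (by norm_num) 6) (Finset.sum_nonneg fun i _ => by positivity)
      (by positivity))
    norm_num [Finset.sum_range_succ, Nat.factorial]
  · refine le_trans ?_ (Real.sum_le_exp_of_nonneg (by norm_num) 8)
    norm_num [Finset.sum_range_succ, Nat.factorial]
  · refine (pow_le_pow_iff_left₀ (by positivity) (by norm_num) two_ne_zero).1 ?_
    rw [mul_pow, sq_sqrt (by positivity), ← exp_nat_mul]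
    norm_num
    nlinarith [Real.pi_lt_d6, Real.exp_one_lt_d9, exp_pos 1, pi_pos]

/-- The polynomial facts at `l = 1 / n`. -/
theorem uni_poly {l : ℝ} (hl : l ∈ Ioc (0 : ℝ) (1 / 35)) :
    1 ≤ uniExp l ∧ 416 / 100 - 96 / 5 * l ≤ uniExp l + uniExp l ^ 2 * l / 2 ∧
      1 + 581977 / 1000000 * (2 * (1 - l) / (2 - 3 * l)) + uniExp l ≤ 5743 / 1000 - 236 / 10 * l ∧
      26 / 25 * (206637 / 100000) <
        (1531570 / 1000000 - 15608 / 1000000 * (1 + 128 / 5 * l) * (5743 / 1000 - 236 / 10 * l)) *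
          (151895 / 100000) * (1 + 58 / 100 * l) := by
  obtain ⟨h0, h1⟩ := hl
  have hD : 0 < (1 + 16 / 3 * l) * (1 + l / 3) := by positivity
  have h2 : (0 : ℝ) < 2 - 3 * l := by linarith
  have hl2 := mul_nonneg h0.le (sub_nonneg.2 h1)
  refine ⟨?_, ?_, ?_, ?_⟩
  · rw [uniExp, le_div_iff₀ hD]
    nlinarith
  · have e : ∀ A D : ℝ, 0 < D → A / D + (A / D) ^ 2 * l / 2 =
        (2 * A * D + A ^ 2 * l) / (2 * D ^ 2) := fun A D hD => by field_simp
    rw [uniExp, e _ _ hD, le_div_iff₀ (by positivity)]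
    nlinarith [mul_nonneg hl2 h0.le, mul_nonneg (mul_nonneg hl2 h0.le) h0.le,
      mul_nonneg (mul_nonneg hl2 h0.le) (mul_nonneg h0.le h0.le)]
  · rw [uniExp, ← mul_div_assoc, add_assoc, div_add_div _ _ h2.ne' hD.ne', ← le_sub_iff_add_le',
      div_le_iff₀ (by positivity)]
    nlinarith [mul_nonneg hl2 h0.le, mul_nonneg (mul_nonneg hl2 h0.le) h0.le]
  · nlinarith [mul_nonneg hl2 h0.le]

/-- The exponent of the multiplier term. -/
theorem uni_multiplier {M : ℝ} (hM : 34 ≤ M) {η : ℝ} (hη0 : 5819760 / 10000000 ≤ η)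
    (hη : η ≤ 581977 / 1000000 * (2 * M / (2 * M - 1))) :
    exp (418023 / 1000000 + 1 / 4 / (M + 1) - 3 / (4 * (M + 1))) ≤
      exp ((1 - η) / (1 + (1 - η) / (M - 1))) := by
  have h1 : (0 : ℝ) < 2 * M - 1 := by linarith
  have hk : (0 : ℝ) < M - 1 := by linarith
  have hM1 : (0 : ℝ) < M + 1 := by linarith
  have hq : 2 * M / (2 * M - 1) ≤ 68 / 67 := by
    rw [div_le_div_iff₀ h1 (by norm_num)]; linarith
  have hy : 0 ≤ 1 - η := by
    have := mul_le_mul_of_nonneg_left hq (show (0 : ℝ) ≤ 581977 / 1000000 by norm_num)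
    linarith
  refine exp_le_exp.2 (le_trans ?_ (show (1 - η) - (1 - η) ^ 2 / (M - 1) ≤
    (1 - η) / (1 + (1 - η) / (M - 1)) from ?_))
  · have h2 : (1 - η) ^ 2 / (M - 1) ≤ 174744064576 / 1000000000000 / (M - 1) :=
      div_le_div_of_nonneg_right (by nlinarith) hk.le
    have e : 581977 / 1000000 * (2 * M / (2 * M - 1)) =
        581977 / 1000000 + 581977 / 1000000 / (2 * M - 1) := by field_simp; ring
    have key : 581977 / 1000000 / (2 * M - 1) + 174744064576 / 1000000000000 / (M - 1) +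
        1 / 1000000 / (M + 1) ≤ 1 / 2 / (M + 1) := by
      rw [div_add_div _ _ h1.ne' hk.ne', div_add_div _ _ (by positivity) hM1.ne',
        div_le_div_iff₀ (by positivity) hM1]
      nlinarith [mul_nonneg (sub_nonneg.2 hM) hk.le,
        mul_nonneg (mul_nonneg (sub_nonneg.2 hM) hk.le) hM1.le]
    have e2 : 1 / 4 / (M + 1) - 3 / (4 * (M + 1)) = -(1 / 2 / (M + 1)) := by field_simp; ring
    have : 0 ≤ 1 / 1000000 / (M + 1) := by positivity
    linarith
  · rw [le_div_iff₀ (by positivity)]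
    have e : ((1 - η) - (1 - η) ^ 2 / (M - 1)) * (1 + (1 - η) / (M - 1)) =
        (1 - η) - (1 - η) ^ 3 / (M - 1) ^ 2 := by field_simp; ring
    rw [e]
    exact sub_le_self _ (by positivity)

/-- The multiplier, levelling `exp (-1 / M)` with the top. -/
noncomputable def uniMult (M : ℝ) : ℝ := (1 - exp (-1) / exp (-(1 / M))) / (1 - exp (-1))

/-- Facts on the multiplier. -/
theorem uni_mult_facts {M : ℝ} (hM : 34 ≤ M) :
    0 < uniMult M ∧ uniMult M ≤ 1 ∧
      1 - uniMult M * exp (-(1 / M)) = (1 - exp (-(1 / M))) / (1 - exp (-1)) ∧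
      1 - 1 / (2 * M) ≤ M * (1 - exp (-(1 / M))) ∧
      exp (-1) / (1 - exp (-1)) ≤ M * (1 - uniMult M) ∧
      M * (1 - uniMult M) ≤ 581977 / 1000000 * (2 * M / (2 * M - 1)) := by
  obtain ⟨-, he1, -, -, -⟩ := uni_consts
  have hM0 : 0 < M := by linarith
  have h1M : 1 / M ≤ 1 / 34 := one_div_le_one_div_of_le (by norm_num) hM
  have h1M0 : 0 < 1 / M := by positivity
  set w := exp (-(1 / M)) with hwdef
  set ρ := exp (-1) with hρdef
  have hw0 : 0 < w := exp_pos _
  have hρ1 : ρ < 1 := exp_lt_one_iff.2 (by norm_num)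
  have hρw : ρ < w := exp_lt_exp.2 (by linarith)
  have hw1 : w < 1 := exp_lt_one_iff.2 (by linarith)
  have he00 : 0 ≤ ρ / (1 - ρ) := div_nonneg (exp_pos _).le (by linarith)
  have hne : (1 : ℝ) - ρ ≠ 0 := by linarith
  have hη : M * (1 - uniMult M) = ρ / (1 - ρ) * (M * (exp (1 / M) - 1)) := by
    have : exp (1 / M) = 1 / w := by rw [hwdef, exp_neg, one_div (exp (1 / M))⁻¹, inv_inv]
    rw [uniMult, ← hwdef, ← hρdef, this]
    field_simp
    ring
  have hge : 0 ≤ exp (1 / M) - 1 := by linarith [add_one_le_exp (1 / M)]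
  refine ⟨div_pos (by rw [sub_pos, div_lt_one hw0]; exact hρw) (by linarith), ?_, ?_, ?_, ?_, ?_⟩
  · rw [uniMult, ← hwdef, ← hρdef, div_le_one (by linarith), sub_le_sub_iff_left,
      le_div_iff₀ hw0]
    exact mul_le_of_le_one_right (exp_pos _).le hw1.le
  · rw [uniMult, ← hwdef, ← hρdef]
    field_simp
    ring
  · have h := Real.quadratic_le_exp_of_nonneg h1M0.le
    have hw' : w * (1 + 1 / M + (1 / M) ^ 2 / 2) ≤ 1 := by
      refine (mul_le_mul_of_nonneg_left h hw0.le).trans ?_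
      rw [hwdef, ← exp_add, neg_add_cancel, exp_zero]
    rw [show 1 - 1 / (2 * M) = M * (1 / M * (1 - 1 / M / 2)) by field_simp]
    refine mul_le_mul_of_nonneg_left ?_ hM0.le
    generalize 1 / M = a at hw' h1M0 h1M
    nlinarith [pow_pos h1M0 3, pow_pos h1M0 4]
  · rw [hη]
    refine le_mul_of_one_le_right he00 ?_
    calc (1 : ℝ) = M * (1 / M) := by field_simp
      _ ≤ M * (exp (1 / M) - 1) :=
          mul_le_mul_of_nonneg_left (by linarith [add_one_le_exp (1 / M)]) hM0.le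
  · rw [hη]
    refine mul_le_mul he1 ?_ (mul_nonneg hM0.le hge) (by norm_num)
    have h := exp_mul_two_sub_le h1M0.le
    rw [show 2 * M / (2 * M - 1) = M * (2 * (1 / M) / (2 - 1 / M)) by field_simp]
    refine mul_le_mul_of_nonneg_left ?_ hM0.le
    rw [le_div_iff₀ (by linarith)]
    linarith

/-- The exponent `m s t` at the uniform point and slope. -/
theorem uni_point_facts {N : ℝ} (hN : 35 ≤ N) :
    (uniPoint N ∈ Ioo (0 : ℝ) 1) ∧ 0 < uniSlope N ∧ uniSlope N * uniPoint N < 1 ∧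
      uniExp (1 / N) ≤ (N - 1) * uniSlope N * uniPoint N ∧
      uniSlope N * N * (1 + 3305 / 10000 * (1 / N)) ≤ 26 / 25 * √N := by
  have hN0 : 0 < N := by linarith
  have hsN := Real.sqrt_pos.2 hN0
  have hsN2 := Real.sqrt_pos.2 (show 0 < N + 2 / 3 by linarith)
  have hsq := sq_sqrt hN0.le
  have hT1 : uniPoint N < 1 := by
    rw [uniPoint, div_lt_one (by positivity)]
    nlinarith [sq_nonneg (√N - 2)]
  have hS : 0 < uniSlope N := by rw [uniSlope]; positivity
  set q := √N / √(N + 2 / 3) with hqdef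
  have hq : q ^ 2 = N / (N + 2 / 3) := by rw [hqdef, div_pow, hsq, sq_sqrt (by linarith)]
  refine ⟨⟨by rw [uniPoint]; positivity, hT1⟩, hS, ?_, ?_, ?_⟩
  · refine lt_of_lt_of_le (mul_lt_mul_of_pos_left hT1 hS) ?_
    rw [mul_one, uniSlope, div_le_one hsN2]
    exact le_trans (by norm_num) (Real.le_sqrt_of_sq_le
      (show (2 : ℝ) ^ 2 ≤ N + 2 / 3 by linarith))
  · have hq1 : 1 / (1 + 1 / N / 3) ≤ q := by
      refine (pow_le_pow_iff_left₀ (by positivity) (by positivity) two_ne_zero).1 ?_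
      rw [hq, div_pow, div_le_div_iff₀ (by positivity) (by linarith)]
      field_simp
      nlinarith
    have e : (N - 1) * uniSlope N * uniPoint N =
        416 / 100 * (1 - 1 / N) / (1 + 16 / 3 * (1 / N)) * q := by
      rw [uniSlope, uniPoint, hqdef]
      field_simp
      ring
    rw [e, uniExp, ← div_div, div_eq_mul_one_div (416 / 100 * (1 - 1 / N) / _)]
    refine mul_le_mul_of_nonneg_left hq1 (div_nonneg ?_ (by positivity))
    have : 1 / N ≤ 1 := (div_le_one hN0).2 (by linarith)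
    linarith
  · have hq2 : q * (1 + 3305 / 10000 * (1 / N)) ≤ 1 := by
      refine (pow_le_pow_iff_left₀ (by positivity) zero_le_one two_ne_zero).1 ?_
      rw [mul_pow, hq, div_mul_eq_mul_div, div_le_iff₀ (by linarith)]
      field_simp
      nlinarith
    have e : uniSlope N * N = 26 / 25 * √N * q := by
      rw [uniSlope, hqdef]
      field_simp
      linarith [hsq]
    rw [e, mul_assoc (26 / 25 * √N)]
    exact mul_le_of_le_one_right (by positivity) hq2

/-- The last power, times its weight. -/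
theorem uni_last_power (hm : 34 ≤ m) {S T η μ : ℝ} (hST : 0 ≤ S * T) (hST1 : S * T < 1)
    (hu : uniExp (1 / ((m : ℝ) + 1)) ≤ (m : ℝ) * S * T) (hμ : μ ∈ Icc (0 : ℝ) 1) (hη0 : 0 ≤ η)
    (hη : η ≤ 581977 / 1000000 * (2 * (m : ℝ) / (2 * (m : ℝ) - 1))) :
    (1 - S * T) ^ m * (1 + η + μ * ((m : ℝ) * S * T)) ≤
      15608 / 1000000 * (1 + 128 / 5 * (1 / ((m : ℝ) + 1))) *
        (5743 / 1000 - 236 / 10 * (1 / ((m : ℝ) + 1))) := by
  obtain ⟨-, -, he416, -, -⟩ := uni_consts
  have hM : (34 : ℝ) ≤ m := by exact_mod_cast hm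
  set M : ℝ := (m : ℝ)
  set u := M * S * T with hudef
  set l := 1 / (M + 1) with hldef
  have hl : l ∈ Ioc (0 : ℝ) (1 / 35) :=
    ⟨by positivity, one_div_le_one_div_of_le (by norm_num) (by linarith)⟩
  obtain ⟨hU1, hE, hlin, -⟩ := uni_poly hl
  set U := uniExp l
  have h1 : (1 - S * T) ^ m ≤ exp (-(u + u ^ 2 / (2 * M))) := by
    refine (pow_le_pow_left₀ (by linarith) (sq_exp_le hST) m).trans ?_
    rw [← exp_nat_mul, hudef]
    refine exp_le_exp.2 (le_of_eq ?_)
    field_simp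
    ring
  have hμu : μ * u ≤ u := mul_le_of_le_one_left (by linarith) hμ.2
  have hμu0 : 0 ≤ μ * u := mul_nonneg hμ.1 (by linarith)
  have h2 : 1 + η + μ * u ≤ (1 + η + U) * exp (u - U) := by
    refine le_trans ?_ (mul_le_mul_of_nonneg_left (add_one_le_exp _) (by linarith))
    nlinarith
  have h3 : exp (-(u + u ^ 2 / (2 * M))) * exp (u - U) ≤ exp (-(416 / 100 - 96 / 5 * l)) := by
    rw [← exp_add]
    refine exp_le_exp.2 ?_
    have hUu : U ^ 2 / (2 * M) ≤ u ^ 2 / (2 * M) :=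
      div_le_div_of_nonneg_right (pow_le_pow_left₀ (by linarith) hu 2) (by linarith)
    have hUl : U ^ 2 * l / 2 ≤ U ^ 2 / (2 * M) := by
      rw [hldef, show U ^ 2 * (1 / (M + 1)) / 2 = U ^ 2 / (2 * (M + 1)) by field_simp]
      exact div_le_div_of_nonneg_left (sq_nonneg _) (by linarith) (by linarith)
    linarith
  have h4 : exp (-(416 / 100 - 96 / 5 * l)) ≤ 15608 / 1000000 * (1 + 128 / 5 * l) := by
    rw [neg_sub, sub_eq_add_neg, exp_add, mul_comm]
    exact mul_le_mul he416 (exp_chord_bound ⟨hl.1.le, hl.2⟩) (exp_pos _).le (by norm_num)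
  have h5 : 1 + η + U ≤ 5743 / 1000 - 236 / 10 * l := by
    refine le_trans ?_ hlin
    have h6 : 2 * (1 - l) / (2 - 3 * l) = 2 * M / (2 * M - 1) := by
      have hM1 : M + 1 ≠ 0 := by linarith
      have e1 : 1 - l = M / (M + 1) := by rw [hldef]; field_simp; ring
      have e2 : 2 - 3 * l = (2 * M - 1) / (M + 1) := by rw [hldef]; field_simp; ring
      rw [e1, e2]; field_simp
    rw [h6]
    linarith
  calc (1 - S * T) ^ m * (1 + η + μ * u)
      ≤ exp (-(u + u ^ 2 / (2 * M))) * ((1 + η + U) * exp (u - U)) :=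
        mul_le_mul h1 h2 (by linarith) (exp_pos _).le
    _ = exp (-(u + u ^ 2 / (2 * M))) * exp (u - U) * (1 + η + U) := by ring
    _ ≤ _ := mul_le_mul (h3.trans h4) h5 (by linarith) (by have := hl.1; positivity)

/-- The closed lower bound of the gain. -/
theorem uni_gain (hm : 34 ≤ m) {S T B : ℝ} (hT : T ∈ Ioo (0 : ℝ) 1) (hS : 0 < S) (hST : S * T < 1)
    (hgw : tubFun (m - 1) 1 (uniMult m) (exp (-(1 / (m : ℝ)))) = 1 - uniMult m)
    (hwm : exp (-(1 / (m : ℝ))) ^ m = exp (-1))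
    (hB : B + (1 - S * T) ^ m *
      (1 + (m : ℝ) * (1 - uniMult m) + uniMult m * ((m : ℝ) * S * T)) ≤ 1531570 / 1000000) :
    B / (S * m * ((m : ℝ) + 1)) ≤ chordGain m (uniMult m) S T (exp (-(1 / (m : ℝ)))) := by
  have hM : (34 : ℝ) ≤ m := by exact_mod_cast hm
  obtain ⟨hμ0, hμ1, hμw, hx, hη, -⟩ := uni_mult_facts hM
  obtain ⟨he0, -, -, -, -⟩ := uni_consts
  set μ := uniMult (m : ℝ)
  set M : ℝ := (m : ℝ) with hMdef
  set w := exp (-(1 / M)) with hwdef
  set ρ := exp (-1) with hρdef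
  set v := 1 - S * T with hvdef
  have hv0 : 0 < v := by linarith
  have hM0 : 0 < M := by linarith
  have htail : 0 ≤ (1 - T) / v * (tubPrim m μ v - tubPrim m μ 0) := by
    refine mul_nonneg (div_nonneg (by linarith [hT.2]) hv0.le) ?_
    have e : tubPrim m μ v - tubPrim m μ 0 = v ^ m * (1 / M - μ * v / (M + 1)) := by
      rw [tubPrim, tubPrim, zero_pow (by omega), zero_pow (by omega)]
      ring
    rw [e]
    refine mul_nonneg (pow_nonneg hv0.le m) (sub_nonneg.2 ?_)
    have h' : μ * v ≤ 1 := mul_le_one₀ hμ1 hv0.le (by linarith [mul_pos hS hT.1])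
    rw [div_le_div_iff₀ (by linarith) hM0]
    nlinarith
  refine le_trans ?_ (le_add_of_nonneg_right htail)
  rw [hgw, ← hvdef]
  have e : (1 - w) / S * (1 - μ) + (tubPrim m μ w - tubPrim m μ v) / S =
      ((M + 1) / M * (M * (1 - w) * (M * (1 - μ))) + ρ * (1 + M * (1 - μ * w)) -
        v ^ m * (1 + M * (1 - μ) + μ * (M * S * T))) / (S * M * (M + 1)) := by
    rw [tubPrim, tubPrim, pow_succ, pow_succ, hwm, hvdef, ← hMdef]
    field_simp
    ring
  rw [e]
  refine div_le_div_of_nonneg_right (le_sub_iff_add_le.2 (hB.trans ?_)) (by positivity)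
  rw [hμw, ← mul_div_assoc]
  set x := M * (1 - w)
  set e₀ := ρ / (1 - ρ) with he0def
  have h1M0 : 0 < 1 / M := by positivity
  have h1M : 1 / M ≤ 1 / 34 := one_div_le_one_div_of_le (by norm_num) hM
  have hxpos : 0 ≤ x := by
    have : 1 / (2 * M) ≤ 1 := (div_le_one (by linarith)).2 (by linarith)
    linarith
  have s1 : (M + 1) / M * x * e₀ ≤ (M + 1) / M * (x * (M * (1 - μ))) := by
    rw [mul_assoc]
    exact mul_le_mul_of_nonneg_left (mul_le_mul_of_nonneg_left hη hxpos) (by positivity)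
  have s2 : ρ * (1 + x / (1 - ρ)) = ρ + x * e₀ := by rw [he0def]; ring
  have s3 : 2 - (1 / M) ^ 2 / 2 ≤ x * ((M + 1) / M + 1) := by
    refine le_trans (le_of_eq ?_) (mul_le_mul_of_nonneg_right hx (by positivity))
    field_simp
    ring
  have he00 : 0 ≤ e₀ := le_trans (by norm_num) he0
  have s4 := mul_le_mul_of_nonneg_left s3 he00
  have s5 : (1 / M) ^ 2 ≤ (1 / 34) ^ 2 := pow_le_pow_left₀ h1M0.le h1M 2
  have s6 := mul_le_mul he0 (show 2 - (1 / 34 : ℝ) ^ 2 / 2 ≤ 2 - (1 / M) ^ 2 / 2 by linarith)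
    (by norm_num) he00
  have := Real.exp_neg_one_gt_d9
  rw [s2]
  linarith

/-- The power of the multiplier. -/
theorem uni_pow (hm : 34 ≤ m) {μ : ℝ} (hμ : 0 < μ) :
    (m : ℝ) * exp ((1 - (m : ℝ) * (1 - μ)) / (1 + (1 - (m : ℝ) * (1 - μ)) / ((m : ℝ) - 1))) *
      ((m : ℝ) - 1) ^ (m - 1) ≤ μ ^ (m - 1) * (m : ℝ) ^ m := by
  have hM : (34 : ℝ) ≤ m := by exact_mod_cast hm
  set M : ℝ := (m : ℝ) with hMdef
  have hkey : ((m - 1 : ℕ) : ℝ) = M - 1 := by rw [Nat.cast_sub (by omega)]; simp [hMdef]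
  have hk : 0 < M - 1 := by linarith
  set z := (1 - M * (1 - μ)) / (M - 1) with hzdef
  have hz : 1 + z = M * μ / (M - 1) := by rw [hzdef]; field_simp; ring
  have hz0 : 0 < 1 + z := hz ▸ div_pos (mul_pos (by linarith) hμ) hk
  have h1 : exp ((1 - M * (1 - μ)) / (1 + z)) ≤ (1 + z) ^ (m - 1) := by
    rw [← exp_log hz0, ← exp_nat_mul, hkey, exp_log hz0]
    refine exp_le_exp.2 (le_trans (le_of_eq ?_)
      (mul_le_mul_of_nonneg_left (Real.one_sub_inv_le_log_of_pos hz0) hk.le))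
    have := hz0.ne'
    field_simp
    rw [hzdef]
    field_simp
    ring
  calc M * exp ((1 - M * (1 - μ)) / (1 + z)) * (M - 1) ^ (m - 1)
      ≤ M * (M * μ / (M - 1)) ^ (m - 1) * (M - 1) ^ (m - 1) := by rw [← hz]; gcongr
    _ = μ ^ (m - 1) * (M ^ (m - 1) * M) := by
        rw [mul_assoc, ← mul_pow, div_mul_cancel₀ _ hk.ne', mul_pow]
        ring
    _ = μ ^ (m - 1) * M ^ m := by rw [← pow_succ, show m - 1 + 1 = m by omega]

/-- The two constants compared, with the dimension left in `l = 1 / N`. -/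
theorem uni_final {N SN P B : ℝ} (hN : 35 ≤ N)
    (hSN : SN * (1 + 3305 / 10000 * (1 / N)) ≤ 26 / 25 * √N) (hSN0 : 0 < SN)
    (hB : B = 1531570 / 1000000 -
      15608 / 1000000 * (1 + 128 / 5 * (1 / N)) * (5743 / 1000 - 236 / 10 * (1 / N)))
    (hP : exp (418023 / 1000000 + 1 / 4 / N - 3 / (4 * N)) ≤ P) :
    0 < B ∧ √(π / 2) * exp (1 / 2 - 3 / (4 * N)) / √N < B * P / SN := by
  obtain ⟨-, -, -, he418, hball⟩ := uni_consts
  have hl : (1 / N) ∈ Ioc (0 : ℝ) (1 / 35) :=
    ⟨by positivity, one_div_le_one_div_of_le (by norm_num) hN⟩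
  obtain ⟨-, -, -, hfinal⟩ := uni_poly hl
  rw [← hB] at hfinal
  have hN0 : 0 < N := by linarith
  have hl0 : 0 < 1 / N := by positivity
  set l := 1 / N with hldef
  have hB0 : 0 < B := by
    by_contra! h
    have : B * (151895 / 100000) * (1 + 58 / 100 * l) ≤ 0 :=
      mul_nonpos_of_nonpos_of_nonneg (mul_nonpos_of_nonpos_of_nonneg h (by norm_num))
        (by linarith)
    linarith
  refine ⟨hB0, lt_of_lt_of_le ?_ (div_le_div_of_nonneg_right
    (mul_le_mul_of_nonneg_left hP hB0.le) hSN0.le)⟩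
  rw [show exp (418023 / 1000000 + 1 / 4 / N - 3 / (4 * N)) =
      exp (418023 / 1000000) * exp (1 / 4 * l) * exp (-(3 / (4 * N))) by
        rw [← exp_add, ← exp_add, hldef]; ring_nf,
    show exp (1 / 2 - 3 / (4 * N)) = exp (1 / 2) * exp (-(3 / (4 * N))) by
        rw [← exp_add, sub_eq_add_neg],
    show B * (exp (418023 / 1000000) * exp (1 / 4 * l) * exp (-(3 / (4 * N)))) / SN =
      B * (exp (418023 / 1000000) * exp (1 / 4 * l)) / SN * exp (-(3 / (4 * N))) by ring,
    show √(π / 2) * (exp (1 / 2) * exp (-(3 / (4 * N)))) / √N =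
      √(π / 2) * exp (1 / 2) / √N * exp (-(3 / (4 * N))) by ring]
  refine mul_lt_mul_of_pos_right ?_ (exp_pos _)
  rw [div_lt_div_iff₀ (Real.sqrt_pos.2 hN0) hSN0]
  refine lt_of_mul_lt_mul_right ?_ (by positivity : (0 : ℝ) ≤ 1 + 3305 / 10000 * l)
  calc √(π / 2) * exp (1 / 2) * SN * (1 + 3305 / 10000 * l)
      = √(π / 2) * exp (1 / 2) * (SN * (1 + 3305 / 10000 * l)) := by ring
    _ ≤ 206637 / 100000 * (26 / 25 * √N) :=
        mul_le_mul hball hSN (by positivity) (by norm_num)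
    _ = 26 / 25 * (206637 / 100000) * √N := by ring
    _ < B * (151895 / 100000) * (1 + 58 / 100 * l) * √N :=
        mul_lt_mul_of_pos_right hfinal (Real.sqrt_pos.2 hN0)
    _ ≤ B * (151895 / 100000) * ((1 + 1 / 4 * l) * (1 + 3305 / 10000 * l)) * √N := by
        gcongr
        nlinarith
    _ = B * (151895 / 100000 * (1 + 1 / 4 * l)) * √N * (1 + 3305 / 10000 * l) := by ring
    _ ≤ B * (exp (418023 / 1000000) * exp (1 / 4 * l)) * √N * (1 + 3305 / 10000 * l) := by
        have := add_one_le_exp (1 / 4 * l)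
        gcongr
        linarith

/-- The uniform slope bound. -/
theorem chord_uniform (hm : 34 ≤ m) (hφ : IsShape φ) (hx : powRatio m φ ≤ 1) :
    φ (uniPoint ((m : ℝ) + 1)) ≤
      φ 0 * (1 - uniSlope ((m : ℝ) + 1) * uniPoint ((m : ℝ) + 1)) := by
  have hM : (34 : ℝ) ≤ m := by exact_mod_cast hm
  set M : ℝ := (m : ℝ) with hMdef
  have hM0 : 0 < M := by linarith
  have hN : 35 ≤ M + 1 := by linarith
  obtain ⟨hT, hS, hST, hu, hSN⟩ := uni_point_facts hN
  rw [add_sub_cancel_right] at hu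
  set T := uniPoint (M + 1)
  set S := uniSlope (M + 1)
  obtain ⟨hμ0, hμ1, hμw, hxlo, hη, hηhi⟩ := uni_mult_facts hM
  set μ := uniMult M with hμdef
  set w := exp (-(1 / M)) with hwdef
  have hw0 : 0 < w := exp_pos _
  have hw1 : w < 1 := exp_lt_one_iff.2 (neg_lt_zero.2 (by positivity))
  have hwm : w ^ m = exp (-1) := by
    rw [hwdef, ← exp_nat_mul, ← hMdef, mul_neg, mul_div_cancel₀ _ hM0.ne']
  have hwlo : 1 - S * T ≤ w := by
    refine le_trans (sq_exp_le (mul_pos hS hT.1).le) (exp_le_exp.2 ?_)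
    obtain ⟨hU1, -, -, -⟩ := uni_poly (l := 1 / (M + 1))
      ⟨by positivity, one_div_le_one_div_of_le (by norm_num) hN⟩
    have : 1 / M ≤ S * T := by
      rw [div_le_iff₀ hM0]
      linarith
    linarith [sq_nonneg (S * T)]
  have hgw : tubFun (m - 1) 1 μ w = 1 - μ := by
    have hwpow : w ^ (m - 1) = exp (-1) / w := by
      rw [eq_div_iff hw0.ne', ← pow_succ, show m - 1 + 1 = m by omega, hwm]
    have : exp (-1) < 1 := exp_lt_one_iff.2 (by norm_num)
    have : (1 : ℝ) - exp (-1) ≠ 0 := by linarith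
    rw [tubFun, one_mul, show m - 1 + 1 = m by omega, hwm, hwpow, hμdef, uniMult, ← hwdef]
    field_simp
    ring
  have hρ1 : exp (-1) < 1 := exp_lt_one_iff.2 (by norm_num)
  refine chord_scalar (by omega) hφ hx hT hS (by linarith) hwlo hw1.le hμ0 ?_ hgw.le
    (κ := √(π / 2) * exp (1 / 2 - 3 / (4 * (M + 1))) / √(M + 1))
    (by rw [le_div_iff₀ (Real.sqrt_pos.2 (by linarith))]; exact ball_const_le (by omega)) ?_
  · rw [← hMdef]
    have h : 1 ≤ M * (1 - μ * w) := by
      rw [hμw, ← mul_div_assoc, le_div_iff₀ (by linarith)]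
      have : 1 / (2 * M) ≤ 1 / 68 := one_div_le_one_div_of_le (by norm_num) (by linarith)
      linarith [Real.exp_neg_one_gt_d9]
    linarith
  obtain ⟨he0, -, -, -, -⟩ := uni_consts
  have hηnn : 0 ≤ M * (1 - μ) := by linarith
  have hV := uni_last_power hm (mul_pos hS hT.1).le hST hu ⟨hμ0.le, hμ1⟩ hηnn hηhi
  have hfin := fun P => uni_final (P := P) hN hSN (mul_pos hS (by linarith)) rfl
  obtain ⟨hB0, hlt⟩ := hfin _ (uni_multiplier hM (he0.trans hη) hηhi)
  have hgain := uni_gain hm hT hS hST hgw hwm (B := _) (by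
    exact le_of_le_of_eq (add_le_add (le_refl _) hV) (sub_add_cancel _ _))
  rw [← hMdef] at hgain
  have hpow := uni_pow hm hμ0
  have hkey : ((m - 1 : ℕ) : ℝ) = M - 1 := by rw [Nat.cast_sub (by omega)]; simp [hMdef]
  rw [← hMdef] at hpow
  rw [hkey, mul_assoc (chordGain m μ S T w)]
  refine lt_of_lt_of_le ?_ (mul_le_mul hgain hpow
    (by have := pow_nonneg (show 0 ≤ M - 1 by linarith) (m - 1); positivity)
    (le_trans (by positivity) hgain))
  rw [mul_comm _ (_ / √(M + 1))]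
  refine lt_of_lt_of_eq (mul_lt_mul_of_pos_right hlt (pow_pos (by linarith) _)) ?_
  rw [hMdef]
  field_simp

/-- Concavity propagates a chord bound outwards and to smaller slopes. -/
theorem chord_mono (hφ : IsShape φ) {t₁ t s S : ℝ} (ht₁ : 0 < t₁) (ht : t ∈ Icc t₁ 1)
    (hs : s ≤ S) (h : φ t₁ ≤ φ 0 * (1 - S * t₁)) : φ t ≤ φ 0 * (1 - s * t) := by
  have h3 := shape_three hφ (p := 0) (q := t₁) (t := t) (by norm_num) ht₁.le ht.1 ht.2
  simp only [sub_zero] at h3
  have h4 := mul_le_mul_of_nonneg_left h (ht₁.le.trans ht.1)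
  have h5 : φ t ≤ φ 0 * (1 - S * t) := by
    refine le_of_mul_le_mul_left ?_ ht₁
    linarith
  refine h5.trans (mul_le_mul_of_nonneg_left ?_ hφ.centre.le)
  nlinarith [mul_nonneg (sub_nonneg.2 hs) (ht₁.le.trans ht.1)]

theorem tanh_ge_pade {x : ℝ} (hx : 0 ≤ x) : 3 * x / (3 + x ^ 2) ≤ tanh x := by
  have h : MonotoneOn (fun x => (3 + x ^ 2) * sinh x - 3 * x * cosh x) (Ici 0) := by
    refine monotoneOn_of_hasDerivWithinAt_nonneg
      (f' := fun x => x ^ 2 * cosh x - x * sinh x) (convex_Ici 0) (by fun_prop)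
      (fun x _ => HasDerivAt.hasDerivWithinAt ?_) fun x hx => ?_
    · refine ((((hasDerivAt_pow 2 x).const_add 3).mul (hasDerivAt_sinh x)).sub
        (((hasDerivAt_id' x).const_mul 3).mul (hasDerivAt_cosh x))).congr_deriv ?_
      push_cast
      ring
    · rw [interior_Ici] at hx
      have hx0 : 0 < x := hx
      have hs : sinh x ≤ x * cosh x := by
        have h' : MonotoneOn (fun x => x * cosh x - sinh x) (Ici 0) := by
          refine monotoneOn_of_hasDerivWithinAt_nonneg (f' := fun x => x * sinh x)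
            (convex_Ici 0) (by fun_prop)
            (fun x _ => HasDerivAt.hasDerivWithinAt ?_) fun x hx => ?_
          · refine (((hasDerivAt_id' x).mul (hasDerivAt_cosh x)).sub
              (hasDerivAt_sinh x)).congr_deriv ?_
            ring
          · rw [interior_Ici] at hx
            exact mul_nonneg (le_of_lt hx) (sinh_nonneg_iff.2 (le_of_lt hx))
        have := h' self_mem_Ici (show x ∈ Ici (0 : ℝ) from hx0.le) hx0.le
        simp only [zero_mul, sinh_zero, sub_zero] at this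
        linarith
      nlinarith
  have h0 := h self_mem_Ici (show x ∈ Ici (0 : ℝ) from hx) hx
  simp only [sinh_zero, mul_zero, zero_mul, sub_zero] at h0
  rw [tanh_eq_sinh_div_cosh, div_le_div_iff₀ (by positivity) (cosh_pos x)]
  linarith

theorem tanh_le_root {x : ℝ} (hx : 0 ≤ x) (hx1 : x ^ 2 ≤ 3 / 5) :
    tanh x ≤ x / √(1 + 13 / 20 * x ^ 2) := by
  have hb : tanh x ≤ x * (15 + x ^ 2) / (15 + 6 * x ^ 2) := by
    have h : MonotoneOn (fun x => x * (15 + x ^ 2) * cosh x - (15 + 6 * x ^ 2) * sinh x)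
        (Ici 0) := by
      refine monotoneOn_of_hasDerivWithinAt_nonneg
        (f' := fun x => x * ((3 + x ^ 2) * sinh x - 3 * x * cosh x)) (convex_Ici 0) (by fun_prop)
        (fun x _ => HasDerivAt.hasDerivWithinAt ?_) fun x hx => ?_
      · refine ((((hasDerivAt_id' x).mul ((hasDerivAt_pow 2 x).const_add 15)).mul
          (hasDerivAt_cosh x)).sub ((((hasDerivAt_pow 2 x).const_mul 6).const_add 15).mul
          (hasDerivAt_sinh x))).congr_deriv ?_
        simp only [Pi.mul_apply]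
        push_cast
        ring
      · rw [interior_Ici] at hx
        have hx0 : 0 < x := hx
        have h' := tanh_ge_pade hx0.le
        rw [tanh_eq_sinh_div_cosh, div_le_div_iff₀ (by positivity) (cosh_pos x)] at h'
        exact mul_nonneg hx0.le (by linarith)
    have h0 := h self_mem_Ici (show x ∈ Ici (0 : ℝ) from hx) hx
    simp only [sinh_zero, mul_zero, zero_mul, sub_zero] at h0
    rw [tanh_eq_sinh_div_cosh, div_le_div_iff₀ (cosh_pos x) (by positivity)]
    linarith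
  refine hb.trans ?_
  have hr := Real.sqrt_pos.2 (show 0 < 1 + 13 / 20 * x ^ 2 by positivity)
  rw [div_le_div_iff₀ (by positivity) hr, mul_assoc]
  refine mul_le_mul_of_nonneg_left ?_ hx
  refine (pow_le_pow_iff_left₀ (by positivity) (by positivity) two_ne_zero).1 ?_
  rw [mul_pow, sq_sqrt (by positivity)]
  nlinarith [mul_nonneg (sq_nonneg x) (sub_nonneg.2 hx1), sq_nonneg (x ^ 2)]

/-- The uniform bound at `tanh (4 / √n)`, with slope `tanh (1.04 / √n)`. -/
theorem chord_uniform_tanh (hm : 34 ≤ m) (hφ : IsShape φ) (hx : powRatio m φ ≤ 1) :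
    φ (tanh (4 / √((m : ℝ) + 1))) ≤
      φ 0 * (1 - tanh (26 / 25 / √((m : ℝ) + 1)) * tanh (4 / √((m : ℝ) + 1))) := by
  have hM : (34 : ℝ) ≤ m := by exact_mod_cast hm
  have h := chord_uniform hm hφ hx
  set N := (m : ℝ) + 1
  have hN : 35 ≤ N := by linarith
  have hN0 : 0 < N := by linarith
  have hs := Real.sqrt_pos.2 hN0
  have hsq := sq_sqrt hN0.le
  refine chord_mono hφ (by rw [uniPoint]; positivity) ⟨?_, (Real.tanh_lt_one _).le⟩ ?_ h
  · refine le_trans (le_of_eq ?_) (tanh_ge_pade (by positivity))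
    rw [uniPoint, div_pow, hsq]
    field_simp
    rw [hsq]
    ring
  · refine (tanh_le_root (by positivity) ?_).trans ?_
    · rw [div_pow, hsq, div_le_iff₀ hN0]
      linarith
    · rw [uniSlope, div_div]
      refine div_le_div_of_nonneg_left (by norm_num) (Real.sqrt_pos.2 (by linarith)) ?_
      rw [← Real.sqrt_mul hN0.le]
      refine Real.sqrt_le_sqrt (le_of_le_of_eq (b := N + 13 / 20 * (26 / 25) ^ 2) (by linarith) ?_)
      rw [div_pow (26 / 25 : ℝ) (√N), hsq]
      field_simp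

end Vale.Agent.P237.Quant
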