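import Mathlib
import Vale.Agent.P237.Quant.ChordUniform

/-!
The slope of the chord for `5 ≤ n ≤ 34`, each by the scalar criterion at rational data, and so for
every `n ≥ 5`: a profile with power ratio at most one is below `φ 0 (1 - tanh (1.04 / √n) t)` at
`t = tanh (4 / √n)`.
-/

namespace Vale.Agent.P237.Quant

open MeasureTheory Set Real

variable {m : ℕ} {φ : ℝ → ℝ}

/-- The data of one dimension: `q ≤ 4 / √n`, `q' ≥ 1.04 / √n`, bounds of their exponentials, the
point, the slope, the constant of the ball, and the level with its multiplier. -/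
structure SlopeRow where
  q : ℝ
  q' : ℝ
  E : ℝ
  E' : ℝ
  t : ℝ
  s : ℝ
  K : ℝ
  w : ℝ
  μ : ℝ

/-- The inequalities between rationals that a row must satisfy. -/
def RowOK (m : ℕ) (d : SlopeRow) : Prop :=
  0 ≤ d.q ∧ d.q ^ 2 * ((m : ℝ) + 1) ≤ 16 ∧
  0 ≤ d.q' ∧ d.q' ≤ 1 / 2 ∧ (26 / 25) ^ 2 ≤ d.q' ^ 2 * ((m : ℝ) + 1) ∧
  d.E ≤ ∑ i ∈ Finset.range 16, (2 * d.q) ^ i / (i.factorial : ℝ) ∧
  (∑ i ∈ Finset.range 8, (2 * d.q') ^ i / (i.factorial : ℝ)) +
    (2 * d.q') ^ 8 * ((8 : ℕ) + 1) / (((8 : ℕ).factorial : ℝ) * (8 : ℕ)) ≤ d.E' ∧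
  1 ≤ d.E ∧ 1 ≤ d.E' ∧ d.t * (d.E + 1) ≤ d.E - 1 ∧ d.E' - 1 ≤ d.s * (d.E' + 1) ∧
  0 ≤ d.K ∧ 3141593 / 2000000 *
    ((∑ i ∈ Finset.range 10, (1 - 3 / (2 * ((m : ℝ) + 1))) ^ i / (i.factorial : ℝ)) +
      (1 - 3 / (2 * ((m : ℝ) + 1))) ^ 10 * ((10 : ℕ) + 1) / (((10 : ℕ).factorial : ℝ) * (10 : ℕ)))
      ≤ d.K ^ 2 * ((m : ℝ) + 1) ∧
  0 < d.t ∧ d.t < 1 ∧ 0 < d.s ∧ 0 < 1 - d.s * d.t ∧ 1 - d.s * d.t ≤ d.w ∧ d.w ≤ 1 ∧ 0 < d.μ ∧
  d.μ * (m : ℝ) * d.w ≤ (m : ℝ) - 1 ∧ tubFun (m - 1) 1 d.μ d.w ≤ 1 - d.μ ∧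
  ((m - 1 : ℕ) : ℝ) ^ (m - 1) * d.K < chordGain m d.μ d.s d.t d.w * d.μ ^ (m - 1) * (m : ℝ) ^ m

theorem tanh_eq_exp (x : ℝ) : tanh x = (exp (2 * x) - 1) / (exp (2 * x) + 1) := by
  rw [tanh_eq, two_mul, exp_add, exp_neg]
  have := exp_pos x
  field_simp

theorem tanh_le_of_le {x y : ℝ} (h : x ≤ y) : tanh x ≤ tanh y := by
  rw [tanh_eq_exp, tanh_eq_exp, div_le_div_iff₀ (by positivity) (by positivity)]
  nlinarith [exp_le_exp.2 (show 2 * x ≤ 2 * y by linarith), exp_pos (2 * x), exp_pos (2 * y)]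

/-- A row gives the slope bound. -/
theorem chord_of_row (hm : 3 ≤ m) (hφ : IsShape φ) (hx : powRatio m φ ≤ 1) {d : SlopeRow}
    (h : RowOK m d) :
    φ (tanh (4 / √((m : ℝ) + 1))) ≤
      φ 0 * (1 - tanh (26 / 25 / √((m : ℝ) + 1)) * tanh (4 / √((m : ℝ) + 1))) := by
  obtain ⟨hq0, hq, hq'0, hq'1, hq', hE, hE', hE1, hE'1, ht, hs, hK0, hK, ht0, ht1, hs0, hv, hvw,
    hw, hμ, hμw, hg, hcond⟩ := h
  set N := (m : ℝ) + 1 with hNdef
  have hM : (3 : ℝ) ≤ m := by exact_mod_cast hm
  have hN0 : 0 < N := by linarith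
  have hs' := Real.sqrt_pos.2 hN0
  have hκ : ballRatio m ^ m * mass m ballShape 1 ≤ d.K := by
    refine le_of_mul_le_mul_right ((ball_const_le hm).trans ?_) hs'
    refine (pow_le_pow_iff_left₀ (by positivity) (by positivity) two_ne_zero).1 ?_
    rw [mul_pow, mul_pow, sq_sqrt (by positivity), sq_sqrt hN0.le, ← exp_nat_mul]
    have ha0 : 0 ≤ 1 - 3 / (2 * N) := by
      rw [sub_nonneg, div_le_one (by positivity)]; linarith
    have e : ((2 : ℕ) : ℝ) * (1 / 2 - 3 / (4 * N)) = 1 - 3 / (2 * N) := by push_cast; ring_nf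
    rw [e]
    refine le_trans ?_ hK
    exact mul_le_mul (by linarith [Real.pi_lt_d6])
      (Real.exp_bound' ha0 (by linarith [show 0 ≤ 3 / (2 * N) by positivity]) (by norm_num))
      (exp_pos _).le (by norm_num)
  have hmain := chord_scalar (by omega) hφ hx ⟨ht0, ht1⟩ hs0 hv hvw hw hμ hμw hg hκ hcond
  refine chord_mono hφ ht0 ⟨?_, (Real.tanh_lt_one _).le⟩ ?_ hmain
  · refine le_trans ?_ (tanh_le_of_le (x := d.q) ?_)
    · rw [tanh_eq_exp, le_div_iff₀ (by positivity)]
      have hexp := hE.trans (Real.sum_le_exp_of_nonneg (by linarith) 16)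
      nlinarith
    · rw [le_div_iff₀ hs']
      refine (pow_le_pow_iff_left₀ (by positivity) (by norm_num) two_ne_zero).1 ?_
      rw [mul_pow, sq_sqrt hN0.le]
      linarith
  · refine le_trans (tanh_le_of_le (y := d.q') ?_) ?_
    · rw [div_le_iff₀ hs']
      refine (pow_le_pow_iff_left₀ (by norm_num) (by positivity) two_ne_zero).1 ?_
      rw [mul_pow, sq_sqrt hN0.le]
      linarith
    · rw [tanh_eq_exp, div_le_iff₀ (by positivity)]
      have hexp := (Real.exp_bound' (show 0 ≤ 2 * d.q' by linarith) (by linarith)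
        (n := 8) (by norm_num)).trans hE'
      rcases le_total 1 d.s with h1 | h1
      · nlinarith [exp_pos (2 * d.q')]
      · nlinarith [mul_le_mul_of_nonneg_right hexp (sub_nonneg.2 h1)]

/-- The data. -/
noncomputable def slopeRow : ℕ → SlopeRow
  | 4 => ⟨(1118 / 625), (1163 / 2500), (2863 / 80), (253553 / 100000), (591 / 625), (543 / 1250), (3977 / 5000), (8187 / 10000), (16387 / 20000)⟩
  | 5 => ⟨(16329 / 10000), (2123 / 5000), (26201 / 1000), (116889 / 50000), (579 / 625), (501 / 1250), (1489 / 2000), (2109 / 2500), (8617 / 10000)⟩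
  | 6 => ⟨(7559 / 5000), (3931 / 10000), (205651 / 10000), (13719 / 6250), (567 / 625), (3741 / 10000), (7017 / 10000), (8607 / 10000), (5557 / 6250)⟩
  | 7 => ⟨(7071 / 5000), (3677 / 10000), (169183 / 10000), (26079 / 12500), (8883 / 10000), (44 / 125), (1663 / 2500), (8793 / 10000), (90601 / 100000)⟩
  | 8 => ⟨(13333 / 10000), (3467 / 10000), (143909 / 10000), (200051 / 100000), (87 / 100), (667 / 2000), (3169 / 5000), (111 / 125), (92049 / 100000)⟩
  | 9 => ⟨(12649 / 10000), (3289 / 10000), (125509 / 10000), (38611 / 20000), (2131 / 2500), (397 / 1250), (6063 / 10000), (4499 / 5000), (4649 / 5000)⟩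
  | 10 => ⟨(603 / 500), (196 / 625), (55781 / 5000), (187237 / 100000), (4177 / 5000), (1519 / 5000), (291 / 500), (9093 / 10000), (93717 / 100000)⟩
  | 11 => ⟨(11547 / 10000), (3003 / 10000), (100683 / 10000), (91161 / 50000), (8193 / 10000), (729 / 2500), (1401 / 2500), (9131 / 10000), (94461 / 100000)⟩
  | 12 => ⟨(5547 / 5000), (577 / 2000), (45981 / 5000), (178069 / 100000), (4019 / 5000), (351 / 1250), (541 / 1000), (23 / 25), (94943 / 100000)⟩
  | 13 => ⟨(1069 / 1000), (139 / 500), (10603 / 1250), (174369 / 100000), (789 / 1000), (2711 / 10000), (1047 / 2000), (9259 / 10000), (23837 / 25000)⟩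
  | 14 => ⟨(10327 / 10000), (1343 / 5000), (19721 / 2500), (171121 / 100000), (7749 / 10000), (164 / 625), (1269 / 2500), (931 / 1000), (95693 / 100000)⟩
  | 15 => ⟨(1 / 1), (13 / 50), (7389 / 1000), (168203 / 100000), (1523 / 2000), (2543 / 10000), (493 / 1000), (1871 / 2000), (23997 / 25000)⟩
  | 16 => ⟨(9701 / 10000), (2523 / 10000), (69601 / 10000), (165633 / 100000), (7487 / 10000), (2471 / 10000), (1199 / 2500), (4697 / 5000), (96247 / 100000)⟩
  | 17 => ⟨(2357 / 2500), (613 / 2500), (65903 / 10000), (163297 / 100000), (1473 / 2000), (481 / 2000), (292 / 625), (2357 / 2500), (24119 / 25000)⟩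
  | 18 => ⟨(1147 / 1250), (1193 / 5000), (62663 / 10000), (40289 / 25000), (7247 / 10000), (1171 / 5000), (2279 / 5000), (9459 / 10000), (96677 / 100000)⟩
  | 19 => ⟨(559 / 625), (1163 / 5000), (29911 / 5000), (79617 / 50000), (1427 / 2000), (457 / 2000), (4451 / 10000), (9487 / 10000), (19371 / 20000)⟩
  | 20 => ⟨(1091 / 1250), (227 / 1000), (57293 / 10000), (7873 / 5000), (7027 / 10000), (279 / 1250), (4351 / 10000), (1189 / 1250), (97017 / 100000)⟩
  | 21 => ⟨(533 / 625), (1109 / 5000), (27523 / 5000), (155831 / 100000), (277 / 400), (2183 / 10000), (2129 / 5000), (1189 / 1250), (97241 / 100000)⟩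
  | 22 => ⟨(417 / 500), (2169 / 10000), (10603 / 2000), (19289 / 12500), (3413 / 5000), (267 / 1250), (4171 / 10000), (9533 / 10000), (97371 / 100000)⟩
  | 23 => ⟨(2041 / 2500), (2123 / 10000), (51181 / 10000), (76449 / 50000), (6731 / 10000), (523 / 2500), (4089 / 10000), (9553 / 10000), (6093 / 6250)⟩
  | 24 => ⟨(4 / 5), (26 / 125), (4953 / 1000), (151589 / 100000), (83 / 125), (2051 / 10000), (4011 / 10000), (9571 / 10000), (19519 / 20000)⟩
  | 25 => ⟨(1961 / 2500), (51 / 250), (6001 / 1250), (150381 / 100000), (819 / 1250), (2013 / 10000), (1969 / 5000), (2397 / 2500), (97693 / 100000)⟩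
  | 26 => ⟨(3849 / 5000), (1001 / 5000), (46627 / 10000), (149243 / 100000), (1617 / 2500), (247 / 1250), (967 / 2500), (2401 / 2500), (48891 / 50000)⟩
  | 27 => ⟨(7559 / 10000), (983 / 5000), (11337 / 2500), (37043 / 25000), (3193 / 5000), (971 / 5000), (1901 / 5000), (4809 / 5000), (97867 / 100000)⟩
  | 28 => ⟨(7427 / 10000), (483 / 2500), (44167 / 10000), (4599 / 3125), (6307 / 10000), (1909 / 10000), (187 / 500), (9631 / 10000), (48973 / 50000)⟩
  | 29 => ⟨(3651 / 5000), (1899 / 10000), (10769 / 2500), (731 / 500), (6231 / 10000), (1877 / 10000), (46 / 125), (2411 / 2500), (3063 / 3125)⟩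
  | 30 => ⟨(449 / 625), (467 / 2500), (5259 / 1250), (9081 / 6250), (6159 / 10000), (1847 / 10000), (3623 / 10000), (1207 / 1250), (49041 / 50000)⟩
  | 31 => ⟨(7071 / 10000), (1839 / 10000), (41131 / 10000), (18057 / 12500), (761 / 1250), (1819 / 10000), (3569 / 10000), (4833 / 5000), (24537 / 25000)⟩
  | 32 => ⟨(6963 / 10000), (1811 / 10000), (40253 / 10000), (143649 / 100000), (301 / 500), (112 / 625), (3517 / 10000), (9677 / 10000), (19641 / 20000)⟩
  | 33 => ⟨(6859 / 10000), (223 / 1250), (2464 / 625), (35719 / 25000), (5953 / 10000), (883 / 5000), (3467 / 10000), (4843 / 5000), (49131 / 50000)⟩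
  | _ => ⟨0, 0, 0, 0, 0, 0, 0, 0, 0⟩

theorem slopeRow_4 : RowOK 4 (slopeRow 4) := by
  norm_num [RowOK, slopeRow, chordGain, tubPrim, tubFun, Finset.sum_range_succ, Nat.factorial]

theorem slopeRow_5 : RowOK 5 (slopeRow 5) := by
  norm_num [RowOK, slopeRow, chordGain, tubPrim, tubFun, Finset.sum_range_succ, Nat.factorial]

theorem slopeRow_6 : RowOK 6 (slopeRow 6) := by
  norm_num [RowOK, slopeRow, chordGain, tubPrim, tubFun, Finset.sum_range_succ, Nat.factorial]

theorem slopeRow_7 : RowOK 7 (slopeRow 7) := by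
  norm_num [RowOK, slopeRow, chordGain, tubPrim, tubFun, Finset.sum_range_succ, Nat.factorial]

theorem slopeRow_8 : RowOK 8 (slopeRow 8) := by
  norm_num [RowOK, slopeRow, chordGain, tubPrim, tubFun, Finset.sum_range_succ, Nat.factorial]

theorem slopeRow_9 : RowOK 9 (slopeRow 9) := by
  norm_num [RowOK, slopeRow, chordGain, tubPrim, tubFun, Finset.sum_range_succ, Nat.factorial]

theorem slopeRow_10 : RowOK 10 (slopeRow 10) := by
  norm_num [RowOK, slopeRow, chordGain, tubPrim, tubFun, Finset.sum_range_succ, Nat.factorial]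

theorem slopeRow_11 : RowOK 11 (slopeRow 11) := by
  norm_num [RowOK, slopeRow, chordGain, tubPrim, tubFun, Finset.sum_range_succ, Nat.factorial]

theorem slopeRow_12 : RowOK 12 (slopeRow 12) := by
  norm_num [RowOK, slopeRow, chordGain, tubPrim, tubFun, Finset.sum_range_succ, Nat.factorial]

theorem slopeRow_13 : RowOK 13 (slopeRow 13) := by
  norm_num [RowOK, slopeRow, chordGain, tubPrim, tubFun, Finset.sum_range_succ, Nat.factorial]

theorem slopeRow_14 : RowOK 14 (slopeRow 14) := by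
  norm_num [RowOK, slopeRow, chordGain, tubPrim, tubFun, Finset.sum_range_succ, Nat.factorial]

theorem slopeRow_15 : RowOK 15 (slopeRow 15) := by
  norm_num [RowOK, slopeRow, chordGain, tubPrim, tubFun, Finset.sum_range_succ, Nat.factorial]

theorem slopeRow_16 : RowOK 16 (slopeRow 16) := by
  norm_num [RowOK, slopeRow, chordGain, tubPrim, tubFun, Finset.sum_range_succ, Nat.factorial]

theorem slopeRow_17 : RowOK 17 (slopeRow 17) := by
  norm_num [RowOK, slopeRow, chordGain, tubPrim, tubFun, Finset.sum_range_succ, Nat.factorial]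

theorem slopeRow_18 : RowOK 18 (slopeRow 18) := by
  norm_num [RowOK, slopeRow, chordGain, tubPrim, tubFun, Finset.sum_range_succ, Nat.factorial]

theorem slopeRow_19 : RowOK 19 (slopeRow 19) := by
  norm_num [RowOK, slopeRow, chordGain, tubPrim, tubFun, Finset.sum_range_succ, Nat.factorial]

theorem slopeRow_20 : RowOK 20 (slopeRow 20) := by
  norm_num [RowOK, slopeRow, chordGain, tubPrim, tubFun, Finset.sum_range_succ, Nat.factorial]

theorem slopeRow_21 : RowOK 21 (slopeRow 21) := by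
  norm_num [RowOK, slopeRow, chordGain, tubPrim, tubFun, Finset.sum_range_succ, Nat.factorial]

theorem slopeRow_22 : RowOK 22 (slopeRow 22) := by
  norm_num [RowOK, slopeRow, chordGain, tubPrim, tubFun, Finset.sum_range_succ, Nat.factorial]

theorem slopeRow_23 : RowOK 23 (slopeRow 23) := by
  norm_num [RowOK, slopeRow, chordGain, tubPrim, tubFun, Finset.sum_range_succ, Nat.factorial]

theorem slopeRow_24 : RowOK 24 (slopeRow 24) := by
  norm_num [RowOK, slopeRow, chordGain, tubPrim, tubFun, Finset.sum_range_succ, Nat.factorial]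

theorem slopeRow_25 : RowOK 25 (slopeRow 25) := by
  norm_num [RowOK, slopeRow, chordGain, tubPrim, tubFun, Finset.sum_range_succ, Nat.factorial]

theorem slopeRow_26 : RowOK 26 (slopeRow 26) := by
  norm_num [RowOK, slopeRow, chordGain, tubPrim, tubFun, Finset.sum_range_succ, Nat.factorial]

theorem slopeRow_27 : RowOK 27 (slopeRow 27) := by
  norm_num [RowOK, slopeRow, chordGain, tubPrim, tubFun, Finset.sum_range_succ, Nat.factorial]

theorem slopeRow_28 : RowOK 28 (slopeRow 28) := by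
  norm_num [RowOK, slopeRow, chordGain, tubPrim, tubFun, Finset.sum_range_succ, Nat.factorial]

theorem slopeRow_29 : RowOK 29 (slopeRow 29) := by
  norm_num [RowOK, slopeRow, chordGain, tubPrim, tubFun, Finset.sum_range_succ, Nat.factorial]

theorem slopeRow_30 : RowOK 30 (slopeRow 30) := by
  norm_num [RowOK, slopeRow, chordGain, tubPrim, tubFun, Finset.sum_range_succ, Nat.factorial]

theorem slopeRow_31 : RowOK 31 (slopeRow 31) := by
  norm_num [RowOK, slopeRow, chordGain, tubPrim, tubFun, Finset.sum_range_succ, Nat.factorial]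

theorem slopeRow_32 : RowOK 32 (slopeRow 32) := by
  norm_num [RowOK, slopeRow, chordGain, tubPrim, tubFun, Finset.sum_range_succ, Nat.factorial]

theorem slopeRow_33 : RowOK 33 (slopeRow 33) := by
  norm_num [RowOK, slopeRow, chordGain, tubPrim, tubFun, Finset.sum_range_succ, Nat.factorial]

/-- The slope bound in every dimension `n ≥ 5`. -/
theorem chord_slope_tanh (hm : 4 ≤ m) (hφ : IsShape φ) (hx : powRatio m φ ≤ 1) :
    φ (tanh (4 / √((m : ℝ) + 1))) ≤
      φ 0 * (1 - tanh (26 / 25 / √((m : ℝ) + 1)) * tanh (4 / √((m : ℝ) + 1))) := by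
  rcases le_or_gt 34 m with h | h
  · exact chord_uniform_tanh h hφ hx
  have hm3 : 3 ≤ m := by omega
  interval_cases m
  · exact chord_of_row hm3 hφ hx slopeRow_4
  · exact chord_of_row hm3 hφ hx slopeRow_5
  · exact chord_of_row hm3 hφ hx slopeRow_6
  · exact chord_of_row hm3 hφ hx slopeRow_7
  · exact chord_of_row hm3 hφ hx slopeRow_8
  · exact chord_of_row hm3 hφ hx slopeRow_9
  · exact chord_of_row hm3 hφ hx slopeRow_10
  · exact chord_of_row hm3 hφ hx slopeRow_11
  · exact chord_of_row hm3 hφ hx slopeRow_12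
  · exact chord_of_row hm3 hφ hx slopeRow_13
  · exact chord_of_row hm3 hφ hx slopeRow_14
  · exact chord_of_row hm3 hφ hx slopeRow_15
  · exact chord_of_row hm3 hφ hx slopeRow_16
  · exact chord_of_row hm3 hφ hx slopeRow_17
  · exact chord_of_row hm3 hφ hx slopeRow_18
  · exact chord_of_row hm3 hφ hx slopeRow_19
  · exact chord_of_row hm3 hφ hx slopeRow_20
  · exact chord_of_row hm3 hφ hx slopeRow_21
  · exact chord_of_row hm3 hφ hx slopeRow_22
  · exact chord_of_row hm3 hφ hx slopeRow_23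
  · exact chord_of_row hm3 hφ hx slopeRow_24
  · exact chord_of_row hm3 hφ hx slopeRow_25
  · exact chord_of_row hm3 hφ hx slopeRow_26
  · exact chord_of_row hm3 hφ hx slopeRow_27
  · exact chord_of_row hm3 hφ hx slopeRow_28
  · exact chord_of_row hm3 hφ hx slopeRow_29
  · exact chord_of_row hm3 hφ hx slopeRow_30
  · exact chord_of_row hm3 hφ hx slopeRow_31
  · exact chord_of_row hm3 hφ hx slopeRow_32
  · exact chord_of_row hm3 hφ hx slopeRow_33

end Vale.Agent.P237.Quant
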