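import Mathlib
import Vale.Agent.P237.Quant.Tangent

/-!
A symmetric body whose profiles along almost every normal are those of the ball is an ellipsoid:
the second moment along those normals is constant, and the divergence theorem turns Cauchy's
inequality for the moment form into an equality.
-/

namespace Vale.Agent.P237.Quant

open MeasureTheory Set Filter Topology Full Module
open scoped RealInnerProductSpace Pointwise

variable {m : ℕ}

/-- The second moment of the ball profile. -/
theorem moment_ball (m : ℕ) :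
    ((m : ℝ) + 3) * (∫ t in (0 : ℝ)..1, t ^ 2 * ballShape t ^ m) = mass m ballShape 1 := by
  have hc : Continuous ballShape := by unfold ballShape; fun_prop
  have h : (∫ t in (0 : ℝ)..1, (ballShape t ^ m - ((m : ℝ) + 3) * (t ^ 2 * ballShape t ^ m))) = 0 := by
    rw [intervalIntegral.integral_eq_sub_of_hasDerivAt_of_le zero_le_one
      (f := fun t => t * ballShape t ^ (m + 2)) ((continuous_id.mul (hc.pow _)).continuousOn)
      (fun t ht => ?_) ((by fun_prop : Continuous fun t =>
        ballShape t ^ m - ((m : ℝ) + 3) * (t ^ 2 * ballShape t ^ m)).intervalIntegrable _ _)]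
    · simp [ballShape]
    · have hp : 0 < 1 - t ^ 2 := by nlinarith [ht.1, ht.2]
      have hs : (√(1 - t ^ 2)) ^ 2 = 1 - t ^ 2 := Real.sq_sqrt hp.le
      have hd : HasDerivAt ballShape (-(2 * t) / (2 * √(1 - t ^ 2))) t :=
        (((hasDerivAt_pow 2 t).const_sub 1).sqrt hp.ne').congr_deriv (by ring)
      refine ((hasDerivAt_id' t).mul (hd.pow (m + 2))).congr_deriv ?_
      simp only [ballShape, Pi.pow_apply, show m + 2 - 1 = m + 1 from by omega]
      have hs0 := (Real.sqrt_pos.2 hp).ne'
      rw [pow_add (√(1 - t ^ 2)) m 2, hs, pow_succ (√(1 - t ^ 2)) m]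
      push_cast
      field_simp
      ring
  rw [intervalIntegral.integral_sub
    (show IntervalIntegrable (fun t => ballShape t ^ m) volume 0 1 from
      (hc.pow m).intervalIntegrable _ _)
    ((by fun_prop : Continuous fun t => ((m : ℝ) + 3) * (t ^ 2 * ballShape t ^ m)).intervalIntegrable
      _ _), intervalIntegral.integral_const_mul] at h
  rw [mass]
  linarith

variable {K : Set (EuclideanSpace ℝ (Fin (m + 1)))}

theorem moment_of_ball_profile (hm : 1 ≤ m) (hK : IsSymBody K)
    {w v : EuclideanSpace ℝ (Fin (m + 1))} (h : IsTop K w v)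
    (hp : ∀ t ∈ Ioo (0 : ℝ) 1, profile K w t = profile K w 0 * ballShape t) :
    ∫ y in K, ⟪w, y⟫ ^ 2 = (volume K).toReal / ((m : ℝ) + 3) := by
  have hφ := isShape_profile hm hK h
  set φ := profile K w with hφdef
  set A := φ 0 ^ m with hA
  have hev : ∀ f : ℝ → ℝ, Continuous f →
      (∫ t in (0 : ℝ)..1, f t * φ t ^ m) = A * ∫ t in (0 : ℝ)..1, f t * ballShape t ^ m := by
    intro f _
    rw [← intervalIntegral.integral_const_mul]
    refine intervalIntegral.integral_congr_ae ?_
    filter_upwards [Measure.ae_ne volume (1 : ℝ)] with t ht1 ht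
    rw [uIoc_of_le zero_le_one] at ht
    show f t * φ t ^ m = A * (f t * ballShape t ^ m)
    rw [hp t ⟨ht.1, lt_of_le_of_ne ht.2 ht1⟩, mul_pow, hA]
    ring
  have hM : mass m φ 1 = A * mass m ballShape 1 := by
    have := hev (fun _ => 1) continuous_const
    simpa [mass] using this
  set G : ℝ → ℝ := fun s => s ^ 2 * φ s ^ m with hG
  have hGi : IntervalIntegrable G volume (-1) 1 :=
    (intervalIntegrable_shape_pow hφ m).continuousOn_mul (by fun_prop)
  have heven : ∀ s, G (-s) = G s := fun s => by simp [hG, hφ.even]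
  have h0 : (0 : ℝ) ∈ uIcc (-1 : ℝ) 1 := by rw [uIcc_of_le (by norm_num)]; norm_num
  have hneg := intervalIntegral.integral_comp_neg G (a := -1) (b := 0)
  simp only [heven, neg_zero, neg_neg] at hneg
  rw [integral_inner_eq hm hK h (g := fun s => s ^ 2) (by fun_prop),
    show (∫ s in (-1 : ℝ)..1, s ^ 2 * profile K w s ^ m) = ∫ s in (-1 : ℝ)..1, G s from rfl,
    ← intervalIntegral.integral_add_adjacent_intervals
      (hGi.mono_set (uIcc_subset_uIcc_left h0)) (hGi.mono_set (uIcc_subset_uIcc_right h0)), hneg,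
    show (∫ s in (0 : ℝ)..1, G s) = A * ∫ s in (0 : ℝ)..1, s ^ 2 * ballShape s ^ m from
      hev (fun s => s ^ 2) (by fun_prop),
    volume_eq_mass hm hK h, ← hφdef, hM, ← moment_ball m]
  field_simp
  ring

/-- A body with that second moment along almost every normal is an ellipsoid. -/
theorem ellipsoid_of_moment (hK : IsSymBody K)
    (hw : ∀ᵐ x ∂volume.restrict K, ∫ y in K, ⟪normalAt K x, y⟫ ^ 2 =
      (volume K).toReal / ((m : ℝ) + 3)) :
    ∃ T : EuclideanSpace ℝ (Fin (m + 1)) ≃L[ℝ] EuclideanSpace ℝ (Fin (m + 1)),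
      K = T '' Metric.closedBall 0 1 := by
  classical
  have cK := hK.body.2.1
  set V := (volume K).toReal with hVdef
  have hV : 0 < V := ENNReal.toReal_pos
    (Measure.measure_pos_of_nonempty_interior _ hK.body.2.2).ne' cK.measure_ne_top
  have hint : ∀ ξ : EuclideanSpace ℝ (Fin (m + 1)), IntegrableOn (fun y => ⟪ξ, y⟫ • y) K := fun ξ =>
    (by fun_prop : Continuous fun y => ⟪ξ, y⟫ • y).continuousOn.integrableOn_compact cK
  let M : EuclideanSpace ℝ (Fin (m + 1)) →ₗ[ℝ] EuclideanSpace ℝ (Fin (m + 1)) :=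
    { toFun := fun ξ => ∫ y in K, ⟪ξ, y⟫ • y
      map_add' := fun a b => by
        rw [← integral_add (hint a) (hint b)]
        exact integral_congr_ae (Eventually.of_forall fun y => by
          simp only [inner_add_left, add_smul])
      map_smul' := fun c a => by
        rw [RingHom.id_apply, ← integral_smul]
        exact integral_congr_ae (Eventually.of_forall fun y => by
          simp only [real_inner_smul_left, smul_smul]) }
  have hM : ∀ ξ η, ⟪η, M ξ⟫ = ∫ y in K, ⟪ξ, y⟫ * ⟪η, y⟫ := fun ξ η => by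
    show ⟪η, ∫ y in K, ⟪ξ, y⟫ • y⟫ = _
    rw [← integral_inner (hint ξ)]
    simp only [real_inner_smul_right]
  have hsym : M.IsSymmetric := fun a b => by
    rw [real_inner_comm, hM, hM]
    simp only [mul_comm]
  set b := hsym.eigenvectorBasis finrank_euclideanSpace_fin with hb
  set l := hsym.eigenvalues finrank_euclideanSpace_fin with hl
  have hMb : ∀ i, M (b i) = l i • b i := fun i => hsym.apply_eigenvectorBasis _ i
  have hdiag : ∀ i, (∫ y in K, ⟪b i, y⟫ ^ 2) = l i := fun i => by
    have := hM (b i) (b i)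
    rw [hMb, real_inner_smul_right, real_inner_self_eq_norm_sq, b.orthonormal.1] at this
    simp only [sq]
    linarith
  have hquad : ∀ w, (∫ y in K, ⟪w, y⟫ ^ 2) = ∑ i, l i * ⟪b i, w⟫ ^ 2 := fun w => by
    have h1 := hM w w
    rw [← b.sum_inner_mul_inner w (M w)] at h1
    simp only [sq]
    rw [← h1]
    refine Finset.sum_congr rfl fun i _ => ?_
    rw [← hsym (b i) w, hMb, real_inner_smul_left, real_inner_comm (b i) w]
    ring
  have hl0 : ∀ i, 0 < l i := fun i => by
    rw [← hdiag]
    have hc : Continuous fun y => ⟪b i, y⟫ ^ 2 := by fun_prop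
    refine lt_of_le_of_ne (integral_nonneg fun y => sq_nonneg _) fun e => ?_
    have hae := (setIntegral_eq_zero_iff_of_nonneg_ae (Eventually.of_forall fun y => sq_nonneg _)
      (hc.continuousOn.integrableOn_compact cK)).1 e.symm
    have heq := Measure.eqOn_open_of_ae_eq (ae_restrict_of_ae_restrict_of_subset interior_subset hae)
      isOpen_interior hc.continuousOn continuousOn_const
    obtain ⟨r, hr, hball⟩ := Metric.mem_nhds_iff.1 hK.zero_nhds
    have hmem : (r / 2) • b i ∈ interior K := interior_maximal hball Metric.isOpen_ball (by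
      rw [mem_ball_zero_iff, norm_smul, b.orthonormal.1, mul_one,
        Real.norm_of_nonneg (by positivity)]
      linarith)
    have hzero := heq hmem
    simp only [Pi.zero_apply] at hzero
    rw [real_inner_smul_right, real_inner_self_eq_norm_sq, b.orthonormal.1] at hzero
    simp only [one_pow, mul_one, sq_eq_zero_iff] at hzero
    linarith
  set d : Fin (m + 1) → ℝ := fun i => ((m : ℝ) + 3) * l i / V with hd
  have hd0 : ∀ i, 0 < d i := fun i => div_pos (mul_pos (by positivity) (hl0 i)) hV
  set ρ : EuclideanSpace ℝ (Fin (m + 1)) → ℝ := fun x => ∑ i, ⟪b i, x⟫ ^ 2 / d i with hρ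
  set S : EuclideanSpace ℝ (Fin (m + 1)) → EuclideanSpace ℝ (Fin (m + 1)) :=
    fun x => ρ x • x with hS
  set D : EuclideanSpace ℝ (Fin (m + 1)) → EuclideanSpace ℝ (Fin (m + 1)) →L[ℝ] ℝ :=
    fun z => ∑ i, (2 * ⟪b i, z⟫ / d i) • innerSL ℝ (b i) with hD
  have hρd : ∀ z, HasFDerivAt ρ (D z) z := fun z => by
    refine HasFDerivAt.fun_sum fun i _ => ?_
    have h : HasDerivAt (fun s : ℝ => s ^ 2 / d i) (2 * ⟪b i, z⟫ / d i) ⟪b i, z⟫ := by
      refine ((hasDerivAt_pow 2 _).div_const (d i)).congr_deriv ?_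
      ring
    exact HasDerivAt.comp_hasFDerivAt (f := fun y => ⟪b i, y⟫) z h (innerSL ℝ (b i)).hasFDerivAt
  have hρc : Continuous ρ := by
    simp only [hρ]
    fun_prop
  have hSc : ContDiff ℝ 1 S := by
    simp only [hS, hρ]
    exact (ContDiff.sum fun i _ =>
      (((innerSL ℝ (b i)).contDiff).pow 2).div_const _).smul contDiff_id
  have htr : ∀ z, LinearMap.trace ℝ (EuclideanSpace ℝ (Fin (m + 1)))
      (fderiv ℝ S z : _ →ₗ[ℝ] _) = ((m : ℝ) + 3) * ρ z := fun z => by
    have hd' : HasFDerivAt S _ z := (hρd z).fun_smul (hasFDerivAt_id z)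
    rw [hd'.fderiv, ContinuousLinearMap.toLinearMap_add, ContinuousLinearMap.toLinearMap_smul,
      map_add, map_smul, ContinuousLinearMap.coe_id, LinearMap.trace_id, finrank_euclideanSpace_fin]
    rw [show ∀ (f : EuclideanSpace ℝ (Fin (m + 1)) →L[ℝ] ℝ) x,
      ((f.smulRight x : EuclideanSpace ℝ (Fin (m + 1)) →L[ℝ] EuclideanSpace ℝ (Fin (m + 1))) :
        EuclideanSpace ℝ (Fin (m + 1)) →ₗ[ℝ] EuclideanSpace ℝ (Fin (m + 1))) =
      (f : EuclideanSpace ℝ (Fin (m + 1)) →ₗ[ℝ] ℝ).smulRight x from fun _ _ => rfl,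
      LinearMap.trace_smulRight]
    have e : D z z = 2 * ρ z := by
      simp only [hD, hρ, sum_apply, smul_apply,
        innerSL_apply_apply, smul_eq_mul, Finset.mul_sum]
      exact Finset.sum_congr rfl fun i _ => by ring
    simp only [ContinuousLinearMap.coe_coe, e, smul_eq_mul]
    push_cast
    ring
  have hdiv := integral_trace_eq hK.body.1 cK hK.zero_nhds hSc
  simp only [htr] at hdiv
  have hρint : ∫ x in K, ρ x = ((m : ℝ) + 1) * V / ((m : ℝ) + 3) := by
    simp only [hρ]
    rw [integral_finsetSum]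
    · simp only [integral_div, hdiag, hd]
      have : ∀ i, l i / (((m : ℝ) + 3) * l i / V) = V / ((m : ℝ) + 3) := fun i => by
        have := (hl0 i).ne'
        field_simp
      simp only [this, Finset.sum_const, Finset.card_univ, Fintype.card_fin, nsmul_eq_mul]
      push_cast
      ring
    · exact fun i _ =>
        (by fun_prop : Continuous fun y => ⟪b i, y⟫ ^ 2 / d i).continuousOn.integrableOn_compact cK
  rw [integral_const_mul, hρint] at hdiv
  have hcs : ∀ᵐ x ∂volume.restrict K,
      ⟪normalAt K x, S (bdPoint K x)⟫ = ρ (bdPoint K x) ∧ 1 ≤ ρ (bdPoint K x) := by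
    filter_upwards [hw, ae_restrict_of_ae (isTop_ae hK)] with x hx hT
    set w := normalAt K x
    set v := bdPoint K x
    refine ⟨by rw [hS, real_inner_smul_right, hT.2.eq, mul_one], ?_⟩
    have h1 : ∑ i, d i * ⟪b i, w⟫ ^ 2 = 1 := by
      have e : ∀ i, d i * ⟪b i, w⟫ ^ 2 = ((m : ℝ) + 3) / V * (l i * ⟪b i, w⟫ ^ 2) := fun i => by
        simp only [hd]
        ring
      simp only [e, ← Finset.mul_sum]
      rw [← hquad, hx]
      field_simp
    have h2 : ∑ i, ⟪b i, w⟫ * ⟪b i, v⟫ = 1 := by
      rw [← hT.2.eq, ← b.sum_inner_mul_inner w v]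
      exact Finset.sum_congr rfl fun i _ => by rw [real_inner_comm w (b i)]
    have h3 := Finset.sum_mul_sq_le_sq_mul_sq Finset.univ
      (fun i => √(d i) * ⟪b i, w⟫) (fun i => ⟪b i, v⟫ / √(d i))
    have e1 : ∀ i, √(d i) * ⟪b i, w⟫ * (⟪b i, v⟫ / √(d i)) = ⟪b i, w⟫ * ⟪b i, v⟫ := fun i => by
      have := (Real.sqrt_pos.2 (hd0 i)).ne'
      field_simp
    simp only [e1, h2, mul_pow, div_pow, Real.sq_sqrt (hd0 _).le, h1, one_pow, one_mul] at h3
    exact h3
  obtain ⟨R, hR⟩ := cK.exists_bound_of_continuousOn hρc.continuousOn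
  have hbi : IntegrableOn (fun x => ρ (bdPoint K x) - 1) K :=
    IntegrableOn.of_bound cK.measure_lt_top
      ((hρc.measurable.comp (measurable_bdPoint hK)).sub_const 1).aestronglyMeasurable (R + 1)
      (Eventually.of_forall fun x => (norm_sub_le _ _).trans (by
        rw [norm_one]
        linarith [hR _ (bdPoint_mem hK x)]))
  have hzero : ∫ x in K, (ρ (bdPoint K x) - 1) = 0 := by
    have h1 : ∫ x in K, ⟪normalAt K x, S (bdPoint K x)⟫ = ∫ x in K, ρ (bdPoint K x) :=
      integral_congr_ae (hcs.mono fun x hx => hx.1)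
    rw [h1] at hdiv
    have hbi' : IntegrableOn (fun x => ρ (bdPoint K x)) K :=
      IntegrableOn.of_bound cK.measure_lt_top
        (hρc.measurable.comp (measurable_bdPoint hK)).aestronglyMeasurable R
        (Eventually.of_forall fun x => hR _ (bdPoint_mem hK x))
    rw [integral_sub hbi' (integrableOn_const (C := (1 : ℝ)) cK.measure_lt_top.ne),
      setIntegral_const, measureReal_def, smul_eq_mul, mul_one, ← hVdef]
    have h2 : (((m : ℝ) + 1)) * (∫ x in K, ρ (bdPoint K x)) = ((m : ℝ) + 1) * V := by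
      push_cast at hdiv
      rw [← hdiv]
      field_simp
    have := mul_left_cancel₀ (show ((m : ℝ) + 1) ≠ 0 by positivity) h2
    linarith
  have hgc := continuous_gauge hK.body.1 hK.zero_nhds
  have hsc : ∀ (t : ℝ) x, ρ (t • x) = t ^ 2 * ρ x := fun t x => by
    simp only [hρ, real_inner_smul_right, Finset.mul_sum]
    exact Finset.sum_congr rfl fun i _ => by ring
  have hae : (fun x => ρ x) =ᵐ[volume.restrict K] fun x => gauge K x ^ 2 := by
    have hz := (integral_eq_zero_iff_of_nonneg_ae (hcs.mono fun x hx => sub_nonneg.2 hx.2) hbi).1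
      hzero
    have : Nonempty (Fin (m + 1)) := ⟨0⟩
    filter_upwards [hz,
      ae_restrict_of_ae (Measure.ae_ne volume (0 : EuclideanSpace ℝ (Fin (m + 1))))] with x hx hx0
    simp only [Pi.zero_apply, sub_eq_zero, bdPoint, hsc] at hx
    have := gauge_pos_of_ne hK hx0
    field_simp at hx
    linarith
  have heq := Measure.eqOn_open_of_ae_eq (ae_restrict_of_ae_restrict_of_subset interior_subset hae)
    isOpen_interior hρc.continuousOn (hgc.pow 2).continuousOn
  have hall : ∀ x, ρ x = gauge K x ^ 2 := fun x => by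
    obtain ⟨r, hr, hball⟩ := Metric.mem_nhds_iff.1 hK.zero_nhds
    set t := r / (2 * (‖x‖ + 1)) with ht
    have ht0 : 0 < t := by positivity
    have hmem : t • x ∈ interior K := interior_maximal hball Metric.isOpen_ball (by
      rw [mem_ball_zero_iff, norm_smul, Real.norm_of_nonneg ht0.le, ht, div_mul_eq_mul_div,
        div_lt_iff₀ (by positivity)]
      nlinarith [norm_nonneg x])
    have h := heq hmem
    simp only [hsc, gauge_smul_of_nonneg ht0.le, smul_eq_mul, mul_pow] at h
    exact mul_left_cancel₀ (pow_ne_zero 2 ht0.ne') h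
  let L : EuclideanSpace ℝ (Fin (m + 1)) →ₗ[ℝ] EuclideanSpace ℝ (Fin (m + 1)) :=
    { toFun := fun z => ∑ i, (√(d i) * ⟪b i, z⟫) • b i
      map_add' := fun x y => by simp only [inner_add_right, mul_add, add_smul, Finset.sum_add_distrib]
      map_smul' := fun c x => by
        simp only [real_inner_smul_right, RingHom.id_apply, Finset.smul_sum, smul_smul]
        exact Finset.sum_congr rfl fun i _ => by ring_nf }
  have hcoord : ∀ z i, ⟪b i, L z⟫ = √(d i) * ⟪b i, z⟫ := fun z i => by
    show ⟪b i, ∑ j, (√(d j) * ⟪b j, z⟫) • b j⟫ = _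
    rw [inner_sum, Finset.sum_eq_single i]
    · rw [real_inner_smul_right, real_inner_self_eq_norm_sq, b.orthonormal.1]
      ring
    · intro j _ hj
      rw [real_inner_smul_right, b.orthonormal.2 (Ne.symm hj), mul_zero]
    · simp
  have hLinj : Function.Injective L := by
    intro x y hxy
    have hc : ∀ i, ⟪b i, x⟫ = ⟪b i, y⟫ := fun i => by
      have := congrArg (fun z => ⟪b i, z⟫) hxy
      simp only [hcoord] at this
      exact mul_left_cancel₀ (Real.sqrt_pos.2 (hd0 i)).ne' this
    rw [← b.sum_repr' x, ← b.sum_repr' y]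
    simp only [hc]
  set T := (LinearEquiv.ofInjectiveEndo L hLinj).toContinuousLinearEquiv with hT
  have hnorm : ∀ z, ρ (T z) = ‖z‖ ^ 2 := fun z => by
    show ρ (L z) = _
    rw [← b.sum_sq_norm_inner_right z]
    simp only [hρ, hcoord, mul_pow, Real.sq_sqrt (hd0 _).le, Real.norm_eq_abs, sq_abs]
    exact Finset.sum_congr rfl fun i _ => by
      have := (hd0 i).ne'
      field_simp
  refine ⟨T, ?_⟩
  ext x
  have hg : x ∈ K ↔ ρ x ≤ 1 := by
    rw [mem_iff_gauge hK.body.1 cK hK.zero_nhds, hall]
    exact (sq_le_one_iff₀ (gauge_nonneg x)).symm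
  rw [hg]
  constructor
  · intro hx
    refine ⟨T.symm x, ?_, T.apply_symm_apply x⟩
    rw [mem_closedBall_zero_iff, ← sq_le_one_iff₀ (norm_nonneg _), ← hnorm, T.apply_symm_apply]
    exact hx
  · rintro ⟨z, hz, rfl⟩
    rw [hnorm, sq_le_one_iff₀ (norm_nonneg _)]
    exact mem_closedBall_zero_iff.1 hz

end Vale.Agent.P237.Quant
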