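import Mathlib

/-!
The data format and the check of the envelope on a range of dimensions; the soundness is in
`EnvelopeCheck`.
-/

namespace Vale.Agent.P237.Quant

/-- A range `lo ≤ n ≤ hi` of dimensions (`hi = 0`: no upper end), with `c ≤ 1 / √n` and
`V₀ √n ≤ C`. -/
structure EnvRange where
  lo : ℕ
  hi : ℕ
  c : ℚ
  C : ℚ

/-- A point with `G ≤ 1 - Z / √n`, the bins `(upper end, rate)` from `envStart` on, the rate past the
last bin and the bound. -/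
structure EnvNode where
  Z : ℚ
  G : ℚ
  bins : List (ℚ × ℚ)
  top : ℚ
  K : ℚ

namespace EnvRange

/-- A lower bound of `1 / n`. -/
def e (R : EnvRange) : ℚ := if R.hi = 0 then 0 else 1 / (R.hi : ℚ)

/-- An upper bound of `1 / m`. -/
def d (R : EnvRange) : ℚ := 1 / ((R.lo : ℚ) - 1)

/-- The membership. -/
def Mem (R : EnvRange) (n : ℕ) : Prop := R.lo ≤ n ∧ (R.hi = 0 ∨ n ≤ R.hi)

/-- The validity of a range. -/
def check (R : EnvRange) : Bool :=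
  decide (4 ≤ R.lo ∧ 0 ≤ R.c ∧ R.c * R.c ≤ R.e ∧ 0 < R.C ∧
    3141593 / 2000000 ≤ R.C * R.C * (1 + R.e / 2))

end EnvRange

/-- An upper bound of `exp y` for `0 ≤ y ≤ 1`. -/
def expHi (y : ℚ) : ℚ :=
  1 + y + y ^ 2 / 2 + y ^ 3 / 6 + y ^ 4 / 24 + y ^ 5 / 120 + y ^ 6 / 720 + y ^ 7 / 5040 +
    y ^ 8 * 9 / 322560

/-- A lower bound of `exp y` for `0 ≤ y`. -/
def expLo (y : ℚ) : ℚ :=
  1 + y + y ^ 2 / 2 + y ^ 3 / 6 + y ^ 4 / 24 + y ^ 5 / 120 + y ^ 6 / 720 + y ^ 7 / 5040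

/-- The grid of the rounding. -/
def expGrid : ℚ := 1099511627776

/-- A lower bound of `exp (-l)` for `0 ≤ l ≤ 32`. -/
def expNegLo (l : ℚ) : ℚ := ⌊1 / expHi (l / 32) ^ 32 * expGrid⌋ / expGrid

/-- An upper bound of `exp (-l)` for `0 ≤ l ≤ 32`. -/
def expNegHi (l : ℚ) : ℚ := (⌊1 / expLo (l / 32) ^ 32 * expGrid⌋ + 1) / expGrid

/-- An upper bound of the logarithm. -/
def logHi (β : ℚ) : ℚ :=
  if β ≤ 1 then 2 * (β - 1) / (β + 1) else (β - 1) * (5 + β) / (2 + 4 * β)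

/-- The rate, at the rational data. -/
def envRateQ (R : EnvRange) (l El Eh : ℚ) : ℚ :=
  let A := l - l ^ 2 * R.e / 2 + l ^ 3 * R.d ^ 2 / 6
  (1 - Eh - A * Eh) / (A - 1 + Eh + A * R.d * (1 - El))

/-- The upper bound of the logarithm of the power ratio. -/
def envLogQ (R : EnvRange) (β b : ℚ) : ℚ := 1 / 2 - R.e / 2 + logHi β - 1 + b / β

/-- The gain, at the rational data. -/
def envGainQ (R : EnvRange) (Z G l El Eh b : ℚ) : ℚ :=
  let r := envRateQ R l El Eh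
  r * (Z * b / R.C - 1) + b * El * G * R.c / R.C * (1 + l + r)

/-- The test at one end of a bin. -/
def envTestQ (R : EnvRange) (Z G l β b : ℚ) : Bool :=
  let L := envLogQ R β b
  decide (0 ≤ L ∧ L * R.d < 2 ∧
    2 * L < envGainQ R Z G l (expNegLo l) (expNegHi l) b * (2 - L * R.d))

/-- The test by the mass. -/
def envMassQ (R : EnvRange) (Z l b : ℚ) : Bool :=
  let A := l - l ^ 2 * R.e / 2 + l ^ 3 * R.d ^ 2 / 6
  decide (0 < A ∧ R.C * ((1 + R.d) * A) < Z * b * (1 - expNegHi l))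

/-- A rate that makes sense. -/
def envRateOK (R : EnvRange) (l : ℚ) : Bool :=
  let A := l - l ^ 2 * R.e / 2 + l ^ 3 * R.d ^ 2 / 6
  decide (0 < l ∧ l ≤ 32 ∧ 0 ≤ 1 - expNegHi l - A * expNegHi l)

/-- A bin. -/
def envBinQ (R : EnvRange) (N : EnvNode) (b₀ : ℚ) (p : ℚ × ℚ) : Bool :=
  decide (b₀ ≤ p.1 ∧ 0 < p.1) && (decide (p.1 ≤ N.K) ||
    (envRateOK R p.2 && decide (0 < b₀ ∧ p.1 * expNegHi p.2 ≤ N.K) &&
      (envMassQ R N.Z p.2 b₀ || (decide (R.C ≤ N.Z * b₀) &&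
        envTestQ R N.Z N.G p.2 ((b₀ + p.1) / 2) b₀ && envTestQ R N.Z N.G p.2 ((b₀ + p.1) / 2) p.1))))

/-- The bins of a node and the part past them. -/
def envBinsQ (R : EnvRange) (N : EnvNode) : ℚ → List (ℚ × ℚ) → Bool
  | b₀, [] => envRateOK R N.top && envMassQ R N.Z N.top b₀ && decide (0 < b₀ ∧
      R.C * (1 + R.d) * N.top * expNegHi N.top ≤ N.Z * (1 - expNegHi N.top) * N.K)
  | b₀, p :: rest => envBinQ R N b₀ p && envBinsQ R N p.1 rest

/-- Every relative centre is at least this. -/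
def envStart (R : EnvRange) : ℚ := 6065 / 10000 * (1 + R.e / 2)

/-- A node. -/
def EnvNode.check (R : EnvRange) (N : EnvNode) : Bool :=
  decide (0 < N.Z ∧ N.Z * N.Z * (1 / (R.lo : ℚ)) < 1 ∧ 0 ≤ N.G ∧ N.G ≤ 1 ∧
    N.Z * N.Z * (1 / (R.lo : ℚ)) ≤ (1 - N.G) * (1 - N.G) ∧ 0 ≤ N.K) &&
    envBinsQ R N (envStart R) N.bins

end Vale.Agent.P237.Quant
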