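import Vale.Agent.P237.Quant.EnvelopeExactDefs
import Vale.Agent.P237.Quant.EnvelopeCheckDefs

/-!
The data format and the check of the envelope inside one bin `[lo, hi]` of the relative centre
`V φ 0 ^ m / mass`: at a node the bound `K` of the relative power and the bound of the value against
the centre (`X` in one dimension, `exp (-L)` of the power on a range). Soundness is in `EnvelopeBin`.
-/

namespace Vale.Agent.P237.Quant

/-- A point, the two bounds and the cuts `(upper end, value, β, s)` of the bin. -/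
structure BinNode where
  t : ℚ
  X : ℚ
  K : ℚ
  cuts : List (ℚ × ℚ × ℚ × ℚ)

/-- One cut in one dimension. -/
def exactCutQ (R : ExactDim) (N : BinNode) (b₀ : ℚ) (p : ℚ × ℚ × ℚ × ℚ) : Bool :=
  match p with
  | (b₁, x, β, s) =>
    decide (b₀ ≤ b₁ ∧ 0 < b₀) && (decide (b₁ ≤ N.K ∧ 1 ≤ N.X) ||
      (decide (0 < x ∧ x < 1 ∧ b₁ * x ^ R.m ≤ N.K ∧ x ≤ N.X) &&
        (decide (R.V < b₀ * exactMassQ R.m N.t x) ||
          (decide (0 < β ∧ 0 < s ∧ β ≤ s ^ R.m ∧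
              R.V ≤ b₀ * (N.t + x ^ R.m * (1 - N.t) / ((R.m : ℚ) + 1))) &&
            exactTestQ R N.t x β s b₀ && exactTestQ R N.t x β s b₁))))

/-- The cuts reach from `b₀` to `hi`. -/
def exactCutsQ (R : ExactDim) (N : BinNode) (hi : ℚ) : ℚ → List (ℚ × ℚ × ℚ × ℚ) → Bool
  | b₀, [] => decide (hi ≤ b₀)
  | b₀, p :: rest => exactCutQ R N b₀ p && exactCutsQ R N hi p.1 rest

/-- A node inside the bin `[lo, hi]`. -/
def BinNode.check (R : ExactDim) (lo hi : ℚ) (N : BinNode) : Bool :=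
  decide (0 < N.t ∧ N.t < 1 ∧ 0 ≤ N.K ∧ lo < hi ∧ N.cuts ≠ []) && exactCutsQ R N hi lo N.cuts

/-- A node on a range of dimensions, at `t = Z / √n`, with the least rate `L`. -/
structure RangeBinNode where
  Z : ℚ
  G : ℚ
  K : ℚ
  L : ℚ
  cuts : List (ℚ × ℚ)

/-- One cut on a range. -/
def rangeCutQ (R : EnvRange) (N : RangeBinNode) (b₀ : ℚ) (p : ℚ × ℚ) : Bool :=
  decide (b₀ ≤ p.1 ∧ 0 < p.1) && (decide (p.1 ≤ N.K ∧ N.L ≤ 0) ||
    (envRateOK R p.2 && decide (0 < b₀ ∧ p.1 * expNegHi p.2 ≤ N.K ∧ N.L ≤ p.2) &&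
      (envMassQ R N.Z p.2 b₀ || (decide (R.C ≤ N.Z * b₀) &&
        envTestQ R N.Z N.G p.2 ((b₀ + p.1) / 2) b₀ && envTestQ R N.Z N.G p.2 ((b₀ + p.1) / 2) p.1))))

/-- The cuts reach from `b₀` to `hi`. -/
def rangeCutsQ (R : EnvRange) (N : RangeBinNode) (hi : ℚ) : ℚ → List (ℚ × ℚ) → Bool
  | b₀, [] => decide (hi ≤ b₀)
  | b₀, p :: rest => rangeCutQ R N b₀ p && rangeCutsQ R N hi p.1 rest

/-- A node inside the bin `[lo, hi]` on a range; the cuts start at `max lo (envStart R)`. -/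
def RangeBinNode.check (R : EnvRange) (lo hi : ℚ) (N : RangeBinNode) : Bool :=
  decide (0 < N.Z ∧ N.Z * N.Z * (1 / (R.lo : ℚ)) < 1 ∧ 0 ≤ N.G ∧ N.G ≤ 1 ∧
    N.Z * N.Z * (1 / (R.lo : ℚ)) ≤ (1 - N.G) * (1 - N.G) ∧ 0 ≤ N.K ∧ lo < hi ∧ N.cuts ≠ []) &&
    rangeCutsQ R N hi (max lo (envStart R)) N.cuts

end Vale.Agent.P237.Quant
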