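import Mathlib
import Vale.Agent.P237.Quant.PowerWindow

/-!
The exact envelope of a profile at one point, in closed form. Among concave profiles with the value
at the centre, a lower bound at `t` and the mass fixed, the least power integral is that of the
companion flat up to `T`, straight down to `(t, x)`, straight down to `(1, 0)`: the difference of
the two changes sign once, so a tangent of `y ↦ y ^ (k / (k + 1))` compares the integrals. In `T`
both integrals are linear, so the bound is linear in the mass.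
-/

namespace Vale.Agent.P237.Quant

open MeasureTheory Set Real

variable {m : ℕ} {φ : ℝ → ℝ}

/-- The integral over `[0, 1]` of the `j`-th power of the line from `1` to `x`. -/
noncomputable def linePow (j : ℕ) (x : ℝ) : ℝ := (1 - x ^ (j + 1)) / (((j : ℝ) + 1) * (1 - x))

/-- The rate of the envelope. -/
noncomputable def envRate (m : ℕ) (x : ℝ) : ℝ :=
  (linePow (m - 1) x - linePow m x) / (1 - linePow m x)

/-- The mass past `t` that the value `x` at `t` forces. -/
noncomputable def envTail (m : ℕ) (t x : ℝ) : ℝ := x ^ m * (1 - t) / ((m : ℝ) + 1)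

/-- The least power integral for the value `x` at `t` and the mass `V`, relative to the centre. -/
noncomputable def envPower (m : ℕ) (t x V : ℝ) : ℝ :=
  V + envRate m x * (t - V + envTail m t x) +
    (((m : ℝ) + 1) / ((m : ℝ) * x) - 1) * envTail m t x

theorem linePow_lt_one {j : ℕ} (hj : 1 ≤ j) {x : ℝ} (hx : x ∈ Ioo (0 : ℝ) 1) :
    linePow j x < 1 := by
  have h1 : (0 : ℝ) < 1 - x := by linarith [hx.2]
  have hj' : (1 : ℝ) ≤ j := by exact_mod_cast hj
  rw [linePow, div_lt_one (by positivity), pow_succ]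
  have h := mul_le_mul_of_nonneg_right
    (one_add_mul_le_pow (a := x - 1) (by linarith [hx.1]) j) hx.1.le
  rw [add_sub_cancel] at h
  nlinarith [mul_pos (show (0 : ℝ) < j by linarith) (mul_pos h1 h1)]

/-- Past the centre the profile decreases. -/
theorem shape_antitone (hφ : IsShape φ) {a b : ℝ} (ha : 0 ≤ a) (hab : a ≤ b) (hb : b ≤ 1) :
    φ b ≤ φ a := by
  rcases (ha.trans hab).eq_or_lt with h | h
  · obtain rfl : a = b := le_antisymm hab (h ▸ ha)
    exact le_rfl
  have h3 := shape_three hφ (p := 0) (by norm_num) ha hab hb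
  simp only [sub_zero] at h3
  have h4 := mul_le_mul_of_nonneg_left
    (shape_le_centre hφ ⟨by linarith, hb⟩) (sub_nonneg.2 hab)
  exact le_of_mul_le_mul_left (by linarith) h

/-- The companion profile. -/
noncomputable def companion (T t x u : ℝ) : ℝ :=
  if u ≤ T then 1 else if u ≤ t then 1 - (1 - x) / (t - T) * (u - T)
  else x / (1 - t) * (1 - u)

theorem companion_mem {T t x u : ℝ} (ht : t < 1) (hx : x ∈ Icc (0 : ℝ) 1)
    (hu : u ≤ 1) : companion T t x u ∈ Icc (0 : ℝ) 1 := by
  unfold companion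
  split_ifs with h h'
  · exact ⟨zero_le_one, le_rfl⟩
  · have hd : 0 < t - T := by linarith
    have h1 : (1 - x) / (t - T) * (u - T) ≤ 1 - x := by
      rw [div_mul_eq_mul_div, div_le_iff₀ hd]
      exact mul_le_mul_of_nonneg_left (by linarith) (by linarith [hx.2])
    have h2 : 0 ≤ (1 - x) / (t - T) * (u - T) :=
      mul_nonneg (div_nonneg (by linarith [hx.2]) hd.le) (by linarith)
    exact ⟨by linarith [hx.1], by linarith⟩
  · have h1 : 0 ≤ x / (1 - t) * (1 - u) :=
      mul_nonneg (div_nonneg hx.1 (by linarith)) (by linarith)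
    have h2 : x / (1 - t) * (1 - u) ≤ x := by
      rw [div_mul_eq_mul_div, div_le_iff₀ (by linarith)]
      exact mul_le_mul_of_nonneg_left (by linarith) hx.1
    exact ⟨h1, h2.trans hx.2⟩

theorem companion_integrable {T t x : ℝ} (ht : t < 1) (hx : x ∈ Icc (0 : ℝ) 1)
    (j : ℕ) : IntervalIntegrable (fun u => companion T t x u ^ j) volume 0 1 := by
  refine interval_iff01.2 (IntegrableOn.of_bound measure_Ioo_lt_top ?_ 1 ?_)
  · have hm : Measurable (companion T t x) := by
      unfold companion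
      refine Measurable.ite measurableSet_Iic (by fun_prop) ?_
      exact Measurable.ite measurableSet_Iic (by fun_prop) (by fun_prop)
    exact (hm.pow_const j).aestronglyMeasurable
  filter_upwards [ae_restrict_mem measurableSet_Ioo] with u hu
  obtain ⟨h0, h1⟩ := companion_mem ht hx hu.2.le
  rw [Real.norm_eq_abs, abs_pow, abs_of_nonneg h0]
  exact pow_le_one₀ h0 h1

theorem integral_line_pow {p q : ℝ} (j : ℕ) (α β : ℝ) (hβ : β ≠ 0) :
    (∫ u in p..q, (α + β * u) ^ j) =
      ((α + β * q) ^ (j + 1) - (α + β * p) ^ (j + 1)) / ((((j + 1 : ℕ) : ℝ)) * β) := by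
  rw [sub_div, intervalIntegral.integral_eq_sub_of_hasDerivAt
    (f := fun u => (α + β * u) ^ (j + 1) / ((((j + 1 : ℕ) : ℝ)) * β)) (fun u _ => ?_)
    ((by fun_prop : Continuous _).intervalIntegrable _ _)]
  refine (((((hasDerivAt_id' u).const_mul β).const_add α).pow (j + 1)).div_const _).congr_deriv ?_
  simp only [Nat.add_sub_cancel]
  have : (((j + 1 : ℕ) : ℝ)) ≠ 0 := by positivity
  field_simp

theorem integral_eq_of_eqOn_Ioo {f g : ℝ → ℝ} {a b : ℝ} (hab : a ≤ b)
    (hf : IntervalIntegrable f volume a b) (hg : IntervalIntegrable g volume a b)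
    (h : ∀ u ∈ Ioo a b, f u = g u) : (∫ u in a..b, f u) = ∫ u in a..b, g u :=
  le_antisymm (intervalIntegral.integral_mono_on_of_le_Ioo hab hf hg fun u hu => (h u hu).le)
    (intervalIntegral.integral_mono_on_of_le_Ioo hab hg hf fun u hu => (h u hu).ge)

/-- The integrals of the companion. -/
theorem companion_integral {T t x : ℝ} (hT : 0 ≤ T) (hTt : T ≤ t) (ht : t < 1)
    (hx : x ∈ Ioo (0 : ℝ) 1) (j : ℕ) :
    (∫ u in (0 : ℝ)..1, companion T t x u ^ j) =
      T + (t - T) * linePow j x + envTail j t x := by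
  have hi := companion_integrable (T := T) ht (Ioo_subset_Icc_self hx) j
  have sub : ∀ {a b : ℝ}, 0 ≤ a → a ≤ b → b ≤ 1 →
      IntervalIntegrable (fun u => companion T t x u ^ j) volume a b := fun ha hab hb =>
    hi.mono_set (by
      rw [uIcc_of_le hab, uIcc_of_le zero_le_one]
      exact Icc_subset_Icc ha hb)
  have h1 : (∫ u in (0 : ℝ)..T, companion T t x u ^ j) = T := by
    rw [integral_eq_of_eqOn_Ioo hT (sub le_rfl hT (by linarith)) intervalIntegrable_const
      (g := fun _ => (1 : ℝ)) fun u hu => by simp [companion, hu.2.le]]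
    simp
  have h2 : (∫ u in T..t, companion T t x u ^ j) = (t - T) * linePow j x := by
    rcases hTt.eq_or_lt with rfl | hlt
    · simp
    rw [integral_eq_of_eqOn_Ioo hTt (sub hT hTt ht.le)
      ((by fun_prop : Continuous _).intervalIntegrable _ _)
      (g := fun u => (1 + (1 - x) / (t - T) * T + -((1 - x) / (t - T)) * u) ^ j) fun u hu => by
        simp only [companion, if_neg (not_le.2 hu.1), if_pos hu.2.le]
        ring, integral_line_pow j _ _ (neg_ne_zero.2
          (div_pos (by linarith [hx.2]) (sub_pos.2 hlt)).ne')]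
    rw [show 1 + (1 - x) / (t - T) * T + -((1 - x) / (t - T)) * T = 1 by ring,
      show 1 + (1 - x) / (t - T) * T + -((1 - x) / (t - T)) * t = x by
        field_simp [(sub_pos.2 hlt).ne']; ring, one_pow, linePow]
    have := (sub_pos.2 hlt).ne'
    have : (1 : ℝ) - x ≠ 0 := by linarith [hx.2]
    push_cast
    field_simp
    ring
  have h3 : (∫ u in t..1, companion T t x u ^ j) = envTail j t x := by
    rw [integral_eq_of_eqOn_Ioo ht.le (sub (hT.trans hTt) ht.le le_rfl)
      ((by fun_prop : Continuous _).intervalIntegrable _ _)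
      (g := fun u => (x / (1 - t) + -(x / (1 - t)) * u) ^ j) fun u hu => by
        simp only [companion, if_neg (not_le.2 (hTt.trans_lt hu.1)), if_neg (not_le.2 hu.1)]
        ring, integral_line_pow j _ _ (neg_ne_zero.2 (div_pos hx.1 (sub_pos.2 ht)).ne')]
    rw [show x / (1 - t) + -(x / (1 - t)) * 1 = 0 by ring,
      show x / (1 - t) + -(x / (1 - t)) * t = x by field_simp [(sub_pos.2 ht).ne']; ring,
      zero_pow (Nat.succ_ne_zero j), envTail]
    have := (sub_pos.2 ht).ne'
    have := hx.1.ne'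
    push_cast
    field_simp
    ring
  rw [← intervalIntegral.integral_add_adjacent_intervals (sub le_rfl hT (by linarith))
    (sub hT (by linarith) le_rfl), ← intervalIntegral.integral_add_adjacent_intervals
    (sub hT hTt ht.le) (sub (hT.trans hTt) ht.le le_rfl), h1, h2, h3]
  ring

/-- The value at `t` forces mass. -/
theorem envelope_mass (hφ : IsShape φ) {t x : ℝ} (ht : t ∈ Ioo (0 : ℝ) 1)
    (hx : x ∈ Ioo (0 : ℝ) 1) (hxt : x ≤ φ t / φ 0) (j : ℕ) :
    t * linePow j x + envTail j t x ≤ mass j φ 1 / φ 0 ^ j := by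
  have h := companion_integral le_rfl ht.1.le ht.2 hx j
  rw [sub_zero, zero_add] at h
  rw [← h, mass, ← intervalIntegral.integral_div]
  refine intervalIntegral.integral_mono_on zero_le_one
    (companion_integrable ht.2 (Ioo_subset_Icc_self hx) j)
    ((intervalIntegrable_shape_pow01 hφ j).div_const _) fun u hu => ?_
  rw [← div_pow]
  refine pow_le_pow_left₀ (companion_mem ht.2 (Ioo_subset_Icc_self hx) hu.2).1 ?_ j
  have h0 : (1 : ℝ) ≤ φ 0 / φ 0 := (div_self hφ.centre.ne').ge
  rw [companion]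
  split_ifs with ha hb
  · obtain rfl : u = 0 := le_antisymm ha hu.1
    exact h0
  · refine le_trans (le_of_eq ?_)
      (line_le_shape hφ (by norm_num) ht.1 ht.2.le ⟨hu.1, hb⟩ h0 hxt)
    field_simp [ht.1.ne']
    ring
  · refine le_trans (le_of_eq ?_) (line_le_shape hφ (by linarith [ht.1]) ht.2 le_rfl
      ⟨(not_le.1 hb).le, hu.2⟩ hxt (shape_ratio_mem hφ (by norm_num)).1)
    ring

/-- The companion has the least power integral. -/
theorem companion_le (hφ : IsShape φ) {k : ℕ} {T t x : ℝ} (hT : 0 ≤ T) (hTt : T ≤ t)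
    (ht : t < 1) (ht0 : 0 < t) (hx : x ∈ Ioo (0 : ℝ) 1) (hxt : x ≤ φ t / φ 0)
    (hV : (∫ u in (0 : ℝ)..1, companion T t x u ^ (k + 1)) = mass (k + 1) φ 1 / φ 0 ^ (k + 1)) :
    (∫ u in (0 : ℝ)..1, companion T t x u ^ k) ≤ mass k φ 1 / φ 0 ^ k := by
  set F := companion T t x with hF
  set ψ : ℝ → ℝ := fun u => φ u / φ 0 with hψ
  have hψI : ∀ u ∈ Icc (0 : ℝ) 1, ψ u ∈ Icc (0 : ℝ) 1 := fun u hu =>
    shape_ratio_mem hφ ⟨by linarith [hu.1], hu.2⟩
  have hanti : ∀ {u v : ℝ}, 0 ≤ u → u ≤ v → v ≤ 1 → ψ v ≤ ψ u := fun hu huv hv =>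
    div_le_div_of_nonneg_right (shape_antitone hφ hu huv hv) hφ.centre.le
  -- where the companion is above
  set S := {v | v ∈ Icc (0 : ℝ) 1 ∧ ψ v < F v} with hS
  have hSt : ∀ v ∈ S, v ≤ t := fun v hv => by
    by_contra! h
    refine not_le.2 hv.2 ?_
    simp only [hF, companion, if_neg (not_le.2 (hTt.trans_lt h)), if_neg (not_le.2 h)]
    refine le_trans (le_of_eq ?_) (line_le_shape hφ (by linarith) ht le_rfl
      ⟨h.le, hv.1.2⟩ hxt (shape_ratio_mem hφ (by norm_num)).1)
    ring
  -- one change of sign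
  have hcross : ∀ u ∈ Icc (0 : ℝ) 1, F u < ψ u → ∀ v ∈ S, v ≤ u := fun u hu hFu v hv => by
    by_contra! huv
    have hvt := hSt v hv
    have hTu : T < u := by
      by_contra! h
      simp only [hF, companion, if_pos h] at hFu
      linarith [(hψI u hu).2]
    have hFv := hv.2
    simp only [hF, companion, if_neg (not_le.2 hTu), if_pos (huv.le.trans hvt)] at hFu
    simp only [hF, companion, if_neg (not_le.2 (hTu.trans huv)), if_pos hvt] at hFv
    set β := (1 - x) / (t - T) with hβ
    have hend : 1 - β * (t - T) ≤ ψ t := by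
      rw [hβ, div_mul_cancel₀ _ (by linarith)]
      linarith
    have h3 := shape_three hφ (p := u) (by linarith [hu.1]) huv.le hvt ht.le
    have h4 : (t - v) * ψ u + (v - u) * ψ t ≤ (t - u) * ψ v := by
      simp only [hψ]
      rw [← mul_div_assoc, ← mul_div_assoc, ← mul_div_assoc, ← add_div]
      exact div_le_div_of_nonneg_right h3 hφ.centre.le
    have h5 := mul_le_mul_of_nonneg_left hFu.le (sub_nonneg.2 hvt)
    have h6 := mul_le_mul_of_nonneg_left hend (sub_nonneg.2 huv.le)
    have h7 := mul_lt_mul_of_pos_left hFv (show 0 < t - u by linarith)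
    linarith
  obtain ⟨c, hc0, hcS, hcN⟩ : ∃ c, 0 < c ∧ (∀ v ∈ S, c ≤ ψ v) ∧
      ∀ u ∈ Icc (0 : ℝ) 1, F u < ψ u → ψ u ≤ c := by
    rcases S.eq_empty_or_nonempty with h | h
    · exact ⟨1, one_pos, by simp [h], fun u hu _ => (hψI u hu).2⟩
    · have hb : BddBelow (ψ '' S) := ⟨0, by
        rintro _ ⟨v, hv, rfl⟩
        exact (hψI v hv.1).1⟩
      refine ⟨sInf (ψ '' S), lt_of_lt_of_le hx.1 (le_csInf (h.image ψ) ?_),
        fun v hv => csInf_le hb ⟨v, hv, rfl⟩, fun u hu hFu => le_csInf (h.image ψ) ?_⟩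
      · rintro _ ⟨v, hv, rfl⟩
        exact hxt.trans (hanti hv.1.1 (hSt v hv) ht.le)
      · rintro _ ⟨v, hv, rfl⟩
        exact hanti hv.1.1 (hcross u hu hFu v hv) hu.2
  have hpt : ∀ u ∈ Icc (0 : ℝ) 1, (k : ℝ) / (k + 1) * (ψ u ^ (k + 1) - F u ^ (k + 1)) ≤
      c * (ψ u ^ k - F u ^ k) := fun u hu => by
    obtain ⟨hF0, -⟩ := companion_mem ht (Ioo_subset_Icc_self hx) hu.2
    rcases lt_trichotomy (ψ u) (F u) with h | h | h
    · have h1 := pow_gap_ge k (hψI u hu).1 h.le
      have h2 := mul_le_mul_of_nonneg_right (hcS u ⟨hu, h⟩)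
        (sub_nonneg.2 (pow_le_pow_left₀ (hψI u hu).1 h.le k))
      linarith
    · simp [h]
    · exact pow_gap_le k hF0 h.le (hcN u hu h)
  have iψ : ∀ j, IntervalIntegrable (fun u => ψ u ^ j) volume 0 1 := fun j => by
    simp only [hψ, div_pow]
    exact (intervalIntegrable_shape_pow01 hφ j).div_const _
  have eψ : ∀ j, (∫ u in (0 : ℝ)..1, ψ u ^ j) = mass j φ 1 / φ 0 ^ j := fun j => by
    simp only [hψ, div_pow, intervalIntegral.integral_div]
    rfl
  have iF := companion_integrable (T := T) ht (Ioo_subset_Icc_self hx)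
  have h := intervalIntegral.integral_mono_on zero_le_one
    (((iψ (k + 1)).sub (iF (k + 1))).const_mul ((k : ℝ) / (k + 1)))
    (((iψ k).sub (iF k)).const_mul c) hpt
  rw [intervalIntegral.integral_const_mul, intervalIntegral.integral_const_mul,
    intervalIntegral.integral_sub (iψ _) (iF _), intervalIntegral.integral_sub (iψ _) (iF _),
    eψ, eψ, hV, sub_self, mul_zero] at h
  have := nonneg_of_mul_nonneg_right h hc0
  linarith

/-- The envelope: a value at least `x` at `t` costs power. -/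
theorem envPower_le (hm : 2 ≤ m) (hφ : IsShape φ) {t x : ℝ} (ht : t ∈ Ioo (0 : ℝ) 1)
    (hx : x ∈ Ioo (0 : ℝ) 1) (hxt : x ≤ φ t / φ 0)
    (hV : mass m φ 1 / φ 0 ^ m ≤ t + envTail m t x) :
    envPower m t x (mass m φ 1 / φ 0 ^ m) ≤ mass (m - 1) φ 1 / φ 0 ^ (m - 1) := by
  obtain ⟨k, rfl⟩ : ∃ k, m = k + 1 := ⟨m - 1, by omega⟩
  rw [Nat.add_sub_cancel]
  set V := mass (k + 1) φ 1 / φ 0 ^ (k + 1) with hVdef
  have hlow := envelope_mass hφ ht hx hxt (k + 1)
  have hg := linePow_lt_one (show 1 ≤ k + 1 by omega) hx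
  set g := linePow (k + 1) x with hgdef
  set T := (V - envTail (k + 1) t x - t * g) / (1 - g) with hTdef
  have hT0 : 0 ≤ T := div_nonneg (by linarith) (by linarith)
  have hTt : T ≤ t := by rw [hTdef, div_le_iff₀ (by linarith)]; linarith
  have hTV : T + (t - T) * g + envTail (k + 1) t x = V := by
    rw [hTdef]
    field_simp [(show (1 : ℝ) - g ≠ 0 by linarith)]
    ring
  have h := companion_le hφ (k := k) hT0 hTt ht.2 ht.1 hx hxt
    (by rw [companion_integral hT0 hTt ht.2 hx, ← hgdef, hTV])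
  rw [companion_integral hT0 hTt ht.2 hx] at h
  refine le_trans (le_of_eq ?_) h
  rw [envPower, envRate, Nat.add_sub_cancel, ← hgdef, ← hTV]
  have : (1 : ℝ) - g ≠ 0 := by linarith
  have e : envTail k t x = (((k + 1 : ℕ) : ℝ) + 1) / ((((k + 1 : ℕ) : ℝ)) * x) *
      envTail (k + 1) t x := by
    have := hx.1.ne'
    rw [envTail, envTail, pow_succ]
    push_cast
    field_simp
  rw [e]
  field_simp
  ring

/-- A refutation at one point: `q` is a slope of the tangent of the power constraint. -/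
theorem envelope_refute (hm : 2 ≤ m) (hφ : IsShape φ) (hp : powRatio m φ ≤ 1) {t x q κ : ℝ}
    (ht : t ∈ Ioo (0 : ℝ) 1) (hx : x ∈ Ioo (0 : ℝ) 1) (hq : 0 ≤ q)
    (hκ : ballRatio m ^ m * mass m ballShape 1 ≤ κ)
    (hcond : mass m φ 1 / φ 0 ^ m < t * linePow m x + envTail m t x ∨
      mass m φ 1 / φ 0 ^ m ≤ t + envTail m t x ∧
        0 ≤ envPower m t x (mass m φ 1 / φ 0 ^ m) ∧
        κ < (m : ℝ) * q ^ (m - 1) * envPower m t x (mass m φ 1 / φ 0 ^ m) -
          ((m : ℝ) - 1) * q ^ m * (mass m φ 1 / φ 0 ^ m)) :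
    φ t < x * φ 0 := by
  by_contra! hcon
  have hxt : x ≤ φ t / φ 0 := by rwa [le_div_iff₀ hφ.centre]
  rcases hcond with h | ⟨hV, hL0, h⟩
  · linarith [envelope_mass hφ ht hx hxt m]
  obtain ⟨hV0, hP⟩ := power_mass_le (by omega) hφ hp
  have hE := envPower_le hm hφ ht hx hxt hV
  have hy := hφ.centre
  obtain ⟨k, rfl⟩ : ∃ k, m = k + 1 := ⟨m - 1, by omega⟩
  rw [Nat.add_sub_cancel] at *
  set V := mass (k + 1) φ 1 / φ 0 ^ (k + 1) with hVdef
  set L := envPower (k + 1) t x V
  have hV1 : 0 < V := div_pos hV0 (pow_pos hy _)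
  have h1 : L ^ (k + 1) ≤ κ * V ^ k := by
    refine (pow_le_pow_left₀ hL0 hE (k + 1)).trans ?_
    rw [hVdef, div_pow, div_pow, ← pow_mul, ← pow_mul, mul_comm k (k + 1), ← mul_div_assoc]
    exact div_le_div_of_nonneg_right (hP.trans (mul_le_mul_of_nonneg_right hκ
      (pow_nonneg hV0.le _))) (pow_nonneg hy.le _)
  have h2 : ((k + 1 : ℕ) : ℝ) * q ^ k * L * V ^ k ≤ L ^ (k + 1) + k * (q * V) ^ (k + 1) := by
    rcases (mul_nonneg hq hV1.le).eq_or_lt with hz | hz
    · obtain rfl : q = 0 := by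
        rcases mul_eq_zero.1 hz.symm with h' | h'
        · exact h'
        · linarith
      rcases k with _ | k
      · omega
      · simp [zero_pow, pow_nonneg hL0]
    · have hb := mul_le_mul_of_nonneg_left (one_add_mul_le_pow (a := L / (q * V) - 1)
        (by linarith [div_nonneg hL0 hz.le]) (k + 1)) (pow_nonneg hz.le (k + 1))
      rw [add_sub_cancel, ← mul_pow, mul_div_cancel₀ _ hz.ne'] at hb
      refine le_trans (le_of_eq ?_) (le_sub_iff_add_le.1 (le_sub_iff_add_le.2
        (add_le_add hb (le_refl ((k : ℝ) * (q * V) ^ (k + 1))))))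
      have e : (q * V) ^ (k + 1) * (((k + 1 : ℕ) : ℝ) * (L / (q * V))) =
          ((k + 1 : ℕ) : ℝ) * (q * V) ^ k * L := by
        have := (left_ne_zero_of_mul hz.ne' : q ≠ 0)
        rw [pow_succ]
        field_simp
      rw [mul_add, mul_sub, mul_sub, e, mul_pow]
      push_cast
      ring
  have h3 := mul_lt_mul_of_pos_right h (pow_pos hV1 k)
  rw [mul_pow, pow_succ V] at h2
  push_cast at h2 h3
  linarith

end Vale.Agent.P237.Quant
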