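import Mathlib
import Vale.Agent.P237.Quant.ProfileEnvelope
import Vale.Agent.P237.Quant.ChordScalar

/-!
The envelope for a whole range of dimensions at once. At `t ≥ Z / √n`, with the relative centre
`b = V₀ φ 0 ^ m / mass` in an interval, one pair of inequalities between numbers refutes
`φ t ^ m ≥ exp (-l) φ 0 ^ m` for all `n` with `1 / n` and `1 / m` in given intervals.
-/

namespace Vale.Agent.P237.Quant

open MeasureTheory Set Real

variable {m : ℕ} {φ : ℝ → ℝ}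

/-- Bounds that a range uses: `e ≤ 1 / n`, `1 / m ≤ d`, `c ≤ 1 / √n`, a lower bound of
`1 - Z / √n`, the rate `l` with `El ≤ exp (-l) ≤ Eh`, `C ≥ V₀ √n`, and a tangent of the logarithm at
`β` with `β ≤ exp (lam)`. -/
structure RangeData where
  e : ℝ
  d : ℝ
  c : ℝ
  G : ℝ
  Z : ℝ
  C : ℝ
  l : ℝ
  El : ℝ
  Eh : ℝ
  β : ℝ
  lam : ℝ

/-- An upper bound of `m (1 - exp (-l / m))`. -/
noncomputable def RangeData.A (D : RangeData) : ℝ :=
  D.l - D.l ^ 2 * D.e / 2 + D.l ^ 3 * D.d ^ 2 / 6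

/-- A lower bound of `m envRate`. -/
noncomputable def RangeData.rate (D : RangeData) : ℝ :=
  (1 - D.Eh - D.A * D.Eh) / (D.A - 1 + D.Eh + D.A * D.d * (1 - D.El))

/-- A lower bound of `m (envPower / V - 1)`. -/
noncomputable def RangeData.gain (D : RangeData) (b : ℝ) : ℝ :=
  D.rate * (D.Z * b / D.C - 1) + b * D.El * D.G * D.c / D.C * (1 + D.l + D.rate)

/-- An upper bound of the logarithm of the power ratio. -/
noncomputable def RangeData.logRatio (D : RangeData) (b : ℝ) : ℝ :=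
  1 / 2 - D.e / 2 + D.lam - 1 + b / D.β

/-- The test at one value of `b`. -/
def RangeData.Test (D : RangeData) (b : ℝ) : Prop :=
  0 ≤ D.logRatio b ∧ D.logRatio b * D.d < 2 ∧
    2 * D.logRatio b < D.gain b * (2 - D.logRatio b * D.d)

/-- The validity of the data in dimension `m + 1`. -/
def RangeData.Valid (D : RangeData) (m : ℕ) : Prop :=
  (0 ≤ D.e ∧ D.e ≤ 1 / ((m : ℝ) + 1)) ∧ 1 / (m : ℝ) ≤ D.d ∧
    (0 ≤ D.c ∧ D.c ≤ 1 / √((m : ℝ) + 1)) ∧ (0 ≤ D.G ∧ D.G ≤ 1 - D.Z / √((m : ℝ) + 1)) ∧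
    (0 < D.Z ∧ D.Z < √((m : ℝ) + 1)) ∧
    mass m ballShape 1 * √((m : ℝ) + 1) ≤ D.C ∧ 0 < D.l ∧
    (0 ≤ D.El ∧ D.El ≤ exp (-D.l)) ∧ exp (-D.l) ≤ D.Eh ∧ 0 ≤ 1 - D.Eh - D.A * D.Eh ∧
    (0 < D.β ∧ D.β ≤ exp D.lam)

theorem exp_neg_le_quad {y : ℝ} (hy : 0 ≤ y) : 1 - exp (-y) ≤ y - y ^ 2 / 2 + y ^ 3 / 6 := by
  have h : MonotoneOn (fun y => exp (-y) - 1 + y - y ^ 2 / 2 + y ^ 3 / 6) (Ici 0) := by
    refine monotoneOn_of_hasDerivWithinAt_nonneg
      (f' := fun y => -exp (-y) + 1 - y + y ^ 2 / 2) (convex_Ici 0) (by fun_prop)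
      (fun y _ => HasDerivAt.hasDerivWithinAt ?_) fun y hy' => ?_
    · refine (((((hasDerivAt_neg y).exp).sub_const 1).add (hasDerivAt_id' y)).sub
        ((hasDerivAt_pow 2 y).div_const 2)).add ((hasDerivAt_pow 3 y).div_const 6)
        |>.congr_deriv ?_
      push_cast
      ring
    · rw [interior_Ici] at hy'
      have hy0 : (0 : ℝ) < y := hy'
      have h1 := Real.quadratic_le_exp_of_nonneg hy0.le
      have h2 : exp (-y) * (1 + y + y ^ 2 / 2) ≤ 1 := by
        refine (mul_le_mul_of_nonneg_left h1 (exp_pos _).le).trans ?_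
        rw [← exp_add, neg_add_cancel, exp_zero]
      have h3 : 1 ≤ (1 - y + y ^ 2 / 2) * (1 + y + y ^ 2 / 2) := by nlinarith [sq_nonneg (y ^ 2)]
      have h4 : 0 < 1 + y + y ^ 2 / 2 := by positivity
      have h5 : exp (-y) ≤ 1 - y + y ^ 2 / 2 := le_of_mul_le_mul_right (h2.trans h3) h4
      linarith
  have := h self_mem_Ici (show y ∈ Ici (0 : ℝ) from hy) hy
  simp only [neg_zero, exp_zero, sub_self, ne_eq, OfNat.ofNat_ne_zero,
    not_false_eq_true, zero_pow, zero_div, add_zero] at this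
  linarith

/-- The product of the test is concave in `b`: the ends suffice. -/
theorem rangeTest_between {D : RangeData} (hβ : 0 < D.β) (hZ : 0 ≤ D.Z) (hC : 0 < D.C)
    (hd : 0 ≤ D.d) (hrate : 0 ≤ D.rate) (hW : 0 ≤ D.El * D.G * D.c * (1 + D.l + D.rate))
    {b₀ b₁ b : ℝ} (hb : b ∈ Icc b₀ b₁) (h₀ : D.Test b₀) (h₁ : D.Test b₁) : D.Test b := by
  obtain ⟨p0, q0, r0⟩ := h₀
  obtain ⟨p1, q1, r1⟩ := h₁
  set k := D.rate * D.Z / D.C + D.El * D.G * D.c * (1 + D.l + D.rate) / D.C with hk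
  set g := fun b => D.gain b * (2 - D.logRatio b * D.d) - 2 * D.logRatio b with hg
  have hk0 : 0 ≤ k := by positivity
  have e1 : ∀ u v, D.gain u - D.gain v = k * (u - v) := fun u v => by
    rw [hk, RangeData.gain, RangeData.gain]; field_simp; ring
  have e2 : ∀ u v, D.logRatio u - D.logRatio v = (u - v) / D.β := fun u v => by
    rw [RangeData.logRatio, RangeData.logRatio]; ring
  have hmono : D.logRatio b ≤ D.logRatio b₁ ∧ D.logRatio b₀ ≤ D.logRatio b := by
    constructor <;> rw [← sub_nonneg, e2] <;> exact div_nonneg (by linarith [hb.1, hb.2]) hβ.le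
  refine ⟨p0.trans hmono.2, lt_of_le_of_lt (mul_le_mul_of_nonneg_right hmono.1 hd) q1, ?_⟩
  rcases (hb.1.trans hb.2).eq_or_lt with h | h
  · obtain rfl : b = b₀ := le_antisymm (hb.2.trans h.ge) hb.1
    exact r0
  have key : (b₁ - b₀) * g b = (b₁ - b) * g b₀ + (b - b₀) * g b₁ +
      (b₁ - b₀) * ((b - b₀) * (b₁ - b)) * (k * D.d / D.β) := by
    have f1 : ∀ u, D.gain u = D.gain b₀ + k * (u - b₀) := fun u => by linarith [e1 u b₀]
    have f2 : ∀ u, D.logRatio u = D.logRatio b₀ + (u - b₀) / D.β := fun u => by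
      linarith [e2 u b₀]
    simp only [hg]
    rw [f1 b, f2 b, f1 b₁, f2 b₁]
    ring
  have hpos : 0 < (b₁ - b₀) * g b := by
    rw [key]
    have t3 : 0 ≤ (b₁ - b₀) * ((b - b₀) * (b₁ - b)) * (k * D.d / D.β) :=
      mul_nonneg (mul_nonneg (by linarith) (mul_nonneg (by linarith [hb.1]) (by linarith [hb.2])))
        (by positivity)
    have g0 : 0 < g b₀ := sub_pos.2 r0
    have g1 : 0 < g b₁ := sub_pos.2 r1
    rcases hb.1.eq_or_lt with h' | h'
    · have := mul_pos (show 0 < b₁ - b by linarith) g0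
      have := mul_nonneg (show 0 ≤ b - b₀ by linarith) g1.le
      linarith
    · have := mul_pos (sub_pos.2 h') g1
      have := mul_nonneg (show 0 ≤ b₁ - b by linarith [hb.2]) g0.le
      linarith
  exact sub_pos.1 (pos_of_mul_pos_right hpos (by linarith))

/-- The rate in the variable `l`. -/
theorem envRate_lower {D : RangeData} (hm : 2 ≤ m) (hD : D.Valid m) :
    0 ≤ D.rate ∧ D.rate ≤ (m : ℝ) * envRate m (exp (-(D.l / m))) := by
  obtain ⟨⟨he0, he⟩, hd, -, -, -, -, hl, ⟨hEl0, hEl⟩, hEh, hnum, -⟩ := hD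
  have hM : (2 : ℝ) ≤ m := by exact_mod_cast hm
  have hM0 : (0 : ℝ) < m := by linarith
  set x := exp (-(D.l / m)) with hxdef
  have hx : x ∈ Ioo (0 : ℝ) 1 :=
    ⟨exp_pos _, exp_lt_one_iff.2 (neg_lt_zero.2 (div_pos hl hM0))⟩
  set E := exp (-D.l) with hEdef
  have hxm : x ^ m = E := by
    rw [hxdef, hEdef, ← exp_nat_mul, mul_neg, mul_div_cancel₀ _ hM0.ne']
  set a := (m : ℝ) * (1 - x) with hadef
  have ha0 : 0 < a := mul_pos hM0 (by linarith [hx.2])
  have haA : a ≤ D.A := by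
    refine (mul_le_mul_of_nonneg_left (exp_neg_le_quad (div_pos hl hM0).le) hM0.le).trans ?_
    have e : (m : ℝ) * (D.l / m - (D.l / m) ^ 2 / 2 + (D.l / m) ^ 3 / 6) =
        D.l - D.l ^ 2 * (1 / m) / 2 + D.l ^ 3 * (1 / m) ^ 2 / 6 := by field_simp
    rw [e, RangeData.A]
    have h1 : D.e ≤ 1 / (m : ℝ) := he.trans (one_div_le_one_div_of_le hM0 (by linarith))
    have h2 := mul_le_mul_of_nonneg_left h1 (sq_nonneg D.l)
    have h3 := mul_le_mul_of_nonneg_left (pow_le_pow_left₀ (by positivity) hd 2)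
      (pow_nonneg hl.le 3)
    linarith
  have hg := linePow_lt_one (show 1 ≤ m by omega) hx
  have hden : 0 < a - 1 + E + a / m * (1 - E) := by
    have h1 : 0 < ((m : ℝ) + 1) * (1 - x) * (1 - linePow m x) :=
      mul_pos (mul_pos (by linarith) (by linarith [hx.2])) (by linarith)
    have e : ((m : ℝ) + 1) * (1 - x) * (1 - linePow m x) = a - 1 + E + (1 - x) * (1 - E) := by
      have : (1 : ℝ) - x ≠ 0 := by linarith [hx.2]
      rw [linePow, pow_succ, hxm, hadef]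
      field_simp
      ring
    rw [e] at h1
    rwa [show a / m = 1 - x by rw [hadef]; field_simp]
  have hR : (m : ℝ) * envRate m x = (1 - E - a * E) / (a - 1 + E + a / m * (1 - E)) := by
    obtain ⟨k, rfl⟩ : ∃ k, m = k + 1 := ⟨m - 1, by omega⟩
    have h1x : (1 : ℝ) - x ≠ 0 := by linarith [hx.2]
    have := hden.ne'
    rw [hadef] at this ⊢
    have e1 : linePow k x = (1 - E) / ((((k + 1 : ℕ) : ℝ)) * (1 - x)) := by
      rw [linePow, hxm]; push_cast; ring
    have e2 : linePow (k + 1) x = (1 - E * x) / (((((k + 1 : ℕ) : ℝ)) + 1) * (1 - x)) := by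
      rw [linePow, pow_succ, hxm]
    have hg' : (1 : ℝ) - linePow (k + 1) x ≠ 0 := by linarith
    rw [envRate, Nat.add_sub_cancel, e1, e2, mul_div_assoc', div_eq_div_iff (by rw [← e2]; exact hg')
      this]
    field_simp
    ring
  have hE1 : E < 1 := exp_lt_one_iff.2 (by linarith)
  have hden' : a - 1 + E + a / m * (1 - E) ≤ D.A - 1 + D.Eh + D.A * D.d * (1 - D.El) := by
    have h1 : a / m ≤ D.A * D.d := by
      rw [div_eq_mul_one_div]
      exact mul_le_mul haA hd (by positivity) (ha0.le.trans haA)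
    have := mul_le_mul h1 (show 1 - E ≤ 1 - D.El by linarith) (by linarith)
      (mul_nonneg (ha0.le.trans haA) (le_trans (by positivity) hd))
    linarith
  refine ⟨div_nonneg hnum (hden.le.trans hden'), ?_⟩
  rw [hR, RangeData.rate]
  have hnum' : 1 - D.Eh - D.A * D.Eh ≤ 1 - E - a * E := by
    have := mul_le_mul haA hEh (exp_pos _).le (ha0.le.trans haA)
    linarith
  exact div_le_div₀ (hnum.trans hnum') hnum' hden hden'

/-- The gain from below. -/
theorem gain_lower {D : RangeData} (hm : 3 ≤ m) (hD : D.Valid m) {V t₀ : ℝ} (hV : 0 < V)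
    (ht0 : t₀ = D.Z / √((m : ℝ) + 1)) (hone : 1 ≤ D.Z * (mass m ballShape 1 / V) / D.C) :
    V ≤ t₀ + envTail m t₀ (exp (-(D.l / m))) ∧
      D.gain (mass m ballShape 1 / V) ≤
        (m : ℝ) * (envPower m t₀ (exp (-(D.l / m))) V / V - 1) := by
  obtain ⟨hrate0, hrate⟩ := envRate_lower (by omega) hD
  obtain ⟨-, -, ⟨hc0, hc⟩, ⟨hG0, hG⟩, ⟨hZ0, hZ⟩, hC, hl, ⟨hEl0, hEl⟩, -, -, -⟩ := hD
  have hM : (3 : ℝ) ≤ m := by exact_mod_cast hm
  have hM0 : (0 : ℝ) < m := by linarith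
  set N := (m : ℝ) + 1 with hNdef
  have hN0 : 0 < N := by linarith
  have hsN := Real.sqrt_pos.2 hN0
  set x := exp (-(D.l / m)) with hxdef
  have hx0 : 0 < x := exp_pos _
  have hxm : x ^ m = exp (-D.l) := by
    rw [hxdef, ← exp_nat_mul, mul_neg, mul_div_cancel₀ _ hM0.ne']
  set V₀ := mass m ballShape 1 with hV0def
  have hVb : 0 < V₀ := ball_mass_pos m
  have hC0 : 0 < D.C := lt_of_lt_of_le (mul_pos hVb hsN) hC
  have ht01 : 0 ≤ 1 - t₀ := by rw [ht0]; exact hG0.trans hG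
  have htail0 : 0 ≤ envTail m t₀ x :=
    div_nonneg (mul_nonneg (pow_nonneg hx0.le m) ht01) hN0.le
  -- the mass is at most `t₀`
  have hbs : D.Z * (V₀ / V) / D.C ≤ t₀ / V := by
    rw [ht0, mul_div_assoc', div_div, div_div, div_le_div_iff₀ (by positivity) (by positivity)]
    have := mul_le_mul_of_nonneg_left hC (mul_pos hZ0 hV).le
    linarith
  have hVt : V ≤ t₀ + envTail m t₀ x := by
    have := (one_le_div hV).1 (hone.trans hbs)
    linarith
  refine ⟨hVt, ?_⟩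
  have e : (m : ℝ) * (envPower m t₀ x V / V - 1) = (m : ℝ) * envRate m x * (t₀ / V - 1) +
      (((m : ℝ) + 1) / x - m + m * envRate m x) * (envTail m t₀ x / V) := by
    rw [envPower]
    field_simp
    ring
  rw [e, RangeData.gain]
  have h1 : D.rate * (D.Z * (V₀ / V) / D.C - 1) ≤ (m : ℝ) * envRate m x * (t₀ / V - 1) :=
    mul_le_mul hrate (sub_le_sub_right hbs 1) (sub_nonneg.2 hone) (hrate0.trans hrate)
  have h2 : V₀ / V * D.El * D.G * D.c / D.C ≤ envTail m t₀ x / V := by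
    have k1 : D.c * (V₀ / D.C) ≤ 1 / N := by
      refine (mul_le_mul_of_nonneg_right hc (by positivity)).trans ?_
      rw [div_mul_div_comm, one_mul, div_le_div_iff₀ (by positivity) hN0, one_mul]
      calc V₀ * N = V₀ * √N * √N := by rw [mul_assoc, ← sq, sq_sqrt hN0.le]
        _ ≤ D.C * √N := mul_le_mul_of_nonneg_right hC hsN.le
        _ = √N * D.C := mul_comm _ _
    have hG' : D.G ≤ 1 - t₀ := by rw [ht0]; exact hG
    calc V₀ / V * D.El * D.G * D.c / D.C = D.El * D.G * (D.c * (V₀ / D.C)) / V := by ring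
      _ ≤ exp (-D.l) * (1 - t₀) * (1 / N) / V :=
          div_le_div_of_nonneg_right (mul_le_mul (mul_le_mul hEl hG' hG0 (exp_pos _).le) k1
            (by positivity) (mul_nonneg (exp_pos _).le ht01)) hV.le
      _ = envTail m t₀ x / V := by rw [envTail, hxm]; ring
  have h3 : 1 + D.l + D.rate ≤ ((m : ℝ) + 1) / x - m + m * envRate m x := by
    have k2 : 1 + D.l / m ≤ 1 / x := by
      rw [hxdef, exp_neg, one_div, inv_inv]
      linarith [add_one_le_exp (D.l / m)]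
    have k3 := mul_le_mul_of_nonneg_left k2 hN0.le
    have k4 : N * (1 / x) = ((m : ℝ) + 1) / x := by rw [hNdef]; ring
    have k5 : D.l ≤ N * (D.l / m) := by
      rw [hNdef, ← mul_div_assoc, le_div_iff₀ hM0]
      nlinarith
    linarith
  refine add_le_add h1 ((mul_le_mul h2 h3 (by linarith) (div_nonneg htail0 hV.le)).trans_eq ?_)
  ring

/-- The logarithm of the power ratio from above. -/
theorem power_ratio_le {D : RangeData} (hm : 3 ≤ m) (hD : D.Valid m) {P V : ℝ} (hV : 0 < V)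
    (hP0 : 0 ≤ P) (hP : P ^ m ≤ ballRatio m ^ m * mass m ballShape 1 * V ^ (m - 1))
    (hp : 0 ≤ D.logRatio (mass m ballShape 1 / V))
    (hq : D.logRatio (mass m ballShape 1 / V) * D.d < 2) :
    (m : ℝ) * (P / V - 1) * (2 - D.logRatio (mass m ballShape 1 / V) * D.d) ≤
      2 * D.logRatio (mass m ballShape 1 / V) := by
  obtain ⟨⟨-, he⟩, hd, -, -, -, -, -, -, -, -, hβ, hlam⟩ := hD
  have hM : (3 : ℝ) ≤ m := by exact_mod_cast hm
  have hM0 : (0 : ℝ) < m := by linarith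
  set N := (m : ℝ) + 1 with hNdef
  have hN0 : 0 < N := by linarith
  set b := mass m ballShape 1 / V with hbdef
  have hb0 : 0 < b := div_pos (ball_mass_pos m) hV
  set L := D.logRatio b with hLdef
  set r := ballRatio m
  have hr : 0 < r := ballRatio_pos m
  have hre : r ≤ exp (1 / N / 2) := by
    refine (ballRatio_bracket hm).2.trans ?_
    refine le_trans ?_ (Real.sum_le_exp_of_nonneg (by positivity) 3)
    simp only [ratioCubic, ← hNdef, Finset.sum_range_succ, Finset.sum_range_zero, Nat.factorial]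
    norm_num
    rw [← inv_pow]
    nlinarith [pow_nonneg (inv_nonneg.2 hN0.le) 3]
  have hPV : (P / V) ^ m ≤ r ^ m * b := by
    rw [div_pow, hbdef, ← mul_div_assoc, div_le_div_iff₀ (pow_pos hV m) hV]
    calc P ^ m * V ≤ r ^ m * mass m ballShape 1 * V ^ (m - 1) * V :=
          mul_le_mul_of_nonneg_right hP hV.le
      _ = r ^ m * mass m ballShape 1 * V ^ m := by
          rw [mul_assoc, ← pow_succ, show m - 1 + 1 = m by omega]
  have hb' : b ≤ exp (D.lam - 1 + b / D.β) := by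
    have h1 := mul_le_mul hlam (add_one_le_exp (b / D.β - 1))
      (by linarith [div_pos hb0 hβ]) (exp_pos _).le
    rw [← exp_add, sub_add_cancel, mul_div_cancel₀ _ hβ.ne'] at h1
    exact h1.trans_eq (congrArg _ (by ring))
  have hPe : P / V ≤ exp (L / m) := by
    refine (pow_le_pow_iff_left₀ (div_nonneg hP0 hV.le) (exp_pos _).le
      (by omega : m ≠ 0)).1 (hPV.trans ?_)
    refine (mul_le_mul (pow_le_pow_left₀ hr.le hre m) hb' hb0.le (by positivity)).trans ?_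
    rw [← exp_nat_mul, ← exp_nat_mul, ← exp_add, mul_div_cancel₀ _ hM0.ne']
    refine exp_le_exp.2 ?_
    have : (m : ℝ) * (1 / N / 2) = 1 / 2 - 1 / N / 2 := by rw [hNdef]; field_simp; ring
    rw [this, hLdef, RangeData.logRatio]
    linarith
  have hy0 : 0 ≤ L / m := div_nonneg hp hM0.le
  have hd' : L / m ≤ L * D.d := by
    rw [div_eq_mul_one_div]
    exact mul_le_mul_of_nonneg_left hd hp
  have h6 := exp_mul_two_sub_le hy0
  have h7 : (P / V - 1) * (2 - L / m) ≤ 2 * (L / m) := by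
    have := mul_le_mul_of_nonneg_right hPe (show 0 ≤ 2 - L / m by linarith)
    linarith
  rcases le_total (P / V - 1) 0 with h | h
  · have h8 : (m : ℝ) * (P / V - 1) * (2 - L * D.d) ≤ 0 :=
      mul_nonpos_of_nonpos_of_nonneg (mul_nonpos_of_nonneg_of_nonpos hM0.le h) (by linarith)
    linarith
  · have h8 := mul_le_mul_of_nonneg_left
      ((mul_le_mul_of_nonneg_left (sub_le_sub_left hd' 2) h).trans h7) hM0.le
    rw [show (m : ℝ) * (2 * (L / m)) = 2 * L by field_simp, ← mul_assoc] at h8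
    exact h8

/-- One test refutes a value at every point past `Z / √n`. -/
theorem envelope_range (hm : 3 ≤ m) (hφ : IsShape φ) (hp : powRatio m φ ≤ 1) {D : RangeData}
    (hD : D.Valid m) {b₀ b₁ : ℝ} (hb : D.C ≤ D.Z * b₀)
    (hlo : b₀ * mass m φ 1 ≤ mass m ballShape 1 * φ 0 ^ m)
    (hhi : mass m ballShape 1 * φ 0 ^ m ≤ b₁ * mass m φ 1)
    (h₀ : D.Test b₀) (h₁ : D.Test b₁) {t : ℝ} (ht : D.Z / √((m : ℝ) + 1) ≤ t) (ht1 : t ≤ 1) :
    φ t ^ m < exp (-D.l) * φ 0 ^ m := by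
  have hrate0 := (envRate_lower (by omega) hD).1
  obtain ⟨-, hd, ⟨hc0, -⟩, ⟨hG0, -⟩, ⟨hZ0, hZ⟩, hC, hl, ⟨hEl0, -⟩, -, -, hβ, -⟩ := id hD
  have hM0 : (0 : ℝ) < m := by exact_mod_cast (by omega : 0 < m)
  set t₀ := D.Z / √((m : ℝ) + 1) with ht0def
  have hsN : 0 < √((m : ℝ) + 1) := by positivity
  have ht0 : t₀ ∈ Ioo (0 : ℝ) 1 := ⟨div_pos hZ0 hsN, (div_lt_one hsN).2 hZ⟩
  have hy := hφ.centre
  set x := exp (-(D.l / m)) with hxdef
  have hx : x ∈ Ioo (0 : ℝ) 1 :=
    ⟨exp_pos _, exp_lt_one_iff.2 (neg_lt_zero.2 (div_pos hl hM0))⟩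
  have hxm : x ^ m = exp (-D.l) := by
    rw [hxdef, ← exp_nat_mul, mul_neg, mul_div_cancel₀ _ hM0.ne']
  suffices h : φ t₀ < x * φ 0 by
    rw [← hxm, ← mul_pow]
    exact pow_lt_pow_left₀ ((shape_antitone hφ ht0.1.le ht ht1).trans_lt h)
      (hφ.nonneg t ⟨by linarith [ht0.1], ht1⟩) (by omega)
  by_contra! hcon
  have hxt : x ≤ φ t₀ / φ 0 := by rwa [le_div_iff₀ hy]
  obtain ⟨hV, hP⟩ := power_mass_le (by omega) hφ hp
  set V := mass m φ 1 / φ 0 ^ m with hVdef
  have hV0 : 0 < V := div_pos hV (pow_pos hy m)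
  set b := mass m ballShape 1 / V with hbdef
  have hbI : b ∈ Icc b₀ b₁ := by
    rw [hbdef, hVdef, div_div_eq_mul_div]
    exact ⟨(le_div_iff₀ hV).2 hlo, (div_le_iff₀ hV).2 hhi⟩
  have hC0 : 0 < D.C := lt_of_lt_of_le (mul_pos (ball_mass_pos m) hsN) hC
  have htest : D.Test b := rangeTest_between hβ hZ0.le hC0 (le_trans (by positivity) hd) hrate0
    (mul_nonneg (mul_nonneg (mul_nonneg hEl0 hG0) hc0) (by linarith)) hbI h₀ h₁
  have hone : 1 ≤ D.Z * b / D.C := by
    rw [one_le_div hC0]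
    exact hb.trans (mul_le_mul_of_nonneg_left hbI.1 hZ0.le)
  obtain ⟨hVt, hlow⟩ := gain_lower hm hD hV0 ht0def hone
  have hE := envPower_le (by omega) hφ ht0 hx hxt hVt
  set P := mass (m - 1) φ 1 / φ 0 ^ (m - 1) with hPdef
  have hP0 : 0 ≤ P := div_nonneg (intervalIntegral.integral_nonneg zero_le_one
    fun u hu => pow_nonneg (hφ.nonneg u ⟨by linarith [hu.1], hu.2⟩) _) (pow_nonneg hy.le _)
  have hPm : P ^ m ≤ ballRatio m ^ m * mass m ballShape 1 * V ^ (m - 1) := by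
    rw [hPdef, hVdef, div_pow, div_pow, ← pow_mul, ← pow_mul, mul_comm (m - 1) m,
      ← mul_div_assoc]
    exact div_le_div_of_nonneg_right hP (pow_nonneg hy.le _)
  have hup := power_ratio_le hm hD hV0 hP0 hPm htest.1 htest.2.1
  have h1 : D.gain b ≤ (m : ℝ) * (P / V - 1) := hlow.trans (mul_le_mul_of_nonneg_left
    (sub_le_sub_right (div_le_div_of_nonneg_right hE hV0.le) 1) hM0.le)
  have h2 := mul_le_mul_of_nonneg_right h1 (show 0 ≤ 2 - D.logRatio b * D.d by linarith [htest.2.1])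
  linarith [htest.2.2]

/-- The mass of the ball profile times `√n`. -/
theorem ball_mass_sqrt_le (hm : 3 ≤ m) :
    (mass m ballShape 1 * √((m : ℝ) + 1)) ^ 2 * (1 + 1 / ((m : ℝ) + 1) / 2) ≤ π / 2 := by
  obtain ⟨j, rfl⟩ : ∃ j, m = j + 1 := ⟨m - 1, by omega⟩
  have hP : mass j ballShape 1 = ballRatio (j + 1) * mass (j + 1) ballShape 1 := by
    rw [← ballMom_pred, Nat.add_sub_cancel]
  have hprod := ball_mass_product j
  rw [hP] at hprod
  have hlow := (ballRatio_bracket hm).1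
  simp only [ratioCubic] at hlow
  set s := 1 / (((j + 1 : ℕ) : ℝ) + 1) with hs
  have hs0 : 0 ≤ s := by positivity
  have hs1 : s ≤ 1 / 4 := by
    refine one_div_le_one_div_of_le (by norm_num) ?_
    have : (3 : ℝ) ≤ ((j + 1 : ℕ) : ℝ) := by exact_mod_cast hm
    linarith
  have h1 : 1 + s / 2 ≤ ballRatio (j + 1) := by
    have : 0 ≤ s ^ 2 * (1 / 8 - s / 16 - 1 * s ^ 2 / 24) :=
      mul_nonneg (sq_nonneg _) (by nlinarith)
    linarith
  calc (mass (j + 1) ballShape 1 * √(((j + 1 : ℕ) : ℝ) + 1)) ^ 2 * (1 + s / 2)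
      ≤ (mass (j + 1) ballShape 1 * √(((j + 1 : ℕ) : ℝ) + 1)) ^ 2 * ballRatio (j + 1) :=
        mul_le_mul_of_nonneg_left h1 (sq_nonneg _)
    _ = ((j : ℝ) + 2) * (ballRatio (j + 1) * mass (j + 1) ballShape 1 *
          mass (j + 1) ballShape 1) := by
        rw [mul_pow, sq_sqrt (by positivity)]
        push_cast
        ring
    _ = π / 2 := hprod

/-- The mass that a value forces refutes it, for a centre that is high against the mass. -/
theorem envelope_range_mass (hm : 3 ≤ m) (hφ : IsShape φ) {D : RangeData} (hD : D.Valid m) {b₀ : ℝ}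
    (hb0 : 0 ≤ b₀) (hlo : b₀ * mass m φ 1 ≤ mass m ballShape 1 * φ 0 ^ m) (hA : 0 < D.A)
    (hb : D.C * ((1 + D.d) * D.A) < D.Z * b₀ * (1 - D.Eh)) {t : ℝ}
    (ht : D.Z / √((m : ℝ) + 1) ≤ t) (ht1 : t ≤ 1) :
    φ t ^ m < exp (-D.l) * φ 0 ^ m := by
  obtain ⟨⟨he0, he⟩, hd, -, -, ⟨hZ0, hZ⟩, hC, hl, -, hEh, -, -⟩ := hD
  have hM : (3 : ℝ) ≤ m := by exact_mod_cast hm
  have hM0 : (0 : ℝ) < m := by linarith
  have hN0 : (0 : ℝ) < (m : ℝ) + 1 := by linarith
  set t₀ := D.Z / √((m : ℝ) + 1) with ht0def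
  have hsN : 0 < √((m : ℝ) + 1) := by positivity
  have ht0 : t₀ ∈ Ioo (0 : ℝ) 1 := ⟨div_pos hZ0 hsN, (div_lt_one hsN).2 hZ⟩
  have hy := hφ.centre
  set x := exp (-(D.l / m)) with hxdef
  have hx : x ∈ Ioo (0 : ℝ) 1 :=
    ⟨exp_pos _, exp_lt_one_iff.2 (neg_lt_zero.2 (div_pos hl hM0))⟩
  have hxm : x ^ m = exp (-D.l) := by
    rw [hxdef, ← exp_nat_mul, mul_neg, mul_div_cancel₀ _ hM0.ne']
  suffices h : φ t₀ < x * φ 0 by
    rw [← hxm, ← mul_pow]
    exact pow_lt_pow_left₀ ((shape_antitone hφ ht0.1.le ht ht1).trans_lt h)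
      (hφ.nonneg t ⟨by linarith [ht0.1], ht1⟩) (by omega)
  by_contra! hcon
  have h := envelope_mass hφ ht0 hx (by rwa [le_div_iff₀ hy]) m
  have htail0 : 0 ≤ envTail m t₀ x :=
    div_nonneg (mul_nonneg (pow_nonneg hx.1.le m) (by linarith [ht0.2])) hN0.le
  have ha : 0 < (m : ℝ) * (1 - x) := mul_pos hM0 (by linarith [hx.2])
  have haA : (m : ℝ) * (1 - x) ≤ D.A := by
    refine (mul_le_mul_of_nonneg_left (exp_neg_le_quad (div_pos hl hM0).le) hM0.le).trans ?_
    have e : (m : ℝ) * (D.l / m - (D.l / m) ^ 2 / 2 + (D.l / m) ^ 3 / 6) =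
        D.l - D.l ^ 2 * (1 / m) / 2 + D.l ^ 3 * (1 / m) ^ 2 / 6 := by field_simp
    rw [e, RangeData.A]
    have h1 : D.e ≤ 1 / (m : ℝ) := he.trans (one_div_le_one_div_of_le hM0 (by linarith))
    have h2 := mul_le_mul_of_nonneg_left h1 (sq_nonneg D.l)
    have h3 := mul_le_mul_of_nonneg_left (pow_le_pow_left₀ (by positivity) hd 2)
      (pow_nonneg hl.le 3)
    linarith
  -- the line forces `(1 - E) / ((1 + d) A)`
  have hline : (1 - D.Eh) / ((1 + D.d) * D.A) ≤ linePow m x := by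
    have hE1 : exp (-D.l) * x ≤ exp (-D.l) := mul_le_of_le_one_right (exp_pos _).le hx.2.le
    rw [linePow, pow_succ, hxm]
    refine div_le_div₀ ?_ (by linarith) (mul_pos (by linarith) (by linarith [hx.2])) ?_
    · have := exp_lt_one_iff.2 (show -D.l < 0 by linarith)
      linarith
    · have h1 : ((m : ℝ) + 1) * (1 - x) = (1 + 1 / m) * ((m : ℝ) * (1 - x)) := by
        field_simp
      rw [h1]
      exact mul_le_mul (by linarith) haA ha.le (by linarith [show (0 : ℝ) ≤ 1 / m by positivity])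
  have h2 : t₀ * ((1 - D.Eh) / ((1 + D.d) * D.A)) ≤ mass m φ 1 / φ 0 ^ m := by
    have := mul_le_mul_of_nonneg_left hline ht0.1.le
    linarith
  rw [le_div_iff₀ (pow_pos hy m), ht0def, div_mul_div_comm, div_mul_eq_mul_div,
    div_le_iff₀ (mul_pos hsN (mul_pos (by linarith [show (0 : ℝ) ≤ 1 / m by positivity]) hA))] at h2
  have h3 := mul_le_mul_of_nonneg_left h2 hb0
  have h4 := mul_le_mul_of_nonneg_right hlo
    (mul_nonneg hsN.le (mul_nonneg (by linarith [show (0 : ℝ) ≤ 1 / m by positivity] :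
      (0 : ℝ) ≤ 1 + D.d) hA.le))
  have h5 := mul_le_mul_of_nonneg_right hC
    (mul_nonneg (pow_nonneg hy.le m) (mul_nonneg (by linarith [show (0 : ℝ) ≤ 1 / m by positivity] :
      (0 : ℝ) ≤ 1 + D.d) hA.le))
  have h6 := mul_lt_mul_of_pos_right hb (pow_pos hy m)
  linarith

end Vale.Agent.P237.Quant
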