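import Mathlib
import Vale.Agent.P237.Quant.EnvelopeCheckDefs
import Vale.Agent.P237.Quant.EnvelopeRange

/-!
The envelope from kernel checks on rational tables. A table row holds a range of dimensions, a
point `Z`, a cut of the relative centre into bins with a rate in each, and `K`; the check gives
`φ t ^ m V₀ ≤ K mass` for every `t ≥ Z / √n` in that range.
-/

namespace Vale.Agent.P237.Quant

open MeasureTheory Set Real

variable {m : ℕ} {φ : ℝ → ℝ}

theorem exp_le_expHi {y : ℚ} (h0 : 0 ≤ y) (h1 : y ≤ 1) : exp (y : ℝ) ≤ (expHi y : ℝ) := by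
  refine (Real.exp_bound' (by exact_mod_cast h0) (by exact_mod_cast h1) (n := 8) (by norm_num)).trans
    (le_of_eq ?_)
  simp only [expHi, Finset.sum_range_succ, Finset.sum_range_zero, Nat.factorial]
  push_cast
  ring

theorem expLo_le_exp {y : ℚ} (h0 : 0 ≤ y) : (expLo y : ℝ) ≤ exp (y : ℝ) := by
  refine le_trans (le_of_eq ?_) (Real.sum_le_exp_of_nonneg (by exact_mod_cast h0) 8)
  simp only [expLo, Finset.sum_range_succ, Finset.sum_range_zero, Nat.factorial]
  push_cast
  ring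

theorem expNeg_bounds {l : ℚ} (h0 : 0 ≤ l) (h1 : l ≤ 32) :
    0 ≤ (expNegLo l : ℝ) ∧ (expNegLo l : ℝ) ≤ exp (-(l : ℝ)) ∧
      exp (-(l : ℝ)) ≤ (expNegHi l : ℝ) := by
  have hy : 0 ≤ l / 32 := by positivity
  have hy1 : l / 32 ≤ 1 := by rw [div_le_one (by norm_num)]; exact h1
  have hH := exp_le_expHi hy hy1
  have hL := expLo_le_exp hy
  have hLp : (0 : ℝ) < expLo (l / 32) := by
    have : 0 < expLo (l / 32) := by unfold expLo; positivity
    exact_mod_cast this
  have hG : (0 : ℝ) < (expGrid : ℝ) := by norm_num [expGrid]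
  have e : exp (-(l : ℝ)) = 1 / exp (((l / 32 : ℚ) : ℝ)) ^ 32 := by
    rw [← exp_nat_mul, one_div, ← exp_neg]
    push_cast
    ring_nf
  have hHp : (0 : ℝ) < expHi (l / 32) := (exp_pos _).trans_le hH
  refine ⟨?_, ?_, ?_⟩
  · have : 0 ≤ expNegLo l := by
      have : 0 < expHi (l / 32) := by exact_mod_cast hHp
      unfold expNegLo expGrid
      refine div_nonneg ?_ (by norm_num)
      exact_mod_cast Int.floor_nonneg.2 (by positivity)
    exact_mod_cast this
  · rw [e, expNegLo, Rat.cast_div, Rat.cast_intCast, div_le_iff₀ hG]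
    refine le_trans ?_ (mul_le_mul_of_nonneg_right
      (one_div_le_one_div_of_le (pow_pos (exp_pos _) 32) (pow_le_pow_left₀ (exp_pos _).le hH 32))
      hG.le)
    have := (Rat.cast_le (K := ℝ)).2 (Int.floor_le (1 / expHi (l / 32) ^ 32 * expGrid))
    push_cast at this ⊢
    exact this
  · rw [e, expNegHi, Rat.cast_div (_ + 1) expGrid, Rat.cast_add, Rat.cast_intCast, Rat.cast_one, le_div_iff₀ hG]
    refine (mul_le_mul_of_nonneg_right
      (one_div_le_one_div_of_le (pow_pos hLp 32) (pow_le_pow_left₀ hLp.le hL 32)) hG.le).trans ?_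
    have := (Rat.cast_lt (K := ℝ)).2 (Int.lt_floor_add_one (1 / expLo (l / 32) ^ 32 * expGrid))
    push_cast at this ⊢
    exact this.le

theorem logHi_sound {β : ℚ} (hβ : 0 < β) : (β : ℝ) ≤ exp (logHi β : ℝ) := by
  have hb : (0 : ℝ) < β := by exact_mod_cast hβ
  rw [logHi]
  split_ifs with h
  · have h' : (β : ℝ) ≤ 1 := by exact_mod_cast h
    set y := 2 * (1 - (β : ℝ)) / (β + 1) with hy
    have hy0 : 0 ≤ y := div_nonneg (by linarith) (by linarith)
    have he := exp_mul_two_sub_le hy0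
    have hy2 : 0 < 2 - y := by rw [hy, sub_pos, div_lt_iff₀ (by linarith)]; linarith
    have e : (2 + y) / (2 - y) = 1 / (β : ℝ) := by
      rw [div_eq_div_iff hy2.ne' hb.ne', hy]; field_simp; ring
    have h2 : exp y ≤ 1 / (β : ℝ) := e ▸ (le_div_iff₀ hy2).2 he
    push_cast
    rw [show 2 * ((β : ℝ) - 1) / (β + 1) = -y by rw [hy]; ring, exp_neg]
    rw [le_inv_comm₀ hb (exp_pos _), ← one_div]
    exact h2
  · have h' : (1 : ℝ) ≤ β := by exact_mod_cast (not_le.1 h).le
    have := log_one_add_le (x := (β : ℝ) - 1) (by linarith)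
    rw [show 1 + ((β : ℝ) - 1) = β by ring] at this
    refine le_trans (exp_log hb).ge (exp_le_exp.2 (this.trans (le_of_eq ?_)))
    push_cast
    ring

/-- The real data of a row. -/
noncomputable def EnvRange.data (R : EnvRange) (N : EnvNode) (l β : ℚ) : RangeData :=
  ⟨(R.e : ℝ), (R.d : ℝ), (R.c : ℝ), (N.G : ℝ), (N.Z : ℝ), (R.C : ℝ), (l : ℝ),
    (expNegLo l : ℝ), (expNegHi l : ℝ), (β : ℝ), (logHi β : ℝ)⟩

theorem EnvRange.data_valid {R : EnvRange} {N : EnvNode} (hR : R.check = true)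
    (hZ : 0 < N.Z ∧ N.Z * N.Z * (1 / (R.lo : ℚ)) < 1 ∧ 0 ≤ N.G ∧ N.G ≤ 1 ∧
      N.Z * N.Z * (1 / (R.lo : ℚ)) ≤ (1 - N.G) * (1 - N.G) ∧ 0 ≤ N.K)
    (hm : R.Mem (m + 1)) {l β : ℚ} (hl : envRateOK R l = true) (hβ : 0 < β) :
    3 ≤ m ∧ (R.data N l β).Valid m := by
  simp only [EnvRange.check, decide_eq_true_eq] at hR
  simp only [envRateOK, decide_eq_true_eq] at hl
  obtain ⟨hlo, hc0, hc, hC0, hC⟩ := hR
  obtain ⟨hl0, hl32, hnum⟩ := hl
  obtain ⟨hZ0, hZ1, hG0, hG1, hG, -⟩ := hZ
  obtain ⟨hmlo, hmhi⟩ := hm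
  have hm3 : 3 ≤ m := by omega
  refine ⟨hm3, ?_⟩
  have hM : (3 : ℝ) ≤ m := by exact_mod_cast hm3
  have hN0 : (0 : ℝ) < (m : ℝ) + 1 := by linarith
  have hsN : 0 < √((m : ℝ) + 1) := Real.sqrt_pos.2 hN0
  have hloR : (R.lo : ℝ) ≤ (m : ℝ) + 1 := by exact_mod_cast hmlo
  have hlo4 : (4 : ℝ) ≤ R.lo := by exact_mod_cast hlo
  have he0 : 0 ≤ R.e := by unfold EnvRange.e; split <;> positivity
  have he : (R.e : ℝ) ≤ 1 / ((m : ℝ) + 1) := by
    unfold EnvRange.e
    split_ifs with h
    · simp; positivity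
    · push_cast
      refine one_div_le_one_div_of_le hN0 ?_
      exact_mod_cast hmhi.resolve_left h
  obtain ⟨hEl0, hEl, hEh⟩ := expNeg_bounds hl0.le hl32
  have hlo1 : 1 / ((m : ℝ) + 1) ≤ 1 / (R.lo : ℝ) := one_div_le_one_div_of_le (by linarith) hloR
  simp only [RangeData.Valid, EnvRange.data]
  refine ⟨⟨by exact_mod_cast he0, he⟩, ?_, ⟨by exact_mod_cast hc0, ?_⟩,
    ⟨by exact_mod_cast hG0, ?_⟩, ⟨by exact_mod_cast hZ0, ?_⟩, ?_, by exact_mod_cast hl0,
    ⟨hEl0, hEl⟩, hEh, ?_, ⟨by exact_mod_cast hβ, logHi_sound hβ⟩⟩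
  · simp only [EnvRange.d]
    push_cast
    exact one_div_le_one_div_of_le (by linarith) (by linarith)
  · refine (pow_le_pow_iff_left₀ (by exact_mod_cast hc0) (by positivity) two_ne_zero).1 ?_
    rw [div_pow, one_pow, sq_sqrt hN0.le]
    refine le_trans ?_ he
    have : ((R.c * R.c : ℚ) : ℝ) ≤ R.e := by exact_mod_cast hc
    push_cast at this
    simpa [pow_two] using this
  · rw [le_sub_comm]
    refine (pow_le_pow_iff_left₀ (div_nonneg (by exact_mod_cast hZ0.le) hsN.le)
      (sub_nonneg.2 (by exact_mod_cast hG1)) two_ne_zero).1 ?_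
    rw [div_pow, sq_sqrt hN0.le, div_eq_mul_one_div]
    have h' : ((N.Z * N.Z * (1 / (R.lo : ℚ)) : ℚ) : ℝ) ≤ (((1 - N.G) * (1 - N.G) : ℚ) : ℝ) :=
      Rat.cast_le.2 hG
    push_cast at h'
    rw [pow_two, pow_two]
    exact (mul_le_mul_of_nonneg_left hlo1 (mul_self_nonneg _)).trans h'
  · refine (pow_lt_pow_iff_left₀ (by exact_mod_cast hZ0.le) hsN.le two_ne_zero).1 ?_
    rw [sq_sqrt hN0.le]
    have h' : ((N.Z * N.Z * (1 / (R.lo : ℚ)) : ℚ) : ℝ) < ((1 : ℚ) : ℝ) := Rat.cast_lt.2 hZ1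
    push_cast at h'
    rw [mul_one_div, div_lt_one (by linarith)] at h'
    simp only [pow_two]
    linarith
  · refine (pow_le_pow_iff_left₀ (mul_nonneg (ball_mass_pos m).le hsN.le)
      (by exact_mod_cast hC0.le) two_ne_zero).1 ?_
    refine le_of_mul_le_mul_right ((ball_mass_sqrt_le hm3).trans ?_)
      (show (0 : ℝ) < 1 + 1 / ((m : ℝ) + 1) / 2 by positivity)
    have h' : ((3141593 / 2000000 : ℚ) : ℝ) ≤ ((R.C * R.C * (1 + R.e / 2) : ℚ) : ℝ) :=
      Rat.cast_le.2 hC
    push_cast at h'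
    have h2 := mul_le_mul_of_nonneg_left (add_le_add_right
      (div_le_div_of_nonneg_right he (show (0 : ℝ) ≤ 2 by norm_num)) 1) (sq_nonneg (R.C : ℝ))
    have := Real.pi_lt_d6
    rw [pow_two] at h2 ⊢
    linarith
  · simp only [RangeData.A]
    have h' := (Rat.cast_nonneg (K := ℝ)).2 hnum
    push_cast at h'
    exact h'

/-- A test in rationals gives the test. -/
theorem envTest_sound {R : EnvRange} {N : EnvNode} {l β b : ℚ}
    (h : envTestQ R N.Z N.G l β b = true) : (R.data N l β).Test (b : ℝ) := by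
  simp only [envTestQ, decide_eq_true_eq] at h
  obtain ⟨h1, h2, h3⟩ := h
  have h1' := (Rat.cast_nonneg (K := ℝ)).2 h1
  have h2' := (Rat.cast_lt (K := ℝ)).2 h2
  have h3' := (Rat.cast_lt (K := ℝ)).2 h3
  simp only [envLogQ, envGainQ, envRateQ] at h1' h2' h3'
  push_cast at h1' h2' h3'
  refine ⟨?_, ?_, ?_⟩ <;>
    simp only [RangeData.logRatio, RangeData.gain, RangeData.rate, RangeData.A, EnvRange.data]
  · exact h1'
  · exact h2'
  · exact h3'

/-- The mass test in rationals gives the mass test. -/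
theorem envMass_sound {R : EnvRange} {N : EnvNode} {l β b : ℚ}
    (h : envMassQ R N.Z l b = true) :
    0 < (R.data N l β).A ∧ (R.data N l β).C * ((1 + (R.data N l β).d) * (R.data N l β).A) <
      (R.data N l β).Z * (b : ℝ) * (1 - (R.data N l β).Eh) := by
  simp only [envMassQ, decide_eq_true_eq] at h
  obtain ⟨h1, h2⟩ := h
  have h1' := (Rat.cast_pos (K := ℝ)).2 h1
  have h2' := (Rat.cast_lt (K := ℝ)).2 h2
  push_cast at h1' h2'
  simp only [RangeData.A, EnvRange.data]
  exact ⟨h1', h2'⟩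

/-- Past the last bin: the value times the centre is bounded by the mass alone. -/
theorem envTop_le (hm : 3 ≤ m) (hφ : IsShape φ) {D : RangeData} (hD : D.Valid m) {t : ℝ}
    (ht : D.Z / √((m : ℝ) + 1) ≤ t) (ht1 : t ≤ 1)
    (hX : φ t ^ m < exp (-D.l) * φ 0 ^ m) :
    φ t ^ m * mass m ballShape 1 * (D.Z * (1 - D.Eh)) ≤
      D.C * (1 + D.d) * (D.l * D.Eh) * mass m φ 1 := by
  obtain ⟨-, hd, -, -, ⟨hZ0, hZ⟩, hC, hl, -, hEh, -, -⟩ := hD
  have hy := hφ.centre
  have hM0 : (0 : ℝ) < m := by exact_mod_cast (by omega : 0 < m)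
  have hsN : 0 < √((m : ℝ) + 1) := by positivity
  set t₀ := D.Z / √((m : ℝ) + 1) with ht0def
  have ht0 : t₀ ∈ Ioo (0 : ℝ) 1 := ⟨div_pos hZ0 hsN, (div_lt_one hsN).2 hZ⟩
  have hd0 : 0 ≤ D.d := le_trans (by positivity) hd
  have hVb := ball_mass_pos m
  have hV : 0 ≤ mass m φ 1 := intervalIntegral.integral_nonneg zero_le_one fun u hu =>
    pow_nonneg (hφ.nonneg u ⟨by linarith [hu.1], hu.2⟩) _
  have hC0 : 0 < D.C := lt_of_lt_of_le (mul_pos hVb hsN) hC
  have hRHS : 0 ≤ D.C * (1 + D.d) * (D.l * D.Eh) * mass m φ 1 :=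
    mul_nonneg (mul_nonneg (by positivity) (mul_nonneg hl.le ((exp_pos _).le.trans hEh))) hV
  rcases (hφ.nonneg t ⟨by linarith [ht0.1], ht1⟩).eq_or_lt with h0 | hpos
  · rw [← h0, zero_pow (by omega)]
    simpa using hRHS
  -- the value at `t₀` is at least the one at `t`
  set x := φ t / φ 0 with hxdef
  have hx0 : 0 < x := div_pos hpos hy
  set E := exp (-D.l) with hEdef
  have hxE : x ^ m < E := by
    rw [hxdef, div_pow, div_lt_iff₀ (pow_pos hy m)]
    exact hX
  have hE1 : E < 1 := exp_lt_one_iff.2 (by linarith)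
  have hx1 : x < 1 := lt_of_pow_lt_pow_left₀ m zero_le_one (by rw [one_pow]; linarith)
  have hxt : x ≤ φ t₀ / φ 0 :=
    div_le_div_of_nonneg_right (shape_antitone hφ ht0.1.le ht ht1) hy.le
  have hmass := envelope_mass hφ ht0 ⟨hx0, hx1⟩ hxt m
  -- with `l' = -m log x`
  set l' := -((m : ℝ) * log x) with hl'def
  have hX' : x ^ m = exp (-l') := by
    rw [hl'def, neg_neg, exp_nat_mul, exp_log hx0]
  have hll : D.l ≤ l' := by
    rw [hX', hEdef] at hxE
    linarith [exp_lt_exp.1 hxE]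
  have hl'0 : 0 < l' := lt_of_lt_of_le hl hll
  have hx_lin : (m : ℝ) * (1 - x) ≤ l' := by
    rw [hl'def]
    nlinarith [log_le_sub_one_of_pos hx0]
  have hline : (1 - x ^ m) / ((1 + D.d) * l') ≤ linePow m x := by
    rw [linePow]
    refine div_le_div₀ ?_ ?_ (mul_pos (by linarith) (by linarith)) ?_
    · rw [pow_succ]
      have := mul_le_of_le_one_right (pow_nonneg hx0.le m) hx1.le
      linarith
    · rw [pow_succ]
      have := mul_le_of_le_one_right (pow_nonneg hx0.le m) hx1.le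
      linarith
    · rw [show ((m : ℝ) + 1) * (1 - x) = (1 + 1 / m) * ((m : ℝ) * (1 - x)) by field_simp]
      exact mul_le_mul (by linarith) hx_lin (mul_nonneg hM0.le (by linarith)) (by linarith)
  have htail : 0 ≤ envTail m t₀ x :=
    div_nonneg (mul_nonneg (pow_nonneg hx0.le m) (by linarith [ht0.2])) (by positivity)
  have h2 : t₀ * ((1 - x ^ m) / ((1 + D.d) * l')) * φ 0 ^ m ≤ mass m φ 1 := by
    rw [← le_div_iff₀ (pow_pos hy m)]
    have := mul_le_mul_of_nonneg_left hline ht0.1.le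
    linarith
  -- `l e ^ (-l) / (1 - e ^ (-l))` decreases
  have hmono : l' * x ^ m * (1 - D.Eh) ≤ D.l * D.Eh * (1 - x ^ m) := by
    have hconv := convexOn_exp.2 (mem_univ 0) (mem_univ l')
      (show 0 ≤ 1 - D.l / l' by rw [sub_nonneg, div_le_one hl'0]; exact hll)
      (div_nonneg hl.le hl'0.le) (by ring)
    simp only [smul_eq_mul, mul_zero, zero_add, exp_zero, mul_one,
      div_mul_cancel₀ _ hl'0.ne'] at hconv
    have h3 : l' * (exp D.l - 1) ≤ D.l * (exp l' - 1) := by
      have := mul_le_mul_of_nonneg_left hconv hl'0.le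
      have e : l' * (1 - D.l / l' + D.l / l' * exp l') = l' - D.l + D.l * exp l' := by
        field_simp
      rw [e] at this
      linarith
    have h4 : l' * (1 - E) * x ^ m ≤ D.l * E * (1 - x ^ m) := by
      have h5 := mul_le_mul_of_nonneg_right h3 (mul_nonneg (exp_pos (-D.l)).le (exp_pos (-l')).le)
      have i1 : exp D.l * exp (-D.l) = 1 := by rw [← exp_add, add_neg_cancel, exp_zero]
      have i2 : exp l' * exp (-l') = 1 := by rw [← exp_add, add_neg_cancel, exp_zero]
      rw [hX', hEdef]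
      have j1 : l' * (exp D.l - 1) * (exp (-D.l) * exp (-l')) =
          l' * (1 - exp (-D.l)) * exp (-l') := by linear_combination (l' * exp (-l')) * i1
      have j2 : D.l * (exp l' - 1) * (exp (-D.l) * exp (-l')) =
          D.l * exp (-D.l) * (1 - exp (-l')) := by linear_combination (D.l * exp (-D.l)) * i2
      linarith
    have h6 := mul_le_mul_of_nonneg_left hEh (mul_nonneg hl'0.le (pow_nonneg hx0.le m))
    have h7 := mul_le_mul_of_nonneg_left hEh (mul_nonneg hl.le
      (show 0 ≤ 1 - x ^ m by linarith))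
    linarith
  have hphi : φ t ^ m = x ^ m * φ 0 ^ m := by
    rw [hxdef, div_pow, div_mul_cancel₀ _ (pow_ne_zero _ hy.ne')]
  set a := x ^ m
  have h1a : 0 < 1 - a := by linarith
  rw [ht0def, div_mul_div_comm, div_mul_eq_mul_div,
    div_le_iff₀ (mul_pos hsN (mul_pos (by linarith) hl'0))] at h2
  have h8 := mul_le_mul_of_nonneg_left hmono
    (mul_nonneg (mul_nonneg hC0.le (by linarith : (0 : ℝ) ≤ 1 + D.d)) hV)
  have h9 := mul_le_mul_of_nonneg_left hC (mul_nonneg (mul_nonneg (pow_pos hy m).le hZ0.le) h1a.le)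
  have h10 := mul_le_mul_of_nonneg_right h2 hVb.le
  have hEh1 : 0 ≤ 1 - D.Eh ∨ 1 - D.Eh < 0 := le_or_gt _ _
  rw [hphi]
  rcases hEh1 with hE' | hE'
  · refine le_of_mul_le_mul_right ?_ h1a
    calc a * φ 0 ^ m * mass m ballShape 1 * (D.Z * (1 - D.Eh)) * (1 - a)
        = (D.Z * (1 - a) * φ 0 ^ m * mass m ballShape 1) * (a * (1 - D.Eh)) := by ring
      _ ≤ (D.C * (1 + D.d) * l' * mass m φ 1) * (a * (1 - D.Eh)) := by
          refine mul_le_mul_of_nonneg_right ?_ (mul_nonneg (pow_nonneg hx0.le m) hE')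
          refine le_of_mul_le_mul_right ?_ hsN
          calc D.Z * (1 - a) * φ 0 ^ m * mass m ballShape 1 * √((m : ℝ) + 1)
              = D.Z * (1 - a) * φ 0 ^ m * (mass m ballShape 1 * √((m : ℝ) + 1)) := by ring
            _ ≤ mass m φ 1 * (√((m : ℝ) + 1) * ((1 + D.d) * l')) * D.C :=
                mul_le_mul h2 hC (mul_nonneg hVb.le hsN.le) (by positivity)
            _ = D.C * (1 + D.d) * l' * mass m φ 1 * √((m : ℝ) + 1) := by ring
      _ = D.C * (1 + D.d) * mass m φ 1 * (l' * a * (1 - D.Eh)) := by ring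
      _ ≤ D.C * (1 + D.d) * mass m φ 1 * (D.l * D.Eh * (1 - a)) := h8
      _ = D.C * (1 + D.d) * (D.l * D.Eh) * mass m φ 1 * (1 - a) := by ring
  · refine le_trans (mul_nonpos_of_nonneg_of_nonpos ?_ ?_) hRHS
    · positivity
    · exact mul_nonpos_of_nonneg_of_nonpos hZ0.le hE'.le

/-- The table: below every cut. -/
theorem envBins_sound (hφ : IsShape φ) (hp : powRatio m φ ≤ 1) {R : EnvRange} {N : EnvNode}
    (hR : R.check = true)
    (hZ : 0 < N.Z ∧ N.Z * N.Z * (1 / (R.lo : ℚ)) < 1 ∧ 0 ≤ N.G ∧ N.G ≤ 1 ∧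
      N.Z * N.Z * (1 / (R.lo : ℚ)) ≤ (1 - N.G) * (1 - N.G) ∧ 0 ≤ N.K)
    (hm : R.Mem (m + 1)) {t : ℝ} (ht : (N.Z : ℝ) / √((m : ℝ) + 1) ≤ t) (ht1 : t ≤ 1) :
    ∀ (L : List (ℚ × ℚ)) (b₀ : ℚ), envBinsQ R N b₀ L = true →
      (b₀ : ℝ) * mass m φ 1 ≤ mass m ballShape 1 * φ 0 ^ m →
      φ t ^ m * mass m ballShape 1 ≤ (N.K : ℝ) * mass m φ 1
  | [], b₀, h, hlo => by
      simp only [envBinsQ, Bool.and_eq_true, decide_eq_true_eq] at h
      obtain ⟨⟨hl, hmass⟩, hb0, hK⟩ := h
      obtain ⟨hm3, hD⟩ := EnvRange.data_valid hR hZ hm hl (β := 1) one_pos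
      obtain ⟨hA, hb⟩ := envMass_sound (N := N) (β := 1) hmass
      have hX := envelope_range_mass hm3 hφ hD (by exact_mod_cast hb0.le) hlo hA hb ht ht1
      have h := envTop_le hm3 hφ hD ht ht1 hX
      have hl' : 0 < N.top := by
        simp only [envRateOK, decide_eq_true_eq] at hl
        exact hl.1
      have hE : 0 < (1 - (expNegHi N.top : ℝ)) := by
        obtain ⟨hA', hb'⟩ := envMass_sound (N := N) (β := 1) hmass
        simp only [EnvRange.data] at hb' hA'
        by_contra! hcon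
        have hC : (0 : ℝ) < R.C := by
          simp only [EnvRange.check, decide_eq_true_eq] at hR
          exact_mod_cast hR.2.2.2.1
        have hd : (0 : ℝ) ≤ R.d := le_trans (by positivity) hD.2.1
        have h1 : (N.Z : ℝ) * b₀ * (1 - (expNegHi N.top : ℝ)) ≤ 0 :=
          mul_nonpos_of_nonneg_of_nonpos (mul_nonneg (by exact_mod_cast hZ.1.le)
            (by exact_mod_cast hb0.le)) hcon
        have h2 := mul_pos hC (mul_pos (show (0 : ℝ) < 1 + R.d by linarith) hA')
        linarith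
      have hK' : (R.C : ℝ) * (1 + (R.d : ℝ)) * N.top * expNegHi N.top ≤
          N.Z * (1 - (expNegHi N.top : ℝ)) * N.K := by exact_mod_cast hK
      refine le_of_mul_le_mul_right (h.trans ?_)
        (mul_pos (show (0 : ℝ) < N.Z by exact_mod_cast hZ.1) hE)
      simp only [EnvRange.data]
      have hV : 0 ≤ mass m φ 1 := intervalIntegral.integral_nonneg zero_le_one
        fun u hu => pow_nonneg (hφ.nonneg u ⟨by linarith [hu.1], hu.2⟩) m
      have := mul_le_mul_of_nonneg_right hK' hV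
      linarith
  | p :: rest, b₀, h, hlo => by
      simp only [envBinsQ, Bool.and_eq_true] at h
      obtain ⟨hbin, hrest⟩ := h
      rcases le_total ((p.1 : ℝ) * mass m φ 1) (mass m ballShape 1 * φ 0 ^ m) with hge | hlt
      · exact envBins_sound hφ hp hR hZ hm ht ht1 rest p.1 hrest hge
      simp only [envBinQ, Bool.and_eq_true, Bool.or_eq_true, decide_eq_true_eq] at hbin
      obtain ⟨⟨hbp, hp1⟩, hcase⟩ := hbin
      have hy := hφ.centre
      have ht0 : 0 ≤ t := le_trans (div_nonneg (by exact_mod_cast hZ.1.le) (sqrt_nonneg _)) ht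
      have hV : 0 ≤ mass m φ 1 := intervalIntegral.integral_nonneg zero_le_one
        fun u hu => pow_nonneg (hφ.nonneg u ⟨by linarith [hu.1], hu.2⟩) m
      have hVb := ball_mass_pos m
      rcases hcase with hK | ⟨⟨hl, hb0, hK⟩, htest⟩
      · have h1 : φ t ^ m ≤ φ 0 ^ m := pow_le_pow_left₀ (hφ.nonneg t ⟨by linarith, ht1⟩)
          (shape_le_centre hφ ⟨by linarith, ht1⟩) m
        calc φ t ^ m * mass m ballShape 1 ≤ φ 0 ^ m * mass m ballShape 1 :=
              mul_le_mul_of_nonneg_right h1 hVb.le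
          _ ≤ (p.1 : ℝ) * mass m φ 1 := by linarith
          _ ≤ (N.K : ℝ) * mass m φ 1 :=
              mul_le_mul_of_nonneg_right (by exact_mod_cast hK) hV
      have hX : φ t ^ m < exp (-(p.2 : ℝ)) * φ 0 ^ m := by
        rcases htest with hmass | ⟨⟨hC, hA⟩, hB⟩
        · obtain ⟨hm3, hD⟩ := EnvRange.data_valid hR hZ hm hl (β := 1) one_pos
          obtain ⟨hA', hb⟩ := envMass_sound (N := N) (β := 1) hmass
          exact envelope_range_mass hm3 hφ hD (by exact_mod_cast hb0.le) hlo hA' hb ht ht1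
        · obtain ⟨hm3, hD⟩ := EnvRange.data_valid hR hZ hm hl (β := (b₀ + p.1) / 2) (by linarith)
          exact envelope_range hm3 hφ hp hD
            (show (R.C : ℝ) ≤ (N.Z : ℝ) * (b₀ : ℝ) by exact_mod_cast hC)
            hlo hlt (envTest_sound hA) (envTest_sound hB) ht ht1
      have hEh : exp (-(p.2 : ℝ)) ≤ expNegHi p.2 := by
        simp only [envRateOK, decide_eq_true_eq] at hl
        exact (expNeg_bounds hl.1.le hl.2.1).2.2
      have hK' : (p.1 : ℝ) * expNegHi p.2 ≤ N.K := by exact_mod_cast hK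
      calc φ t ^ m * mass m ballShape 1
          ≤ exp (-(p.2 : ℝ)) * φ 0 ^ m * mass m ballShape 1 :=
            mul_le_mul_of_nonneg_right hX.le hVb.le
        _ ≤ (expNegHi p.2 : ℝ) * (mass m ballShape 1 * φ 0 ^ m) := by
            rw [mul_assoc, mul_comm (φ 0 ^ m)]
            exact mul_le_mul_of_nonneg_right hEh (by positivity)
        _ ≤ (expNegHi p.2 : ℝ) * ((p.1 : ℝ) * mass m φ 1) :=
            mul_le_mul_of_nonneg_left hlt ((exp_pos _).le.trans hEh)
        _ = (p.1 : ℝ) * expNegHi p.2 * mass m φ 1 := by ring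
        _ ≤ (N.K : ℝ) * mass m φ 1 := mul_le_mul_of_nonneg_right hK' hV

/-- The relative centre is at least `envStart`. -/
theorem envStart_le_centre (hφ : IsShape φ) (hp : powRatio m φ ≤ 1) {R : EnvRange}
    (hlo4 : 3 ≤ m) (hm : R.Mem (m + 1)) :
    (envStart R : ℝ) * mass m φ 1 ≤ mass m ballShape 1 * φ 0 ^ m := by
  -- the centre against the mass
  have hW := mass_le_centre (by omega) hφ hp
  set r := ballRatio m
  have hr := ballRatio_pos m
  have he : (R.e : ℝ) ≤ 1 / ((m : ℝ) + 1) := by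
    unfold EnvRange.e
    split_ifs with h
    · simp; positivity
    · push_cast
      refine one_div_le_one_div_of_le (by positivity) ?_
      exact_mod_cast hm.2.resolve_left h
  have hre : r ≤ exp (1 / ((m : ℝ) + 1) / 2) := by
    refine (ballRatio_bracket hlo4).2.trans ?_
    refine le_trans ?_ (Real.sum_le_exp_of_nonneg (by positivity) 3)
    simp only [ratioCubic, Finset.sum_range_succ, Finset.sum_range_zero, Nat.factorial]
    norm_num
    rw [← inv_pow]
    nlinarith [pow_nonneg (inv_nonneg.2 (show (0 : ℝ) ≤ (m : ℝ) + 1 by positivity)) 3]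
  have hrm : r ^ m ≤ exp (1 / 2) * exp (-((R.e : ℝ) / 2)) := by
    refine (pow_le_pow_left₀ hr.le hre m).trans ?_
    rw [← exp_nat_mul, ← exp_add]
    refine exp_le_exp.2 ?_
    have : (m : ℝ) * (1 / ((m : ℝ) + 1) / 2) = 1 / 2 - 1 / ((m : ℝ) + 1) / 2 := by
      field_simp
      ring
    linarith
  have hstart : (envStart R : ℝ) * r ^ m ≤ 1 := by
    have he0 : (0 : ℝ) ≤ R.e := by
      have : 0 ≤ R.e := by unfold EnvRange.e; split <;> positivity
      exact_mod_cast this
    have h0 : (0 : ℝ) ≤ envStart R := by simp only [envStart]; push_cast; positivity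
    refine (mul_le_mul_of_nonneg_left hrm h0).trans ?_
    have h1 : exp (1 / 2 : ℝ) ≤ 10000 / 6065 := by
      refine (Real.exp_bound' (by norm_num) (by norm_num) (n := 8) (by norm_num)).trans ?_
      norm_num [Finset.sum_range_succ, Nat.factorial]
    have h2 : (1 + (R.e : ℝ) / 2) * exp (-((R.e : ℝ) / 2)) ≤ 1 := by
      refine (mul_le_mul_of_nonneg_right
        (show 1 + (R.e : ℝ) / 2 ≤ exp ((R.e : ℝ) / 2) by linarith [add_one_le_exp ((R.e : ℝ) / 2)])
        (exp_pos _).le).trans ?_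
      rw [← exp_add, add_neg_cancel, exp_zero]
    have h3 := mul_le_mul h1 h2 (mul_nonneg (by linarith) (exp_pos _).le) (by norm_num)
    simp only [envStart]
    push_cast
    linarith
  rw [mul_comm]
  calc mass m φ 1 * (envStart R : ℝ)
      ≤ φ 0 ^ m * (r ^ m * mass m ballShape 1) * (envStart R : ℝ) := by
        refine mul_le_mul_of_nonneg_right hW ?_
        have : 0 ≤ R.e := by unfold EnvRange.e; split <;> positivity
        have h' : 0 ≤ envStart R := by unfold envStart; positivity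
        exact_mod_cast h'
    _ = mass m ballShape 1 * φ 0 ^ m * ((envStart R : ℝ) * r ^ m) := by ring
    _ ≤ mass m ballShape 1 * φ 0 ^ m :=
        mul_le_of_le_one_right (mul_nonneg (ball_mass_pos m).le (pow_nonneg hφ.centre.le m)) hstart

/-- The envelope of a checked table: `specU ^ 2` relative to the mass, times `ballShape ^ m`. -/
theorem envelope_table (hφ : IsShape φ) (hp : powRatio m φ ≤ 1) {R : EnvRange} {nodes : List EnvNode}
    (hR : R.check = true) (hN : (nodes.all fun N => N.check R) = true) (hm : R.Mem (m + 1))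
    {N : EnvNode} (hmem : N ∈ nodes) {t : ℝ} (ht : (N.Z : ℝ) / √((m : ℝ) + 1) ≤ t) (ht1 : t ≤ 1) :
    φ t ^ m * mass m ballShape 1 ≤ (N.K : ℝ) * mass m φ 1 := by
  have h := List.all_eq_true.1 hN N hmem
  simp only [EnvNode.check, Bool.and_eq_true, decide_eq_true_eq] at h
  obtain ⟨hZ, hbins⟩ := h
  have hlo4 : 3 ≤ m := by
    simp only [EnvRange.check, decide_eq_true_eq] at hR
    have := hm.1
    omega
  exact envBins_sound hφ hp hR hZ hm ht ht1 N.bins (envStart R) hbins
    (envStart_le_centre hφ hp hlo4 hm)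

end Vale.Agent.P237.Quant
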