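import Mathlib.Data.Rat.Cast.Order
import Mathlib.Tactic.NormNum

/-!
The data format and the check of the envelope in one dimension, with exact powers; the
soundness is in `EnvelopeExact`.
-/

namespace Vale.Agent.P237.Quant

/-- The dimension `m + 1` with `V` above the mass of the ball profile. -/
structure ExactDim where
  m : ℕ
  V : ℚ

/-- A point with the bins `(upper end, value, β, s)`, `β ≤ s ^ m`, from `start` on, the value past
the last bin and the bound. -/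
structure ExactNode where
  t : ℚ
  start : ℚ
  bins : List (ℚ × ℚ × ℚ × ℚ)
  top : ℚ
  K : ℚ

/-- An upper bound of the ratio. -/
def exactRatioHi (m : ℕ) : ℚ :=
  let s := 1 / ((m : ℚ) + 1)
  1 + s / 2 + s ^ 2 * (1 / 8 - s / 16)

/-- A lower bound of the ratio. -/
def exactRatioLo (m : ℕ) : ℚ :=
  let s := 1 / ((m : ℚ) + 1)
  1 + s / 2 + s ^ 2 * (1 / 8 - s / 16 - s ^ 2 / 24)

/-- The validity of the dimension. -/
def ExactDim.check (R : ExactDim) : Bool :=
  decide (3 ≤ R.m ∧ 0 < R.V ∧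
    3141593 / 2000000 ≤ R.V * R.V * ((R.m : ℚ) + 1) * exactRatioLo R.m)

/-- `linePow` in rationals. -/
def linePowQ (j : ℕ) (x : ℚ) : ℚ := (1 - x ^ (j + 1)) / (((j : ℚ) + 1) * (1 - x))

/-- The forced mass, `t g + tail`. -/
def exactMassQ (m : ℕ) (t x : ℚ) : ℚ :=
  t * linePowQ m x + x ^ m * (1 - t) / ((m : ℚ) + 1)

/-- The test of the power at one end. -/
def exactTestQ (R : ExactDim) (t x β s b : ℚ) : Bool :=
  let g := linePowQ R.m x
  let a := (linePowQ (R.m - 1) x - g) / (1 - g)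
  let tail := x ^ R.m * (1 - t) / ((R.m : ℚ) + 1)
  decide (exactRatioHi R.m * (s * (1 + (b / β - 1) / (R.m : ℚ))) <
    1 + a * (b * (t + tail) / R.V - 1) + (((R.m : ℚ) + 1) / ((R.m : ℚ) * x) - 1) * (b * tail / R.V))

/-- A bin. -/
def exactBinQ (R : ExactDim) (N : ExactNode) (b₀ : ℚ) (p : ℚ × ℚ × ℚ × ℚ) : Bool :=
  match p with
  | (b₁, x, β, s) =>
    decide (b₀ ≤ b₁ ∧ 0 < b₀) && (decide (b₁ ≤ N.K) ||
      (decide (0 < x ∧ x < 1 ∧ b₁ * x ^ R.m ≤ N.K) &&
        (decide (R.V < b₀ * exactMassQ R.m N.t x) ||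
          (decide (0 < β ∧ 0 < s ∧ β ≤ s ^ R.m ∧
              R.V ≤ b₀ * (N.t + x ^ R.m * (1 - N.t) / ((R.m : ℚ) + 1))) &&
            exactTestQ R N.t x β s b₀ && exactTestQ R N.t x β s b₁))))

/-- The bins and the part past them. -/
def exactBinsQ (R : ExactDim) (N : ExactNode) : ℚ → List (ℚ × ℚ × ℚ × ℚ) → Bool
  | b₀, [] => decide (0 < b₀ ∧ 0 < N.top ∧ N.top < 1 ∧ R.V < b₀ * exactMassQ R.m N.t N.top ∧
      R.V * N.top ^ R.m ≤ N.K * exactMassQ R.m N.t N.top)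
  | b₀, p :: rest => exactBinQ R N b₀ p && exactBinsQ R N p.1 rest

/-- A node. -/
def ExactNode.check (R : ExactDim) (N : ExactNode) : Bool :=
  decide (0 < N.t ∧ N.t < 1 ∧ 0 ≤ N.K ∧ 0 ≤ N.start ∧ N.start * exactRatioHi R.m ^ R.m ≤ 1) &&
    exactBinsQ R N N.start N.bins

end Vale.Agent.P237.Quant
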