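import Mathlib
import Vale.Agent.P237.Quant.EnvelopeExactDefs
import Vale.Agent.P237.Quant.ProfileEnvelope
import Vale.Agent.P237.Quant.ChordScalar

/-!
The envelope in one dimension from kernel checks, with exact powers: for small `n` the series of
`EnvelopeRange` are too loose. In the relative centre both sides of the test are affine, the power
ratio by a tangent, so the ends of a bin suffice.
-/

namespace Vale.Agent.P237.Quant

open MeasureTheory Set Real

variable {m : ℕ} {φ : ℝ → ℝ}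

theorem exactRatioHi_eq (m : ℕ) : (exactRatioHi m : ℝ) = ratioCubic m 0 := by
  simp only [exactRatioHi, ratioCubic]
  push_cast
  ring

theorem exactRatioLo_eq (m : ℕ) : (exactRatioLo m : ℝ) = ratioCubic m 1 := by
  simp only [exactRatioLo, ratioCubic]
  push_cast
  ring

theorem linePowQ_eq (j : ℕ) (x : ℚ) : (linePowQ j x : ℝ) = linePow j (x : ℝ) := by
  simp only [linePowQ, linePow]
  push_cast
  ring

theorem exactMassQ_eq (m : ℕ) (t x : ℚ) :
    (exactMassQ m t x : ℝ) = (t : ℝ) * linePow m (x : ℝ) + envTail m (t : ℝ) (x : ℝ) := by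
  simp only [exactMassQ, envTail]
  push_cast
  rw [linePowQ_eq]

/-- `linePow` decreases in the exponent. -/
theorem linePow_succ_le (k : ℕ) {x : ℝ} (hx : x ∈ Icc (0 : ℝ) 1) :
    linePow (k + 1) x ≤ linePow k x := by
  rcases hx.2.eq_or_lt with h | h
  · simp [linePow, h]
  have h1 : (0 : ℝ) < 1 - x := by linarith
  rw [linePow, linePow, div_le_div_iff₀ (by positivity) (by positivity)]
  -- the last term is below every earlier one
  have h2 : ((k : ℝ) + 1) * x ^ (k + 1) * (1 - x) ≤ 1 - x ^ (k + 1) := by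
    rw [← geom_sum_mul_neg x (k + 1)]
    refine mul_le_mul_of_nonneg_right ?_ h1.le
    refine le_trans ?_ (Finset.sum_le_sum (fun i (hi : i ∈ Finset.range (k + 1)) =>
      pow_le_pow_of_le_one hx.1 hx.2 (Finset.mem_range.1 hi).le))
    simp
  have h3 := mul_le_mul_of_nonneg_right h2 h1.le
  push_cast
  rw [pow_succ x (k + 1)] at *
  nlinarith

/-- The forced mass grows slower than the power. -/
theorem forcedMass_mono {t x y : ℝ} (ht : 0 ≤ t) (hx : 0 ≤ x) (hxy : x ≤ y)
    (hy : y < 1) (m : ℕ) :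
    x ^ m * (t * linePow m y + envTail m t y) ≤ y ^ m * (t * linePow m x + envTail m t x) := by
  have hg : ∀ z : ℝ, z < 1 → linePow m z = (∑ i ∈ Finset.range (m + 1), z ^ i) / ((m : ℝ) + 1) :=
    fun z hz => by
      have : (1 : ℝ) - z ≠ 0 := by linarith
      rw [linePow, ← geom_sum_mul_neg z (m + 1)]
      field_simp
  have hsum : x ^ m * (∑ i ∈ Finset.range (m + 1), y ^ i) ≤
      y ^ m * ∑ i ∈ Finset.range (m + 1), x ^ i := by
    rw [Finset.mul_sum, Finset.mul_sum]
    refine Finset.sum_le_sum fun i hi => ?_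
    have hi' : i ≤ m := Nat.lt_succ_iff.1 (Finset.mem_range.1 hi)
    obtain ⟨j, rfl⟩ : ∃ j, m = i + j := ⟨m - i, by omega⟩
    have := mul_le_mul_of_nonneg_left (pow_le_pow_left₀ hx hxy j)
      (mul_nonneg (pow_nonneg hx i) (pow_nonneg (hx.trans hxy) i))
    rw [pow_add, pow_add]
    linarith
  rw [hg x (hxy.trans_lt hy), hg y hy, envTail, envTail]
  have := mul_le_mul_of_nonneg_left hsum (div_nonneg ht (show (0 : ℝ) ≤ (m : ℝ) + 1 by positivity))
  ring_nf at this ⊢
  linarith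

/-- One end or the mass refutes a value in a bin. -/
theorem exact_refute {R : ExactDim} (hφ : IsShape φ) (hp : powRatio R.m φ ≤ 1) (hR : R.check = true)
    {t x β s b₀ b₁ : ℚ} (ht : (t : ℝ) ∈ Ioo (0 : ℝ) 1) (hx : (x : ℝ) ∈ Ioo (0 : ℝ) 1)
    (hlo : (b₀ : ℝ) * mass R.m φ 1 ≤ mass R.m ballShape 1 * φ 0 ^ R.m)
    (hhi : mass R.m ballShape 1 * φ 0 ^ R.m ≤ (b₁ : ℝ) * mass R.m φ 1) (hb0 : 0 < b₀)
    (h : R.V < b₀ * exactMassQ R.m t x ∨
      0 < β ∧ 0 < s ∧ β ≤ s ^ R.m ∧ R.V ≤ b₀ * (t + x ^ R.m * (1 - t) / ((R.m : ℚ) + 1)) ∧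
        exactTestQ R t x β s b₀ = true ∧ exactTestQ R t x β s b₁ = true) :
    φ (t : ℝ) < (x : ℝ) * φ 0 := by
  simp only [ExactDim.check, decide_eq_true_eq] at hR
  obtain ⟨hm, hV0, hV⟩ := hR
  have hM : (3 : ℝ) ≤ R.m := by exact_mod_cast hm
  have hy := hφ.centre
  obtain ⟨hmass, hP⟩ := power_mass_le (by omega) hφ hp
  set V₀ := mass R.m ballShape 1 with hV0def
  have hVb : 0 < V₀ := ball_mass_pos _
  have hV' : V₀ ≤ (R.V : ℝ) := by
    refine (pow_le_pow_iff_left₀ hVb.le (by exact_mod_cast hV0.le) two_ne_zero).1 ?_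
    have h' := (Rat.cast_le (K := ℝ)).2 hV
    push_cast at h'
    rw [exactRatioLo_eq] at h'
    obtain ⟨j, hj⟩ : ∃ j, R.m = j + 1 := ⟨R.m - 1, by omega⟩
    have hprod := ball_mass_product j
    rw [show mass j ballShape 1 = ballRatio R.m * mass R.m ballShape 1 by
      rw [← ballMom_pred, hj, Nat.add_sub_cancel], ← hj, ← hV0def] at hprod
    have hlow := (ballRatio_bracket hm).1
    have hjm : ((j : ℝ) + 2) = (R.m : ℝ) + 1 := by rw [hj]; push_cast; ring
    rw [hjm] at hprod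
    have hr0 := ratioCubic_pos R.m (u := 1) (by norm_num)
    refine le_of_mul_le_mul_right ?_ (mul_pos (show (0 : ℝ) < (R.m : ℝ) + 1 by positivity) hr0)
    have h2 := mul_le_mul_of_nonneg_left hlow
      (mul_nonneg (show (0 : ℝ) ≤ (R.m : ℝ) + 1 by positivity) (sq_nonneg V₀))
    have := Real.pi_lt_d6
    rw [pow_two] at h2 ⊢
    linarith
  by_contra! hcon
  have hxt : (x : ℝ) ≤ φ (t : ℝ) / φ 0 := by rwa [le_div_iff₀ hy]
  have hE1 := envelope_mass hφ ht hx hxt R.m
  set V := mass R.m φ 1 / φ 0 ^ R.m with hVdef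
  have hVp : 0 < V := div_pos hmass (pow_pos hy _)
  set b := V₀ / V with hbdef
  have hb : b ∈ Icc (b₀ : ℝ) b₁ := by
    rw [hbdef, hVdef, div_div_eq_mul_div]
    exact ⟨(le_div_iff₀ hmass).2 hlo, (div_le_iff₀ hmass).2 hhi⟩
  have hb0' : (0 : ℝ) < b₀ := by exact_mod_cast hb0
  have hbV : ∀ {A : ℝ}, 0 ≤ A → b * A / (R.V : ℝ) ≤ A / V := fun hA => by
    rw [hbdef, div_mul_eq_mul_div, div_div, div_le_div_iff₀ (by positivity) hVp]
    have := mul_le_mul_of_nonneg_left hV' (mul_nonneg hA hVp.le)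
    linarith
  rcases h with h | ⟨hβ, hs, hβs, hVt, hA, hB⟩
  · -- the mass
    have h' := (Rat.cast_lt (K := ℝ)).2 h
    push_cast at h'
    rw [exactMassQ_eq] at h'
    set A := (t : ℝ) * linePow R.m (x : ℝ) + envTail R.m (t : ℝ) (x : ℝ) with hAdef
    have hA0 : 0 < A := pos_of_mul_pos_right ((show (0 : ℝ) < R.V by exact_mod_cast hV0).trans h')
      hb0'.le
    have h1 := (one_lt_div (show (0 : ℝ) < R.V by exact_mod_cast hV0)).2
      (h'.trans_le (mul_le_mul_of_nonneg_right hb.1 hA0.le))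
    have h2 := (one_lt_div hVp).1 (h1.trans_le (hbV hA0.le))
    linarith
  set tail := envTail R.m (t : ℝ) (x : ℝ) with htaildef
  have htail0 : 0 ≤ tail :=
    div_nonneg (mul_nonneg (pow_nonneg hx.1.le _) (by linarith [ht.2])) (by positivity)
  have hRV : (0 : ℝ) < R.V := by exact_mod_cast hV0
  have hVt' : (R.V : ℝ) ≤ (b₀ : ℝ) * ((t : ℝ) + tail) := by
    have h' := (Rat.cast_le (K := ℝ)).2 hVt
    push_cast at h'
    rw [htaildef, envTail]
    exact h'
  have hpos : 0 ≤ (t : ℝ) + tail := by linarith [ht.1]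
  have hVle : V ≤ (t : ℝ) + tail :=
    (one_le_div hVp).1 (le_trans ((one_le_div hRV).2
      (hVt'.trans (mul_le_mul_of_nonneg_right hb.1 hpos))) (hbV hpos))
  have hE := envPower_le (by omega) hφ ht hx hxt hVle
  set P := mass (R.m - 1) φ 1 / φ 0 ^ (R.m - 1) with hPdef
  have hP0 : 0 ≤ P := div_nonneg (intervalIntegral.integral_nonneg zero_le_one
    fun u hu => pow_nonneg (hφ.nonneg u ⟨by linarith [hu.1], hu.2⟩) _) (pow_nonneg hy.le _)
  -- the tests
  have hA' := hA
  simp only [exactTestQ, decide_eq_true_eq] at hA hB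
  have hA1 := (Rat.cast_lt (K := ℝ)).2 hA
  have hB1 := (Rat.cast_lt (K := ℝ)).2 hB
  push_cast at hA1 hB1
  rw [exactRatioHi_eq, linePowQ_eq, linePowQ_eq] at hA1 hB1
  rw [show (x : ℝ) ^ R.m * (1 - (t : ℝ)) / ((R.m : ℝ) + 1) = tail from rfl] at hA1 hB1
  set g := linePow R.m (x : ℝ)
  set a := (linePow (R.m - 1) (x : ℝ) - g) / (1 - g) with hadef
  set C := ((R.m : ℝ) + 1) / ((R.m : ℝ) * (x : ℝ)) - 1 with hCdef
  set rh := ratioCubic R.m 0
  -- affine in `b`
  set G := fun c : ℝ => 1 + a * (c * ((t : ℝ) + tail) / (R.V : ℝ) - 1) + C * (c * tail / (R.V : ℝ)) -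
    rh * ((s : ℝ) * (1 + (c / (β : ℝ) - 1) / (R.m : ℝ))) with hGdef
  have hG : 0 < G b := by
    have h0 : 0 < G b₀ := by simp only [hGdef]; linarith
    have h1 : 0 < G b₁ := by simp only [hGdef]; linarith
    rcases (hb.1.trans hb.2).eq_or_lt with h | h
    · rwa [le_antisymm (hb.2.trans h.ge) hb.1]
    have key : ((b₁ : ℝ) - b₀) * G b = ((b₁ : ℝ) - b) * G b₀ + (b - (b₀ : ℝ)) * G b₁ := by
      simp only [hGdef]
      ring
    refine pos_of_mul_pos_right (key ▸ ?_) (sub_pos.2 h).le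
    rcases hb.1.eq_or_lt with h' | h'
    · have := mul_pos (show 0 < (b₁ : ℝ) - b by linarith) h0
      have := mul_nonneg (show 0 ≤ b - (b₀ : ℝ) by linarith) h1.le
      linarith
    · have := mul_pos (sub_pos.2 h') h1
      have := mul_nonneg (sub_nonneg.2 hb.2) h0.le
      linarith
  -- the two sides at `b`
  have hg1 : g < 1 := linePow_lt_one (by omega) hx
  have ha0 : 0 ≤ a := by
    refine div_nonneg (sub_nonneg.2 ?_) (by linarith)
    have := linePow_succ_le (R.m - 1) (Ioo_subset_Icc_self hx)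
    rwa [show R.m - 1 + 1 = R.m by omega] at this
  have hC0 : 0 ≤ C := by
    rw [hCdef, sub_nonneg, one_le_div (mul_pos (by linarith) hx.1)]
    nlinarith [hx.2]
  have hlow : 1 + a * (b * ((t : ℝ) + tail) / R.V - 1) + C * (b * tail / R.V) ≤ P / V := by
    refine le_trans ?_ (div_le_div_of_nonneg_right hE hVp.le)
    have e : envPower R.m (t : ℝ) (x : ℝ) V / V =
        1 + a * (((t : ℝ) + tail) / V - 1) + C * (tail / V) := by
      have := hVp.ne'
      simp only [envPower, envRate, ← htaildef, hadef, hCdef]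
      field_simp
      ring
    rw [e]
    have := mul_le_mul_of_nonneg_left (hbV hpos) ha0
    have := mul_le_mul_of_nonneg_left (hbV htail0) hC0
    linarith
  have hup : P / V ≤ rh * ((s : ℝ) * (1 + (b / (β : ℝ) - 1) / (R.m : ℝ))) := by
    have hβ' : (0 : ℝ) < β := by exact_mod_cast hβ
    have hs' : (0 : ℝ) < s := by exact_mod_cast hs
    have hbp : 0 < b := div_pos hVb hVp
    have hlin : 0 ≤ 1 + (b / (β : ℝ) - 1) / (R.m : ℝ) := by
      have h1 : (-1 : ℝ) / R.m ≤ (b / (β : ℝ) - 1) / R.m :=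
        div_le_div_of_nonneg_right (by linarith [div_pos hbp hβ']) (by linarith)
      have h2 : (-1 : ℝ) ≤ -1 / (R.m : ℝ) := by rw [le_div_iff₀ (by linarith)]; linarith
      linarith
    have hr := ballRatio_pos R.m
    have hrh := (ballRatio_bracket hm).2
    refine (pow_le_pow_iff_left₀ (div_nonneg hP0 hVp.le)
      (mul_nonneg (hr.le.trans hrh) (mul_nonneg hs'.le hlin)) (by omega : R.m ≠ 0)).1 ?_
    have h1 : (P / V) ^ R.m ≤ ballRatio R.m ^ R.m * b := by
      rw [div_pow, hbdef, ← mul_div_assoc, div_le_div_iff₀ (pow_pos hVp _) hVp]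
      have h2 : P ^ R.m ≤ ballRatio R.m ^ R.m * V₀ * V ^ (R.m - 1) := by
        rw [hPdef, hVdef, div_pow, div_pow, ← pow_mul, ← pow_mul, mul_comm (R.m - 1) R.m,
          ← mul_div_assoc]
        exact div_le_div_of_nonneg_right hP (pow_nonneg hy.le _)
      calc P ^ R.m * V ≤ ballRatio R.m ^ R.m * V₀ * V ^ (R.m - 1) * V :=
            mul_le_mul_of_nonneg_right h2 hVp.le
        _ = ballRatio R.m ^ R.m * V₀ * V ^ R.m := by
            rw [mul_assoc, ← pow_succ, show R.m - 1 + 1 = R.m by omega]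
    refine h1.trans ?_
    rw [mul_pow rh, mul_pow]
    refine mul_le_mul (pow_le_pow_left₀ hr.le hrh _) ?_ hbp.le (pow_nonneg (hr.le.trans hrh) _)
    have hb2 := one_add_mul_le_pow (a := (b / (β : ℝ) - 1) / (R.m : ℝ)) (by linarith) R.m
    rw [mul_div_cancel₀ _ (by linarith : (R.m : ℝ) ≠ 0)] at hb2
    calc b = (β : ℝ) * (b / (β : ℝ)) := by field_simp
      _ ≤ (s : ℝ) ^ R.m * (1 + (b / (β : ℝ) - 1) / (R.m : ℝ)) ^ R.m :=
          mul_le_mul (by exact_mod_cast hβs) (by linarith) (div_pos hbp hβ').le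
            (pow_nonneg hs'.le _)
  simp only [hGdef] at hG
  linarith

/-- The bins are sound. -/
theorem exactBins_sound (hφ : IsShape φ) {R : ExactDim} (hp : powRatio R.m φ ≤ 1)
    (hR : R.check = true) {N : ExactNode} (hN : (0 < N.t ∧ N.t < 1) ∧ 0 ≤ N.K) {u : ℝ}
    (hu : (N.t : ℝ) ≤ u) (hu1 : u ≤ 1) :
    ∀ (L : List (ℚ × ℚ × ℚ × ℚ)) (b₀ : ℚ), exactBinsQ R N b₀ L = true →
      (b₀ : ℝ) * mass R.m φ 1 ≤ mass R.m ballShape 1 * φ 0 ^ R.m →
      φ u ^ R.m * mass R.m ballShape 1 ≤ (N.K : ℝ) * mass R.m φ 1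
  | [], b₀, h, hlo => by
      simp only [exactBinsQ, decide_eq_true_eq] at h
      obtain ⟨hb0, hx0, hx1, hmass, hK⟩ := h
      have hy := hφ.centre
      have ht : (N.t : ℝ) ∈ Ioo (0 : ℝ) 1 := ⟨by exact_mod_cast hN.1.1, by exact_mod_cast hN.1.2⟩
      have hx : (N.top : ℝ) ∈ Ioo (0 : ℝ) 1 := ⟨by exact_mod_cast hx0, by exact_mod_cast hx1⟩
      have hm3 : 3 ≤ R.m := by
        simp only [ExactDim.check, decide_eq_true_eq] at hR
        exact hR.1
      obtain ⟨hVp, -⟩ := power_mass_le (by omega) hφ hp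
      -- the value lies below `top` by the mass
      have hlt : φ (N.t : ℝ) < (N.top : ℝ) * φ 0 := by
        obtain ⟨b₁, hb₁⟩ := exists_rat_gt (mass R.m ballShape 1 * φ 0 ^ R.m / mass R.m φ 1)
        rw [div_lt_iff₀ hVp] at hb₁
        exact exact_refute (β := 1) (s := 1) (b₁ := b₁) hφ hp hR ht hx hlo hb₁.le hb0 (Or.inl hmass)
      set w := φ (N.t : ℝ) / φ 0 with hwdef
      have hw0 : 0 < w := div_pos (shape_pos hφ (sub01 ht)) hy
      have hw1 : w < (N.top : ℝ) := (div_lt_iff₀ hy).2 hlt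
      have h1 := envelope_mass hφ ht ⟨hw0, hw1.trans hx.2⟩ le_rfl R.m
      have h2 := forcedMass_mono ht.1.le hw0.le hw1.le hx.2 R.m
      have h3 := (Rat.cast_le (K := ℝ)).2 hK
      push_cast at h3
      rw [exactMassQ_eq] at h3
      have hV' : mass R.m ballShape 1 ≤ (R.V : ℝ) := by
        have h' := hR
        simp only [ExactDim.check, decide_eq_true_eq] at h'
        obtain ⟨-, hV0, hV⟩ := h'
        refine (pow_le_pow_iff_left₀ (ball_mass_pos _).le (by exact_mod_cast hV0.le)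
          two_ne_zero).1 ?_
        have h' := (Rat.cast_le (K := ℝ)).2 hV
        push_cast at h'
        rw [exactRatioLo_eq] at h'
        obtain ⟨j, hj⟩ : ∃ j, R.m = j + 1 := ⟨R.m - 1, by omega⟩
        have hprod := ball_mass_product j
        rw [show mass j ballShape 1 = ballRatio R.m * mass R.m ballShape 1 by
          rw [← ballMom_pred, hj, Nat.add_sub_cancel], ← hj,
          show ((j : ℝ) + 2) = (R.m : ℝ) + 1 by rw [hj]; push_cast; ring] at hprod
        have hlow := (ballRatio_bracket hm3).1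
        have hr0 := ratioCubic_pos R.m (u := 1) (by norm_num)
        refine le_of_mul_le_mul_right ?_ (mul_pos (show (0 : ℝ) < (R.m : ℝ) + 1 by positivity) hr0)
        have h2 := mul_le_mul_of_nonneg_left hlow
          (mul_nonneg (show (0 : ℝ) ≤ (R.m : ℝ) + 1 by positivity) (sq_nonneg (mass R.m ballShape 1)))
        have := Real.pi_lt_d6
        rw [pow_two] at h2 ⊢
        linarith
      set F := (N.t : ℝ) * linePow R.m (N.top : ℝ) + envTail R.m (N.t : ℝ) (N.top : ℝ)
      have hF : 0 < F := by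
        have h' := (Rat.cast_lt (K := ℝ)).2 hmass
        push_cast at h'
        rw [exactMassQ_eq] at h'
        exact pos_of_mul_pos_right ((lt_of_lt_of_le (ball_mass_pos _) hV').trans h')
          (by exact_mod_cast hb0.le)
      rw [le_div_iff₀ (pow_pos hy _)] at h1
      have hu0 : φ u ^ R.m ≤ w ^ R.m * φ 0 ^ R.m := by
        rw [hwdef, div_pow, div_mul_cancel₀ _ (pow_ne_zero _ hy.ne')]
        exact pow_le_pow_left₀ (hφ.nonneg u ⟨by linarith [ht.1], hu1⟩)
          (shape_antitone hφ ht.1.le hu hu1) _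
      refine (mul_le_mul_of_nonneg_right hu0 (ball_mass_pos _).le).trans ?_
      refine le_of_mul_le_mul_right ?_ hF
      have hX0 : (0 : ℝ) ≤ (N.top : ℝ) ^ R.m := pow_nonneg hx.1.le _
      calc w ^ R.m * φ 0 ^ R.m * mass R.m ballShape 1 * F
          = w ^ R.m * F * φ 0 ^ R.m * mass R.m ballShape 1 := by ring
        _ ≤ (N.top : ℝ) ^ R.m * ((N.t : ℝ) * linePow R.m w + envTail R.m (N.t : ℝ) w) *
              φ 0 ^ R.m * mass R.m ballShape 1 :=
            mul_le_mul_of_nonneg_right (mul_le_mul_of_nonneg_right h2 (pow_nonneg hy.le _))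
              (ball_mass_pos _).le
        _ ≤ (N.top : ℝ) ^ R.m * mass R.m φ 1 * (R.V : ℝ) := by
            rw [mul_assoc ((N.top : ℝ) ^ R.m)]
            exact mul_le_mul (mul_le_mul_of_nonneg_left h1 hX0) hV' (ball_mass_pos _).le
              (mul_nonneg hX0 hVp.le)
        _ = (R.V : ℝ) * (N.top : ℝ) ^ R.m * mass R.m φ 1 := by ring
        _ ≤ (N.K : ℝ) * F * mass R.m φ 1 := mul_le_mul_of_nonneg_right h3 hVp.le
        _ = (N.K : ℝ) * mass R.m φ 1 * F := by ring
  | (b₁, x, β, s) :: rest, b₀, h, hlo => by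
      simp only [exactBinsQ, Bool.and_eq_true] at h
      obtain ⟨hbin, hrest⟩ := h
      rcases le_total ((b₁ : ℝ) * mass R.m φ 1) (mass R.m ballShape 1 * φ 0 ^ R.m) with hge | hle
      · exact exactBins_sound hφ hp hR hN hu hu1 rest b₁ hrest hge
      simp only [exactBinQ, Bool.and_eq_true, Bool.or_eq_true, decide_eq_true_eq] at hbin
      obtain ⟨⟨-, hb0⟩, hcase⟩ := hbin
      have hy := hφ.centre
      have ht : (N.t : ℝ) ∈ Ioo (0 : ℝ) 1 := ⟨by exact_mod_cast hN.1.1, by exact_mod_cast hN.1.2⟩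
      have hV : 0 ≤ mass R.m φ 1 := intervalIntegral.integral_nonneg zero_le_one
        fun v hv => pow_nonneg (hφ.nonneg v ⟨by linarith [hv.1], hv.2⟩) _
      have hVb := ball_mass_pos R.m
      have hun : 0 ≤ φ u := hφ.nonneg u ⟨by linarith [ht.1], hu1⟩
      rcases hcase with hK | ⟨⟨hx0, hx1, hK⟩, htest⟩
      · calc φ u ^ R.m * mass R.m ballShape 1 ≤ φ 0 ^ R.m * mass R.m ballShape 1 :=
              mul_le_mul_of_nonneg_right (pow_le_pow_left₀ hun
                (shape_le_centre hφ ⟨by linarith [ht.1], hu1⟩) _) hVb.le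
          _ ≤ (b₁ : ℝ) * mass R.m φ 1 := by linarith
          _ ≤ (N.K : ℝ) * mass R.m φ 1 :=
              mul_le_mul_of_nonneg_right (by exact_mod_cast hK) hV
      have hx : (x : ℝ) ∈ Ioo (0 : ℝ) 1 := ⟨by exact_mod_cast hx0, by exact_mod_cast hx1⟩
      have hlt : φ (N.t : ℝ) < (x : ℝ) * φ 0 := by
        refine exact_refute (β := β) (s := s) hφ hp hR ht hx hlo hle hb0 ?_
        rcases htest with h | ⟨⟨⟨h1, h2, h3, h4⟩, hA⟩, hB⟩
        · exact Or.inl h
        · exact Or.inr ⟨h1, h2, h3, h4, hA, hB⟩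
      have hu' : φ u ^ R.m ≤ (x : ℝ) ^ R.m * φ 0 ^ R.m := by
        rw [← mul_pow]
        exact pow_le_pow_left₀ hun ((shape_antitone hφ ht.1.le hu hu1).trans hlt.le) _
      have hK' : (b₁ : ℝ) * (x : ℝ) ^ R.m ≤ N.K := by exact_mod_cast hK
      calc φ u ^ R.m * mass R.m ballShape 1
          ≤ (x : ℝ) ^ R.m * φ 0 ^ R.m * mass R.m ballShape 1 :=
            mul_le_mul_of_nonneg_right hu' hVb.le
        _ = (x : ℝ) ^ R.m * (mass R.m ballShape 1 * φ 0 ^ R.m) := by ring
        _ ≤ (x : ℝ) ^ R.m * ((b₁ : ℝ) * mass R.m φ 1) :=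
            mul_le_mul_of_nonneg_left hle (pow_nonneg hx.1.le _)
        _ = (b₁ : ℝ) * (x : ℝ) ^ R.m * mass R.m φ 1 := by ring
        _ ≤ (N.K : ℝ) * mass R.m φ 1 := mul_le_mul_of_nonneg_right hK' hV

/-- The envelope of a checked table in one dimension. -/
theorem envelope_exact (hφ : IsShape φ) {R : ExactDim} (hp : powRatio R.m φ ≤ 1)
    (hR : R.check = true) {nodes : List ExactNode}
    (hN : (nodes.all fun N => N.check R) = true) {N : ExactNode} (hmem : N ∈ nodes) {u : ℝ}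
    (hu : (N.t : ℝ) ≤ u) (hu1 : u ≤ 1) :
    φ u ^ R.m * mass R.m ballShape 1 ≤ (N.K : ℝ) * mass R.m φ 1 := by
  have h := List.all_eq_true.1 hN N hmem
  simp only [ExactNode.check, Bool.and_eq_true, decide_eq_true_eq] at h
  obtain ⟨⟨ht0, ht1, hK0, hs0, hs⟩, hbins⟩ := h
  have hm3 : 3 ≤ R.m := by
    simp only [ExactDim.check, decide_eq_true_eq] at hR
    exact hR.1
  refine exactBins_sound hφ hp hR ⟨⟨ht0, ht1⟩, hK0⟩ hu hu1 N.bins N.start hbins ?_
  have hW := mass_le_centre (by omega) hφ hp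
  have hs' := (Rat.cast_le (K := ℝ)).2 hs
  push_cast at hs'
  rw [exactRatioHi_eq] at hs'
  have h1 := mul_le_mul_of_nonneg_left
    (pow_le_pow_left₀ (ballRatio_pos R.m).le (ballRatio_bracket hm3).2 R.m)
    (show (0 : ℝ) ≤ N.start by exact_mod_cast hs0)
  calc (N.start : ℝ) * mass R.m φ 1
      ≤ (N.start : ℝ) * (φ 0 ^ R.m * (ballRatio R.m ^ R.m * mass R.m ballShape 1)) :=
        mul_le_mul_of_nonneg_left hW (by exact_mod_cast hs0)
    _ = (N.start : ℝ) * ballRatio R.m ^ R.m * (mass R.m ballShape 1 * φ 0 ^ R.m) := by ring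
    _ ≤ mass R.m ballShape 1 * φ 0 ^ R.m :=
        mul_le_of_le_one_left (mul_nonneg (ball_mass_pos _).le (pow_nonneg hφ.centre.le _))
          (h1.trans hs')

end Vale.Agent.P237.Quant
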