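import Mathlib
import Vale.Agent.P237.Quant.EnvelopeBinDefs
import Vale.Agent.P237.Quant.EnvelopeExact
import Vale.Agent.P237.Quant.EnvelopeCheck

/-!
The envelope inside one bin of the relative centre `V φ 0 ^ m / mass`, from kernel checks: the
bound of the relative power of the value and the bound of the value against the centre, which gives
the slope after the node.
-/

namespace Vale.Agent.P237.Quant

open MeasureTheory Set Real

variable {m : ℕ} {φ : ℝ → ℝ}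

theorem exactCuts_sound (hφ : IsShape φ) {R : ExactDim} (hp : powRatio R.m φ ≤ 1)
    (hR : R.check = true) {N : BinNode} (hN : (0 < N.t ∧ N.t < 1) ∧ 0 ≤ N.K) {hi : ℚ} {u : ℝ}
    (hu : (N.t : ℝ) ≤ u) (hu1 : u ≤ 1) :
    ∀ (L : List (ℚ × ℚ × ℚ × ℚ)) (b₀ : ℚ), L ≠ [] → exactCutsQ R N hi b₀ L = true →
      (b₀ : ℝ) * mass R.m φ 1 ≤ mass R.m ballShape 1 * φ 0 ^ R.m →
      mass R.m ballShape 1 * φ 0 ^ R.m ≤ (hi : ℝ) * mass R.m φ 1 →
      φ u ^ R.m * mass R.m ballShape 1 ≤ (N.K : ℝ) * mass R.m φ 1 ∧ φ u ≤ (N.X : ℝ) * φ 0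
  | [], _, h, _, _, _ => absurd rfl h
  | (b₁, x, β, s) :: rest, b₀, _, h, hlo, hhi => by
      simp only [exactCutsQ, Bool.and_eq_true] at h
      obtain ⟨hbin, hrest⟩ := h
      have hV : 0 ≤ mass R.m φ 1 := intervalIntegral.integral_nonneg zero_le_one
        fun v hv => pow_nonneg (hφ.nonneg v ⟨by linarith [hv.1], hv.2⟩) _
      by_cases hle : mass R.m ballShape 1 * φ 0 ^ R.m ≤ (b₁ : ℝ) * mass R.m φ 1
      swap
      · rcases rest with - | ⟨q, rest⟩
        · simp only [exactCutsQ, decide_eq_true_eq] at hrest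
          exact absurd (hhi.trans (mul_le_mul_of_nonneg_right (by exact_mod_cast hrest) hV)) hle
        · exact exactCuts_sound hφ hp hR hN hu hu1 (q :: rest) b₁ (List.cons_ne_nil _ _) hrest
            (not_le.1 hle).le hhi
      simp only [exactCutQ, Bool.and_eq_true, Bool.or_eq_true, decide_eq_true_eq] at hbin
      obtain ⟨⟨-, hb0⟩, hcase⟩ := hbin
      have hy := hφ.centre
      have ht : (N.t : ℝ) ∈ Ioo (0 : ℝ) 1 :=
        ⟨by exact_mod_cast hN.1.1, by exact_mod_cast hN.1.2⟩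
      have hVb := ball_mass_pos R.m
      have hun : 0 ≤ φ u := hφ.nonneg u ⟨by linarith [ht.1], hu1⟩
      have hu0 : φ u ≤ φ 0 := shape_le_centre hφ ⟨by linarith [ht.1], hu1⟩
      rcases hcase with ⟨hK, hX⟩ | ⟨⟨hx0, hx1, hK, hX⟩, htest⟩
      · refine ⟨?_, hu0.trans (le_mul_of_one_le_left hy.le (by exact_mod_cast hX))⟩
        calc φ u ^ R.m * mass R.m ballShape 1 ≤ φ 0 ^ R.m * mass R.m ballShape 1 :=
              mul_le_mul_of_nonneg_right (pow_le_pow_left₀ hun hu0 _) hVb.le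
          _ ≤ (b₁ : ℝ) * mass R.m φ 1 := by linarith
          _ ≤ (N.K : ℝ) * mass R.m φ 1 :=
              mul_le_mul_of_nonneg_right (by exact_mod_cast hK) hV
      have hx : (x : ℝ) ∈ Ioo (0 : ℝ) 1 := ⟨by exact_mod_cast hx0, by exact_mod_cast hx1⟩
      have hlt : φ (N.t : ℝ) < (x : ℝ) * φ 0 := by
        refine exact_refute (β := β) (s := s) hφ hp hR ht hx hlo hle hb0 ?_
        rcases htest with h | ⟨⟨⟨h1, h2, h3, h4⟩, hA⟩, hB⟩
        · exact Or.inl h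
        · exact Or.inr ⟨h1, h2, h3, h4, hA, hB⟩
      have hux : φ u ≤ (x : ℝ) * φ 0 := (shape_antitone hφ ht.1.le hu hu1).trans hlt.le
      refine ⟨?_, hux.trans (mul_le_mul_of_nonneg_right (by exact_mod_cast hX) hy.le)⟩
      have hu' : φ u ^ R.m ≤ (x : ℝ) ^ R.m * φ 0 ^ R.m := by
        rw [← mul_pow]
        exact pow_le_pow_left₀ hun hux _
      have hK' : (b₁ : ℝ) * (x : ℝ) ^ R.m ≤ N.K := by exact_mod_cast hK
      calc φ u ^ R.m * mass R.m ballShape 1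
          ≤ (x : ℝ) ^ R.m * φ 0 ^ R.m * mass R.m ballShape 1 :=
            mul_le_mul_of_nonneg_right hu' hVb.le
        _ = (x : ℝ) ^ R.m * (mass R.m ballShape 1 * φ 0 ^ R.m) := by ring
        _ ≤ (x : ℝ) ^ R.m * ((b₁ : ℝ) * mass R.m φ 1) :=
            mul_le_mul_of_nonneg_left hle (pow_nonneg hx.1.le _)
        _ = (b₁ : ℝ) * (x : ℝ) ^ R.m * mass R.m φ 1 := by ring
        _ ≤ (N.K : ℝ) * mass R.m φ 1 := mul_le_mul_of_nonneg_right hK' hV

/-- A checked node inside a bin, in one dimension. -/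
theorem envelope_bin (hφ : IsShape φ) {R : ExactDim} (hp : powRatio R.m φ ≤ 1)
    (hR : R.check = true) {lo hi : ℚ} {N : BinNode} (hN : N.check R lo hi = true)
    (hlo : (lo : ℝ) * mass R.m φ 1 ≤ mass R.m ballShape 1 * φ 0 ^ R.m)
    (hhi : mass R.m ballShape 1 * φ 0 ^ R.m ≤ (hi : ℝ) * mass R.m φ 1) {u : ℝ}
    (hu : (N.t : ℝ) ≤ u) (hu1 : u ≤ 1) :
    φ u ^ R.m * mass R.m ballShape 1 ≤ (N.K : ℝ) * mass R.m φ 1 ∧ φ u ≤ (N.X : ℝ) * φ 0 := by
  simp only [BinNode.check, Bool.and_eq_true, decide_eq_true_eq] at hN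
  obtain ⟨⟨ht0, ht1, hK, -, hne⟩, hcuts⟩ := hN
  exact exactCuts_sound hφ hp hR ⟨⟨ht0, ht1⟩, hK⟩ hu hu1 _ _ hne hcuts hlo hhi

theorem rangeCuts_sound (hφ : IsShape φ) (hp : powRatio m φ ≤ 1) {R : EnvRange} {N : RangeBinNode}
    (hR : R.check = true)
    (hZ : 0 < N.Z ∧ N.Z * N.Z * (1 / (R.lo : ℚ)) < 1 ∧ 0 ≤ N.G ∧ N.G ≤ 1 ∧
      N.Z * N.Z * (1 / (R.lo : ℚ)) ≤ (1 - N.G) * (1 - N.G) ∧ 0 ≤ N.K)
    (hm : R.Mem (m + 1)) {hi : ℚ} {t : ℝ} (ht : (N.Z : ℝ) / √((m : ℝ) + 1) ≤ t) (ht1 : t ≤ 1) :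
    ∀ (L : List (ℚ × ℚ)) (b₀ : ℚ), L ≠ [] → rangeCutsQ R N hi b₀ L = true →
      (b₀ : ℝ) * mass m φ 1 ≤ mass m ballShape 1 * φ 0 ^ m →
      mass m ballShape 1 * φ 0 ^ m ≤ (hi : ℝ) * mass m φ 1 →
      φ t ^ m * mass m ballShape 1 ≤ (N.K : ℝ) * mass m φ 1 ∧
        φ t ^ m ≤ exp (-(N.L : ℝ)) * φ 0 ^ m
  | [], _, h, _, _, _ => absurd rfl h
  | p :: rest, b₀, _, h, hlo, hhi => by
      simp only [rangeCutsQ, Bool.and_eq_true] at h
      obtain ⟨hbin, hrest⟩ := h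
      have hV : 0 ≤ mass m φ 1 := intervalIntegral.integral_nonneg zero_le_one
        fun u hu => pow_nonneg (hφ.nonneg u ⟨by linarith [hu.1], hu.2⟩) m
      by_cases hlt : mass m ballShape 1 * φ 0 ^ m ≤ (p.1 : ℝ) * mass m φ 1
      swap
      · rcases rest with - | ⟨q, rest⟩
        · simp only [rangeCutsQ, decide_eq_true_eq] at hrest
          exact absurd (hhi.trans (mul_le_mul_of_nonneg_right (by exact_mod_cast hrest) hV)) hlt
        · exact rangeCuts_sound hφ hp hR hZ hm ht ht1 (q :: rest) p.1 (List.cons_ne_nil _ _) hrest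
            (not_le.1 hlt).le hhi
      simp only [rangeCutQ, Bool.and_eq_true, Bool.or_eq_true, decide_eq_true_eq] at hbin
      obtain ⟨⟨hbp, hp1⟩, hcase⟩ := hbin
      have hy := hφ.centre
      have ht0 : 0 ≤ t := le_trans (div_nonneg (by exact_mod_cast hZ.1.le) (sqrt_nonneg _)) ht
      have hVb := ball_mass_pos m
      have h1 : φ t ^ m ≤ φ 0 ^ m := pow_le_pow_left₀ (hφ.nonneg t ⟨by linarith, ht1⟩)
        (shape_le_centre hφ ⟨by linarith, ht1⟩) m
      rcases hcase with ⟨hK, hL⟩ | ⟨⟨hl, hb0, hK, hL⟩, htest⟩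
      · refine ⟨?_, h1.trans (le_mul_of_one_le_left (pow_nonneg hy.le m) (one_le_exp (by
          have : (N.L : ℝ) ≤ 0 := by exact_mod_cast hL
          linarith)))⟩
        calc φ t ^ m * mass m ballShape 1 ≤ φ 0 ^ m * mass m ballShape 1 :=
              mul_le_mul_of_nonneg_right h1 hVb.le
          _ ≤ (p.1 : ℝ) * mass m φ 1 := by linarith
          _ ≤ (N.K : ℝ) * mass m φ 1 :=
              mul_le_mul_of_nonneg_right (by exact_mod_cast hK) hV
      have hX : φ t ^ m < exp (-(p.2 : ℝ)) * φ 0 ^ m := by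
        let N' : EnvNode := ⟨N.Z, N.G, [], 0, N.K⟩
        rcases htest with hmass | ⟨⟨hC, hA⟩, hB⟩
        · obtain ⟨hm3, hD⟩ := EnvRange.data_valid (N := N') hR hZ hm hl (β := 1) one_pos
          obtain ⟨hA', hb⟩ := envMass_sound (N := N') (β := 1) hmass
          exact envelope_range_mass hm3 hφ hD (by exact_mod_cast hb0.le) hlo hA' hb ht ht1
        · obtain ⟨hm3, hD⟩ :=
            EnvRange.data_valid (N := N') hR hZ hm hl (β := (b₀ + p.1) / 2) (by linarith)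
          exact envelope_range hm3 hφ hp hD
            (show (R.C : ℝ) ≤ (N.Z : ℝ) * (b₀ : ℝ) by exact_mod_cast hC)
            hlo hlt (envTest_sound (N := N') hA) (envTest_sound (N := N') hB) ht ht1
      refine ⟨?_, hX.le.trans (mul_le_mul_of_nonneg_right (exp_le_exp.2
        (neg_le_neg (by exact_mod_cast hL))) (pow_nonneg hy.le m))⟩
      have hEh : exp (-(p.2 : ℝ)) ≤ expNegHi p.2 := by
        simp only [envRateOK, decide_eq_true_eq] at hl
        exact (expNeg_bounds hl.1.le hl.2.1).2.2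
      have hK' : (p.1 : ℝ) * expNegHi p.2 ≤ N.K := by exact_mod_cast hK
      calc φ t ^ m * mass m ballShape 1
          ≤ exp (-(p.2 : ℝ)) * φ 0 ^ m * mass m ballShape 1 :=
            mul_le_mul_of_nonneg_right hX.le hVb.le
        _ ≤ (expNegHi p.2 : ℝ) * (mass m ballShape 1 * φ 0 ^ m) := by
            rw [mul_assoc, mul_comm (φ 0 ^ m)]
            exact mul_le_mul_of_nonneg_right hEh (by positivity)
        _ ≤ (expNegHi p.2 : ℝ) * ((p.1 : ℝ) * mass m φ 1) :=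
            mul_le_mul_of_nonneg_left hlt ((exp_pos _).le.trans hEh)
        _ = (p.1 : ℝ) * expNegHi p.2 * mass m φ 1 := by ring
        _ ≤ (N.K : ℝ) * mass m φ 1 := mul_le_mul_of_nonneg_right hK' hV

/-- A checked node inside a bin, on a range of dimensions. -/
theorem envelope_bin_range (hφ : IsShape φ) (hp : powRatio m φ ≤ 1) {R : EnvRange}
    (hR : R.check = true) (hm : R.Mem (m + 1)) {lo hi : ℚ} {N : RangeBinNode}
    (hN : N.check R lo hi = true)
    (hlo : (lo : ℝ) * mass m φ 1 ≤ mass m ballShape 1 * φ 0 ^ m)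
    (hhi : mass m ballShape 1 * φ 0 ^ m ≤ (hi : ℝ) * mass m φ 1) {t : ℝ}
    (ht : (N.Z : ℝ) / √((m : ℝ) + 1) ≤ t) (ht1 : t ≤ 1) :
    φ t ^ m * mass m ballShape 1 ≤ (N.K : ℝ) * mass m φ 1 ∧
      φ t ^ m ≤ exp (-(N.L : ℝ)) * φ 0 ^ m := by
  simp only [RangeBinNode.check, Bool.and_eq_true, decide_eq_true_eq] at hN
  obtain ⟨⟨h1, h2, h3, h4, h5, h6, -, hne⟩, hcuts⟩ := hN
  refine rangeCuts_sound hφ hp hR ⟨h1, h2, h3, h4, h5, h6⟩ hm ht ht1 _ _ hne hcuts ?_ hhi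
  have hm3 : 3 ≤ m := by
    simp only [EnvRange.check, decide_eq_true_eq] at hR
    have := hm.1
    omega
  rcases max_choice lo (envStart R) with h | h <;> rw [h]
  · exact hlo
  · exact envStart_le_centre hφ hp hm3 hm

end Vale.Agent.P237.Quant
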