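import Mathlib.Tactic.NormNum

/-!
The envelope inside a bin in one dimension, checked on naturals: the cleared form of the rational
check of `EnvelopeBinDefs`. Times and values are over `10 ^ 4`, the relative centre over `10 ^ 4`,
`s` over `10 ^ 5` and the bound over `10 ^ 12`. The soundness is in `EnvelopeBinIntSound`.
-/

namespace Vale.Agent.P237.Quant.EnvInt

/-- A point, the two bounds and the cuts `(upper end, value, β, s)`. -/
structure Node where
  t : ℕ
  X : ℕ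
  K : ℕ
  cuts : List (ℕ × ℕ × ℕ × ℕ)

/-- `k` cuts from one number, each in the fields of 16, 16, 16 and 24 bits. -/
def cutsFrom : ℕ → ℕ → List (ℕ × ℕ × ℕ × ℕ)
  | 0, _ => []
  | k + 1, c => (c % 65536, c / 65536 % 65536, c / 4294967296 % 65536,
      c / 281474976710656 % 16777216) :: cutsFrom k (c / 4722366482869645213696)

/-- Strict comparison. -/
def lt (a b : ℕ) : Bool := Nat.ble (Nat.succ a) b

/-- The last comparison of the test of the power, with `R = 16 N³` and `AW = Ad W`. -/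
def endCmp (s Bb mb R N AW mx Ad D C : ℕ) : Bool :=
  lt (Nat.mul (Nat.mul (Nat.mul (Nat.sub (Nat.add R (Nat.add (Nat.mul 8 (Nat.mul N N))
        (Nat.mul 2 N))) 1) s) Bb) (Nat.mul mx AW))
    (Nat.mul (Nat.add (Nat.mul mx (Nat.add AW D)) (Nat.mul C Ad)) (Nat.mul (Nat.mul R 100000) mb))

/-- The test of the power from the averages `Gn / Gd`, `H`, the mass `W` and the line `M`, `C`. -/
def endAt (m x β s B N Gn Gd H W M C : ℕ) : Bool :=
  Nat.ble (Nat.mul m Gn) H && lt Gn Gd && Nat.ble W M &&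
    endCmp s (Nat.sub (Nat.add (Nat.mul m β) B) β) (Nat.mul m β)
      (Nat.mul 16 (Nat.mul N (Nat.mul N N))) N (Nat.mul (Nat.mul m (Nat.sub Gd Gn)) W)
      (Nat.mul m x) (Nat.mul m (Nat.sub Gd Gn))
      (Nat.mul (Nat.sub H (Nat.mul m Gn)) (Nat.sub M W))
      (Nat.mul (Nat.sub (Nat.mul N 10000) (Nat.mul m x)) C)

/-- The test of the power at the end `B` of a cut, with `P = x ^ m`, `E = 10000 ^ m`, `N = m + 1`.
The operations are spelled out: the kernel pays for every instance it unfolds. -/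
def endTest (m Vn Vd T x β s B P E N : ℕ) : Bool :=
  endAt m x β s B N (Nat.sub (Nat.mul 10000 E) (Nat.mul x P))
    (Nat.mul (Nat.mul N E) (Nat.sub 10000 x)) (Nat.mul (Nat.mul N 10000) (Nat.sub E P))
    (Nat.mul (Nat.mul 10000 Vn) (Nat.mul N (Nat.mul 10000 E)))
    (Nat.mul (Nat.mul B Vd)
      (Nat.add (Nat.mul (Nat.mul T N) E) (Nat.mul P (Nat.sub 10000 T))))
    (Nat.mul (Nat.mul B Vd) (Nat.mul P (Nat.sub 10000 T)))

/-- The part of a cut where `x` is forced. -/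
def cutTest (m Vn Vd T b₀ b₁ x β s P E N : ℕ) : Bool :=
  lt (Nat.mul (Nat.mul (Nat.mul 10000 Vn) (Nat.mul N (Nat.mul 10000 E))) (Nat.sub 10000 x))
      (Nat.mul (Nat.mul b₀ Vd) (Nat.add (Nat.mul T (Nat.sub (Nat.mul 10000 E) (Nat.mul x P)))
        (Nat.mul (Nat.mul P (Nat.sub 10000 T)) (Nat.sub 10000 x)))) ||
    (lt 0 β && lt 0 s &&
      Nat.ble (Nat.mul β (Nat.pow 100000 m)) (Nat.mul (Nat.pow s m) 10000) &&
      Nat.ble (Nat.mul (Nat.mul 10000 Vn) (Nat.mul N (Nat.mul 10000 E)))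
        (Nat.mul (Nat.mul b₀ Vd)
          (Nat.add (Nat.mul (Nat.mul T N) E) (Nat.mul P (Nat.sub 10000 T)))) &&
      endTest m Vn Vd T x β s b₀ P E N && endTest m Vn Vd T x β s b₁ P E N)

/-- One cut. -/
def cutOK (m Vn Vd : ℕ) (N : Node) (b₀ : ℕ) (p : ℕ × ℕ × ℕ × ℕ) : Bool :=
  match p with
  | (b₁, x, β, s) =>
    Nat.ble b₀ b₁ && lt 0 b₀ &&
      ((Nat.ble (Nat.mul b₁ 1000000000000) (Nat.mul N.K 10000) && Nat.ble 10000 N.X) ||
        (lt 0 x && lt x 10000 &&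
          Nat.ble (Nat.mul (Nat.mul b₁ 1000000000000) (Nat.pow x m))
            (Nat.mul (Nat.mul N.K 10000) (Nat.pow 10000 m)) && Nat.ble x N.X &&
          cutTest m Vn Vd N.t b₀ b₁ x β s (Nat.pow x m) (Nat.pow 10000 m) (Nat.succ m)))

/-- The cuts reach from `b₀` to `hi`. -/
def cutsOK (m Vn Vd : ℕ) (N : Node) (hi : ℕ) : ℕ → List (ℕ × ℕ × ℕ × ℕ) → Bool
  | b₀, [] => Nat.ble hi b₀
  | b₀, p :: rest => cutOK m Vn Vd N b₀ p && cutsOK m Vn Vd N hi p.1 rest

/-- A node inside the bin from `lo` to `hi`. -/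
def nodeOK (m Vn Vd lo hi : ℕ) (N : Node) : Bool :=
  lt 0 N.t && lt N.t 10000 && lt lo hi && !N.cuts.isEmpty && cutsOK m Vn Vd N hi lo N.cuts

/-- The bins of the dimension `m + 1` with `Vn / Vd` above the mass of the ball profile. -/
def tableOK (m Vn Vd : ℕ) (bins : List (ℕ × ℕ × List Node)) : Bool :=
  let N := m + 1
  Nat.ble 3 m && lt 0 Vn && lt 0 Vd &&
    Nat.ble (3141593 * (48 * N ^ 4) * (Vd * Vd))
      (2000000 * (Vn * Vn) * N * (48 * N ^ 4 + 24 * N ^ 3 + 6 * N ^ 2 - 3 * N - 2)) &&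
    bins.all fun b => b.2.2.all fun p => nodeOK m Vn Vd b.1 b.2.1 p

end Vale.Agent.P237.Quant.EnvInt
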