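import Mathlib
import Vale.Agent.P237.Quant.EnvelopeBinDefs
import Vale.Agent.P237.Quant.EnvelopeBinInt

/-!
A table of `EnvelopeBinInt` passes the rational check of `EnvelopeBinDefs` once read as rationals.
-/

namespace Vale.Agent.P237.Quant.EnvInt

/-- A node as rationals. -/
def Node.toQ (N : Node) : BinNode :=
  ⟨(N.t : ℚ) / 10000, (N.X : ℚ) / 10000, (N.K : ℚ) / 1000000000000,
    N.cuts.map fun c => ((c.1 : ℚ) / 10000, (c.2.1 : ℚ) / 10000, (c.2.2.1 : ℚ) / 10000,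
      (c.2.2.2 : ℚ) / 100000)⟩

/-- A table as rationals. -/
def tableQ (bins : List (ℕ × ℕ × List Node)) : List (ℚ × ℚ × List BinNode) :=
  bins.map fun b => ((b.1 : ℚ) / 10000, (b.2.1 : ℚ) / 10000, b.2.2.map Node.toQ)

theorem lt_iff {a b : ℕ} : lt a b = true ↔ a < b := by simp [lt, Nat.ble_eq]

theorem le_cast {a b : ℕ} (h : a ≤ b) : (a : ℚ) ≤ b := Nat.cast_le.2 h

/-- The facts on a value below one that every test uses. -/
theorem subs {m T x : ℕ} (hT : T < 10000) (hx : x < 10000) :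
    ((10000 ^ (m + 1) - x * x ^ m : ℕ) : ℚ) = (10000 : ℚ) ^ (m + 1) - (x : ℚ) ^ (m + 1) ∧
      ((10000 - x : ℕ) : ℚ) = 10000 - (x : ℚ) ∧ ((10000 - T : ℕ) : ℚ) = 10000 - (T : ℚ) ∧
      ((10000 ^ m - x ^ m : ℕ) : ℚ) = (10000 : ℚ) ^ m - (x : ℚ) ^ m := by
  refine ⟨?_, ?_, ?_, ?_⟩
  · have h : x * x ^ m ≤ 10000 ^ (m + 1) := by
      rw [← pow_succ']
      exact Nat.pow_le_pow_left hx.le _
    rw [Nat.cast_sub h, pow_succ']
    push_cast
    ring
  · rw [Nat.cast_sub hx.le]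
    norm_num
  · rw [Nat.cast_sub hT.le]
    norm_num
  · rw [Nat.cast_sub (Nat.pow_le_pow_left hx.le _)]
    push_cast
    ring

theorem linePowQ_eq (j : ℕ) {x : ℕ} (hx : x < 10000) :
    linePowQ j ((x : ℚ) / 10000) = ((10000 : ℚ) ^ (j + 1) - (x : ℚ) ^ (j + 1)) /
      (((j : ℚ) + 1) * 10000 ^ j * (10000 - (x : ℚ))) := by
  have hu : (0 : ℚ) < 10000 - (x : ℚ) := sub_pos.2 (by exact_mod_cast hx)
  rw [linePowQ, div_pow, div_eq_div_iff]
  · field_simp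
    ring
  · have : (0 : ℚ) < 1 - (x : ℚ) / 10000 := by linarith
    positivity
  · positivity

theorem endTest_sound {m Vn Vd T x β s B : ℕ} (hm : 1 ≤ m) (hVn : 0 < Vn) (hVd : 0 < Vd)
    (hT : T < 10000) (hx0 : 0 < x) (hx : x < 10000) (hβ : 0 < β)
    (h : endTest m Vn Vd T x β s B (x ^ m) (10000 ^ m) (m + 1) = true) :
    exactTestQ ⟨m, (Vn : ℚ) / Vd⟩ ((T : ℚ) / 10000) ((x : ℚ) / 10000) ((β : ℚ) / 10000)
      ((s : ℚ) / 100000) ((B : ℚ) / 10000) = true := by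
  simp only [endTest, endAt, endCmp, Bool.and_eq_true, Nat.ble_eq, lt_iff, Nat.mul_eq, Nat.add_eq,
    Nat.sub_eq] at h
  rw [← pow_succ'] at h
  obtain ⟨⟨⟨hH, hG⟩, hW⟩, hlt⟩ := h
  replace hlt : (16 * (m + 1) ^ 3 + 8 * (m + 1) ^ 2 + 2 * (m + 1) - 1) * s * (m * β + B - β) *
        (m * x * (m * ((m + 1) * 10000 ^ m * (10000 - x) - (10000 ^ (m + 1) - x * x ^ m))) *
          (10000 * Vn * ((m + 1) * 10000 ^ (m + 1)))) <
      (m * x * (m * ((m + 1) * 10000 ^ m * (10000 - x) - (10000 ^ (m + 1) - x * x ^ m)) *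
            (10000 * Vn * ((m + 1) * 10000 ^ (m + 1))) +
          ((m + 1) * 10000 * (10000 ^ m - x ^ m) - m * (10000 ^ (m + 1) - x * x ^ m)) *
            (B * Vd * (T * (m + 1) * 10000 ^ m + x ^ m * (10000 - T)) -
              10000 * Vn * ((m + 1) * 10000 ^ (m + 1)))) +
        ((m + 1) * 10000 - m * x) * (B * Vd * (x ^ m * (10000 - T))) *
          (m * ((m + 1) * 10000 ^ m * (10000 - x) - (10000 ^ (m + 1) - x * x ^ m)))) *
        (16 * (m + 1) ^ 3 * 100000 * m * β) := by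
    refine lt_of_eq_of_lt ?_ (lt_of_lt_of_eq hlt ?_)
    · ring_nf
    · ring
  obtain ⟨eG, eu, eT, eP⟩ := subs (m := m) hT hx
  have hmβ : β ≤ m * β + B := le_add_of_le_of_nonneg (Nat.le_mul_of_pos_left β hm) (Nat.zero_le B)
  have hmx : m * x ≤ (m + 1) * 10000 :=
    Nat.mul_le_mul (Nat.le_succ m) hx.le
  have hR : 1 ≤ 16 * (m + 1) ^ 3 + 8 * (m + 1) ^ 2 + 2 * (m + 1) := by omega
  have h1 := (Nat.cast_lt (α := ℚ)).2 hlt
  have hGq := (Nat.cast_lt (α := ℚ)).2 hG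
  simp only [Nat.cast_mul, Nat.cast_add, Nat.cast_sub hH, Nat.cast_sub hG.le, Nat.cast_sub hW,
    Nat.cast_sub hmβ, Nat.cast_sub hmx, Nat.cast_sub hR, Nat.cast_pow, Nat.cast_ofNat,
    Nat.cast_one, eG, eu, eT, eP] at h1 hGq
  set N : ℚ := (m : ℚ) + 1 with hN
  set G₁ : ℚ := (10000 : ℚ) ^ (m + 1) - (x : ℚ) ^ (m + 1) with hG₁
  set G₂ : ℚ := N * 10000 ^ m * (10000 - (x : ℚ)) with hG₂
  have hu : (0 : ℚ) < 10000 - (x : ℚ) := sub_pos.2 (by exact_mod_cast hx)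
  have hm' : (0 : ℚ) < m := Nat.cast_pos.2 hm
  have hN0 : 0 < N := by positivity
  have hx' : (0 : ℚ) < x := Nat.cast_pos.2 hx0
  have hβ' : (0 : ℚ) < β := Nat.cast_pos.2 hβ
  have hVn' : (0 : ℚ) < Vn := Nat.cast_pos.2 hVn
  have hVd' : (0 : ℚ) < Vd := Nat.cast_pos.2 hVd
  have hG0 : 0 < G₂ := by positivity
  have hA : 0 < G₂ - G₁ := sub_pos.2 hGq
  simp only [exactTestQ, decide_eq_true_eq]
  obtain ⟨j, rfl⟩ : ∃ j, m = j + 1 := ⟨m - 1, by omega⟩
  have eg : linePowQ (j + 1) ((x : ℚ) / 10000) = G₁ / G₂ := by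
    rw [linePowQ_eq _ hx, hG₁, hG₂, hN]
  have eg' : linePowQ (j + 1 - 1) ((x : ℚ) / 10000) =
      N * 10000 * (10000 ^ (j + 1) - (x : ℚ) ^ (j + 1)) / (((j + 1 : ℕ) : ℚ) * G₂) := by
    rw [Nat.add_sub_cancel, linePowQ_eq _ hx, hG₂, hN]
    push_cast
    field_simp
    ring
  have eR : exactRatioHi (j + 1) =
      (16 * N ^ 3 + 8 * N ^ 2 + 2 * N - 1) / (16 * N ^ 3) := by
    rw [exactRatioHi, hN]
    field_simp
    ring
  rw [eg, eg', eR, hN.symm]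
  have eS : ∀ a : ℚ, a / G₂ - G₁ / G₂ = (a - G₁) / G₂ := fun a => div_sub_div_same a G₁ G₂
  have key : ∀ {L R L' R' c d : ℚ}, 0 < c → 0 < d → L = L' / c → R = R' / d → L' * d < R' * c →
      L < R := by
    intro L R L' R' c d hc hd e1 e2 h
    rw [e1, e2]
    exact (div_lt_div_iff₀ hc hd).2 h
  refine key (c := 16 * N ^ 3 * 100000 * ((j + 1 : ℕ) : ℚ) * β)
    (d := ((j + 1 : ℕ) : ℚ) * x * (((j + 1 : ℕ) : ℚ) * (G₂ - G₁)) *
      (10000 * Vn * (N * 10000 ^ (j + 1 + 1)))) (by positivity) (by positivity) ?_ ?_ h1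
  · field_simp
    ring
  · rw [div_pow]
    have hA' : 1 - G₁ / G₂ ≠ 0 := by
      rw [one_sub_div hG0.ne']
      exact (div_pos hA hG0).ne'
    field_simp
    ring

theorem cutTest_sound {m Vn Vd T b₀ b₁ x β s : ℕ} (hm : 1 ≤ m) (hVn : 0 < Vn) (hVd : 0 < Vd)
    (hT : T < 10000) (hx0 : 0 < x) (hx : x < 10000)
    (h : cutTest m Vn Vd T b₀ b₁ x β s (x ^ m) (10000 ^ m) (m + 1) = true) :
    (decide ((Vn : ℚ) / Vd < (b₀ : ℚ) / 10000 *
        exactMassQ m ((T : ℚ) / 10000) ((x : ℚ) / 10000)) ||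
      (decide (0 < (β : ℚ) / 10000 ∧ 0 < (s : ℚ) / 100000 ∧
          (β : ℚ) / 10000 ≤ ((s : ℚ) / 100000) ^ m ∧
          (Vn : ℚ) / Vd ≤ (b₀ : ℚ) / 10000 * ((T : ℚ) / 10000 +
            ((x : ℚ) / 10000) ^ m * (1 - (T : ℚ) / 10000) / ((m : ℚ) + 1))) &&
        exactTestQ ⟨m, (Vn : ℚ) / Vd⟩ ((T : ℚ) / 10000) ((x : ℚ) / 10000) ((β : ℚ) / 10000)
          ((s : ℚ) / 100000) ((b₀ : ℚ) / 10000) &&
        exactTestQ ⟨m, (Vn : ℚ) / Vd⟩ ((T : ℚ) / 10000) ((x : ℚ) / 10000) ((β : ℚ) / 10000)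
          ((s : ℚ) / 100000) ((b₁ : ℚ) / 10000))) = true := by
  obtain ⟨eG, eu, eT, -⟩ := subs (m := m) hT hx
  have hu : (0 : ℚ) < 10000 - (x : ℚ) := sub_pos.2 (by exact_mod_cast hx)
  have hVd' : (0 : ℚ) < Vd := Nat.cast_pos.2 hVd
  simp only [cutTest, Bool.or_eq_true, Bool.and_eq_true, Nat.ble_eq, lt_iff, Nat.mul_eq,
    Nat.add_eq, Nat.sub_eq, Nat.pow_eq] at h
  rw [← pow_succ'] at h
  simp only [Bool.or_eq_true, Bool.and_eq_true, decide_eq_true_eq]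
  rcases h with h | ⟨⟨⟨⟨⟨hβ, hs⟩, hpow⟩, hV⟩, e0⟩, e1⟩
  · left
    have h1 := (Nat.cast_lt (α := ℚ)).2 h
    simp only [Nat.cast_mul, Nat.cast_add, Nat.cast_pow, Nat.cast_ofNat, Nat.cast_one, eG, eu, eT]
      at h1
    rw [exactMassQ, linePowQ_eq _ hx, div_pow]
    rw [div_lt_iff₀ hVd']
    refine lt_of_mul_lt_mul_right (a := 10000 * (((m : ℚ) + 1) * 10000 ^ (m + 1)) *
      (10000 - (x : ℚ))) ?_ (by positivity)
    calc _ = (10000 : ℚ) * Vn * (((m : ℚ) + 1) * 10000 ^ (m + 1)) * (10000 - (x : ℚ)) := by ring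
      _ < _ := h1
      _ = _ := by
        field_simp
        ring
  · right
    refine ⟨⟨⟨by positivity, by positivity, ?_, ?_⟩, endTest_sound hm hVn hVd hT hx0 hx hβ e0⟩,
      endTest_sound hm hVn hVd hT hx0 hx hβ e1⟩
    · have h1 := le_cast hpow
      push_cast at h1
      rw [div_pow, div_le_div_iff₀ (by norm_num) (by positivity)]
      linarith
    · have h1 := le_cast hV
      simp only [Nat.cast_mul, Nat.cast_add, Nat.cast_pow, Nat.cast_ofNat, Nat.cast_one, eT] at h1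
      rw [div_pow, div_le_iff₀ hVd']
      refine le_of_mul_le_mul_right ?_
        (by positivity : (0 : ℚ) < 10000 * (((m : ℚ) + 1) * 10000 ^ (m + 1)))
      calc _ = (10000 : ℚ) * Vn * (((m : ℚ) + 1) * 10000 ^ (m + 1)) := by ring
        _ ≤ _ := h1
        _ = _ := by
          field_simp
          ring

theorem cuts_sound {m Vn Vd : ℕ} (hm : 1 ≤ m) (hVn : 0 < Vn) (hVd : 0 < Vd) {N : Node}
    (hT : N.t < 10000) {hi : ℕ} : ∀ (cs : List (ℕ × ℕ × ℕ × ℕ)) (b₀ : ℕ),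
      cutsOK m Vn Vd N hi b₀ cs = true →
      exactCutsQ ⟨m, (Vn : ℚ) / Vd⟩ N.toQ ((hi : ℚ) / 10000) ((b₀ : ℚ) / 10000)
        (cs.map fun c => ((c.1 : ℚ) / 10000, (c.2.1 : ℚ) / 10000, (c.2.2.1 : ℚ) / 10000,
          (c.2.2.2 : ℚ) / 100000)) = true
  | [], b₀, h => by
    simp only [cutsOK, Nat.ble_eq] at h
    simp only [List.map_nil, exactCutsQ, decide_eq_true_eq]
    exact div_le_div_of_nonneg_right (le_cast h) (by norm_num)
  | (b₁, x, β, s) :: rest, b₀, h => by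
    simp only [cutsOK, Bool.and_eq_true] at h
    obtain ⟨hc, hr⟩ := h
    simp only [List.map_cons, exactCutsQ, Bool.and_eq_true]
    refine ⟨?_, cuts_sound hm hVn hVd hT rest b₁ hr⟩
    simp only [cutOK, Bool.and_eq_true, Bool.or_eq_true, Nat.ble_eq, lt_iff, Nat.mul_eq, Nat.pow_eq,
      Nat.succ_eq_add_one] at hc
    obtain ⟨⟨h01, h0⟩, hc⟩ := hc
    simp only [exactCutQ, Node.toQ, Bool.and_eq_true, decide_eq_true_eq]
    refine ⟨⟨div_le_div_of_nonneg_right (le_cast h01) (by norm_num), by positivity⟩, ?_⟩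
    rw [Bool.or_eq_true]
    rcases hc with ⟨hK, hX⟩ | ⟨⟨⟨⟨hx0, hx1⟩, hK⟩, hX⟩, ht⟩
    · left
      refine decide_eq_true ?_
      have h1 := le_cast hK
      push_cast at h1
      exact ⟨(div_le_div_iff₀ (by norm_num) (by norm_num)).2 h1,
        (one_le_div (by norm_num)).2 (by exact_mod_cast hX)⟩
    · right
      rw [Bool.and_eq_true]
      refine ⟨decide_eq_true ⟨by positivity, (div_lt_one (by norm_num)).2 (by exact_mod_cast hx1), ?_,
        div_le_div_of_nonneg_right (le_cast hX) (by norm_num)⟩,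
        cutTest_sound hm hVn hVd hT hx0 hx1 ht⟩
      have h1 := le_cast hK
      push_cast at h1
      rw [div_pow, div_mul_div_comm, div_le_div_iff₀ (by positivity) (by norm_num)]
      linarith

/-- A checked table passes the rational check. -/
theorem table_sound {m Vn Vd : ℕ} {bins : List (ℕ × ℕ × List Node)}
    (h : tableOK m Vn Vd bins = true) :
    (⟨m, (Vn : ℚ) / Vd⟩ : ExactDim).check = true ∧
      ((tableQ bins).all fun b => b.2.2.all fun N =>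
        N.check ⟨m, (Vn : ℚ) / Vd⟩ b.1 b.2.1) = true := by
  simp only [tableOK, Bool.and_eq_true, Nat.ble_eq, lt_iff, List.all_eq_true] at h
  obtain ⟨⟨⟨⟨hm, hVn⟩, hVd⟩, hpi⟩, hb⟩ := h
  refine ⟨?_, ?_⟩
  · simp only [ExactDim.check, decide_eq_true_eq]
    refine ⟨hm, by positivity, ?_⟩
    have hN : 1 ≤ m + 1 := by omega
    have p1 : m + 1 ≤ (m + 1) ^ 4 := Nat.le_self_pow (by norm_num) _
    have hsub : 3 * (m + 1) ≤
        48 * (m + 1) ^ 4 + 24 * (m + 1) ^ 3 + 6 * (m + 1) ^ 2 := by omega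
    have hsub' : 2 ≤ 48 * (m + 1) ^ 4 + 24 * (m + 1) ^ 3 + 6 * (m + 1) ^ 2 - 3 * (m + 1) := by
      omega
    have h1 := le_cast hpi
    rw [Nat.cast_mul, Nat.cast_mul _ (48 * (m + 1) ^ 4 + _ + _ - _ - _), Nat.cast_sub hsub',
      Nat.cast_sub hsub] at h1
    push_cast at h1
    have hVd' : (0 : ℚ) < Vd := Nat.cast_pos.2 hVd
    rw [exactRatioLo]
    refine le_of_mul_le_mul_right ?_
      (by positivity : (0 : ℚ) < 2000000 * (48 * ((m : ℚ) + 1) ^ 4 * ((Vd : ℚ) * Vd)))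
    calc _ = 3141593 * (48 * ((m : ℚ) + 1) ^ 4) * ((Vd : ℚ) * Vd) := by ring
      _ ≤ _ := h1
      _ = _ := by
        field_simp
        ring
  · simp only [tableQ, List.all_eq_true, List.mem_map]
    rintro _ ⟨b, hbm, rfl⟩ _ hN
    obtain ⟨N, hNm, rfl⟩ := List.mem_map.1 hN
    have hn := hb b hbm N hNm
    simp only [nodeOK, Bool.and_eq_true, lt_iff, Bool.not_eq_true'] at hn
    obtain ⟨⟨⟨⟨ht0, ht1⟩, hlh⟩, hne⟩, hc⟩ := hn
    simp only [BinNode.check, Bool.and_eq_true, decide_eq_true_eq]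
    refine ⟨⟨by simp only [Node.toQ]; positivity, ?_, by simp only [Node.toQ]; positivity, ?_, ?_⟩,
      cuts_sound (by omega) hVn hVd ht1 _ _ hc⟩
    · simp only [Node.toQ]
      exact (div_lt_one (by norm_num)).2 (by exact_mod_cast ht1)
    · exact div_lt_div_of_pos_right (Nat.cast_lt.2 hlh) (by norm_num)
    · simp only [Node.toQ, ne_eq, List.map_eq_nil_iff]
      intro e
      simp [e] at hne

end Vale.Agent.P237.Quant.EnvInt
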