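import Mathlib
import Vale.Agent.P237.Quant.EnvelopeBin

/-!
How the checked bins of `EnvelopeBinData` are used: a node bounds the power of the value against
the squared mean, in one dimension and on a range of dimensions.
-/

namespace Vale.Agent.P237.Quant

open MeasureTheory Set Real

variable {m : ℕ} {φ : ℝ → ℝ}

/-- A node of a checked dimension, against the squared mean. -/
theorem envelope_bins (hφ : IsShape φ) {R : ExactDim} {bins : List (ℚ × ℚ × List BinNode)}
    (h : R.check = true ∧ (bins.all fun b => b.2.2.all fun N => N.check R b.1 b.2.1) = true)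
    (hp : powRatio R.m φ ≤ 1) {b : ℚ × ℚ × List BinNode} (hb : b ∈ bins) {N : BinNode}
    (hN : N ∈ b.2.2) {σ M : ℝ}
    (hs : mass R.m φ 1 ≤ σ * M ^ 2 * mass R.m ballShape 1)
    (hlo : (b.1 : ℝ) * mass R.m φ 1 ≤ mass R.m ballShape 1 * φ 0 ^ R.m)
    (hhi : mass R.m ballShape 1 * φ 0 ^ R.m ≤ (b.2.1 : ℝ) * mass R.m φ 1) {u : ℝ}
    (hu : (N.t : ℝ) ≤ u) (hu1 : u ≤ 1) :
    φ u ^ R.m ≤ σ * (N.K : ℝ) * M ^ 2 := by
  have hc := List.all_eq_true.1 (List.all_eq_true.1 h.2 b hb) N hN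
  have hK : (0 : ℝ) ≤ N.K := by
    simp only [BinNode.check, Bool.and_eq_true, decide_eq_true_eq] at hc
    exact_mod_cast hc.1.2.2.1
  refine le_of_mul_le_mul_right ?_ (ball_mass_pos R.m)
  calc φ u ^ R.m * mass R.m ballShape 1 ≤ (N.K : ℝ) * mass R.m φ 1 :=
        (envelope_bin hφ hp h.1 hc hlo hhi hu hu1).1
    _ ≤ (N.K : ℝ) * (σ * M ^ 2 * mass R.m ballShape 1) := mul_le_mul_of_nonneg_left hs hK
    _ = _ := by ring

/-- A node of a checked range of dimensions, against the squared mean. -/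
theorem envelope_bins_range (hφ : IsShape φ) (hp : powRatio m φ ≤ 1) {R : EnvRange}
    {bins : List (ℚ × ℚ × List RangeBinNode)}
    (h : R.check = true ∧ (bins.all fun b => b.2.2.all fun N => N.check R b.1 b.2.1) = true)
    (hm : R.Mem (m + 1)) {b : ℚ × ℚ × List RangeBinNode} (hb : b ∈ bins) {N : RangeBinNode}
    (hN : N ∈ b.2.2) {σ M : ℝ}
    (hs : mass m φ 1 ≤ σ * M ^ 2 * mass m ballShape 1)
    (hlo : (b.1 : ℝ) * mass m φ 1 ≤ mass m ballShape 1 * φ 0 ^ m)
    (hhi : mass m ballShape 1 * φ 0 ^ m ≤ (b.2.1 : ℝ) * mass m φ 1) {t : ℝ}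
    (ht : (N.Z : ℝ) / √((m : ℝ) + 1) ≤ t) (ht1 : t ≤ 1) :
    φ t ^ m ≤ σ * (N.K : ℝ) * M ^ 2 := by
  have hc := List.all_eq_true.1 (List.all_eq_true.1 h.2 b hb) N hN
  have hK : (0 : ℝ) ≤ N.K := by
    simp only [RangeBinNode.check, Bool.and_eq_true, decide_eq_true_eq] at hc
    exact_mod_cast hc.1.2.2.2.2.2.1
  refine le_of_mul_le_mul_right ?_ (ball_mass_pos m)
  calc φ t ^ m * mass m ballShape 1 ≤ (N.K : ℝ) * mass m φ 1 :=
        (envelope_bin_range hφ hp h.1 hm hc hlo hhi ht ht1).1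
    _ ≤ (N.K : ℝ) * (σ * M ^ 2 * mass m ballShape 1) := mul_le_mul_of_nonneg_left hs hK
    _ = _ := by ring

/-- Past a node the value stays below the line through the centre and the node: with
`φ T ≤ X φ 0` the bound of the power keeps falling between the nodes. -/
theorem envelope_chord (hφ : IsShape φ) {T t X : ℝ} (hT : 0 < T) (hTt : T ≤ t) (ht1 : t ≤ 1)
    (hX : 0 < X) (h : φ T ≤ X * φ 0) : φ t ≤ φ T * (t / T - (t / T - 1) / X) := by
  have h3 := shape_three hφ (p := 0) (by norm_num) hT.le hTt ht1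
  simp only [sub_zero] at h3
  have h4 : (t - T) * φ T ≤ (t - T) * (X * φ 0) := mul_le_mul_of_nonneg_left h (sub_nonneg.2 hTt)
  have h6 : (t - T) * φ T / X ≤ (t - T) * φ 0 := by
    rw [div_le_iff₀ hX]
    nlinarith
  refine le_of_mul_le_mul_left ?_ hT
  have e : T * (φ T * (t / T - (t / T - 1) / X)) = t * φ T - (t - T) * φ T / X := by
    field_simp
  rw [e]
  nlinarith

/-- The bound of the value against the centre that a range node gives. -/
theorem range_node_ratio (hm : 1 ≤ m) {T L : ℝ} (hL : 0 ≤ L) (h0 : 0 ≤ φ T) (hy : 0 < φ 0)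
    (h : φ T ^ m ≤ exp (-L) * φ 0 ^ m) : φ T ≤ 1 / (1 + L / m) * φ 0 := by
  have hm' : (0 : ℝ) < m := by exact_mod_cast hm
  have h1 : exp (-L) * φ 0 ^ m = (exp (-L / m) * φ 0) ^ m := by
    rw [mul_pow, ← exp_nat_mul]
    congr 2
    field_simp
  rw [h1] at h
  refine ((pow_le_pow_iff_left₀ h0 (by positivity) (by omega)).1 h).trans
    (mul_le_mul_of_nonneg_right ?_ hy.le)
  rw [neg_div, exp_neg, one_div]
  exact inv_anti₀ (by positivity) (by linarith [add_one_le_exp (L / m)])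

end Vale.Agent.P237.Quant
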