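import Mathlib
import Vale.Agent.P237.Quant.EnvelopeData.Small4
import Vale.Agent.P237.Quant.EnvelopeData.Small10
import Vale.Agent.P237.Quant.EnvelopeData.Small14
import Vale.Agent.P237.Quant.EnvelopeData.Small18
import Vale.Agent.P237.Quant.EnvelopeData.Small22
import Vale.Agent.P237.Quant.EnvelopeData.Small26
import Vale.Agent.P237.Quant.EnvelopeExact
import Vale.Agent.P237.Quant.Spectral

/-!
The tables for `4 ≤ n ≤ 29` together.
-/

namespace Vale.Agent.P237.Quant

open Set Real

/-- The table. -/
def envSmall : List (ExactDim × List ExactNode) :=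
  [(envDim4, envExact4),
   (envDim5, envExact5),
   (envDim6, envExact6),
   (envDim7, envExact7),
   (envDim8, envExact8),
   (envDim9, envExact9),
   (envDim10, envExact10),
   (envDim11, envExact11),
   (envDim12, envExact12),
   (envDim13, envExact13),
   (envDim14, envExact14),
   (envDim15, envExact15),
   (envDim16, envExact16),
   (envDim17, envExact17),
   (envDim18, envExact18),
   (envDim19, envExact19),
   (envDim20, envExact20),
   (envDim21, envExact21),
   (envDim22, envExact22),
   (envDim23, envExact23),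
   (envDim24, envExact24),
   (envDim25, envExact25),
   (envDim26, envExact26),
   (envDim27, envExact27),
   (envDim28, envExact28),
   (envDim29, envExact29)]

theorem envSmall_check : ∀ P ∈ envSmall, P.1.check = true ∧
    (P.2.all fun N => N.check P.1) = true := by
  intro P hP
  simp only [envSmall, List.mem_cons, List.not_mem_nil, or_false] at hP
  rcases hP with rfl | rfl | rfl | rfl | rfl | rfl | rfl | rfl | rfl | rfl | rfl | rfl | rfl | rfl | rfl | rfl | rfl | rfl | rfl | rfl | rfl | rfl | rfl | rfl | rfl | rfl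
  · exact envExact4_check
  · exact envExact5_check
  · exact envExact6_check
  · exact envExact7_check
  · exact envExact8_check
  · exact envExact9_check
  · exact envExact10_check
  · exact envExact11_check
  · exact envExact12_check
  · exact envExact13_check
  · exact envExact14_check
  · exact envExact15_check
  · exact envExact16_check
  · exact envExact17_check
  · exact envExact18_check
  · exact envExact19_check
  · exact envExact20_check
  · exact envExact21_check
  · exact envExact22_check
  · exact envExact23_check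
  · exact envExact24_check
  · exact envExact25_check
  · exact envExact26_check
  · exact envExact27_check
  · exact envExact28_check
  · exact envExact29_check

/-- Every dimension from 4 to 29 is in the table. -/
theorem envSmall_cover {m : ℕ} (h₀ : 3 ≤ m) (h₁ : m ≤ 28) : ∃ P ∈ envSmall, P.1.m = m := by
  interval_cases m
  · exact ⟨(envDim4, envExact4), by simp [envSmall], rfl⟩
  · exact ⟨(envDim5, envExact5), by simp [envSmall], rfl⟩
  · exact ⟨(envDim6, envExact6), by simp [envSmall], rfl⟩
  · exact ⟨(envDim7, envExact7), by simp [envSmall], rfl⟩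
  · exact ⟨(envDim8, envExact8), by simp [envSmall], rfl⟩
  · exact ⟨(envDim9, envExact9), by simp [envSmall], rfl⟩
  · exact ⟨(envDim10, envExact10), by simp [envSmall], rfl⟩
  · exact ⟨(envDim11, envExact11), by simp [envSmall], rfl⟩
  · exact ⟨(envDim12, envExact12), by simp [envSmall], rfl⟩
  · exact ⟨(envDim13, envExact13), by simp [envSmall], rfl⟩
  · exact ⟨(envDim14, envExact14), by simp [envSmall], rfl⟩
  · exact ⟨(envDim15, envExact15), by simp [envSmall], rfl⟩
  · exact ⟨(envDim16, envExact16), by simp [envSmall], rfl⟩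
  · exact ⟨(envDim17, envExact17), by simp [envSmall], rfl⟩
  · exact ⟨(envDim18, envExact18), by simp [envSmall], rfl⟩
  · exact ⟨(envDim19, envExact19), by simp [envSmall], rfl⟩
  · exact ⟨(envDim20, envExact20), by simp [envSmall], rfl⟩
  · exact ⟨(envDim21, envExact21), by simp [envSmall], rfl⟩
  · exact ⟨(envDim22, envExact22), by simp [envSmall], rfl⟩
  · exact ⟨(envDim23, envExact23), by simp [envSmall], rfl⟩
  · exact ⟨(envDim24, envExact24), by simp [envSmall], rfl⟩
  · exact ⟨(envDim25, envExact25), by simp [envSmall], rfl⟩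
  · exact ⟨(envDim26, envExact26), by simp [envSmall], rfl⟩
  · exact ⟨(envDim27, envExact27), by simp [envSmall], rfl⟩
  · exact ⟨(envDim28, envExact28), by simp [envSmall], rfl⟩
  · exact ⟨(envDim29, envExact29), by simp [envSmall], rfl⟩

variable {φ : ℝ → ℝ}

/-- The envelope of the table. -/
theorem envSmall_bound (hφ : IsShape φ) {P : ExactDim × List ExactNode} (hP : P ∈ envSmall)
    (hp : powRatio P.1.m φ ≤ 1) {N : ExactNode} (hN : N ∈ P.2) {u : ℝ} (hu : (N.t : ℝ) ≤ u)
    (hu1 : u ≤ 1) :
    φ u ^ P.1.m * mass P.1.m ballShape 1 ≤ (N.K : ℝ) * mass P.1.m φ 1 :=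
  envelope_exact hφ hp (envSmall_check P hP).1 (envSmall_check P hP).2 hN hu hu1

/-- The envelope of the table as a bound of `specU` by its mean. -/
theorem specU_le_small (hφ : IsShape φ) {P : ExactDim × List ExactNode} (hP : P ∈ envSmall)
    (hp : powRatio P.1.m φ ≤ 1) {σ : ℝ}
    (hs : mass P.1.m φ 1 ≤ σ * specM P.1.m φ ^ 2 * mass P.1.m ballShape 1) {N : ExactNode}
    (hN : N ∈ P.2) {u U : ℝ} (hu0 : 0 ≤ u) (hu : (N.t : ℝ) ≤ u) (hu1 : u < 1) (hU : 0 ≤ U)
    (hK : σ * (N.K : ℝ) ≤ U ^ 2 * ballShape u ^ P.1.m) :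
    specU P.1.m φ u ≤ U * specM P.1.m φ := by
  have h := envSmall_bound hφ hP hp hN hu hu1.le
  obtain ⟨hR, hN'⟩ := envSmall_check P hP
  have hm : 1 ≤ P.1.m := by
    simp only [ExactDim.check, decide_eq_true_eq] at hR
    omega
  have hN'' := List.all_eq_true.1 hN' N hN
  simp only [ExactNode.check, Bool.and_eq_true, decide_eq_true_eq] at hN''
  obtain ⟨⟨-, -, hK0, -, -⟩, -⟩ := hN''
  have hK0' : (0 : ℝ) ≤ N.K := by exact_mod_cast hK0
  have huI : u ∈ Set.Ioo (-1 : ℝ) 1 := ⟨by linarith, hu1⟩
  have hb := ball_pos huI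
  refine (pow_le_pow_iff_left₀ (specU_pos hφ huI).le
    (mul_nonneg hU (specM_pos hm hφ).le) two_ne_zero).1 ?_
  rw [specU_sq hφ huI, div_pow, div_le_iff₀ (pow_pos hb _)]
  refine le_of_mul_le_mul_right ?_ (ball_mass_pos P.1.m)
  calc φ u ^ P.1.m * mass P.1.m ballShape 1 ≤ (N.K : ℝ) * mass P.1.m φ 1 := h
    _ ≤ (N.K : ℝ) * (σ * specM P.1.m φ ^ 2 * mass P.1.m ballShape 1) :=
        mul_le_mul_of_nonneg_left hs hK0'
    _ = σ * (N.K : ℝ) * (specM P.1.m φ ^ 2 * mass P.1.m ballShape 1) := by ring
    _ ≤ U ^ 2 * ballShape u ^ P.1.m * (specM P.1.m φ ^ 2 * mass P.1.m ballShape 1) :=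
        mul_le_mul_of_nonneg_right hK (mul_nonneg (sq_nonneg _) (ball_mass_pos _).le)
    _ = (U * specM P.1.m φ) ^ 2 * ballShape u ^ P.1.m * mass P.1.m ballShape 1 := by ring

end Vale.Agent.P237.Quant
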