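import Mathlib
import Vale.Agent.P237.Quant.EnvelopeCheck
import Vale.Agent.P237.Quant.Spectral

/-!
The checked envelope in the form of the tail lemma: with the mass below `σ` times the squared mean,
`specU t ≤ U M` as soon as `σ K ≤ U ^ 2 p t ^ m`.
-/

namespace Vale.Agent.P237.Quant

open MeasureTheory Set Real

variable {m : ℕ} {φ : ℝ → ℝ}

/-- The envelope of a table as a bound of `specU` by its mean. -/
theorem specU_le_table (hφ : IsShape φ) (hp : powRatio m φ ≤ 1) {σ : ℝ}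
    (hs : mass m φ 1 ≤ σ * specM m φ ^ 2 * mass m ballShape 1)
    {R : EnvRange} {nodes : List EnvNode} (hR : R.check = true)
    (hN : (nodes.all fun N => N.check R) = true) (hm : R.Mem (m + 1)) {N : EnvNode}
    (hmem : N ∈ nodes) {t U : ℝ} (ht : (N.Z : ℝ) / √((m : ℝ) + 1) ≤ t) (ht1 : t < 1)
    (hU : 0 ≤ U) (hK : σ * (N.K : ℝ) ≤ U ^ 2 * ballShape t ^ m) :
    specU m φ t ≤ U * specM m φ := by
  have h := envelope_table hφ hp hR hN hm hmem ht ht1.le
  have hm3 : 1 ≤ m := by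
    simp only [EnvRange.check, decide_eq_true_eq] at hR
    have := hm.1
    omega
  have hN' := List.all_eq_true.1 hN N hmem
  simp only [EnvNode.check, Bool.and_eq_true, decide_eq_true_eq] at hN'
  obtain ⟨⟨hZ, -, -, -, -, hK0⟩, -⟩ := hN'
  have hK0' : (0 : ℝ) ≤ N.K := by exact_mod_cast hK0
  have ht0 : 0 ≤ t := le_trans (div_nonneg (by exact_mod_cast hZ.le) (sqrt_nonneg _)) ht
  have htI : t ∈ Ioo (-1 : ℝ) 1 := ⟨by linarith, ht1⟩
  have hb := ball_pos htI
  refine (pow_le_pow_iff_left₀ (specU_pos hφ htI).le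
    (mul_nonneg hU (specM_pos hm3 hφ).le) two_ne_zero).1 ?_
  rw [specU_sq hφ htI, div_pow, div_le_iff₀ (pow_pos hb m)]
  refine le_of_mul_le_mul_right ?_ (ball_mass_pos m)
  calc φ t ^ m * mass m ballShape 1 ≤ (N.K : ℝ) * mass m φ 1 := h
    _ ≤ (N.K : ℝ) * (σ * specM m φ ^ 2 * mass m ballShape 1) :=
        mul_le_mul_of_nonneg_left hs hK0'
    _ = σ * (N.K : ℝ) * (specM m φ ^ 2 * mass m ballShape 1) := by ring
    _ ≤ U ^ 2 * ballShape t ^ m * (specM m φ ^ 2 * mass m ballShape 1) :=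
        mul_le_mul_of_nonneg_right hK (mul_nonneg (sq_nonneg _) (ball_mass_pos m).le)
    _ = (U * specM m φ) ^ 2 * ballShape t ^ m * mass m ballShape 1 := by ring

end Vale.Agent.P237.Quant
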