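import Mathlib
import Vale.Agent.P237.Quant.EnvelopeU
import Vale.Agent.P237.Quant.EnvelopeData.Table30
import Vale.Agent.P237.Quant.EnvelopeData.Table105
import Vale.Agent.P237.Quant.EnvelopeData.Table260

/-!
The envelope table for `n ≥ 30`: in eleven ranges of the dimension, `φ t ^ m V₀ ≤ K mass` from the
points `t = Z / √n`, `Z` in steps of a quarter from `9 / 4`. Generated data, checked by the kernel.
-/

namespace Vale.Agent.P237.Quant

open Set Real

/-- The table. -/
def envTable : List (EnvRange × List EnvNode) :=
  [(envRange30, envNodes30),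
   (envRange34, envNodes34),
   (envRange39, envNodes39),
   (envRange45, envNodes45),
   (envRange53, envNodes53),
   (envRange64, envNodes64),
   (envRange80, envNodes80),
   (envRange105, envNodes105),
   (envRange150, envNodes150),
   (envRange260, envNodes260),
   (envRange700, envNodes700)]

theorem envTable_check : ∀ P ∈ envTable, P.1.check = true ∧
    (P.2.all fun N => N.check P.1) = true := by
  intro P hP
  simp only [envTable, List.mem_cons, List.not_mem_nil, or_false] at hP
  rcases hP with rfl | rfl | rfl | rfl | rfl | rfl | rfl | rfl | rfl | rfl | rfl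
  · exact envNodes30_check
  · exact envNodes34_check
  · exact envNodes39_check
  · exact envNodes45_check
  · exact envNodes53_check
  · exact envNodes64_check
  · exact envNodes80_check
  · exact envNodes105_check
  · exact envNodes150_check
  · exact envNodes260_check
  · exact envNodes700_check

/-- Every dimension from 30 on is in a range. -/
theorem envTable_cover {n : ℕ} (hn : 30 ≤ n) : ∃ P ∈ envTable, P.1.Mem n := by
  rcases le_or_gt n 34 with h | h
  · exact ⟨(envRange30, envNodes30), by simp [envTable], by simp [EnvRange.Mem, envRange30]; omega⟩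
  rcases le_or_gt n 39 with h | h
  · exact ⟨(envRange34, envNodes34), by simp [envTable], by simp [EnvRange.Mem, envRange34]; omega⟩
  rcases le_or_gt n 45 with h | h
  · exact ⟨(envRange39, envNodes39), by simp [envTable], by simp [EnvRange.Mem, envRange39]; omega⟩
  rcases le_or_gt n 53 with h | h
  · exact ⟨(envRange45, envNodes45), by simp [envTable], by simp [EnvRange.Mem, envRange45]; omega⟩
  rcases le_or_gt n 64 with h | h
  · exact ⟨(envRange53, envNodes53), by simp [envTable], by simp [EnvRange.Mem, envRange53]; omega⟩
  rcases le_or_gt n 80 with h | h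
  · exact ⟨(envRange64, envNodes64), by simp [envTable], by simp [EnvRange.Mem, envRange64]; omega⟩
  rcases le_or_gt n 105 with h | h
  · exact ⟨(envRange80, envNodes80), by simp [envTable], by simp [EnvRange.Mem, envRange80]; omega⟩
  rcases le_or_gt n 150 with h | h
  · exact ⟨(envRange105, envNodes105), by simp [envTable], by simp [EnvRange.Mem, envRange105]; omega⟩
  rcases le_or_gt n 260 with h | h
  · exact ⟨(envRange150, envNodes150), by simp [envTable], by simp [EnvRange.Mem, envRange150]; omega⟩
  rcases le_or_gt n 700 with h | h
  · exact ⟨(envRange260, envNodes260), by simp [envTable], by simp [EnvRange.Mem, envRange260]; omega⟩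
  exact ⟨(envRange700, envNodes700), by simp [envTable], by simp [EnvRange.Mem, envRange700]; omega⟩

variable {m : ℕ} {φ : ℝ → ℝ}

/-- The envelope of the table, in every range that holds `n = m + 1`. -/
theorem envTable_bound (hφ : IsShape φ) (hp : powRatio m φ ≤ 1) {P : EnvRange × List EnvNode}
    (hP : P ∈ envTable) (hm : P.1.Mem (m + 1)) {N : EnvNode} (hN : N ∈ P.2) {t : ℝ}
    (ht : (N.Z : ℝ) / √((m : ℝ) + 1) ≤ t) (ht1 : t ≤ 1) :
    φ t ^ m * mass m ballShape 1 ≤ (N.K : ℝ) * mass m φ 1 :=
  envelope_table hφ hp (envTable_check P hP).1 (envTable_check P hP).2 hm hN ht ht1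

end Vale.Agent.P237.Quant
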