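import Mathlib
import Vale.Agent.P237.Quant.LinearCauchy
import Vale.Agent.P237.Quant.Moments

/-!
The flux of `r p - 1` lies between zero and `λ t p ^ n / (n (1 + p))`, `n = m + 1`: the derivative
of the difference changes its sign once, and both ends vanish. Squared, this is the bound of the
flux by the affine weight that the Cauchy bound of the mean needs, with closed constants.
-/

namespace Vale.Agent.P237.Quant

open MeasureTheory Set Filter Topology

variable {m : ℕ}

/-- A function on `[0, 1]` with two zero ends whose derivative changes sign once from `+` to `-`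
is nonnegative. -/
theorem nonneg_of_single_crossing {D D' : ℝ → ℝ} (hc : ContinuousOn D (Icc 0 1))
    (hd : ∀ t ∈ Ioo (0 : ℝ) 1, HasDerivAt D (D' t) t) (h0 : D 0 = 0) (h1 : D 1 = 0)
    (hs : ∀ s ∈ Ioo (0 : ℝ) 1, ∀ t ∈ Ioo (0 : ℝ) 1, s ≤ t → 0 ≤ D' t → 0 ≤ D' s)
    {t : ℝ} (ht : t ∈ Ioo (0 : ℝ) 1) : 0 ≤ D t := by
  rcases le_or_gt 0 (D' t) with h | h
  · have hsub : Icc 0 t ⊆ Icc (0 : ℝ) 1 := Icc_subset_Icc le_rfl ht.2.le
    have hmono : MonotoneOn D (Icc 0 t) := monotoneOn_of_hasDerivWithinAt_nonneg (convex_Icc 0 t)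
      (hc.mono hsub) (f' := D') (fun x hx => by
        rw [interior_Icc] at hx
        exact (hd x ⟨hx.1, hx.2.trans ht.2⟩).hasDerivWithinAt) fun x hx => by
        rw [interior_Icc] at hx
        exact hs x ⟨hx.1, hx.2.trans ht.2⟩ t ht hx.2.le h
    simpa [h0] using hmono (left_mem_Icc.2 ht.1.le) (right_mem_Icc.2 ht.1.le) ht.1.le
  · have hsub : Icc t 1 ⊆ Icc (0 : ℝ) 1 := Icc_subset_Icc ht.1.le le_rfl
    have hanti : AntitoneOn D (Icc t 1) := antitoneOn_of_hasDerivWithinAt_nonpos (convex_Icc t 1)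
      (hc.mono hsub) (f' := D') (fun x hx => by
        rw [interior_Icc] at hx
        exact (hd x ⟨ht.1.trans hx.1, hx.2⟩).hasDerivWithinAt) fun x hx => by
        rw [interior_Icc] at hx
        by_contra hx0
        exact absurd (hs t ht x ⟨ht.1.trans hx.1, hx.2⟩ hx.1.le (not_le.1 hx0).le) (not_le.2 h)
    simpa [h1] using hanti (left_mem_Icc.2 ht.2.le) (right_mem_Icc.2 ht.2.le) ht.2.le

theorem ball_anti {s t : ℝ} (hs : 0 ≤ s) (hst : s ≤ t) : ballShape t ≤ ballShape s :=
  Real.sqrt_le_sqrt (by nlinarith)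

theorem linFlux_nonneg (hm : 1 ≤ m) {t : ℝ} (ht : t ∈ Ioo (0 : ℝ) 1) : 0 ≤ linFlux m t := by
  refine nonneg_of_single_crossing
    (D' := fun t => ballShape t ^ (m - 1) * (ballRatio m * ballShape t - 1))
    (continuous_iff_continuousAt.2 fun x => (hasDerivAt_linFlux m x).continuousAt).continuousOn
    (fun x _ => hasDerivAt_linFlux m x) intervalIntegral.integral_same (linFlux_one hm)
    (fun s hs x hx hsx h => ?_) ht
  have hpx := ball_pos (sub01 hx)
  refine mul_nonneg (pow_nonneg (Real.sqrt_nonneg _) _) (sub_nonneg.2 ?_)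
  exact (sub_nonneg.1 ((mul_nonneg_iff_of_pos_left (pow_pos hpx _)).1 h)).trans
    (mul_le_mul_of_nonneg_left (ball_anti hs.1.le hsx) (zero_le_one.trans (one_le_ballRatio m)))

/-- The upper comparison of the flux. -/
theorem linFlux_le_closed (hm : 1 ≤ m) {lam : ℝ} (hl : 1 ≤ lam)
    (hr : 2 * ((m : ℝ) + 1) * (ballRatio m - 1) ≤ lam) {t : ℝ} (ht : t ∈ Ioo (0 : ℝ) 1) :
    linFlux m t ≤ lam / ((m : ℝ) + 1) * t * ballShape t ^ (m + 1) / (1 + ballShape t) := by
  set n := (m : ℝ) + 1 with hn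
  have hn0 : 0 < n := by positivity
  set δ := ballRatio m - 1 with hδ
  set g : ℝ → ℝ := fun p => lam * p / n - δ * p * (1 + p) - (lam - 1) * (1 - p ^ 2) with hg
  have hcore : ∀ a p : ℝ, 0 < a → a ≤ p → p ≤ 1 → 0 ≤ g a → 0 ≤ g p := fun a p ha hap hp1 h => by
    rcases hp1.eq_or_lt with h1 | h1
    · subst h1
      simp only [hg]
      have : 2 * δ ≤ lam / n := by rw [le_div_iff₀ hn0]; linarith
      linarith [show lam * 1 / n = lam / n by ring]
    have hg1 : 0 ≤ g 1 := by
      simp only [hg]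
      have : 2 * δ ≤ lam / n := by rw [le_div_iff₀ hn0]; linarith
      linarith [show lam * 1 / n = lam / n by ring]
    have key : a * (1 - a) * g p = p * (1 - p) * g a + p * (p - a) * a * g 1 +
        (lam - 1) * (p - a) * (1 - a) * (1 - p) := by simp only [hg]; ring
    have : 0 ≤ a * (1 - a) * g p := by
      rw [key]
      have : 0 ≤ p := ha.le.trans hap
      have h2 : 0 ≤ (lam - 1) * (p - a) * (1 - a) * (1 - p) :=
        mul_nonneg (mul_nonneg (mul_nonneg (by linarith) (by linarith)) (by linarith)) (by linarith)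
      have h3 := mul_nonneg (mul_nonneg (this) (show 0 ≤ 1 - p by linarith)) h
      have h4 := mul_nonneg (mul_nonneg (mul_nonneg (this) (show 0 ≤ p - a by linarith)) ha.le) hg1
      linarith
    exact (mul_nonneg_iff_of_pos_left (mul_pos ha (by linarith))).1 this
  have hd : ∀ x ∈ Ioo (0 : ℝ) 1, HasDerivAt
      (fun x => lam / n * x * ballShape x ^ (m + 1) / (1 + ballShape x) - linFlux m x)
      (ballShape x ^ (m - 1) / (1 + ballShape x) * g (ballShape x)) x := fun x hx => by
    have hp := ball_pos (sub01 hx)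
    have hb := hasDerivAt_ball (sub01 hx)
    refine (((((hasDerivAt_id' x).const_mul (lam / n)).fun_mul (hb.fun_pow (m + 1))).fun_div
      (hb.const_add 1) (by positivity)).fun_sub (hasDerivAt_linFlux m x)).congr_deriv ?_
    have hsq : x ^ 2 = 1 - ballShape x ^ 2 := by
      rw [ball_sq (Ioo_subset_Icc_self (sub01 hx))]; ring
    obtain ⟨k, rfl⟩ : ∃ k, m = k + 1 := ⟨m - 1, by omega⟩
    rw [Nat.add_sub_cancel k 1]
    simp only [hg, hδ, hn]
    push_cast
    field_simp
    linear_combination (-lam * ballShape x ^ k * ballShape x *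
      ((k : ℝ) + 2 + ((k : ℝ) + 1) * ballShape x)) * hsq
  have h := nonneg_of_single_crossing
    (D := fun x => lam / n * x * ballShape x ^ (m + 1) / (1 + ballShape x) - linFlux m x)
    (D' := fun x => ballShape x ^ (m - 1) / (1 + ballShape x) * g (ballShape x))
    (((((continuous_const.mul continuous_id).mul (cont_pow (m + 1))).div
      (continuous_const.add cont_ball) fun x => (add_pos_of_pos_of_nonneg one_pos
        (Real.sqrt_nonneg _)).ne').sub (continuous_iff_continuousAt.2
          fun x => (hasDerivAt_linFlux m x).continuousAt)).continuousOn) hd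
    (by simp [linFlux]) (by simp [linFlux_one hm, ballShape])
    (fun s hs x hx hsx h => ?_) ht
  · linarith
  · have hps := ball_pos (sub01 hs)
    have hpx := ball_pos (sub01 hx)
    refine mul_nonneg (by positivity) (hcore _ _ hpx (ball_anti hs.1.le hsx) (ball_le_one s) ?_)
    exact (mul_nonneg_iff_of_pos_left (by positivity)).1 h

theorem one_le_weightPoly_mul {p : ℝ} (hp : p ∈ Icc (0 : ℝ) 1) :
    1 ≤ weightPoly p * (1 + p) := by
  obtain ⟨h0, h1⟩ := hp
  have hb : 0 ≤ 1 - p ^ 2 / 4 + p ^ 3 / 4 - 7 / 250 * p * (1 + p) * (1 + 9 * p) := by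
    nlinarith [mul_le_mul_of_nonneg_left h1 h0, pow_nonneg h0 3,
      mul_le_mul_of_nonneg_left h1 (sq_nonneg p)]
  have : weightPoly p * (1 + p) - 1 = p * (1 - p) *
      (1 - p ^ 2 / 4 + p ^ 3 / 4 - 7 / 250 * p * (1 + p) * (1 + 9 * p)) := by
    unfold weightPoly; ring
  have := mul_nonneg (mul_nonneg h0 (show 0 ≤ 1 - p by linarith)) hb
  linarith

/-- The slope of the affine weight, with `s = 1 / (m + 1)`; it is below `1 / 2`. -/
noncomputable def fluxSlope (m : ℕ) : ℝ :=
  (1 - 1 / ((m : ℝ) + 1)) * (1 + 1 / (4 * ((m : ℝ) + 1))) ^ 2 / (2 * (1 + 1 / (2 * ((m : ℝ) + 1))))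

theorem fluxSlope_pos (hm : 1 ≤ m) : 0 < fluxSlope m := by
  have : (1 : ℝ) ≤ m := by exact_mod_cast hm
  have : 1 / ((m : ℝ) + 1) < 1 := by rw [div_lt_one (by linarith)]; linarith
  unfold fluxSlope
  exact div_pos (mul_pos (by linarith) (by positivity)) (by positivity)

theorem fluxSlope_le_half (hm : 1 ≤ m) : fluxSlope m ≤ 1 / 2 := by
  have : (1 : ℝ) ≤ m := by exact_mod_cast hm
  unfold fluxSlope
  rw [div_le_iff₀ (by positivity), ← sub_nonneg]
  field_simp
  nlinarith

/-- The affine weight dominates the flux: `g₁ = fluxSlope m`, `g₀ = g₁ (r - 1)`. -/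
theorem linFlux_sq_le (hm : 3 ≤ m) {g₁ : ℝ} (hg₁ : fluxSlope m ≤ g₁) :
    (0 ≤ g₁ * (ballRatio m - 1)) ∧
    (∀ t ∈ Ioo (0 : ℝ) 1,
      0 ≤ g₁ * (ballRatio m - 1) + g₁ * (1 - ballRatio m * ballShape t)) ∧
    ∀ t ∈ Ioo (0 : ℝ) 1, linFlux m t ^ 2 ≤ 4 / m * bregPoly m t * ballShape t ^ (m + 2) *
      (ballShape t ^ (m - 1) *
        (g₁ * (ballRatio m - 1) + g₁ * (1 - ballRatio m * ballShape t))) := by
  have hg := fluxSlope_pos (show 1 ≤ m by omega)
  have hr1 := one_le_ballRatio m
  have hg0 : 0 < g₁ := hg.trans_le hg₁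
  have he : ∀ t, g₁ * (ballRatio m - 1) + g₁ * (1 - ballRatio m * ballShape t) =
      g₁ * ballRatio m * (1 - ballShape t) := fun t => by ring
  refine ⟨mul_nonneg hg0.le (by linarith), fun t _ => ?_, fun t ht => ?_⟩
  · rw [he]
    exact mul_nonneg (by positivity) (sub_nonneg.2 (ball_le_one t))
  set n := (m : ℝ) + 1 with hn
  have hn0 : 0 < n := by positivity
  have hm0 : (0 : ℝ) < m := by exact_mod_cast (by omega : 0 < m)
  set lam := 1 + 1 / (4 * n) with hlam
  have hlr : 2 * n * (ballRatio m - 1) ≤ lam := by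
    have h := (ballRatio_bracket hm).2
    simp only [ratioCubic, zero_mul, zero_div, sub_zero] at h
    rw [← hn] at h
    have hs : 0 ≤ 1 / n := by positivity
    have : 2 * n * (ballRatio m - 1) ≤ 2 * n * (1 / n / 2 + (1 / n) ^ 2 * (1 / 8)) :=
      mul_le_mul_of_nonneg_left (by nlinarith [pow_nonneg hs 3]) (by positivity)
    refine this.trans (le_of_eq ?_)
    rw [hlam]
    field_simp
    ring
  have hF := linFlux_le_closed (show 1 ≤ m by omega) (lam := lam)
    (by rw [hlam]; linarith [show 0 < 1 / (4 * n) by positivity]) hlr ht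
  have hF0 := linFlux_nonneg (show 1 ≤ m by omega) ht
  have hp := ball_pos (sub01 ht)
  have hp1 := ball_le_one t
  have hk := one_le_weightPoly_mul (ball_mem_Icc t)
  have hw := (weightPoly_mem (ball_mem_Icc t)).1
  have hsq : t ^ 2 = (1 - ballShape t) * (1 + ballShape t) := by
    have := ball_sq (Ioo_subset_Icc_self (sub01 ht)); linear_combination this
  set p := ballShape t with hpdef
  have hcoef : lam ^ 2 * ((m : ℝ) / n) ≤ 2 * g₁ * ballRatio m * (weightPoly p * (1 + p)) := by
    have hhalf : 1 + 1 / (2 * n) ≤ ballRatio m := by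
      have h := half_le_ballRatio (show 1 ≤ m by omega)
      rw [← hn] at h
      rw [show 1 + 1 / (2 * n) = (2 * n + 1) / (2 * n) by field_simp, div_le_iff₀ (by positivity)]
      linarith
    calc lam ^ 2 * ((m : ℝ) / n) = 2 * fluxSlope m * (1 + 1 / (2 * n)) := by
          rw [fluxSlope, hlam, hn]
          field_simp
          ring
      _ ≤ 2 * g₁ * ballRatio m :=
          mul_le_mul (by linarith) hhalf (by positivity) (by positivity)
      _ ≤ _ := le_mul_of_one_le_right (by positivity) hk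
  calc linFlux m t ^ 2
      ≤ (lam / n * t * p ^ (m + 1) / (1 + p)) ^ 2 := pow_le_pow_left₀ hF0 hF 2
    _ = (lam ^ 2 * ((m : ℝ) / n)) * ((1 - p) * p ^ (m + 1) * p ^ (m + 1) /
          (m * n * (1 + p))) := by
        field_simp
        rw [hsq]
        ring
    _ ≤ (2 * g₁ * ballRatio m * (weightPoly p * (1 + p))) * ((1 - p) * p ^ (m + 1) * p ^ (m + 1) /
          (m * n * (1 + p))) := by
        refine mul_le_mul_of_nonneg_right hcoef (div_nonneg ?_ (by positivity))
        exact mul_nonneg (mul_nonneg (by linarith) (by positivity)) (by positivity)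
    _ = _ := by
        rw [bregPoly, ← hpdef, he, ← hn]
        obtain ⟨k, rfl⟩ : ∃ k, m = k + 1 := ⟨m - 1, by omega⟩
        rw [Nat.add_sub_cancel]
        field_simp
        ring

end Vale.Agent.P237.Quant
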