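import Mathlib
import Vale.Agent.P237.Quant.FluxBound

/-!
The Poincare inequality of the weight `p ^ (m - 1)` for the energy with the polynomial weight, with
the constant `a = (n / 2) (1 + 1 / (4 m))`, `n = m + 1`, which tends to the Gaussian one. The
supersolution is `1 / p - c`, `c` the ratio of the preceding exponent: its flux is the flux of the
linear term at `m - 1`, and the closed bound of that flux gives the constant.
-/

namespace Vale.Agent.P237.Quant

open MeasureTheory Set Filter Topology

variable {m : ℕ}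

/-- The Poincare constant. -/
noncomputable def poincareA (m : ℕ) : ℝ := ((m : ℝ) + 1) / 2 * (1 + 1 / (4 * (m : ℝ)))

theorem poincareA_pos (m : ℕ) : 0 < poincareA m := by
  unfold poincareA
  positivity

/-- The flux over the slope of `1 / p - c` against the energy weight. -/
theorem flux_div_slope_le (hm : 4 ≤ m) {t : ℝ} (ht : t ∈ Ioo (0 : ℝ) 1) :
    linFlux (m - 1) t * (ballShape t ^ 3 / t) ≤
      poincareA m * (4 / m * bregPoly m t * ballShape t ^ (m + 2)) := by
  obtain ⟨k, rfl⟩ : ∃ k, m = k + 1 := ⟨m - 1, by omega⟩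
  rw [Nat.add_sub_cancel]
  have hk : 3 ≤ k := by omega
  set n := (k : ℝ) + 1 with hn
  have hn0 : 0 < n := by positivity
  set lam := 1 + 1 / (4 * n) with hlam
  have hlr : 2 * n * (ballRatio k - 1) ≤ lam := by
    have h := (ballRatio_bracket hk).2
    simp only [ratioCubic, zero_mul, zero_div, sub_zero] at h
    rw [← hn] at h
    have hs : 0 ≤ 1 / n := by positivity
    refine (mul_le_mul_of_nonneg_left
      (show ballRatio k - 1 ≤ 1 / n / 2 + (1 / n) ^ 2 * (1 / 8) by
        nlinarith [pow_nonneg hs 3]) (by positivity)).trans (le_of_eq ?_)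
    rw [hlam]
    field_simp
    ring
  have hF := linFlux_le_closed (show 1 ≤ k by omega) (lam := lam)
    (by rw [hlam]; linarith [show 0 < 1 / (4 * n) by positivity]) hlr ht
  have hp := ball_pos (sub01 ht)
  have ht0 := ht.1
  have hq := one_le_weightPoly_mul (ball_mem_Icc t)
  set p := ballShape t with hpdef
  have hlam0 : 0 ≤ lam := by rw [hlam]; positivity
  calc linFlux k t * (p ^ 3 / t)
      ≤ lam / n * t * p ^ (k + 1) / (1 + p) * (p ^ 3 / t) :=
        mul_le_mul_of_nonneg_right hF (by positivity)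
    _ = lam / n * p ^ (k + 4) * (1 / (1 + p)) := by field_simp; ring
    _ ≤ lam / n * p ^ (k + 4) * weightPoly p := by
        refine mul_le_mul_of_nonneg_left ?_ (by positivity)
        rw [div_le_iff₀ (by positivity)]
        exact hq
    _ = _ := by
        rw [bregPoly, poincareA, ← hpdef]
        push_cast
        rw [hlam, hn]
        field_simp
        ring

variable {Q v v' : ℝ → ℝ}

/-- The Picone step on an interval without a zero of `H = 1 / p - c'`. -/
theorem poincare_segment (hm : 4 ≤ m) (hv : IsSpecTest m (bregPoly m) v v') {α β c' u₀ : ℝ}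
    (hα : 0 ≤ α) (hαβ : α ≤ β) (hβ : β < 1)
    (hH : ∀ t ∈ Icc α β, 1 / ballShape t - c' ≠ 0) :
    (∫ t in α..β, (ballShape t ^ (m - 1) * ((v t - u₀) ^ 2 *
        ((1 / ballShape t - ballRatio (m - 1)) / (1 / ballShape t - c'))) -
        poincareA m * (4 / m * bregPoly m t * ballShape t ^ (m + 2) * v' t ^ 2))) ≤
      linFlux (m - 1) α * (v α - u₀) ^ 2 / (1 / ballShape α - c') -
        linFlux (m - 1) β * (v β - u₀) ^ 2 / (1 / ballShape β - c') := by
  have hsub : Icc α β ⊆ Ico (0 : ℝ) 1 := fun t ht => ⟨hα.trans ht.1, ht.2.trans_lt hβ⟩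
  have hpos : ∀ t ∈ Icc α β, 0 < ballShape t := fun t ht =>
    ball_pos ⟨by linarith [(hsub ht).1], (hsub ht).2⟩
  have cN : Continuous (linFlux (m - 1)) :=
    continuous_iff_continuousAt.2 fun t => (hasDerivAt_linFlux (m - 1) t).continuousAt
  have cv := hv.cont.mono hsub
  have cH : ContinuousOn (fun t => 1 / ballShape t - c') (Icc α β) :=
    (continuousOn_const.div cont_ball.continuousOn fun t ht => (hpos t ht).ne').sub continuousOn_const
  have cW : ContinuousOn (fun t => ballShape t ^ (m - 1) * ((v t - u₀) ^ 2 *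
      ((1 / ballShape t - ballRatio (m - 1)) / (1 / ballShape t - c')))) (Icc α β) :=
    (cont_pow (m - 1)).continuousOn.mul (((cv.sub continuousOn_const).pow 2).mul
      (((continuousOn_const.div cont_ball.continuousOn fun t ht => (hpos t ht).ne').sub
        continuousOn_const).div cH hH))
  have iE : IntervalIntegrable
      (fun t => poincareA m * (4 / m * bregPoly m t * ballShape t ^ (m + 2) * v' t ^ 2))
      volume α β :=
    (hv.energy.mono_set (by
      rw [uIcc_of_le hαβ, uIcc_of_le zero_le_one]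
      exact Icc_subset_Icc hα hβ.le)).const_mul _
  have hint := (cW.intervalIntegrable_of_Icc hαβ (μ := volume)).sub iE
  set g : ℝ → ℝ := fun t => -(linFlux (m - 1) t * (v t - u₀) ^ 2 / (1 / ballShape t - c')) with hg
  have h := intervalIntegral.integral_le_sub_of_hasDeriv_right_of_le
    (g := g) (φ := fun t => ballShape t ^ (m - 1) * ((v t - u₀) ^ 2 *
        ((1 / ballShape t - ballRatio (m - 1)) / (1 / ballShape t - c'))) -
        poincareA m * (4 / m * bregPoly m t * ballShape t ^ (m + 2) * v' t ^ 2))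
    (g' := fun t => ballShape t ^ (m - 1) * ((v t - u₀) ^ 2 *
        ((1 / ballShape t - ballRatio (m - 1)) / (1 / ballShape t - c'))) -
      linFlux (m - 1) t * (2 * (v t - u₀) * v' t / (1 / ballShape t - c') -
        (v t - u₀) ^ 2 * (t / ballShape t ^ 3) / (1 / ballShape t - c') ^ 2))
    hαβ (((cN.continuousOn.mul ((cv.sub continuousOn_const).pow 2)).div cH hH).neg)
    (fun t ht => ?_) ((intervalIntegrable_iff_integrableOn_Icc_of_le hαβ).1 hint) fun t ht => ?_
  · refine h.trans (le_of_eq ?_)
    simp only [hg]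
    ring
  · have ht1 : t ∈ Ioo (0 : ℝ) 1 := ⟨hα.trans_lt ht.1, ht.2.trans hβ⟩
    have hp := hpos t (Ioo_subset_Icc_self ht)
    have hH0 := hH t (Ioo_subset_Icc_self ht)
    have dH : HasDerivAt (fun x => 1 / ballShape x - c') (t / ballShape t ^ 3) t := by
      refine (((hasDerivAt_const t (1 : ℝ)).fun_div (hasDerivAt_ball (sub01 ht1)) hp.ne').sub_const
        c').congr_deriv ?_
      field_simp
      ring
    refine ((((hasDerivAt_linFlux (m - 1) t).hasDerivWithinAt.fun_mul
      (((hv.deriv t ht1).sub_const u₀).fun_pow 2)).fun_div dH.hasDerivWithinAt hH0).fun_neg).congr_deriv ?_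
    obtain ⟨k, rfl⟩ : ∃ k, m = k + 2 := ⟨m - 2, by omega⟩
    rw [show k + 2 - 1 - 1 = k from rfl, show k + 2 - 1 = k + 1 from rfl, pow_succ (ballShape t) k]
    set Hh := 1 / ballShape t - c' with hHh
    have e : ballShape t * (1 / ballShape t - ballRatio (k + 1)) =
        1 - ballRatio (k + 1) * ballShape t := by field_simp
    push_cast
    field_simp
    ring
  · have ht1 : t ∈ Ioo (0 : ℝ) 1 := ⟨hα.trans_lt ht.1, ht.2.trans hβ⟩
    have hp := hpos t (Ioo_subset_Icc_self ht)
    have hH0 := hH t (Ioo_subset_Icc_self ht)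
    have hF0 := linFlux_nonneg (show 1 ≤ m - 1 by omega) ht1
    have hle := flux_div_slope_le hm ht1
    have ht0 := ht1.1
    refine sub_le_sub le_rfl ?_
    set H := 1 / ballShape t - c'
    set s := t / ballShape t ^ 3 with hs
    have hs0 : 0 < s := by positivity
    calc linFlux (m - 1) t * (2 * (v t - u₀) * v' t / H - (v t - u₀) ^ 2 * s / H ^ 2)
        ≤ linFlux (m - 1) t * (v' t ^ 2 / s) := by
          refine mul_le_mul_of_nonneg_left ?_ hF0
          rw [← sub_nonneg, show v' t ^ 2 / s -
              (2 * (v t - u₀) * v' t / H - (v t - u₀) ^ 2 * s / H ^ 2) =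
              (v' t - (v t - u₀) * s / H) ^ 2 / s by field_simp; ring]
          positivity
      _ = linFlux (m - 1) t * (ballShape t ^ 3 / t) * v' t ^ 2 := by
          rw [hs]; field_simp
      _ ≤ poincareA m * (4 / m * bregPoly m t * ballShape t ^ (m + 2)) * v' t ^ 2 :=
          mul_le_mul_of_nonneg_right hle (sq_nonneg _)
      _ = _ := by ring

/-- The even Poincare inequality. -/
theorem quad_one_le_energy (hm : 4 ≤ m) (hv : IsSpecTest m (bregPoly m) v v') :
    specQuad m (fun _ => 1) v ≤ poincareA m * specEnergy m (bregPoly m) v' := by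
  set c := ballRatio (m - 1) with hcdef
  have hc : 1 < c := by
    have h := half_le_ballRatio (show 1 ≤ m - 1 by omega)
    have h0 : (0 : ℝ) ≤ ((m - 1 : ℕ) : ℝ) := Nat.cast_nonneg _
    nlinarith
  set τ := √(1 - 1 / c ^ 2) with hτ
  have hc2 : 1 / c ^ 2 < 1 := by
    rw [div_lt_one (by positivity)]
    exact one_lt_pow₀ hc (by norm_num)
  have hc3 : 0 < 1 / c ^ 2 := by positivity
  have hτ0 : 0 < τ := Real.sqrt_pos.2 (by linarith)
  have hτ1 : τ < 1 := by rw [hτ, Real.sqrt_lt' one_pos]; linarith
  have hτI : τ ∈ Ioo (-1 : ℝ) 1 := ⟨by linarith, hτ1⟩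
  have hpτ : 1 / ballShape τ = c := by
    rw [ballShape, hτ, Real.sq_sqrt (by linarith), sub_sub_cancel, one_div (c ^ 2), Real.sqrt_inv,
      Real.sqrt_sq (by linarith), one_div, inv_inv]
  have hlow : ∀ t ∈ Icc 0 τ, 1 / ballShape t ≤ c := fun t ht => by
    rw [← hpτ]
    exact one_div_le_one_div_of_le (ball_pos hτI) (ball_anti ht.1 ht.2)
  have hhigh : ∀ t ∈ Ico τ 1, c ≤ 1 / ballShape t := fun t ht => by
    rw [← hpτ]
    exact one_div_le_one_div_of_le (ball_pos ⟨by linarith [ht.1], ht.2⟩) (ball_anti hτ0.le ht.1)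
  set u₀ := v τ with hu₀
  set w : ℝ → ℝ := fun t => ballShape t ^ (m - 1) * (v t - u₀) ^ 2 with hw
  set K : ℝ → ℝ := fun t =>
    poincareA m * (4 / m * bregPoly m t * ballShape t ^ (m + 2) * v' t ^ 2) with hK
  have hK0 : ∀ t, 0 ≤ K t := fun t => by
    have := bregPoly_nonneg m t
    have := (poincareA_pos m).le
    have : 0 ≤ ballShape t := Real.sqrt_nonneg _
    simp only [hK]
    positivity
  have iK : IntervalIntegrable K volume 0 1 := hv.energy.const_mul _
  have i2 : IntervalIntegrable (fun t => ballShape t ^ (m - 1) * ((fun _ => (1 : ℝ)) t * v t ^ 2))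
      volume 0 1 :=
    intervalIntegrable_test (by omega) hv measurable_const (C := 1) fun _ _ => by simp
  have i0 : IntervalIntegrable (fun t => ballShape t ^ (m - 1)) volume 0 1 :=
    (cont_pow _).intervalIntegrable _ _
  have i1 : IntervalIntegrable (fun t => ballShape t ^ (m - 1) * v t) volume 0 1 := by
    refine interval_iff01.2 (Integrable.mono' (interval_iff01.1 (i0.add i2))
      (((cont_pow _).measurable.aestronglyMeasurable).mul
        ((hv.cont.mono Ioo_subset_Ico_self).aestronglyMeasurable measurableSet_Ioo)) ?_)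
    filter_upwards [ae_restrict_mem measurableSet_Ioo] with t ht
    have hp : 0 ≤ ballShape t ^ (m - 1) := pow_nonneg (Real.sqrt_nonneg _) _
    have h2 : |v t| ≤ 1 + v t ^ 2 := by
      nlinarith [sq_nonneg (|v t| - 1), sq_abs (v t), abs_nonneg (v t)]
    rw [Real.norm_eq_abs, abs_mul, abs_of_nonneg hp, one_mul]
    linarith [mul_le_mul_of_nonneg_left h2 hp]
  have iw : IntervalIntegrable w volume 0 1 :=
    ((i2.sub (i1.const_mul (2 * u₀))).add (i0.const_mul (u₀ ^ 2))).congr
      fun t _ => by simp only [hw]; ring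
  -- up to `b`
  have key : ∀ b ∈ Ioo τ 1, (∫ t in (0 : ℝ)..b, w t) ≤ ∫ t in (0 : ℝ)..1, K t := by
    intro b hb
    have hb1 : b ∈ Ioo (0 : ℝ) 1 := ⟨hτ0.trans hb.1, hb.2⟩
    have hs : uIcc 0 b ⊆ uIcc (0 : ℝ) 1 := by
      rw [uIcc_of_le hb1.1.le, uIcc_of_le zero_le_one]
      exact Icc_subset_Icc le_rfl hb.2.le
    have iwb := iw.mono_set hs
    set ε : ℕ → ℝ := fun j => 1 / ((j : ℝ) + 1) with hε
    have hε0 : ∀ j, 0 < ε j := fun j => by simp only [hε]; positivity
    set h : ℝ → ℝ := fun t => 1 / ballShape t - c with hh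
    set f : ℕ → ℝ → ℝ := fun j t => w t * (|h t| / (|h t| + ε j)) with hf
    have hq : ∀ j t, 0 ≤ |h t| / (|h t| + ε j) ∧ |h t| / (|h t| + ε j) ≤ 1 := fun j t =>
      ⟨div_nonneg (abs_nonneg _) (by linarith [hε0 j, abs_nonneg (h t)]),
        (div_le_one (by linarith [hε0 j, abs_nonneg (h t)])).2 (by linarith [hε0 j])⟩
    have hmeas : Measurable h := by
      have := cont_ball.measurable
      simp only [hh]
      fun_prop
    have ifj : ∀ j, IntervalIntegrable (f j) volume 0 b := fun j => by
      refine iwb.mono_fun' ?_ ?_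
      · exact iwb.def'.aestronglyMeasurable.mul
          (hmeas.abs.div (hmeas.abs.add_const _)).aestronglyMeasurable
      · refine Eventually.of_forall fun t => ?_
        simp only [Real.norm_eq_abs, hf]
        rw [abs_mul, abs_of_nonneg (hq j t).1]
        exact (mul_le_of_le_one_right (abs_nonneg _) (hq j t).2).trans_eq
          (abs_of_nonneg (mul_nonneg (pow_nonneg (Real.sqrt_nonneg _) _) (sq_nonneg _)))
    have hbound : ∀ j, (∫ t in (0 : ℝ)..b, f j t) ≤ ∫ t in (0 : ℝ)..1, K t := fun j => by
      have iKb := iK.mono_set hs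
      have e1 := poincare_segment hm hv (c' := c + ε j) (u₀ := u₀) le_rfl hτ0.le hτ1 fun t ht => by
        have := hlow t ht; have := hε0 j; intro; linarith
      have e2 := poincare_segment hm hv (c' := c - ε j) (u₀ := u₀) hτ0.le hb.1.le hb.2 fun t ht => by
        have := hhigh t ⟨ht.1, ht.2.trans_lt hb.2⟩; have := hε0 j; intro; linarith
      rw [← hcdef] at e1 e2
      have hL0 : linFlux (m - 1) 0 = 0 := intervalIntegral.integral_same
      have hbd : 0 ≤ linFlux (m - 1) b * (v b - u₀) ^ 2 / (1 / ballShape b - (c - ε j)) :=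
        div_nonneg (mul_nonneg (linFlux_nonneg (by omega) hb1) (sq_nonneg _))
          (by linarith [hhigh b ⟨hb.1.le, hb.2⟩, hε0 j])
      simp only [hu₀, sub_self, hL0, zero_mul, mul_zero, zero_div, zero_pow two_ne_zero,
        zero_sub] at e1 e2
      have sLeft : uIcc 0 τ ⊆ uIcc 0 b := by
        rw [uIcc_of_le hτ0.le, uIcc_of_le hb1.1.le]; exact Icc_subset_Icc le_rfl hb.1.le
      have sRight : uIcc τ b ⊆ uIcc 0 b := by
        rw [uIcc_of_le hb.1.le, uIcc_of_le hb1.1.le]; exact Icc_subset_Icc hτ0.le le_rfl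
      have c1 : EqOn (fun t => f j t - K t) (fun t => ballShape t ^ (m - 1) * ((v t - v τ) ^ 2 *
          ((1 / ballShape t - c) / (1 / ballShape t - (c + ε j)))) - K t) (uIcc 0 τ) := fun t ht => by
        rw [uIcc_of_le hτ0.le] at ht
        simp only [hf, hw, hh, hu₀, abs_of_nonpos (sub_nonpos.2 (hlow t ht))]
        rw [show -(1 / ballShape t - c) / (-(1 / ballShape t - c) + ε j) =
          (1 / ballShape t - c) / (1 / ballShape t - (c + ε j)) by
            rw [← neg_div_neg_eq]; congr 1 <;> ring]
        ring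
      have c2 : EqOn (fun t => f j t - K t) (fun t => ballShape t ^ (m - 1) * ((v t - v τ) ^ 2 *
          ((1 / ballShape t - c) / (1 / ballShape t - (c - ε j)))) - K t) (uIcc τ b) := fun t ht => by
        rw [uIcc_of_le hb.1.le] at ht
        simp only [hf, hw, hh, hu₀,
          abs_of_nonneg (sub_nonneg.2 (hhigh t ⟨ht.1, ht.2.trans_lt hb.2⟩))]
        rw [show 1 / ballShape t - c + ε j = 1 / ballShape t - (c - ε j) by ring]
        ring
      have i := (ifj j).sub iKb
      have hsum := intervalIntegral.integral_add_adjacent_intervals (i.mono_set sLeft)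
        (i.mono_set sRight)
      rw [intervalIntegral.integral_congr c1, intervalIntegral.integral_congr c2,
        intervalIntegral.integral_sub (ifj j) iKb] at hsum
      have hKle : (∫ t in (0 : ℝ)..b, K t) ≤ ∫ t in (0 : ℝ)..1, K t :=
        intervalIntegral.integral_mono_interval le_rfl hb1.1.le hb.2.le
          (Eventually.of_forall hK0) iK
      simp only [hK] at hsum hKle ⊢
      linarith
    refine le_of_tendsto' (intervalIntegral.tendsto_integral_filter_of_dominated_convergence
      (μ := volume) (F := f) (l := atTop) w ?_ ?_ iwb ?_) hbound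
    · exact Eventually.of_forall fun j => (ifj j).def'.aestronglyMeasurable
    · refine Eventually.of_forall fun j => Eventually.of_forall fun t _ => ?_
      rw [Real.norm_eq_abs]
      show |w t * (|h t| / (|h t| + ε j))| ≤ w t
      have hw0 : 0 ≤ w t := mul_nonneg (pow_nonneg (Real.sqrt_nonneg _) _) (sq_nonneg _)
      rw [abs_of_nonneg (mul_nonneg hw0 (hq j t).1)]
      exact mul_le_of_le_one_right
        (mul_nonneg (pow_nonneg (Real.sqrt_nonneg _) _) (sq_nonneg _)) (hq j t).2
    · filter_upwards [Measure.ae_ne volume τ] with t htne hmem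
      rw [uIoc_of_le hb1.1.le] at hmem
      have ht1 : t ∈ Ioo (0 : ℝ) 1 := ⟨hmem.1, hmem.2.trans_lt hb.2⟩
      have hne : |h t| ≠ 0 := by
        rw [abs_ne_zero]
        simp only [hh, sub_ne_zero]
        intro he
        apply htne
        have hp : ballShape t = ballShape τ := by
          rw [← one_div_one_div (ballShape t), he, ← hpτ, one_div_one_div]
        have h2 := ball_sq (Ioo_subset_Icc_self (sub01 ht1))
        rw [hp, ball_sq (Ioo_subset_Icc_self hτI)] at h2
        nlinarith [ht1.1, hτ0]
      have hlim : Tendsto (fun j => |h t| / (|h t| + ε j)) atTop (𝓝 1) := by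
        have hl := (tendsto_const_nhds (x := |h t|) (f := atTop)).div
          ((tendsto_const_nhds (x := |h t|) (f := atTop)).add
            (tendsto_one_div_add_atTop_nhds_zero_nat (𝕜 := ℝ))) (by simpa using hne)
        rw [add_zero, div_self hne] at hl
        exact hl
      simpa using hlim.const_mul (w t)
  have hlim : Tendsto (fun b => ∫ t in (0 : ℝ)..b, w t) (𝓝[<] 1)
      (𝓝 (∫ t in (0 : ℝ)..1, w t)) := by
    have h := intervalIntegral.continuousOn_primitive_interval' iw
      (left_mem_uIcc (a := (0 : ℝ)) (b := 1))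
    rw [uIcc_of_le zero_le_one] at h
    exact (h 1 (right_mem_Icc.2 zero_le_one)).tendsto.mono_left
      (nhdsWithin_le_of_mem (Icc_mem_nhdsLT (zero_lt_one (α := ℝ))))
  have hfin := le_of_tendsto hlim (by
    filter_upwards [Ioo_mem_nhdsLT hτ1] with b hb
    exact key b hb)
  have hmean : ∫ t in (0 : ℝ)..1, ballShape t ^ (m - 1) * v t = 0 := hv.mean
  have ew : (∫ t in (0 : ℝ)..1, w t) =
      (∫ t in (0 : ℝ)..1, ballShape t ^ (m - 1) * ((fun _ => (1 : ℝ)) t * v t ^ 2)) +
        u₀ ^ 2 * mass (m - 1) ballShape 1 := by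
    rw [integral_congr01 (f := w) (g := fun t =>
        (ballShape t ^ (m - 1) * ((fun _ => (1 : ℝ)) t * v t ^ 2) -
          2 * u₀ * (ballShape t ^ (m - 1) * v t)) + u₀ ^ 2 * ballShape t ^ (m - 1))
        (fun t _ => by simp only [hw]; ring),
      intervalIntegral.integral_add (i2.sub (i1.const_mul _)) (i0.const_mul _),
      intervalIntegral.integral_sub i2 (i1.const_mul _), intervalIntegral.integral_const_mul,
      intervalIntegral.integral_const_mul, hmean, mul_zero, sub_zero]
    rfl
  rw [specQuad, specMean, specEnergy, ← mul_div_assoc]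
  refine div_le_div_of_nonneg_right ?_ (ball_mass_pos _).le
  rw [← intervalIntegral.integral_const_mul]
  simp only [hK] at hfin
  linarith [mul_nonneg (sq_nonneg u₀) (ball_mass_pos (m - 1)).le]

/-- The Poincare input of the pure lemma, with `b = 0`. -/
theorem specV_quad_le {φ : ℝ → ℝ} (hm : 4 ≤ m) (hφ : IsShape φ) :
    specQuad m (fun _ => 1) (specV m φ) ≤
      poincareA m * specEnergy m (bregPoly m) (fun t => specU' m φ t / specM m φ) + 0 := by
  obtain ⟨iEn, -, -, -⟩ := goal_le_value (show 1 ≤ m by omega) hφ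
    (fun t _ => bregPoly_nonneg m t) (measurable_bregPoly m)
    (fun t ht r hr => bregPoly_mul_le (m := m) (by omega) (t := t) (r := r) ht hr)
  simpa using quad_one_le_energy hm (isSpecTest_specV (show 1 ≤ m by omega) hφ iEn)

end Vale.Agent.P237.Quant
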