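import Mathlib
import Vale.Agent.P237.Four.Checker

/-!
Integer polynomials packed into their value at a large integer point: bounds on the coefficients,
decoding, and a fast form of the positivity checker.
-/

namespace Vale.Agent.P237.Quant.Packed

open Four.Checker Set

/-- Integer value in one variable. -/
def evz : P1 → ℤ → ℤ
  | [], _ => 0
  | c :: l, x => c + x * evz l x

/-- Integer value in two variables. -/
def ev2z : P2 → ℤ → ℤ → ℤ
  | [], _, _ => 0
  | r :: P, x, y => evz r y + x * ev2z P x y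

theorem cast_evz : ∀ (l : P1) (x : ℤ), ((evz l x : ℤ) : ℝ) = ev l x
  | [], x => by simp [evz, ev]
  | c :: l, x => by simp [evz, ev, cast_evz l x]

theorem cast_ev2z : ∀ (P : P2) (x y : ℤ), ((ev2z P x y : ℤ) : ℝ) = ev2 P x y
  | [], x, y => by simp [ev2z, ev2]
  | r :: P, x, y => by simp [ev2z, ev2, cast_evz, cast_ev2z P x y]

theorem ev2z_add2 (P R : P2) (x y : ℤ) : ev2z (add2 P R) x y = ev2z P x y + ev2z R x y := by
  apply Int.cast_injective (α := ℝ)
  push_cast [cast_ev2z, ev2_add2]
  ring

theorem ev2z_smul2 (c : ℤ) (P : P2) (x y : ℤ) : ev2z (smul2 c P) x y = c * ev2z P x y := by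
  apply Int.cast_injective (α := ℝ)
  push_cast [cast_ev2z, ev2_smul2]
  ring

theorem ev2z_mul2 (P R : P2) (x y : ℤ) : ev2z (mul2 P R) x y = ev2z P x y * ev2z R x y := by
  apply Int.cast_injective (α := ℝ)
  push_cast [cast_ev2z, ev2_mul2]
  ring

/-- The sum of the absolute values of the coefficients. -/
def n1 : P1 → ℕ
  | [] => 0
  | c :: l => c.natAbs + n1 l

/-- The sum of the absolute values of the coefficients. -/
def n2 : P2 → ℕ
  | [] => 0
  | r :: P => n1 r + n2 P

theorem n1_add1 : ∀ k l : P1, n1 (add1 k l) ≤ n1 k + n1 l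
  | [], l => by simp [add1, n1]
  | a :: k, [] => by simp [add1, n1]
  | a :: k, b :: l => by
      simp only [add1, n1, Int.add_def]
      linarith [n1_add1 k l, Int.natAbs_add_le a b]

theorem n1_smul1 (c : ℤ) : ∀ k : P1, n1 (smul1 c k) = c.natAbs * n1 k
  | [] => by simp [smul1, n1]
  | a :: k => by simp [smul1, n1, Int.mul_def, Int.natAbs_mul, n1_smul1 c k, mul_add]

theorem n1_mul1 : ∀ k l : P1, n1 (mul1 k l) ≤ n1 k * n1 l
  | [], l => by simp [mul1, n1]
  | a :: k, l => by
      simp only [mul1, n1, add_mul]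
      refine (n1_add1 _ _).trans ?_
      simp only [n1, n1_smul1, Int.natAbs_zero, zero_add]
      exact Nat.add_le_add_left (n1_mul1 k l) _

theorem n2_add2 : ∀ k l : P2, n2 (add2 k l) ≤ n2 k + n2 l
  | [], l => by simp [add2, n2]
  | a :: k, [] => by simp [add2, n2]
  | a :: k, b :: l => by
      simp only [add2, n2]
      linarith [n2_add2 k l, n1_add1 a b]

theorem n2_smul2 (c : ℤ) : ∀ k : P2, n2 (smul2 c k) = c.natAbs * n2 k
  | [] => by simp [smul2, n2]
  | a :: k => by simp [smul2, n2, n1_smul1, n2_smul2 c k, mul_add]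

theorem n2_rmul (r : P1) : ∀ k : P2, n2 (rmul r k) ≤ n1 r * n2 k
  | [] => by simp [rmul, n2]
  | a :: k => by
      simp only [rmul, n2, mul_add]
      linarith [n2_rmul r k, n1_mul1 r a]

theorem n2_mul2 : ∀ k l : P2, n2 (mul2 k l) ≤ n2 k * n2 l
  | [], l => by simp [mul2, n2]
  | a :: k, l => by
      simp only [mul2, n2, add_mul]
      refine (n2_add2 _ _).trans (Nat.add_le_add (n2_rmul a l) ?_)
      simp only [n2, n1, zero_add]
      exact n2_mul2 k l

theorem length_add1 : ∀ k l : P1, (add1 k l).length = max k.length l.length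
  | [], l => by simp [add1]
  | a :: k, [] => by simp [add1]
  | a :: k, b :: l => by simp [add1, length_add1 k l]

theorem length_smul1 (c : ℤ) : ∀ k : P1, (smul1 c k).length = k.length
  | [] => by simp [smul1]
  | a :: k => by simp [smul1, length_smul1 c k]

theorem length_mul1 : ∀ k l : P1, (mul1 k l).length ≤ k.length + l.length
  | [], l => by simp [mul1]
  | a :: k, l => by
      simp only [mul1, length_add1, length_smul1, List.length_cons]
      have := length_mul1 k l
      omega

theorem length_add2 : ∀ k l : P2, (add2 k l).length = max k.length l.length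
  | [], l => by simp [add2]
  | a :: k, [] => by simp [add2]
  | a :: k, b :: l => by simp [add2, length_add2 k l]

theorem length_smul2 (c : ℤ) : ∀ k : P2, (smul2 c k).length = k.length
  | [] => by simp [smul2]
  | a :: k => by simp [smul2, length_smul2 c k]

theorem length_rmul (r : P1) : ∀ k : P2, (rmul r k).length = k.length
  | [] => by simp [rmul]
  | a :: k => by simp [rmul, length_rmul r k]

theorem length_mul2 : ∀ k l : P2, (mul2 k l).length ≤ k.length + l.length
  | [], l => by simp [mul2]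
  | a :: k, l => by
      simp only [mul2, length_add2, length_rmul, List.length_cons]
      have := length_mul2 k l
      omega

theorem width_add2 : ∀ k l : P2, width (add2 k l) ≤ max (width k) (width l)
  | [], l => by simp [add2, width]
  | a :: k, [] => by simp [add2, width]
  | a :: k, b :: l => by
      simp only [add2, width, length_add1]
      have := width_add2 k l
      omega

theorem width_smul2 (c : ℤ) : ∀ k : P2, width (smul2 c k) = width k
  | [] => by simp [smul2]
  | a :: k => by simp [smul2, width, length_smul1, width_smul2 c k]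

theorem width_rmul (r : P1) : ∀ k : P2, width (rmul r k) ≤ r.length + width k
  | [] => by simp [rmul, width]
  | a :: k => by
      simp only [rmul, width]
      have := width_rmul r k
      have := length_mul1 r a
      omega

theorem width_mul2 : ∀ k l : P2, width (mul2 k l) ≤ width k + width l
  | [], l => by simp [mul2, width]
  | a :: k, l => by
      simp only [mul2, width]
      have h1 := width_add2 (rmul a l) ([] :: mul2 k l)
      have h2 := width_rmul a l
      have h3 := width_mul2 k l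
      simp only [width, List.length_nil] at h1
      omega

/-- The digit of least absolute value. -/
def digit (Q v : ℤ) : ℤ := (v + Q / 2) % Q - Q / 2

/-- Balanced digits, least first. -/
def dig (Q : ℤ) : ℕ → ℤ → P1
  | 0, _ => []
  | n + 1, v => digit Q v :: dig Q n ((v - digit Q v) / Q)

theorem digit_eq {Q a r : ℤ} (h : 2 * (a.natAbs : ℤ) < Q) : digit Q (a + Q * r) = a := by
  have h1 : a + Q * r + Q / 2 = a + Q / 2 + Q * r := by ring
  rw [digit, h1, Int.add_mul_emod_self_left, Int.emod_eq_of_lt (by omega) (by omega)]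
  ring

theorem dig_eq {Q : ℤ} : ∀ (n : ℕ) (l : P1), l.length ≤ n → 2 * (n1 l : ℤ) < Q →
    dig Q n (evz l Q) = pad n l
  | 0, [], _, _ => by simp [dig, pad]
  | 0, a :: l, h, _ => by simp at h
  | n + 1, [], _, hQ => by
      simp only [n1, Nat.cast_zero, mul_zero] at hQ
      have e := digit_eq (Q := Q) (a := 0) (r := 0) (by simpa using hQ)
      simp only [mul_zero, add_zero] at e
      have ih := dig_eq n [] (Nat.zero_le _) (by simpa [n1] using hQ)
      simp only [evz] at ih
      simp [dig, pad, evz, e, ih]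
  | n + 1, a :: l, h, hQ => by
      simp only [n1, Nat.cast_add] at hQ
      have e : digit Q (evz (a :: l) Q) = a := digit_eq (by omega)
      simp only [dig, pad, e]
      rw [evz, add_sub_cancel_left, Int.mul_ediv_cancel_left _ (by omega)]
      rw [dig_eq n l (by simpa using h) (by omega)]

theorem evz_bound {Q : ℤ} (hQ : 1 ≤ Q) : ∀ (W : ℕ) (l : P1), l.length ≤ W →
    ((evz l Q).natAbs : ℤ) * Q ≤ n1 l * Q ^ W
  | W, [], _ => by simp [evz, n1]
  | 0, a :: l, h => by simp at h
  | W + 1, a :: l, h => by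
      have ih := evz_bound hQ W l (by simpa using h)
      simp only [evz, n1, Nat.cast_add, add_mul]
      have h1 : ((a + Q * evz l Q).natAbs : ℤ) ≤ a.natAbs + Q * (evz l Q).natAbs := by
        simp only [Int.natCast_natAbs]
        refine (abs_add_le _ _).trans (le_of_eq ?_)
        rw [abs_mul, abs_of_nonneg (by omega : 0 ≤ Q)]
      have h2 : (a.natAbs : ℤ) * Q ≤ a.natAbs * Q ^ (W + 1) :=
        mul_le_mul_of_nonneg_left (le_self_pow₀ hQ (Nat.succ_ne_zero W)) (Int.natCast_nonneg _)
      rw [pow_succ']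
      nlinarith [mul_le_mul_of_nonneg_right h1 (by omega : (0 : ℤ) ≤ Q),
        mul_le_mul_of_nonneg_left ih (by omega : (0 : ℤ) ≤ Q), pow_succ' Q W]

/-- `Q ^ W` by repeated products. -/
def powZ (Q : ℤ) : ℕ → ℤ
  | 0 => 1
  | n + 1 => Q * powZ Q n

theorem powZ_eq (Q : ℤ) : ∀ n, powZ Q n = Q ^ n
  | 0 => by simp [powZ]
  | n + 1 => by rw [powZ, powZ_eq Q n, pow_succ']

/-- Decoding in two variables. -/
def dig2 (Q : ℤ) (W : ℕ) : ℕ → ℤ → P2
  | 0, _ => []
  | n + 1, v => dig Q W (digit (powZ Q W) v) :: dig2 Q W n ((v - digit (powZ Q W) v) / powZ Q W)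

/-- A polynomial with all rows padded. -/
def pad2 (W : ℕ) : ℕ → P2 → P2
  | 0, P => P
  | n + 1, [] => pad W [] :: pad2 W n []
  | n + 1, r :: P => pad W r :: pad2 W n P

theorem dig2_eq {Q : ℤ} (W : ℕ) : ∀ (n : ℕ) (P : P2), P.length ≤ n → width P ≤ W →
    2 * (n2 P : ℤ) < Q → dig2 Q W n (ev2z P (powZ Q W) Q) = pad2 W n P
  | 0, [], _, _, _ => by simp [dig2, pad2]
  | 0, r :: P, h, _, _ => by simp at h
  | n + 1, [], _, _, hQ => by
      simp only [n2, Nat.cast_zero, mul_zero] at hQ
      have hW : (0 : ℤ) < powZ Q W := by rw [powZ_eq]; exact pow_pos hQ W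
      have e := digit_eq (Q := powZ Q W) (a := 0) (r := 0) (by simpa using hW)
      simp only [mul_zero, add_zero] at e
      have ih := dig2_eq W n [] (Nat.zero_le _) (by simp [width]) (by simpa [n2] using hQ)
      have h0 := dig_eq (Q := Q) W [] (Nat.zero_le _) (by simpa [n1] using hQ)
      simp only [ev2z] at ih
      simp only [evz] at h0
      simp [dig2, pad2, ev2z, e, ih, h0]
  | n + 1, r :: P, h, hW, hQ => by
      simp only [n2, Nat.cast_add] at hQ
      simp only [width] at hW
      have hr : r.length ≤ W := le_trans (le_max_left _ _) hW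
      have hQ1 : 1 ≤ Q := by omega
      have hpos : (0 : ℤ) < Q ^ W := pow_pos (by omega) W
      have hb : 2 * ((evz r Q).natAbs : ℤ) < powZ Q W := by
        rw [powZ_eq]
        refine lt_of_mul_lt_mul_right ?_ (by omega : (0 : ℤ) ≤ Q)
        rw [mul_assoc, mul_comm (Q ^ W) Q]
        refine lt_of_le_of_lt (mul_le_mul_of_nonneg_left (evz_bound hQ1 W r hr) zero_le_two) ?_
        rw [← mul_assoc]
        exact mul_lt_mul_of_pos_right (by omega) hpos
      have e : digit (powZ Q W) (ev2z (r :: P) (powZ Q W) Q) = evz r Q := digit_eq hb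
      simp only [dig2, pad2, e]
      rw [ev2z, add_sub_cancel_left, Int.mul_ediv_cancel_left _ (by omega),
        dig_eq W r hr (by omega),
        dig2_eq W n P (by simpa using h) (le_trans (le_max_right _ _) hW) (by omega)]

theorem ev2_pad2 (W : ℕ) : ∀ (n : ℕ) (P : P2) (x y : ℝ), ev2 (pad2 W n P) x y = ev2 P x y
  | 0, P, x, y => by simp [pad2]
  | n + 1, [], x, y => by simp [pad2, ev2, ev_pad, ev, ev2_pad2 W n [] x y]
  | n + 1, r :: P, x, y => by simp [pad2, ev2, ev_pad, ev2_pad2 W n P x y]

theorem nonneg1_pad : ∀ (n : ℕ) (l : P1), nonneg1 (pad n l) = nonneg1 l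
  | 0, l => by simp [pad]
  | n + 1, [] => by simpa [pad, nonneg1] using nonneg1_pad n []
  | n + 1, .ofNat a :: l => by simp [pad, nonneg1, nonneg1_pad n l]
  | n + 1, .negSucc a :: l => by simp [pad, nonneg1]

theorem nonneg2_pad2 (W : ℕ) : ∀ (n : ℕ) (P : P2), nonneg2 (pad2 W n P) = nonneg2 P
  | 0, P => by simp [pad2]
  | n + 1, [] => by simp [pad2, nonneg2, nonneg1_pad, nonneg1, nonneg2_pad2 W n []]
  | n + 1, r :: P => by simp [pad2, nonneg2, nonneg1_pad, nonneg2_pad2 W n P]

theorem n1_pad : ∀ (n : ℕ) (l : P1), n1 (pad n l) = n1 l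
  | 0, l => by simp [pad]
  | n + 1, [] => by simp [pad, n1, n1_pad n []]
  | n + 1, a :: l => by simp [pad, n1, n1_pad n l]

theorem n1_lin1 (a b : ℤ) : ∀ (p : ℤ) (k : P1),
    n1 (lin1 a b p k) ≤ b.natAbs * p.natAbs + (a.natAbs + b.natAbs) * n1 k
  | p, [] => by simp [lin1, n1, Int.mul_def, Int.natAbs_mul]
  | p, r :: k => by
      simp only [lin1, n1, Int.add_def, Int.mul_def]
      have := Int.natAbs_add_le (a * r) (b * p)
      rw [Int.natAbs_mul, Int.natAbs_mul] at this
      linarith [n1_lin1 a b r k]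

theorem length_lin1 (a b : ℤ) : ∀ (p : ℤ) (k : P1), (lin1 a b p k).length = k.length + 1
  | p, [] => by simp [lin1]
  | p, r :: k => by simp [lin1, length_lin1 a b r k]

theorem n1_qpow (D : ℤ) : ∀ n, n1 (qpow D n) ≤ (2 * D.natAbs) ^ n
  | 0 => by simp [qpow, n1]
  | n + 1 => by
      have h := n1_lin1 D D 0 (qpow D n)
      simp only [Int.natAbs_zero, mul_zero, zero_add] at h
      rw [qpow, pow_succ']
      exact h.trans (Nat.mul_le_mul (by omega) (n1_qpow D n))

theorem length_qpow (D : ℤ) : ∀ n, (qpow D n).length = n + 1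
  | 0 => by simp [qpow]
  | n + 1 => by simp [qpow, length_lin1, length_qpow D n]

/-- The growth factor of a pullback. -/
def grow (a b D : ℤ) : ℕ := max (a.natAbs + b.natAbs) (2 * D.natAbs)

theorem n1_mob1 (a b D : ℤ) : ∀ l : P1, n1 (mob1 a b D l) ≤ n1 l * grow a b D ^ l.length
  | [] => by simp [mob1, n1]
  | c :: l => by
      simp only [mob1, n1, List.length_cons, add_mul]
      refine (n1_add1 _ _).trans (Nat.add_le_add ?_ ?_)
      · rw [n1_smul1]
        exact Nat.mul_le_mul_left _ ((n1_qpow D _).trans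
          (Nat.pow_le_pow_left (le_max_right _ _) _))
      · have h := n1_lin1 a b 0 (mob1 a b D l)
        simp only [Int.natAbs_zero, mul_zero, zero_add] at h
        rw [pow_succ, ← mul_assoc, mul_comm (n1 l * _)]
        exact h.trans (Nat.mul_le_mul (le_max_left _ _) (n1_mob1 a b D l))

theorem length_mob1 (a b D : ℤ) : ∀ l : P1, (mob1 a b D l).length ≤ l.length + 1
  | [] => by simp [mob1]
  | c :: l => by
      simp only [mob1, length_add1, length_smul1, length_qpow, length_lin1, List.length_cons]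
      have := length_mob1 a b D l
      omega

theorem length_mobY (a b D : ℤ) (n : ℕ) : ∀ P : P2, (mobY a b D n P).length = P.length
  | [] => by simp [mobY]
  | r :: P => by simp [mobY, length_mobY a b D n P]

theorem width_mobY (a b D : ℤ) (n : ℕ) : ∀ P : P2, width P ≤ n → width (mobY a b D n P) ≤ n + 1
  | [], _ => by simp [mobY, width]
  | r :: P, h => by
      simp only [mobY, width] at h ⊢
      have h1 := length_mob1 a b D (pad n r)
      rw [length_pad n r (le_trans (le_max_left _ _) h)] at h1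
      exact max_le h1 (width_mobY a b D n P (le_trans (le_max_right _ _) h))

theorem n2_mobY (a b D : ℤ) (n : ℕ) : ∀ P : P2, width P ≤ n →
    n2 (mobY a b D n P) ≤ n2 P * grow a b D ^ n
  | [], _ => by simp [mobY, n2]
  | r :: P, h => by
      simp only [mobY, n2, add_mul, width] at h ⊢
      refine Nat.add_le_add ?_ (n2_mobY a b D n P (le_trans (le_max_right _ _) h))
      have h1 := n1_mob1 a b D (pad n r)
      rwa [n1_pad, length_pad n r (le_trans (le_max_left _ _) h)] at h1

theorem n2_outer (r : P1) : ∀ l : P1, n2 (outer r l) = n1 l * n1 r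
  | [] => by simp [outer, n2, n1]
  | q :: l => by simp [outer, n2, n1, n1_smul1, n2_outer r l, add_mul]

theorem length_outer (r : P1) : ∀ l : P1, (outer r l).length = l.length
  | [] => by simp [outer]
  | q :: l => by simp [outer, length_outer r l]

theorem width_outer (r : P1) : ∀ l : P1, width (outer r l) ≤ r.length
  | [] => by simp [outer, width]
  | q :: l => by simp [outer, width, length_smul1, width_outer r l]

theorem n2_lin2 (a b : ℤ) : ∀ (p : P1) (k : P2),
    n2 (lin2 a b p k) ≤ b.natAbs * n1 p + (a.natAbs + b.natAbs) * n2 k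
  | p, [] => by simp [lin2, n2, n1_smul1]
  | p, r :: k => by
      simp only [lin2, n2]
      have := n1_add1 (smul1 a r) (smul1 b p)
      rw [n1_smul1, n1_smul1] at this
      linarith [n2_lin2 a b r k]

theorem length_lin2 (a b : ℤ) : ∀ (p : P1) (k : P2), (lin2 a b p k).length = k.length + 1
  | p, [] => by simp [lin2]
  | p, r :: k => by simp [lin2, length_lin2 a b r k]

theorem width_lin2 (a b : ℤ) : ∀ (p : P1) (k : P2),
    width (lin2 a b p k) ≤ max p.length (width k)
  | p, [] => by simp [lin2, width, length_smul1]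
  | p, r :: k => by
      simp only [lin2, width, length_add1, length_smul1]
      have := width_lin2 a b r k
      omega

theorem n2_mobT (a b D : ℤ) : ∀ P : P2, n2 (mobT a b D P) ≤ n2 P * grow a b D ^ P.length
  | [] => by simp [mobT, n2]
  | r :: P => by
      simp only [mobT, n2, List.length_cons, add_mul]
      refine (n2_add2 _ _).trans (Nat.add_le_add ?_ ?_)
      · rw [n2_outer, mul_comm (n1 (qpow D _))]
        exact Nat.mul_le_mul_left _ ((n1_qpow D _).trans
          (Nat.pow_le_pow_left (le_max_right _ _) _))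
      · have h := n2_lin2 a b [] (mobT a b D P)
        simp only [n1, mul_zero, zero_add] at h
        rw [pow_succ, ← mul_assoc, mul_comm (n2 P * _)]
        exact h.trans (Nat.mul_le_mul (le_max_left _ _) (n2_mobT a b D P))

theorem length_mobT (a b D : ℤ) : ∀ P : P2, (mobT a b D P).length ≤ P.length + 1
  | [] => by simp [mobT]
  | r :: P => by
      simp only [mobT, length_add2, length_outer, length_qpow, length_lin2, List.length_cons]
      have := length_mobT a b D P
      omega

theorem width_mobT (a b D : ℤ) : ∀ P : P2, width (mobT a b D P) ≤ width P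
  | [] => by simp [mobT, width]
  | r :: P => by
      simp only [mobT, width]
      have h1 := width_add2 (outer r (qpow D (P.length + 1))) (lin2 a b [] (mobT a b D P))
      have h2 := width_outer r (qpow D (P.length + 1))
      have h3 := width_lin2 a b [] (mobT a b D P)
      have h4 := width_mobT a b D P
      simp only [List.length_nil] at h3
      omega

theorem width_pad2 (W : ℕ) : ∀ (n : ℕ) (P : P2), width P ≤ W → width (pad2 W n P) ≤ W
  | 0, P, h => by simpa [pad2] using h
  | n + 1, [], h => by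
      simp only [pad2, width]
      exact max_le (le_of_eq (length_pad W [] (Nat.zero_le _))) (width_pad2 W n [] h)
  | n + 1, r :: P, h => by
      simp only [pad2, width] at h ⊢
      exact max_le (le_of_eq (length_pad W r (le_trans (le_max_left _ _) h)))
        (width_pad2 W n P (le_trans (le_max_right _ _) h))

theorem n2_pad2 (W : ℕ) : ∀ (n : ℕ) (P : P2), n2 (pad2 W n P) = n2 P
  | 0, P => by simp [pad2]
  | n + 1, [] => by simp [pad2, n2, n1_pad, n1, n2_pad2 W n []]
  | n + 1, r :: P => by simp [pad2, n2, n1_pad, n2_pad2 W n P]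

theorem length_pad2 (W : ℕ) : ∀ (n : ℕ) (P : P2), P.length ≤ n → (pad2 W n P).length = n
  | 0, [], _ => by simp [pad2]
  | 0, r :: P, h => by simp at h
  | n + 1, [], _ => by simp [pad2, length_pad2 W n [] (Nat.zero_le _)]
  | n + 1, r :: P, h => by simp [pad2, length_pad2 W n P (by simpa using h)]

/-- The value and the power of a pullback in one variable. -/
def mob1z (a b D Y : ℤ) : P1 → ℤ × ℤ
  | [] => (0, 1)
  | c :: l => let q := mob1z a b D Y l
    (c * (q.2 * (D * (1 + Y))) + (a + b * Y) * q.1, q.2 * (D * (1 + Y)))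

theorem mob1z_eq (a b D Y : ℤ) : ∀ l : P1,
    mob1z a b D Y l = (evz (mob1 a b D l) Y, (D * (1 + Y)) ^ l.length)
  | [] => by simp [mob1z, mob1, evz]
  | c :: l => by
      simp only [mob1z, mob1z_eq a b D Y l, List.length_cons, pow_succ, Prod.mk.injEq, and_true]
      apply Int.cast_injective (α := ℝ)
      push_cast [cast_evz]
      simp only [mob1, ev_add1, ev_smul1, ev_lin1, ev_qpow, pow_succ]
      push_cast
      ring

/-- The value of the pullback in the second variable, row by row. -/
def mobYz (a b D Y : ℤ) (n : ℕ) : P2 → P1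
  | [] => []
  | r :: P => (mob1z a b D Y (pad n r)).1 :: mobYz a b D Y n P

/-- The value of the whole pullback. -/
def mobTz (a b D X : ℤ) : P1 → ℤ × ℤ
  | [] => (0, 1)
  | v :: l => let q := mobTz a b D X l
    (v * (q.2 * (D * (1 + X))) + (a + b * X) * q.1, q.2 * (D * (1 + X)))

theorem mobTz_eq (a b D c d G X Y : ℤ) (n : ℕ) : ∀ P : P2,
    mobTz a b D X (mobYz c d G Y n P) =
      (ev2z (mobT a b D (mobY c d G n P)) X Y, (D * (1 + X)) ^ P.length)
  | [] => by simp [mobTz, mobYz, mobT, mobY, ev2z]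
  | r :: P => by
      simp only [mobYz, mobTz, mobTz_eq a b D c d G X Y n P, mob1z_eq, List.length_cons,
        pow_succ, Prod.mk.injEq, and_true]
      apply Int.cast_injective (α := ℝ)
      push_cast [cast_ev2z, cast_evz]
      simp only [mobY, mobT, ev2_add2, ev2_outer, ev2_lin2, ev_qpow, ev, length_mobY, pow_succ]
      push_cast
      ring

/-- A base above twice a bound. -/
def base (b : ℕ) : ℤ := (powZ 2 (Nat.log2 b + 2))

theorem base_gt (b : ℕ) : 2 * (b : ℤ) < base b := by
  rw [base, powZ_eq, pow_succ']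
  have h : (b : ℤ) < 2 ^ (Nat.log2 b + 1) := by exact_mod_cast Nat.lt_log2_self
  omega

/-- The fast positivity test: the packed value, a bound, the length and the width. -/
def fastOn (B : Box) (pk : ℤ → ℤ → ℤ) (b lx ly : ℕ) : Bool :=
  let Q := base b
  let P := dig2 Q ly lx (pk (powZ Q ly) Q)
  let g := gcd3 B.ta B.tb B.D
  let e := gcd3 B.ya B.yb B.D
  let M := grow (B.ta / g) (B.tb / g) (B.D / g)
  let N := grow (B.ya / e) (B.yb / e) (B.D / e)
  let Q' := base (b * powN N ly * powN M lx)
  decide (0 < g) && decide (0 < e) &&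
  decide (g * (B.ta / g) = B.ta ∧ g * (B.tb / g) = B.tb ∧ g * (B.D / g) = B.D) &&
  decide (e * (B.ya / e) = B.ya ∧ e * (B.yb / e) = B.yb ∧ e * (B.D / e) = B.D) &&
  nonneg2 (dig2 Q' (ly + 1) (lx + 1) (mobTz (B.ta / g) (B.tb / g) (B.D / g) (powZ Q' (ly + 1))
    (mobYz (B.ya / e) (B.yb / e) (B.D / e) Q' ly P)).1)
where
  /-- Powers by repeated products. -/
  powN (N : ℕ) : ℕ → ℕ
  | 0 => 1
  | n + 1 => N * powN N n

theorem powN_eq (N : ℕ) : ∀ n, fastOn.powN N n = N ^ n
  | 0 => by simp [fastOn.powN]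
  | n + 1 => by rw [fastOn.powN, powN_eq N n, pow_succ']

/-- Membership in the closed rectangle. -/
def memC (B : Box) (t y : ℝ) : Prop :=
  (0 : ℝ) < B.D ∧ B.ta < B.tb ∧ B.ya < B.yb ∧
    (B.ta : ℝ) ≤ t * B.D ∧ t * B.D ≤ B.tb ∧ (B.ya : ℝ) ≤ y * B.D ∧ y * B.D ≤ B.yb

theorem continuous_ev : ∀ l : P1, Continuous fun y : ℝ => ev l y
  | [] => by simpa [ev] using continuous_const
  | c :: l => by
      have := continuous_ev l
      simp only [ev]
      fun_prop

theorem continuous_ev2 : ∀ P : P2, Continuous fun p : ℝ × ℝ => ev2 P p.1 p.2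
  | [] => by simpa [ev2] using continuous_const
  | r :: P => by
      have := continuous_ev2 P
      have := continuous_ev r
      simp only [ev2]
      fun_prop

/-- Soundness on the closed rectangle. -/
theorem fastOn_sound {B : Box} {pk : ℤ → ℤ → ℤ} {b lx ly : ℕ} {P : P2}
    (h : fastOn B pk b lx ly = true) (hpk : ∀ x y, pk x y = ev2z P x y) (hb : n2 P ≤ b)
    (hlx : P.length ≤ lx) (hly : width P ≤ ly) {t y : ℝ} (hm : memC B t y) :
    0 ≤ ev2 P t y := by
  simp only [fastOn, Bool.and_eq_true, decide_eq_true_eq] at h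
  obtain ⟨⟨⟨⟨hg, he⟩, et⟩, ey⟩, hn⟩ := h
  rw [hpk, dig2_eq ly lx P hlx hly (lt_of_le_of_lt (by exact_mod_cast Nat.mul_le_mul_left 2 hb)
    (base_gt b)), mobTz_eq, powN_eq, powN_eq] at hn
  set R := pad2 ly lx P with hR
  set g := gcd3 B.ta B.tb B.D
  set e := gcd3 B.ya B.yb B.D
  set T := mobT (B.ta / g) (B.tb / g) (B.D / g)
    (mobY (B.ya / e) (B.yb / e) (B.D / e) ly R) with hT
  set M := grow (B.ta / g) (B.tb / g) (B.D / g) with hM
  set N := grow (B.ya / e) (B.yb / e) (B.D / e) with hN
  have hRw : width R ≤ ly := width_pad2 ly lx P hly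
  have hRl : R.length = lx := length_pad2 ly lx P hlx
  have hTl : T.length ≤ lx + 1 := by
    refine (length_mobT _ _ _ _).trans ?_
    rw [length_mobY, hRl]
  have hTw : width T ≤ ly + 1 := (width_mobT _ _ _ _).trans (width_mobY _ _ _ _ _ hRw)
  have hTn : n2 T ≤ b * N ^ ly * M ^ lx := by
    refine (n2_mobT _ _ _ _).trans ?_
    rw [length_mobY, hRl]
    refine Nat.mul_le_mul_right _ ((n2_mobY _ _ _ _ _ hRw).trans (Nat.mul_le_mul_right _ ?_))
    rw [hR, n2_pad2]
    exact hb
  simp only at hn
  rw [dig2_eq (ly + 1) (lx + 1) T hTl hTw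
    (lt_of_le_of_lt (by exact_mod_cast Nat.mul_le_mul_left 2 hTn) (base_gt _)), nonneg2_pad2] at hn
  -- the half-open rectangle
  have half : ∀ t y : ℝ, (0 : ℝ) < B.D → (B.ta : ℝ) ≤ t * B.D → t * B.D < B.tb →
      (B.ya : ℝ) ≤ y * B.D → y * B.D < B.yb → 0 ≤ ev2 P t y := by
    intro t y hD h1 h2 h3 h4
    rw [← ev2_pad2 ly lx P]
    obtain ⟨et1, et2, et3⟩ := et
    obtain ⟨ey1, ey2, ey3⟩ := ey
    have hg' : (0 : ℝ) < g := by exact_mod_cast hg
    have he' : (0 : ℝ) < e := by exact_mod_cast he
    set a := B.ta / g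
    set b' := B.tb / g
    set D := B.D / g
    set c := B.ya / e
    set d := B.yb / e
    set G := B.D / e
    have rt1 : (B.ta : ℝ) = g * a := by exact_mod_cast et1.symm
    have rt2 : (B.tb : ℝ) = g * b' := by exact_mod_cast et2.symm
    have rt3 : (B.D : ℝ) = g * D := by exact_mod_cast et3.symm
    have ry1 : (B.ya : ℝ) = e * c := by exact_mod_cast ey1.symm
    have ry2 : (B.yb : ℝ) = e * d := by exact_mod_cast ey2.symm
    have ry3 : (B.D : ℝ) = e * G := by exact_mod_cast ey3.symm
    have hD1 : (0 : ℝ) < D := pos_of_mul_pos_right (rt3 ▸ hD) hg'.le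
    have hG : (0 : ℝ) < G := pos_of_mul_pos_right (ry3 ▸ hD) he'.le
    rw [rt1, rt3, mul_left_comm, mul_le_mul_iff_right₀ hg'] at h1
    rw [rt2, rt3, mul_left_comm, mul_lt_mul_iff_right₀ hg'] at h2
    rw [ry1, ry3, mul_left_comm, mul_le_mul_iff_right₀ he'] at h3
    rw [ry2, ry3, mul_left_comm, mul_lt_mul_iff_right₀ he'] at h4
    have hT' : (0 : ℝ) < b' - t * D := by linarith
    have hY : (0 : ℝ) < d - y * G := by linarith
    set X := (t * D - a) / (b' - t * D) with hX
    set Z := (y * G - c) / (d - y * G) with hZ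
    have hX0 : 0 ≤ X := div_nonneg (by linarith) hT'.le
    have hZ0 : 0 ≤ Z := div_nonneg (by linarith) hY.le
    have eX : t * ((D : ℝ) * (1 + X)) = a + b' * X := by rw [hX]; field_simp; ring
    have eZ : y * ((G : ℝ) * (1 + Z)) = c + d * Z := by rw [hZ]; field_simp; ring
    have h0 := ev2_nonneg _ X Z hX0 hZ0 hn
    rw [hT, ev2_mobT _ _ _ t X Z eX, ev2_mobY _ _ _ _ t y Z eZ R hRw] at h0
    have p1 : (0 : ℝ) < ((D : ℝ) * (1 + X)) ^ (mobY c d G ly R).length := by positivity
    have p2 : (0 : ℝ) < ((G : ℝ) * (1 + Z)) ^ ly := by positivity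
    exact (mul_nonneg_iff_of_pos_left p2).mp ((mul_nonneg_iff_of_pos_left p1).mp h0)
  obtain ⟨hD, htt, hyy, h1, h2, h3, h4⟩ := hm
  have key : Ico ((B.ta : ℝ) / B.D) (B.tb / B.D) ×ˢ Ico ((B.ya : ℝ) / B.D) (B.yb / B.D) ⊆
      {p : ℝ × ℝ | 0 ≤ ev2 P p.1 p.2} := fun p hp => by
    obtain ⟨⟨a1, a2⟩, a3, a4⟩ := hp
    exact half _ _ hD ((div_le_iff₀ hD).1 a1) ((lt_div_iff₀ hD).1 a2) ((div_le_iff₀ hD).1 a3)
      ((lt_div_iff₀ hD).1 a4)
  have hcl := closure_minimal key (isClosed_le continuous_const (continuous_ev2 P))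
  have ne : ∀ {a b : ℤ}, a < b → (a : ℝ) / B.D ≠ (b : ℝ) / B.D := fun h =>
    ne_of_lt (div_lt_div_of_pos_right (Int.cast_lt.2 h) hD)
  rw [closure_prod_eq, closure_Ico (ne htt), closure_Ico (ne hyy)] at hcl
  exact hcl (a := (t, y)) ⟨⟨(div_le_iff₀ hD).2 h1, (le_div_iff₀ hD).2 h2⟩,
    (div_le_iff₀ hD).2 h3, (le_div_iff₀ hD).2 h4⟩

/-- A packed value that vanishes, with a bound. -/
def zeroTest (pk : ℤ → ℤ → ℤ) (b ly : ℕ) : Bool :=
  decide (pk (powZ (base b) ly) (base b) = 0)

theorem zeroTest_sound {pk : ℤ → ℤ → ℤ} {b ly : ℕ} {P : P2} (h : zeroTest pk b ly = true)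
    (hpk : ∀ x y, pk x y = ev2z P x y) (hb : n2 P ≤ b) (hly : width P ≤ ly) (x y : ℝ) :
    ev2 P x y = 0 := by
  simp only [zeroTest, decide_eq_true_eq, hpk] at h
  have hQ : 2 * (b : ℤ) < base b := base_gt b
  have e := dig2_eq ly P.length P le_rfl hly
    (lt_of_le_of_lt (by exact_mod_cast Nat.mul_le_mul_left 2 hb) hQ)
  have e0 := dig2_eq ly P.length ([] : P2) (Nat.zero_le _) (by simp [width])
    (lt_of_le_of_lt (b := 2 * (b : ℤ)) (by simp [n2]) hQ)
  rw [h] at e
  rw [show ev2z ([] : P2) (powZ (base b) ly) (base b) = 0 from rfl] at e0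
  rw [← ev2_pad2 ly P.length P, ← e, e0, ev2_pad2]
  simp [ev2]

end Vale.Agent.P237.Quant.Packed
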