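import Mathlib
import Vale.Agent.P237.Quant.Packed

/-!
Polynomials with rational coefficients as lists, and a test of positivity on an interval: the
polynomial pulled back to the unit interval equals a form with nonnegative coefficients in `u`
and `1 - u`: the pullback to the half line is evaluated at one large integer and its coefficients
are read off as digits. The kernel substitutes arguments
unevaluated, so values used more than once are reduced first.
-/

namespace Vale.Agent.P237.Quant.MomentCheck

open Four.Checker Packed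

/-- Apply a function to a natural number after reducing it to a literal. -/
def forceN {α : Type} (z : ℕ) (k : ℕ → α) : α := Nat.casesOn z (k 0) fun n => k (Nat.succ n)

theorem forceN_eq {α : Type} (z : ℕ) (k : ℕ → α) : forceN z k = k z := by
  cases z <;> rfl

/-- Apply a function to an integer after reducing it to a literal. -/
def forceI {α : Type} (z : ℤ) (k : ℤ → α) : α :=
  match z with
  | .ofNat n => forceN n fun n => k (.ofNat n)
  | .negSucc n => forceN n fun n => k (.negSucc n)

theorem forceI_eq {α : Type} (z : ℤ) (k : ℤ → α) : forceI z k = k z := by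
  cases z <;> simp [forceI, forceN_eq]

/-- Apply a function to a rational after reducing it to literals. -/
def forceQ {α : Type} (q : ℚ) (k : ℚ → α) : α :=
  forceI q.num fun n => forceN q.den fun d => k (mkRat n d)

theorem forceQ_eq {α : Type} (q : ℚ) (k : ℚ → α) : forceQ q k = k q := by
  simp only [forceQ, forceI_eq, forceN_eq, Rat.mkRat_self]

/-- Apply a function to a list after reducing its entries to literals. -/
def forceL {α : Type} : List ℚ → (List ℚ → α) → α
  | [], k => k []
  | a :: as, k => forceQ a fun a => forceL as fun as => k (a :: as)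

theorem forceL_eq {α : Type} : ∀ (l : List ℚ) (k : List ℚ → α), forceL l k = k l
  | [], k => rfl
  | a :: as, k => by simp only [forceL, forceQ_eq, forceL_eq as]

/-- The value of a list of coefficients, the constant one first. -/
noncomputable def pev : List ℚ → ℝ → ℝ
  | [], _ => 0
  | c :: cs, x => c + x * pev cs x

/-- The sum of two lists of coefficients. -/
def padd : List ℚ → List ℚ → List ℚ
  | [], q => q
  | a :: p, [] => a :: p
  | a :: p, b :: q => (a + b) :: padd p q

theorem pev_padd : ∀ (p q : List ℚ) (x : ℝ), pev (padd p q) x = pev p x + pev q x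
  | [], q, x => by simp [padd, pev]
  | a :: p, [], x => by simp [padd, pev]
  | a :: p, b :: q, x => by simp only [padd, pev, pev_padd p q]; push_cast; ring

/-- A multiple of a list of coefficients. -/
def psmul (c : ℚ) : List ℚ → List ℚ
  | [] => []
  | a :: p => c * a :: psmul c p

theorem pev_psmul (c : ℚ) : ∀ (p : List ℚ) (x : ℝ), pev (psmul c p) x = c * pev p x
  | [], x => by simp [psmul, pev]
  | a :: p, x => by simp only [psmul, pev, pev_psmul c p]; push_cast; ring

/-- The product by the linear function `α + β x`. -/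
def mulLin (α β : ℚ) (p : List ℚ) : List ℚ := padd (psmul α p) (0 :: psmul β p)

theorem pev_mulLin (α β : ℚ) (p : List ℚ) (x : ℝ) :
    pev (mulLin α β p) x = ((α : ℝ) + β * x) * pev p x := by
  simp only [mulLin, pev_padd, pev, pev_psmul, Rat.cast_zero]
  ring

/-- The derivative, with the degree of the first coefficient given. -/
def derivFrom (k : ℕ) : List ℚ → List ℚ
  | [] => []
  | c :: cs => (k : ℚ) * c :: derivFrom (k + 1) cs

/-- The derivative. -/
def pderiv : List ℚ → List ℚ
  | [] => []
  | _ :: cs => derivFrom 1 cs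

theorem pev_derivFrom : ∀ (p : List ℚ) (k : ℕ) (x : ℝ),
    pev (derivFrom (k + 1) p) x = pev (derivFrom k p) x + pev p x
  | [], k, x => by simp [derivFrom, pev]
  | c :: cs, k, x => by
    simp only [derivFrom, pev, pev_derivFrom cs (k + 1)]
    push_cast
    ring

theorem hasDerivAt_pev : ∀ (p : List ℚ) (x : ℝ), HasDerivAt (pev p) (pev (pderiv p) x) x
  | [], x => by
    show HasDerivAt (fun _ => (0 : ℝ)) 0 x
    exact hasDerivAt_const x 0
  | c :: cs, x => by
    show HasDerivAt (fun y => (c : ℝ) + y * pev cs y) (pev (derivFrom 1 cs) x) x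
    refine (((hasDerivAt_id x).mul (hasDerivAt_pev cs x)).const_add (c : ℝ)).congr_deriv ?_
    cases cs with
    | nil => simp [derivFrom, pev, pderiv]
    | cons a as =>
      simp only [derivFrom, pev, pderiv, pev_derivFrom as 1, id]
      push_cast
      ring

/-- Apply a function to a list of integers after reducing its entries to literals. -/
def forceZ {α : Type} : List ℤ → (List ℤ → α) → α
  | [], k => k []
  | a :: as, k => forceI a fun a => forceZ as fun as => k (a :: as)

theorem forceZ_eq {α : Type} : ∀ (l : List ℤ) (k : List ℤ → α), forceZ l k = k l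
  | [], k => rfl
  | a :: as, k => by simp only [forceZ, forceI_eq, forceZ_eq as]

/-- A common denominator. -/
def comDen : List ℚ → ℕ
  | [] => 1
  | a :: p => forceN (comDen p) fun L => Nat.lcm a.den L

/-- The numerators over `L`. -/
def scaleUp (L : ℕ) : List ℚ → List ℤ
  | [] => []
  | a :: p => a.num * ((L / a.den : ℕ) : ℤ) :: scaleUp L p

theorem comDen_pos : ∀ p : List ℚ, 0 < comDen p
  | [] => by simp [comDen]
  | a :: p => by simp only [comDen, forceN_eq]; exact Nat.lcm_pos a.den_pos (comDen_pos p)

theorem ev_scaleUp {L : ℕ} : ∀ {p : List ℚ}, (∀ a ∈ p, a.den ∣ L) → ∀ x : ℝ,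
    ev (scaleUp L p) x = (L : ℝ) * pev p x
  | [], _, x => by simp [scaleUp, ev, pev]
  | a :: p, h, x => by
    simp only [scaleUp, ev, pev, ev_scaleUp (fun b hb => h b (List.mem_cons_of_mem a hb))]
    obtain ⟨k, hk⟩ := h a (List.mem_cons_self ..)
    have hd : (a.den : ℝ) ≠ 0 := Nat.cast_ne_zero.2 a.den_pos.ne'
    rw [hk, Nat.mul_div_cancel_left _ a.den_pos, Rat.cast_def]
    push_cast
    field_simp

theorem den_dvd_comDen : ∀ p : List ℚ, ∀ a ∈ p, a.den ∣ comDen p
  | [], a, h => by simp at h
  | b :: p, a, h => by
    simp only [comDen, forceN_eq]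
    rcases List.mem_cons.1 h with rfl | h
    · exact Nat.dvd_lcm_left ..
    · exact (den_dvd_comDen p a h).trans (Nat.dvd_lcm_right ..)

/-- The packed value of the pullback to `x ≥ 0` along `(a + b x) / (D (1 + x))` and the power of
the denominator, reduced at each step. -/
def packPull {α : Type} (a b D Y : ℤ) : P1 → (ℤ → ℤ → α) → α
  | [], k => k 0 1
  | c :: l, k => packPull a b D Y l fun v w =>
      forceI (w * (D * (1 + Y))) fun w' => forceI (c * w' + (a + b * Y) * v) fun v' => k v' w'

theorem packPull_eq {α : Type} (a b D Y : ℤ) : ∀ (l : P1) (k : ℤ → ℤ → α),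
    packPull a b D Y l k = k (mob1z a b D Y l).1 (mob1z a b D Y l).2
  | [], k => rfl
  | c :: l, k => by
    simp only [packPull, packPull_eq a b D Y l, forceI_eq]
    rfl

/-- The sum of the absolute values, reduced at each step. -/
def absSum {α : Type} : P1 → (ℕ → α) → α
  | [], k => k 0
  | c :: l, k => absSum l fun s => forceN (c.natAbs + s) k

theorem absSum_eq {α : Type} : ∀ (l : P1) (k : ℕ → α), absSum l k = k (n1 l)
  | [], k => rfl
  | c :: l, k => by simp only [absSum, absSum_eq l, forceN_eq, n1]

/-- The balanced digits have no negative one. -/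
def digitsNonneg (Q : ℤ) : ℕ → ℤ → Bool
  | 0, _ => true
  | n + 1, v => forceI (digit Q v) fun d => forceI ((v - d) / Q) fun w =>
      match d with
      | .ofNat _ => digitsNonneg Q n w
      | .negSucc _ => false

theorem digitsNonneg_eq (Q : ℤ) : ∀ (n : ℕ) (v : ℤ),
    digitsNonneg Q n v = nonneg1 (dig Q n v)
  | 0, v => rfl
  | n + 1, v => by
    simp only [digitsNonneg, forceI_eq, dig]
    cases h : digit Q v with
    | ofNat d => simp only [nonneg1, digitsNonneg_eq Q n]
    | negSucc d => simp only [nonneg1]

/-- The test on one interval of integer coefficients: the packed pullback has no negative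
coefficient. -/
def nonnegOnZ (P : P1) (a b : ℚ) : Bool :=
  forceZ P fun P => forceQ a fun a => forceQ b fun b =>
    forceI (a.num * (b.den : ℤ)) fun A => forceI (b.num * (a.den : ℤ)) fun B =>
      forceI ((a.den * b.den : ℕ) : ℤ) fun K => absSum P fun S =>
        forceN (grow A B K ^ P.length) fun G => forceI (base (S * G)) fun Q =>
          packPull A B K Q P fun v _ => digitsNonneg Q (P.length + 1) v

theorem nonnegOnZ_sound {P : P1} {a b : ℚ} (h : nonnegOnZ P a b = true) (hab : a < b) {x : ℝ}
    (hx : (a : ℝ) ≤ x) (hx' : x ≤ b) : 0 ≤ ev P x := by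
  simp only [nonnegOnZ, forceQ_eq, forceN_eq, forceI_eq, forceZ_eq, absSum_eq,
    packPull_eq, digitsNonneg_eq] at h
  set A : ℤ := a.num * (b.den : ℤ) with hA
  set B : ℤ := b.num * (a.den : ℤ) with hB
  set K : ℤ := ((a.den * b.den : ℕ) : ℤ) with hK'
  have hlen : (mob1 A B K P).length ≤ P.length + 1 := length_mob1 A B K P
  rw [mob1z_eq, dig_eq _ _ hlen (lt_of_le_of_lt
    (mul_le_mul_of_nonneg_left (by exact_mod_cast n1_mob1 A B K P) zero_le_two)
    (base_gt _)), nonneg1_pad] at h
  have hda : (0 : ℝ) < a.den := Nat.cast_pos.2 a.den_pos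
  have hdb : (0 : ℝ) < b.den := Nat.cast_pos.2 b.den_pos
  have hK : (0 : ℝ) < (K : ℝ) := by rw [hK']; push_cast; positivity
  have eA : (A : ℝ) = (a : ℝ) * K := by
    rw [hA, hK', Rat.cast_def a]; push_cast; field_simp
  have eB : (B : ℝ) = (b : ℝ) * K := by
    rw [hB, hK', Rat.cast_def b]; push_cast; field_simp
  have half : ∀ t : ℝ, (a : ℝ) ≤ t → t < b → 0 ≤ ev P t := by
    intro t ht ht'
    set X : ℝ := (t - a) / ((b : ℝ) - t) with hX
    have hX0 : 0 ≤ X := div_nonneg (by linarith) (by linarith)
    have e : t * ((K : ℝ) * (1 + X)) = A + B * X := by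
      rw [eA, eB, hX]
      field_simp [(sub_pos.2 ht').ne']
      ring
    have h0 := ev_nonneg _ X hX0 h
    rw [ev_mob1 A B K t X e] at h0
    exact (mul_nonneg_iff_of_pos_left (pow_pos (mul_pos hK (by linarith)) _)).1 h0
  have hcont : Continuous fun y => ev P y := continuous_ev P
  have hab' : (a : ℝ) < b := by exact_mod_cast hab
  exact closure_minimal (fun t (ht : t ∈ Set.Ico (a : ℝ) b) => half t ht.1 ht.2)
    (isClosed_le continuous_const hcont) (by rw [closure_Ico hab'.ne]; exact ⟨hx, hx'⟩)

/-- The test on one interval. -/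
def nonnegOn (p : List ℚ) (a b : ℚ) : Bool :=
  forceL p fun p => forceN (comDen p) fun L => nonnegOnZ (scaleUp L p) a b

theorem nonnegOn_sound {p : List ℚ} {a b : ℚ} (h : nonnegOn p a b = true) (hab : a < b) {x : ℝ}
    (hx : (a : ℝ) ≤ x) (hx' : x ≤ b) : 0 ≤ pev p x := by
  simp only [nonnegOn, forceL_eq, forceN_eq] at h
  have h' := nonnegOnZ_sound h hab hx hx'
  rw [ev_scaleUp (den_dvd_comDen p)] at h'
  exact (mul_nonneg_iff_of_pos_left (Nat.cast_pos.2 (comDen_pos p))).1 h'

/-- The derivative of a list of integer coefficients, with the degree of the first one given. -/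
def zderivFrom (k : ℤ) : P1 → P1
  | [] => []
  | c :: cs => Int.mul k c :: zderivFrom (k + 1) cs

/-- The derivative. -/
def zderiv : P1 → P1
  | [] => []
  | _ :: cs => zderivFrom 1 cs

/-- The coefficients over one denominator as rationals. -/
def overDen (D : ℕ) : P1 → List ℚ
  | [] => []
  | c :: cs => (c : ℚ) / D :: overDen D cs

theorem pev_overDen (D : ℕ) : ∀ (l : P1) (x : ℝ), pev (overDen D l) x = ev l x / D
  | [], x => by simp [overDen, pev, ev]
  | c :: cs, x => by simp only [overDen, pev, ev, pev_overDen D cs]; push_cast; ring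

theorem derivFrom_overDen (D : ℕ) : ∀ (l : P1) (k : ℕ),
    derivFrom k (overDen D l) = overDen D (zderivFrom k l)
  | [], k => rfl
  | c :: cs, k => by
    simp only [overDen, derivFrom, zderivFrom, derivFrom_overDen D cs, List.cons.injEq]
    refine ⟨?_, by push_cast; rfl⟩
    simp only [Int.mul_def]
    push_cast
    ring

theorem pev_pderiv_overDen (D : ℕ) : ∀ (l : P1) (x : ℝ),
    pev (pderiv (overDen D l)) x = ev (zderiv l) x / D
  | [], x => by simp [overDen, pderiv, zderiv, pev, ev]
  | c :: cs, x => by
    simp only [overDen, pderiv, zderiv, derivFrom_overDen, pev_overDen, Nat.cast_one]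

end Vale.Agent.P237.Quant.MomentCheck
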