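import Mathlib
import Vale.Agent.P237.Quant.MomentCheck

/-!
The format and the check of a table of tail bounds: the chain of tail bounds up to the eighth
moment and one inequality on each piece of the logarithmic mean.
-/

namespace Vale.Agent.P237.Quant

open MomentCheck Four.Checker

/-- A lower bound of the exponential. -/
def momentExpLo (x : ℚ) : ℚ := ((List.range 14).map fun k => x ^ k / (k.factorial : ℚ)).sum

/-- A range of `s = 1 / (m + 1)`, the polynomials bounding the tail sums and the pieces. -/
structure MomentTable where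
  /-- The least `s`. -/
  s₀ : ℚ
  /-- The largest `s`. -/
  s₁ : ℚ
  /-- The bounds of the orders one to eight, times ten to the seventh. -/
  Q : List (List ℤ)
  /-- The ends of the pieces of the main inequality after zero. -/
  cuts : List ℚ
  /-- For each step, the ends of the pieces for the sign and the two inequalities. -/
  stepCuts : List (List ℚ × List ℚ × List ℚ)

namespace MomentTable

variable (T : MomentTable)

/-- The bound of order `j`, times ten to the seventh. -/
def zbound : ℕ → P1
  | 0 => [10000000]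
  | j + 1 => T.Q.getD j []

/-- The bound of order `j`. -/
def bound (j : ℕ) : List ℚ := overDen 10000000 (T.zbound j)

/-- The inequality at hazard zero. -/
def flatPoly (j : ℕ) : P1 :=
  add1 (smul1 ((j : ℤ) + 2) (T.zbound (j + 1)))
    (add1 (smul1 (-((j : ℤ) + 1)) (T.zbound j)) (lin1 0 (-1) 0 (zderiv (T.zbound (j + 1)))))

/-- The inequality at the largest hazard, at `s`, times its denominator. -/
def steepPoly (j : ℕ) (s : ℚ) : P1 :=
  forceQ s fun s => forceI s.num fun n => forceI (s.den : ℤ) fun d =>
    add1 (smul1 (d + ((j : ℤ) + 1) * n) (T.zbound (j + 1)))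
      (add1 (smul1 (-((j : ℤ) + 1) * d) (T.zbound j))
        (lin1 (d - n) (-d) 0 (zderiv (T.zbound (j + 1)))))

/-- The coefficient of order `2 i` with the powers of the constant. -/
def weight (i : ℕ) : ℚ :=
  let A : ℚ := 3141593 / 2000000 * (13591409143 / 5000000000)
  ([1 / 2, 3 / 8, 5 / 16, 6401 / 2500] : List ℚ).getD (i - 1) 0 * A ^ i

/-- The factor in `s` of order `2 i`. -/
def factor (i : ℕ) : ℚ := 1 / momentExpLo (3 / 2 * (i : ℚ) * T.s₀)

/-- The moment of order `2 i` on the piece `[a, b]`, the power of the exponential by a chord. -/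
def piecePoly (i : ℕ) (a b : ℚ) : List ℚ :=
  forceQ ((1 / momentExpLo (2 * a)) ^ i) fun ea => forceQ ((1 / momentExpLo (2 * b)) ^ i) fun eb =>
    forceQ ((eb - ea) / (b - a)) fun β => forceQ (ea - β * a) fun α =>
      mulLin α β (T.bound (2 * i))

/-- The bound allowed at `s`. -/
def allowed (s : ℚ) : ℚ :=
  18 / 25 + 47 / 200 * s - 7 / 200 * s ^ 2 - 133 / 2400 * s ^ 3 - 11 / 1200 * s ^ 4

/-- The room on a piece, at `s`. -/
def roomPoly (a b s : ℚ) : List ℚ :=
  forceQ s fun s =>
  padd [allowed s] (psmul (-1)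
    (padd (psmul (weight 1 * (1 - 3 / 2 * s + 9 / 8 * s ^ 2)) (T.piecePoly 1 a b))
      (padd (psmul (weight 2 * T.factor 2 * s) (T.piecePoly 2 a b))
        (padd (psmul (weight 3 * T.factor 3 * s ^ 2) (T.piecePoly 3 a b))
          (psmul (weight 4 * T.factor 4 * s ^ 3) (T.piecePoly 4 a b))))))

/-- The largest `s` on a piece starting at `a`. -/
def sHi (a : ℚ) : ℚ := min T.s₁ (1 - a)

/-- The main check on one piece. -/
def roomOk (a b : ℚ) : Bool :=
  decide (0 ≤ a ∧ a < b) &&
    nonnegOn (T.roomPoly a b T.s₀) a b && nonnegOn (T.roomPoly a b (T.sHi a)) a b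

/-- The check of a sign on one piece. -/
def posOk (j : ℕ) (a b : ℚ) : Bool := decide (a < b) && nonnegOnZ (T.zbound (j + 1)) a b

/-- The check at hazard zero on one piece. -/
def flatOk (j : ℕ) (a b : ℚ) : Bool := decide (a < b) && nonnegOnZ (T.flatPoly j) a b

/-- The check at the largest hazard on one piece. -/
def steepOk (j : ℕ) (a b : ℚ) : Bool :=
  decide (a < b) && nonnegOnZ (T.steepPoly j T.s₀) a b && nonnegOnZ (T.steepPoly j (T.sHi a)) a b

/-- A check on consecutive pieces up to the end. -/
def chain (f : ℚ → ℚ → Bool) : ℚ → List ℚ → Bool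
  | a, [] => decide (1 - T.s₀ ≤ a)
  | a, b :: bs => f a b && chain f b bs

/-- The checks of one step. -/
def stepOk (j : ℕ) : Bool :=
  match T.stepCuts.getD j ([], [], []) with
  | (c₁, c₂, c₃) => decide (c₁ ≠ [] ∧ c₂ ≠ [] ∧ c₃ ≠ []) && T.chain (T.posOk j) 0 c₁ &&
      T.chain (T.flatOk j) 0 c₂ && T.chain (T.steepOk j) 0 c₃

/-- The check of a table. -/
def check : Bool :=
  decide (0 ≤ T.s₀ ∧ T.s₀ < T.s₁ ∧ T.cuts ≠ []) && T.chain T.roomOk 0 T.cuts &&
    (List.range 8).all T.stepOk

end MomentTable

end Vale.Agent.P237.Quant
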