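import Mathlib
import Vale.Agent.P237.Quant.Calc

/-!
Moments of the tails of a profile. With `F` the tail of the density `φ ^ m`, `k = F / φ ^ m` and
`δ` the mean over the tail of the logarithm of the density at its start relative to the density,
the translated moment of order `j` is at most `F k ^ j Q_j δ` as soon as two linear differential
inequalities join `Q_j` to `Q_(j-1)`. At the centre the power integral turns `k` into its value.
-/

namespace Vale.Agent.P237.Quant

open MeasureTheory Set Filter Topology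

variable {m : ℕ} {φ : ℝ → ℝ}

/-- The tail of the density. -/
noncomputable def tailMass (m : ℕ) (φ : ℝ → ℝ) (t : ℝ) : ℝ := ∫ s in t..1, φ s ^ m

/-- The tail of the density times the logarithm of the profile. -/
noncomputable def tailLog (m : ℕ) (φ : ℝ → ℝ) (t : ℝ) : ℝ :=
  ∫ s in t..1, φ s ^ m * Real.log (φ s)

/-- The mean over the tail of `log (π t / π s)`, for the density `π = φ ^ m`. -/
noncomputable def tailDelta (m : ℕ) (φ : ℝ → ℝ) (t : ℝ) : ℝ :=
  m * (Real.log (φ t) * tailMass m φ t - tailLog m φ t) / tailMass m φ t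

/-- The mass of the tail in units of the density at its start. -/
noncomputable def tailScale (m : ℕ) (φ : ℝ → ℝ) (t : ℝ) : ℝ := tailMass m φ t / φ t ^ m

/-- The iterated tail integrals. -/
noncomputable def momentTail (m : ℕ) (φ : ℝ → ℝ) : ℕ → ℝ → ℝ
  | 0 => tailMass m φ
  | j + 1 => fun t => ((j : ℝ) + 1) * ∫ s in t..1, momentTail m φ j s

theorem intervalIntegrable_pow01' (hφ : IsShape φ) (m : ℕ) :
    IntervalIntegrable (fun s => φ s ^ m) volume 0 1 :=
  (intervalIntegrable_shape_pow hφ m).mono_set (by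
    rw [uIcc_of_le zero_le_one, uIcc_of_le (by norm_num : (-1 : ℝ) ≤ 1)]
    exact Icc_subset_Icc (by norm_num) le_rfl)

theorem intervalIntegrable_pow_log (hm : 1 ≤ m) (hφ : IsShape φ) :
    IntervalIntegrable (fun s => φ s ^ m * Real.log (φ s)) volume 0 1 := by
  rw [intervalIntegrable_iff_integrableOn_Ioo_of_le zero_le_one]
  have hψ : Continuous fun x : ℝ => x ^ (m - 1) * (x * Real.log x) :=
    (continuous_pow _).mul Real.continuous_mul_log
  obtain ⟨C, hC⟩ := (isCompact_Icc (a := (0 : ℝ)) (b := φ 0)).exists_bound_of_continuousOn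
    hψ.continuousOn
  have : IsFiniteMeasure (volume.restrict (Ioo (0 : ℝ) 1)) := ⟨by simp⟩
  refine (integrable_const C).mono' ?_ ?_
  · refine ContinuousOn.aestronglyMeasurable ?_ measurableSet_Ioo
    have hc := (shape_continuousOn hφ).mono (Ioo_subset_Ioo (by norm_num) le_rfl :
      Ioo (0 : ℝ) 1 ⊆ Ioo (-1) 1)
    exact (hc.pow m).mul (hc.log fun s hs => (shape_pos hφ ⟨by linarith [hs.1], hs.2⟩).ne')
  · filter_upwards [ae_restrict_mem measurableSet_Ioo] with s hs
    have hI : s ∈ Icc (-1 : ℝ) 1 := ⟨by linarith [hs.1], hs.2.le⟩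
    have h := hC (φ s) ⟨hφ.nonneg s hI, shape_le_centre hφ hI⟩
    rwa [← mul_assoc, ← pow_succ, Nat.sub_add_cancel hm] at h

theorem continuousOn_tail {f : ℝ → ℝ} (hf : IntervalIntegrable f volume 0 1) :
    ContinuousOn (fun t => ∫ s in t..1, f s) (Icc 0 1) := by
  have h := (intervalIntegral.continuousOn_primitive_interval'
    hf (left_mem_uIcc (a := (0 : ℝ)) (b := 1)))
  rw [uIcc_of_le zero_le_one] at h
  refine (continuousOn_const (c := ∫ s in (0 : ℝ)..1, f s) |>.sub h).congr fun t ht => ?_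
  dsimp only [Pi.sub_apply]
  rw [intervalIntegral.integral_interval_sub_left hf]
  exact hf.mono_set (by rw [uIcc_of_le zero_le_one, uIcc_of_le ht.1]; exact Icc_subset_Icc le_rfl ht.2)

theorem hasDerivAt_tail {f : ℝ → ℝ} (hf : IntervalIntegrable f volume 0 1)
    (hc : ContinuousOn f (Ioo 0 1)) {t : ℝ} (ht : t ∈ Ioo (0 : ℝ) 1) :
    HasDerivAt (fun u => ∫ s in u..1, f s) (-f t) t := by
  refine intervalIntegral.integral_hasDerivAt_left (hf.mono_set ?_) ?_
    (hc.continuousAt (Ioo_mem_nhds ht.1 ht.2))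
  · rw [uIcc_of_le zero_le_one, uIcc_of_le ht.2.le]
    exact Icc_subset_Icc ht.1.le le_rfl
  · exact hc.stronglyMeasurableAtFilter isOpen_Ioo t ht

theorem continuousOn_pow01 (hφ : IsShape φ) (m : ℕ) :
    ContinuousOn (fun s => φ s ^ m) (Ioo (0 : ℝ) 1) :=
  ((shape_continuousOn hφ).mono (Ioo_subset_Ioo (by norm_num) le_rfl)).pow m

theorem tailMass_pos (hφ : IsShape φ) {t : ℝ} (ht : t ∈ Ico (0 : ℝ) 1) :
    0 < tailMass m φ t := by
  refine intervalIntegral.intervalIntegral_pos_of_pos_on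
    ((intervalIntegrable_pow01' hφ m).mono_set ?_) (fun s hs => ?_) ht.2
  · rw [uIcc_of_le zero_le_one, uIcc_of_le ht.2.le]
    exact Icc_subset_Icc ht.1 le_rfl
  · exact pow_pos (shape_pos hφ ⟨by linarith [hs.1, ht.1], hs.2⟩) m

theorem momentTail_continuousOn (hφ : IsShape φ) :
    ∀ j, ContinuousOn (momentTail m φ j) (Icc 0 1)
  | 0 => continuousOn_tail (intervalIntegrable_pow01' hφ m)
  | j + 1 => by
    refine continuousOn_const.mul (continuousOn_tail (ContinuousOn.intervalIntegrable ?_))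
    rw [uIcc_of_le zero_le_one]
    exact momentTail_continuousOn hφ j

theorem momentTail_one : ∀ j, momentTail m φ j 1 = 0
  | 0 => intervalIntegral.integral_same
  | j + 1 => by simp [momentTail, intervalIntegral.integral_same]

theorem hasDerivAt_tailSum (hφ : IsShape φ) (j : ℕ) {t : ℝ} (ht : t ∈ Ioo (0 : ℝ) 1) :
    HasDerivAt (momentTail m φ (j + 1)) (-(((j : ℝ) + 1) * momentTail m φ j t)) t := by
  have hc := momentTail_continuousOn (m := m) hφ j
  have h := (hasDerivAt_tail (hc.intervalIntegrable_of_Icc zero_le_one)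
    (hc.mono Ioo_subset_Icc_self) ht).const_mul ((j : ℝ) + 1)
  exact h.congr_deriv (by ring)

/-- The moments of the density are the iterated tail integrals at the centre. -/
theorem momentTail_zero (hφ : IsShape φ) (j : ℕ) :
    momentTail m φ j 0 = ∫ s in (0 : ℝ)..1, s ^ j * φ s ^ m := by
  have hint : ∀ j i : ℕ, IntervalIntegrable (fun s => s ^ i * momentTail m φ j s) volume 0 1 :=
    fun j i => ((continuous_pow i).continuousOn.mul (momentTail_continuousOn hφ j)).intervalIntegrable_of_Icc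
      zero_le_one
  have hF : ∀ i : ℕ, ((i : ℝ) + 1) * (∫ s in (0 : ℝ)..1, s ^ i * momentTail m φ 0 s) =
      ∫ s in (0 : ℝ)..1, s ^ (i + 1) * φ s ^ m := fun i => by
    have i1 := (hint 0 i).const_mul ((i : ℝ) + 1)
    have i2 := (intervalIntegrable_pow01' hφ m).continuousOn_mul
      (g := fun s : ℝ => s ^ (i + 1)) (continuous_pow _).continuousOn
    have h := intervalIntegral.integral_eq_sub_of_hasDerivAt_of_le zero_le_one
      (f := fun s => s ^ (i + 1) * momentTail m φ 0 s)
      (f' := fun s => ((i : ℝ) + 1) * (s ^ i * momentTail m φ 0 s) - s ^ (i + 1) * φ s ^ m)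
      ((continuous_pow _).continuousOn.mul (momentTail_continuousOn hφ 0)) (fun s hs => ?_) (i1.sub i2)
    · rw [intervalIntegral.integral_sub i1 i2, intervalIntegral.integral_const_mul] at h
      simp only [momentTail_one, mul_zero, zero_pow (Nat.succ_ne_zero i), zero_mul, sub_zero] at h
      linarith
    · refine ((hasDerivAt_pow (i + 1) s).mul (hasDerivAt_tail (intervalIntegrable_pow01' hφ m)
        (continuousOn_pow01 hφ m) hs)).congr_deriv ?_
      simp only [momentTail, tailMass, Nat.add_sub_cancel]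
      push_cast
      ring
  have hstep : ∀ j i : ℕ, ((i : ℝ) + 1) * (∫ s in (0 : ℝ)..1, s ^ i * momentTail m φ (j + 1) s) =
      ((j : ℝ) + 1) * ∫ s in (0 : ℝ)..1, s ^ (i + 1) * momentTail m φ j s := fun j i => by
    have i1 := (hint (j + 1) i).const_mul ((i : ℝ) + 1)
    have i2 := (hint j (i + 1)).const_mul ((j : ℝ) + 1)
    have h := intervalIntegral.integral_eq_sub_of_hasDerivAt_of_le zero_le_one
      (f := fun s => s ^ (i + 1) * momentTail m φ (j + 1) s)
      (f' := fun s => ((i : ℝ) + 1) * (s ^ i * momentTail m φ (j + 1) s) -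
        ((j : ℝ) + 1) * (s ^ (i + 1) * momentTail m φ j s))
      ((continuous_pow _).continuousOn.mul (momentTail_continuousOn hφ (j + 1))) (fun s hs => ?_)
      (i1.sub i2)
    · rw [intervalIntegral.integral_sub i1 i2, intervalIntegral.integral_const_mul,
        intervalIntegral.integral_const_mul] at h
      simp only [momentTail_one, mul_zero, zero_pow (Nat.succ_ne_zero i), zero_mul, sub_zero] at h
      linarith
    · refine ((hasDerivAt_pow (i + 1) s).mul (hasDerivAt_tailSum hφ j hs)).congr_deriv ?_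
      simp only [Nat.add_sub_cancel]
      push_cast
      ring
  have key : ∀ j i : ℕ, (((i + j).factorial : ℕ) : ℝ) *
      (∫ s in (0 : ℝ)..1, s ^ i * momentTail m φ j s) = ((j.factorial : ℕ) : ℝ) * (i.factorial : ℕ) *
      ∫ s in (0 : ℝ)..1, s ^ (i + j) * momentTail m φ 0 s := by
    intro j
    induction j with
    | zero => intro i; simp
    | succ j ih =>
      intro i
      have h := ih (i + 1)
      rw [show i + 1 + j = i + (j + 1) by omega, Nat.factorial_succ i] at h
      have h' := congrArg (fun z => (((i + (j + 1)).factorial : ℕ) : ℝ) * z) (hstep j i)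
      have hi : (0 : ℝ) < (i : ℝ) + 1 := by positivity
      apply mul_left_cancel₀ hi.ne'
      rw [Nat.factorial_succ j]
      push_cast at h h' ⊢
      linear_combination h' + ((j : ℝ) + 1) * h
  rcases j with - | j
  · simp [momentTail, tailMass]
  · have h := key j 0
    simp only [zero_add, pow_zero, one_mul, Nat.factorial_zero, Nat.cast_one, mul_one] at h
    have hj : (((j.factorial : ℕ) : ℝ)) ≠ 0 := Nat.cast_ne_zero.2 (Nat.factorial_ne_zero j)
    have h1 := mul_left_cancel₀ hj h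
    show ((j : ℝ) + 1) * (∫ s in (0 : ℝ)..1, momentTail m φ j s) = _
    rw [h1, hF]

theorem dright_tail_le (hφ : IsShape φ) {t : ℝ} (ht : t ∈ Ioo (0 : ℝ) 1) :
    ((m : ℝ) + 1) * (-dright φ t) * tailMass m φ t ≤ φ t ^ (m + 1) := by
  set d := dright φ t with hd
  have hI : t ∈ Ioo (-1 : ℝ) 1 := ⟨by linarith [ht.1], ht.2⟩
  have hdd := hasDerivWithinAt_dright hφ hI
  have hsl := (hasDerivWithinAt_iff_tendsto_slope' self_notMem_Ioi).1 hdd
  have hline : ∀ s ∈ Ioc t 1, φ s ≤ φ t + d * (s - t) := fun s hs => by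
    have h : slope φ t s ≤ d := by
      refine ge_of_tendsto hsl ?_
      filter_upwards [Ioo_mem_nhdsGT hs.1] with u hu
      exact hφ.concave.slope_anti (Ioo_subset_Icc_self hI)
        ⟨⟨by linarith [hu.1, ht.1], hu.2.le.trans hs.2⟩, hu.1.ne'⟩
        ⟨⟨by linarith [hs.1, ht.1], hs.2⟩, hs.1.ne'⟩ hu.2.le
    rw [slope_def_field, div_le_iff₀ (sub_pos.2 hs.1)] at h
    linarith
  have hi : IntervalIntegrable (fun s => φ s ^ m) volume t 1 :=
    (intervalIntegrable_pow01' hφ m).mono_set (by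
      rw [uIcc_of_le zero_le_one, uIcc_of_le ht.2.le]; exact Icc_subset_Icc ht.1.le le_rfl)
  have hd0 : 0 ≤ -d := neg_nonneg.2 (dright_nonpos hφ ht)
  have hcont : Continuous fun s => ((m : ℝ) + 1) * -d * (φ t + d * (s - t)) ^ m := by fun_prop
  calc ((m : ℝ) + 1) * -d * tailMass m φ t
      = ∫ s in t..1, ((m : ℝ) + 1) * -d * φ s ^ m := (intervalIntegral.integral_const_mul _ _).symm
    _ ≤ ∫ s in t..1, ((m : ℝ) + 1) * -d * (φ t + d * (s - t)) ^ m := by
        refine intervalIntegral.integral_mono_on ht.2.le (hi.const_mul _)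
          (hcont.intervalIntegrable _ _) fun s hs => mul_le_mul_of_nonneg_left ?_ (by positivity)
        rcases hs.1.eq_or_lt with rfl | h
        · simp
        · exact pow_le_pow_left₀ (hφ.nonneg s ⟨by linarith [ht.1, hs.1], hs.2⟩)
            (hline s ⟨h, hs.2⟩) m
    _ = φ t ^ (m + 1) - (φ t + d * (1 - t)) ^ (m + 1) := by
        rw [intervalIntegral.integral_eq_sub_of_hasDerivAt
          (f := fun s => -(φ t + d * (s - t)) ^ (m + 1)) (fun s _ => ?_)
          (hcont.intervalIntegrable _ _)]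
        · simp only [sub_self, mul_zero, add_zero]; ring
        · refine ((((hasDerivAt_id' s).sub_const t).const_mul d |>.const_add (φ t)).fun_pow
            (m + 1)).fun_neg.congr_deriv ?_
          simp only [Nat.add_sub_cancel]
          push_cast
          ring
    _ ≤ φ t ^ (m + 1) := by
        have := (hφ.nonneg 1 (by norm_num)).trans (hline 1 ⟨ht.2, le_rfl⟩)
        linarith [pow_nonneg this (m + 1)]

/-- The hazard of the tail. -/
noncomputable def tailHazard (m : ℕ) (φ : ℝ → ℝ) (t : ℝ) : ℝ :=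
  m * tailMass m φ t * (-dright φ t) / φ t ^ (m + 1)

theorem tailHazard_mem (hφ : IsShape φ) {t : ℝ} (ht : t ∈ Ioo (0 : ℝ) 1) :
    tailHazard m φ t ∈ Icc 0 ((m : ℝ) / (m + 1)) := by
  have hp : 0 < φ t := shape_pos hφ ⟨by linarith [ht.1], ht.2⟩
  refine ⟨div_nonneg (mul_nonneg (mul_nonneg (Nat.cast_nonneg _)
    (tailMass_pos hφ ⟨ht.1.le, ht.2⟩).le) (neg_nonneg.2 (dright_nonpos hφ ht))) (by positivity), ?_⟩
  rw [tailHazard, div_le_div_iff₀ (by positivity) (by positivity)]
  linarith [mul_le_mul_of_nonneg_left (dright_tail_le (m := m) hφ ht) (Nat.cast_nonneg (α := ℝ) m)]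

/-- A function with nonpositive right derivative on `(0, 1)` is largest at the left. -/
theorem le_of_deriv_right_nonpos {g g' : ℝ → ℝ} {a b : ℝ} (hab : a ≤ b)
    (hc : ContinuousOn g (Icc a b)) (hd : ∀ t ∈ Ioo a b, HasDerivWithinAt g (g' t) (Ioi t) t)
    (hle : ∀ t ∈ Ioo a b, g' t ≤ 0) : g b ≤ g a := by
  have h := intervalIntegral.sub_le_integral_of_hasDeriv_right_of_le (φ := fun _ => (0 : ℝ)) hab hc
    hd (by simp) hle
  simpa using h

theorem hasDeriv_tailDelta (hm : 1 ≤ m) (hφ : IsShape φ) {t : ℝ} (ht : t ∈ Ioo (0 : ℝ) 1) :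
    HasDerivWithinAt (tailDelta m φ)
      (φ t ^ m * (tailDelta m φ t - tailHazard m φ t) / tailMass m φ t) (Ioi t) t := by
  have hp : 0 < φ t := shape_pos hφ ⟨by linarith [ht.1], ht.2⟩
  have hF := (tailMass_pos (m := m) hφ ⟨ht.1.le, ht.2⟩).ne'
  have dF := (hasDerivAt_tail (intervalIntegrable_pow01' hφ m) (continuousOn_pow01 hφ m)
    ht).hasDerivWithinAt (s := Ioi t)
  have dL := (hasDerivAt_tail (intervalIntegrable_pow_log hm hφ)
    ((continuousOn_pow01 hφ m).mul (((shape_continuousOn hφ).mono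
      (Ioo_subset_Ioo (by norm_num) le_rfl)).log fun s hs =>
        (shape_pos hφ ⟨by linarith [hs.1], hs.2⟩).ne')) ht).hasDerivWithinAt (s := Ioi t)
  have dl := (hasDerivWithinAt_dright hφ (t := t) ⟨by linarith [ht.1], ht.2⟩).log hp.ne'
  refine ((((dl.fun_mul dF).fun_sub dL).const_mul (m : ℝ)).fun_div dF hF).congr_deriv ?_
  simp only [tailDelta, tailHazard, tailMass, tailLog] at hF ⊢
  rw [pow_succ]
  field_simp
  ring

theorem continuousOn_tail_parts (hm : 1 ≤ m) (hφ : IsShape φ) :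
    ContinuousOn (tailMass m φ) (Ico 0 1) ∧ ContinuousOn (tailDelta m φ) (Ico 0 1) ∧
      ContinuousOn (tailScale m φ) (Ico 0 1) := by
  have hsub : Ico (0 : ℝ) 1 ⊆ Ioo (-1) 1 := fun t ht => ⟨by linarith [ht.1], ht.2⟩
  have hc := (shape_continuousOn hφ).mono hsub
  have hp : ∀ t ∈ Ico (0 : ℝ) 1, φ t ≠ 0 := fun t ht => (shape_pos hφ (hsub ht)).ne'
  have cF : ContinuousOn (tailMass m φ) (Ico 0 1) :=
    (continuousOn_tail (intervalIntegrable_pow01' hφ m)).mono Ico_subset_Icc_self
  have cL : ContinuousOn (tailLog m φ) (Ico 0 1) :=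
    (continuousOn_tail (intervalIntegrable_pow_log hm hφ)).mono Ico_subset_Icc_self
  exact ⟨cF, (continuousOn_const.mul (((hc.log hp).mul cF).sub cL)).div cF
      fun t ht => (tailMass_pos hφ ht).ne',
    cF.div (hc.pow m) fun t ht => pow_ne_zero _ (hp t ht)⟩

theorem tailDelta_mem (hm : 1 ≤ m) (hφ : IsShape φ) {t : ℝ} (ht : t ∈ Ico (0 : ℝ) 1) :
    tailDelta m φ t ∈ Icc 0 ((m : ℝ) / (m + 1)) := by
  have hI : ∀ s ∈ Icc t 1, s ∈ Icc (0 : ℝ) 1 := fun s hs => ⟨ht.1.trans hs.1, hs.2⟩
  have hsub : uIcc t 1 ⊆ uIcc (0 : ℝ) 1 := by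
    rw [uIcc_of_le zero_le_one, uIcc_of_le ht.2.le]; exact Icc_subset_Icc ht.1 le_rfl
  have hF := tailMass_pos (m := m) hφ ht
  have hcmp : tailLog m φ t ≤ Real.log (φ t) * tailMass m φ t := by
    rw [tailLog, tailMass, ← intervalIntegral.integral_const_mul]
    refine intervalIntegral.integral_mono_on_of_le_Ioo ht.2.le
      ((intervalIntegrable_pow_log hm hφ).mono_set hsub)
      (((intervalIntegrable_pow01' hφ m).mono_set hsub).const_mul _) fun s hs => ?_
    have hs0 := shape_pos hφ (t := s) ⟨by linarith [hs.1, ht.1], hs.2⟩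
    rw [mul_comm (Real.log (φ t))]
    exact mul_le_mul_of_nonneg_left (Real.log_le_log hs0 (shape_antitoneOn hφ
      (Ico_subset_Icc_self ht) (hI s (Ioo_subset_Icc_self hs)) hs.1.le)) (pow_nonneg hs0.le _)
  refine ⟨div_nonneg (mul_nonneg (Nat.cast_nonneg _) (sub_nonneg.2 hcmp)) hF.le, ?_⟩
  set w₀ : ℝ := (m : ℝ) / (m + 1) with hw0
  have hw : 0 ≤ w₀ := by positivity
  obtain ⟨cF, cD, -⟩ := continuousOn_tail_parts hm hφ
  set g : ℝ → ℝ := fun s => (w₀ - tailDelta m φ s) * tailMass m φ s with hg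
  have key : ∀ b ∈ Ioo t 1, g b ≤ g t := by
    intro b hb
    refine le_of_deriv_right_nonpos hb.1.le (((continuousOn_const.sub cD).mul cF).mono
      fun s hs => ⟨ht.1.trans hs.1, hs.2.trans_lt hb.2⟩)
      (g' := fun s => φ s ^ m * (tailHazard m φ s - w₀)) (fun s hs => ?_) fun s hs => ?_
    · have hs' : s ∈ Ioo (0 : ℝ) 1 := ⟨ht.1.trans_lt hs.1, hs.2.trans hb.2⟩
      refine (((hasDeriv_tailDelta hm hφ hs').const_sub w₀).fun_mul (hasDerivAt_tail
        (intervalIntegrable_pow01' hφ m) (continuousOn_pow01 hφ m) hs').hasDerivWithinAt).congr_deriv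
        ?_
      have := (tailMass_pos (m := m) hφ (Ioo_subset_Ico_self hs')).ne'
      simp only [tailMass] at this ⊢
      field_simp
      ring
    · have hs' : s ∈ Ioo (0 : ℝ) 1 := ⟨ht.1.trans_lt hs.1, hs.2.trans hb.2⟩
      exact mul_nonpos_of_nonneg_of_nonpos
        (pow_nonneg (hφ.nonneg s ⟨by linarith [hs'.1], hs'.2.le⟩) _)
        (sub_nonpos.2 (tailHazard_mem hφ hs').2)
  -- the limit at the end
  have cT := continuousOn_tail (intervalIntegrable_pow_log hm hφ)
  have cM := continuousOn_tail (intervalIntegrable_pow01' hφ m)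
  have hlow : ∀ b ∈ Ioo t 1, w₀ * tailMass m φ b -
      m * (Real.log (φ 0) * tailMass m φ b - tailLog m φ b) ≤ g b := by
    intro b hb
    have hb0 : b ∈ Ico (0 : ℝ) 1 := ⟨ht.1.trans hb.1.le, hb.2⟩
    have hFb := (tailMass_pos (m := m) hφ hb0)
    have hl : Real.log (φ b) ≤ Real.log (φ 0) := Real.log_le_log
      (shape_pos hφ ⟨by linarith [hb0.1], hb.2⟩)
      (shape_le_centre hφ ⟨by linarith [hb0.1], hb.2.le⟩)
    have e : g b = w₀ * tailMass m φ b -
        m * (Real.log (φ b) * tailMass m φ b - tailLog m φ b) := by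
      rw [hg]
      simp only [tailDelta]
      field_simp
    rw [e]
    linarith [mul_le_mul_of_nonneg_left (mul_le_mul_of_nonneg_right hl hFb.le)
      (Nat.cast_nonneg (α := ℝ) m)]
  have hlim : Tendsto (fun b => w₀ * tailMass m φ b -
      m * (Real.log (φ 0) * tailMass m φ b - tailLog m φ b)) (𝓝[<] 1) (𝓝 0) := by
    have hc : ContinuousWithinAt (fun b => w₀ * tailMass m φ b -
        m * (Real.log (φ 0) * tailMass m φ b - tailLog m φ b)) (Icc 0 1) 1 :=
      ((continuousOn_const.mul cM).sub (continuousOn_const.mul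
        ((continuousOn_const.mul cM).sub cT))) 1 (right_mem_Icc.2 zero_le_one)
    have h := hc.tendsto.mono_left
      (nhdsWithin_le_of_mem (Icc_mem_nhdsLT (zero_lt_one (α := ℝ))))
    simpa [tailMass, tailLog] using h
  have h0 : 0 ≤ g t := le_of_tendsto hlim (by
    filter_upwards [Ioo_mem_nhdsLT ht.2] with b hb using (hlow b hb).trans (key b hb))
  have := nonneg_of_mul_nonneg_left h0 hF
  linarith

theorem momentTail_nonneg (hφ : IsShape φ) :
    ∀ j, ∀ t ∈ Icc (0 : ℝ) 1, 0 ≤ momentTail m φ j t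
  | 0, t, ht => intervalIntegral.integral_nonneg ht.2 fun s hs =>
      pow_nonneg (hφ.nonneg s ⟨by linarith [ht.1, hs.1], hs.2⟩) m
  | j + 1, t, ht => mul_nonneg (by positivity) (intervalIntegral.integral_nonneg ht.2 fun s hs =>
      momentTail_nonneg hφ j s ⟨ht.1.trans hs.1, hs.2⟩)

/-- One step of the tail comparison: two linear differential inequalities carry the bound from
order `j` to order `j + 1`. -/
theorem momentTail_succ_le (hm : 1 ≤ m) (hφ : IsShape φ) (j : ℕ) {P Q Q' : ℝ → ℝ}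
    (hQ : ∀ d, HasDerivAt Q (Q' d) d)
    (hQ0 : ∀ d ∈ Icc (0 : ℝ) ((m : ℝ) / (m + 1)), 0 ≤ Q d)
    (h0 : ∀ d ∈ Icc (0 : ℝ) ((m : ℝ) / (m + 1)),
      ((j : ℝ) + 1) * P d ≤ ((j : ℝ) + 2) * Q d - d * Q' d)
    (h1 : ∀ d ∈ Icc (0 : ℝ) ((m : ℝ) / (m + 1)),
      ((j : ℝ) + 1) * P d ≤ (1 + ((j : ℝ) + 1) / (m + 1)) * Q d + ((m : ℝ) / (m + 1) - d) * Q' d)
    (hP : ∀ t ∈ Ioo (0 : ℝ) 1,
      momentTail m φ j t ≤ tailMass m φ t * tailScale m φ t ^ j * P (tailDelta m φ t)) :
    ∀ t ∈ Ico (0 : ℝ) 1, momentTail m φ (j + 1) t ≤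
      tailMass m φ t * tailScale m φ t ^ (j + 1) * Q (tailDelta m φ t) := by
  intro t ht
  obtain ⟨cF, cD, cK⟩ := continuousOn_tail_parts hm hφ
  have cQ : ContinuousOn (fun s => Q (tailDelta m φ s)) (Ico 0 1) :=
    (continuous_iff_continuousAt.2 fun d => (hQ d).continuousAt).comp_continuousOn cD
  have cS := momentTail_continuousOn (m := m) hφ (j + 1)
  set g : ℝ → ℝ := fun s => tailMass m φ s * tailScale m φ s ^ (j + 1) * Q (tailDelta m φ s) -
    momentTail m φ (j + 1) s with hg
  have hnn : ∀ b ∈ Ico (0 : ℝ) 1, -momentTail m φ (j + 1) b ≤ g b := fun b hb => by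
    have hp := shape_pos hφ (t := b) ⟨by linarith [hb.1], hb.2⟩
    have hk : 0 ≤ tailScale m φ b := div_nonneg (tailMass_pos hφ hb).le (pow_nonneg hp.le _)
    have := mul_nonneg (mul_nonneg (tailMass_pos (m := m) hφ hb).le (pow_nonneg hk (j + 1)))
      (hQ0 _ (tailDelta_mem hm hφ hb))
    simp only [hg]
    linarith
  have key : ∀ b ∈ Ioo t 1, g b ≤ g t := by
    intro b hb
    have hmono : Icc t b ⊆ Ico (0 : ℝ) 1 := fun s hs => ⟨ht.1.trans hs.1, hs.2.trans_lt hb.2⟩
    refine le_of_deriv_right_nonpos hb.1.le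
      ((((cF.mul (cK.pow (j + 1))).mul cQ).mono hmono).sub
        (cS.mono (hmono.trans Ico_subset_Icc_self)))
      (g' := fun s => φ s ^ m * tailScale m φ s ^ (j + 1) *
        (-(1 + ((j : ℝ) + 1) * (1 - tailHazard m φ s)) * Q (tailDelta m φ s) +
          (tailDelta m φ s - tailHazard m φ s) * Q' (tailDelta m φ s)) +
        ((j : ℝ) + 1) * momentTail m φ j s) (fun s hs => ?_) fun s hs => ?_
    · have hs' : s ∈ Ioo (0 : ℝ) 1 := ⟨ht.1.trans_lt hs.1, hs.2.trans hb.2⟩
      have hp := shape_pos hφ (t := s) ⟨by linarith [hs'.1], hs'.2⟩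
      have hF := (tailMass_pos (m := m) hφ (Ioo_subset_Ico_self hs')).ne'
      have dF := (hasDerivAt_tail (intervalIntegrable_pow01' hφ m) (continuousOn_pow01 hφ m)
        hs').hasDerivWithinAt (s := Ioi s)
      have dK := dF.fun_div ((hasDerivWithinAt_dright hφ (t := s)
        ⟨by linarith [hs'.1], hs'.2⟩).fun_pow m) (pow_ne_zero m hp.ne')
      have dQ := (hQ (tailDelta m φ s)).comp_hasDerivWithinAt s (hasDeriv_tailDelta hm hφ hs')
      refine (((dF.fun_mul (dK.fun_pow (j + 1))).fun_mul dQ).fun_sub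
        (hasDerivAt_tailSum hφ j hs').hasDerivWithinAt).congr_deriv ?_
      obtain ⟨k, rfl⟩ : ∃ k, m = k + 1 := ⟨m - 1, by omega⟩
      simp only [tailScale, tailHazard, tailMass, Function.comp_apply, Nat.add_sub_cancel] at hF ⊢
      simp only [div_pow, pow_succ]
      push_cast
      field_simp
      ring
    · have hs' : s ∈ Ioo (0 : ℝ) 1 := ⟨ht.1.trans_lt hs.1, hs.2.trans hb.2⟩
      have hp := shape_pos hφ (t := s) ⟨by linarith [hs'.1], hs'.2⟩
      have hd := tailDelta_mem (m := m) hm hφ (Ioo_subset_Ico_self hs')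
      have hw := tailHazard_mem (m := m) hφ hs'
      have a0 := h0 _ hd
      have a1 := h1 _ hd
      set w := tailHazard m φ s
      set w₀ : ℝ := (m : ℝ) / (m + 1) with hw0
      set d := tailDelta m φ s
      have hm0 : (0 : ℝ) < m := by exact_mod_cast (by omega : 0 < m)
      have hw1 : 0 < w₀ := by positivity
      have hsum : ((j : ℝ) + 1) * P d ≤
          (1 + ((j : ℝ) + 1) * (1 - w)) * Q d + (w - d) * Q' d := by
        have e : 1 + ((j : ℝ) + 1) / (m + 1) = 1 + ((j : ℝ) + 1) * (1 - w₀) := by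
          rw [hw0]; field_simp; ring
        rw [e] at a1
        refine le_of_mul_le_mul_left ?_ hw1
        linear_combination mul_le_mul_of_nonneg_left a0 (sub_nonneg.2 hw.2) +
          mul_le_mul_of_nonneg_left a1 hw.1
      have hS := hP s hs'
      have hk : 0 ≤ φ s ^ m * tailScale m φ s ^ (j + 1) :=
        mul_nonneg (pow_nonneg hp.le _) (pow_nonneg
          (div_nonneg (tailMass_pos hφ (Ioo_subset_Ico_self hs')).le (pow_nonneg hp.le _)) _)
      have e : tailMass m φ s * tailScale m φ s ^ j =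
          φ s ^ m * tailScale m φ s ^ (j + 1) := by
        rw [pow_succ, tailScale]
        field_simp
      rw [e] at hS
      have h' := mul_le_mul_of_nonneg_left hsum hk
      have h'' := mul_le_mul_of_nonneg_left hS (by positivity : (0 : ℝ) ≤ (j : ℝ) + 1)
      linarith
  have hlim : Tendsto (fun b => -momentTail m φ (j + 1) b) (𝓝[<] 1) (𝓝 0) := by
    have h := (cS 1 (right_mem_Icc.2 zero_le_one)).tendsto.neg.mono_left
      (nhdsWithin_le_of_mem (Icc_mem_nhdsLT (zero_lt_one (α := ℝ))))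
    simpa [momentTail_one] using h
  have h0 : 0 ≤ g t := le_of_tendsto hlim (by
    filter_upwards [Ioo_mem_nhdsLT ht.2] with b hb
      using (hnn b ⟨ht.1.trans hb.1.le, hb.2⟩).trans (key b hb))
  simp only [hg] at h0
  linarith

/-- At the centre the power integral bounds the scale. -/
theorem tailScale_mul_exp_le (hm : 1 ≤ m) (hφ : IsShape φ) :
    tailScale m φ 0 * Real.exp (tailDelta m φ 0) ≤ powVal m φ := by
  obtain ⟨k, rfl⟩ : ∃ k, m = k + 1 := ⟨m - 1, by omega⟩
  set F := tailMass (k + 1) φ 0 with hFdef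
  set P := ∫ t in (0 : ℝ)..1, φ t ^ k with hPdef
  have hF : 0 < F := tailMass_pos hφ ⟨le_rfl, zero_lt_one⟩
  have hP : 0 < P := intervalIntegral.intervalIntegral_pos_of_pos_on (intervalIntegrable_pow01' hφ k)
    (fun t ht => pow_pos (shape_pos hφ ⟨by linarith [ht.1], ht.2⟩) k) zero_lt_one
  have hlog : -tailLog (k + 1) φ 0 ≤ F * (Real.log P - Real.log F) := by
    set c := F / P with hc
    have hc0 : 0 < c := div_pos hF hP
    have i1 := (intervalIntegrable_pow01' hφ k).const_mul c
    have i2 := (intervalIntegrable_pow01' hφ (k + 1)).const_mul (1 + Real.log c)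
    have h : (∫ t in (0 : ℝ)..1, -(φ t ^ (k + 1) * Real.log (φ t))) ≤
        ∫ t in (0 : ℝ)..1, (c * φ t ^ k - (1 + Real.log c) * φ t ^ (k + 1)) := by
      refine intervalIntegral.integral_mono_on_of_le_Ioo zero_le_one
        (intervalIntegrable_pow_log hm hφ).neg (i1.sub i2) fun t ht => ?_
      have hp := shape_pos hφ (t := t) ⟨by linarith [ht.1], ht.2⟩
      have h := Real.log_le_sub_one_of_pos (div_pos hc0 hp)
      rw [Real.log_div hc0.ne' hp.ne'] at h
      have e : φ t ^ (k + 1) * (c / φ t) = c * φ t ^ k := by field_simp; ring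
      have := mul_le_mul_of_nonneg_left h (pow_nonneg hp.le (k + 1))
      linarith
    rw [intervalIntegral.integral_neg, intervalIntegral.integral_sub i1 i2,
      intervalIntegral.integral_const_mul, intervalIntegral.integral_const_mul] at h
    change -tailLog (k + 1) φ 0 ≤ c * P - (1 + Real.log c) * F at h
    rw [hc, div_mul_cancel₀ _ hP.ne', Real.log_div hF.ne' hP.ne'] at h
    linarith
  have hd : tailDelta (k + 1) φ 0 ≤
      ((k + 1 : ℕ) : ℝ) * Real.log (φ 0 * P / F) := by
    rw [tailDelta, div_le_iff₀ hF, Real.log_div (mul_pos hφ.centre hP).ne' hF.ne',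
      Real.log_mul hφ.centre.ne' hP.ne', ← hFdef]
    linarith [mul_le_mul_of_nonneg_left hlog (Nat.cast_nonneg (α := ℝ) (k + 1))]
  have hpos : 0 < φ 0 * P / F := div_pos (mul_pos hφ.centre hP) hF
  have he : Real.exp (tailDelta (k + 1) φ 0) ≤ (φ 0 * P / F) ^ (k + 1) := by
    rw [← Real.exp_log (pow_pos hpos _), Real.log_pow]
    exact Real.exp_le_exp.2 hd
  calc tailScale (k + 1) φ 0 * Real.exp (tailDelta (k + 1) φ 0)
      ≤ F / φ 0 ^ (k + 1) * (φ 0 * P / F) ^ (k + 1) :=
        mul_le_mul_of_nonneg_left he (div_nonneg hF.le (pow_nonneg hφ.centre.le _))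
    _ = powVal (k + 1) φ := by
        show _ = P ^ (k + 1) / F ^ k
        rw [div_pow, mul_pow, pow_succ F k]
        have := hφ.centre.ne'
        field_simp

/-- The moments of a profile from bounds of its tails. -/
theorem moment_le_of_tail (hm : 1 ≤ m) (hφ : IsShape φ) (j : ℕ) {Q : ℝ → ℝ} {R : ℝ}
    (hR : powVal m φ ≤ R) (hQ0 : 0 ≤ Q (tailDelta m φ 0))
    (hQ : momentTail m φ j 0 ≤ tailMass m φ 0 * tailScale m φ 0 ^ j * Q (tailDelta m φ 0)) :
    (∫ s in (0 : ℝ)..1, s ^ j * φ s ^ m) ≤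
      mass m φ 1 * ((R * Real.exp (-tailDelta m φ 0)) ^ j * Q (tailDelta m φ 0)) := by
  rw [← momentTail_zero hφ j]
  refine hQ.trans ?_
  have hF := tailMass_pos (m := m) hφ ⟨le_refl (0 : ℝ), zero_lt_one⟩
  have hk : 0 ≤ tailScale m φ 0 := div_nonneg hF.le (pow_nonneg hφ.centre.le _)
  rw [mul_assoc]
  refine mul_le_mul_of_nonneg_left (mul_le_mul_of_nonneg_right (pow_le_pow_left₀ hk ?_ j) hQ0) hF.le
  rw [Real.exp_neg, ← div_eq_mul_inv, le_div_iff₀ (Real.exp_pos _)]
  exact (tailScale_mul_exp_le hm hφ).trans hR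

end Vale.Agent.P237.Quant
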