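import Mathlib
import Vale.Agent.P237.Quant.TailMoment
import Vale.Agent.P237.Quant.Bregman

/-!
The moment of `1 / p` against the even moments up to the eighth: a polynomial whose primitive lies
above the arcsine dominates `1 / p` against every decreasing density.
-/

namespace Vale.Agent.P237.Quant

open MeasureTheory Set Filter Topology

variable {m : ℕ} {φ : ℝ → ℝ}

/-- The polynomial. -/
noncomputable def seriesPoly (t : ℝ) : ℝ :=
  1 + t ^ 2 / 2 + 3 * t ^ 4 / 8 + 5 * t ^ 6 / 16 + 6401 / 2500 * t ^ 8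

/-- Its primitive less the arcsine. -/
noncomputable def seriesGap (t : ℝ) : ℝ :=
  t + t ^ 3 / 6 + 3 * t ^ 5 / 40 + 5 * t ^ 7 / 112 + 6401 / 22500 * t ^ 9 - Real.arcsin t

theorem hasDerivAt_seriesGap {t : ℝ} (h : t ∈ Ioo (-1 : ℝ) 1) :
    HasDerivAt seriesGap (seriesPoly t - 1 / ballShape t) t := by
  refine ((((((hasDerivAt_id' t).fun_add ((hasDerivAt_pow 3 t).div_const 6)).fun_add
    (((hasDerivAt_pow 5 t).const_mul 3).div_const 40)).fun_add
    (((hasDerivAt_pow 7 t).const_mul 5).div_const 112)).fun_add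
    ((hasDerivAt_pow 9 t).const_mul (6401 / 22500 : ℝ))).fun_sub
    (Real.hasDerivAt_arcsin (ne_of_gt h.1) (ne_of_lt h.2))).congr_deriv ?_
  simp only [seriesPoly, ballShape]
  push_cast
  ring

/-- The remainder of `(1 - t ^ 2) P ^ 2 - 1` past `t ^ 8`, in `y = t ^ 2`. -/
noncomputable def seriesRem (y : ℝ) : ℝ :=
  182957 / 40000 - 55583 / 20000 * y - 124291 / 160000 * y ^ 2 - 66833 / 160000 * y ^ 3 +
    61942477 / 12500000 * y ^ 4 - 40972801 / 6250000 * y ^ 5

theorem seriesRem_spec (t : ℝ) :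
    (1 - t ^ 2) * seriesPoly t ^ 2 - 1 = t ^ 8 * seriesRem (t ^ 2) := by
  simp only [seriesPoly, seriesRem]
  ring

theorem seriesRem_antitone : AntitoneOn seriesRem (Icc 0 1) := by
  have hd : ∀ y : ℝ, HasDerivAt seriesRem (-(55583 / 20000) - 124291 / 160000 * (2 * y) -
      66833 / 160000 * (3 * y ^ 2) + 61942477 / 12500000 * (4 * y ^ 3) -
      40972801 / 6250000 * (5 * y ^ 4)) y := fun y => by
    refine (((((hasDerivAt_id' y).const_mul (55583 / 20000 : ℝ)).const_sub (182957 / 40000 : ℝ)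
      |>.fun_sub ((hasDerivAt_pow 2 y).const_mul (124291 / 160000 : ℝ))).fun_sub
      ((hasDerivAt_pow 3 y).const_mul (66833 / 160000 : ℝ))).fun_add
      ((hasDerivAt_pow 4 y).const_mul (61942477 / 12500000 : ℝ))).fun_sub
      ((hasDerivAt_pow 5 y).const_mul (40972801 / 6250000 : ℝ)) |>.congr_deriv ?_
    push_cast
    ring
  refine antitoneOn_of_deriv_nonpos (convex_Icc 0 1)
    (fun y _ => (hd y).continuousAt.continuousWithinAt)
    (fun y _ => (hd y).differentiableAt.differentiableWithinAt) fun y hy => ?_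
  rw [interior_Icc] at hy
  rw [(hd y).deriv]
  obtain ⟨h0, h1⟩ := hy
  rcases le_or_gt y (61 / 100) with h | h
  · have : y ^ 3 * (61942477 / 12500000 * 4 - 40972801 / 6250000 * 5 * y) ≤ 1 := by
      nlinarith [sq_nonneg (y - 9 / 20), sq_nonneg y, mul_nonneg h0.le h0.le,
        mul_nonneg (mul_nonneg h0.le h0.le) (sq_nonneg (y - 9 / 20))]
    nlinarith [sq_nonneg y]
  · have : y ^ 3 * (61942477 / 12500000 * 4 - 40972801 / 6250000 * 5 * y) ≤ 0 :=
      mul_nonpos_of_nonneg_of_nonpos (by positivity) (by linarith)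
    nlinarith [sq_nonneg y]

theorem seriesGap_nonneg {t : ℝ} (ht : t ∈ Icc (0 : ℝ) 1) : 0 ≤ seriesGap t := by
  have hc : Continuous seriesGap := by
    unfold seriesGap
    exact (Continuous.sub (by fun_prop) Real.continuous_arcsin)
  have h0 : seriesGap 0 = 0 := by simp [seriesGap]
  have h1 : 0 ≤ seriesGap 1 := by
    simp only [seriesGap, Real.arcsin_one]
    linarith [Real.pi_lt_d6]
  have hdiff : ∀ s ∈ Ioo (0 : ℝ) 1, seriesPoly s - 1 / ballShape s =
      s ^ 8 * seriesRem (s ^ 2) / (ballShape s * (seriesPoly s * ballShape s + 1)) := by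
    intro s hs
    have hp : 0 < ballShape s := ball_pos ⟨by linarith [hs.1], hs.2⟩
    have hP : 0 < seriesPoly s := by unfold seriesPoly; positivity
    have hsq : ballShape s ^ 2 = 1 - s ^ 2 := Real.sq_sqrt (by nlinarith [hs.1, hs.2])
    rw [← seriesRem_spec, ← hsq]
    field_simp
    ring
  have hden : ∀ s ∈ Ioo (0 : ℝ) 1, 0 < ballShape s * (seriesPoly s * ballShape s + 1) := by
    intro s hs
    have hp : 0 < ballShape s := ball_pos ⟨by linarith [hs.1], hs.2⟩
    have hP : 0 < seriesPoly s := by unfold seriesPoly; positivity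
    positivity
  rcases le_or_gt 0 (seriesRem (t ^ 2)) with hh | hh
  · have hm : MonotoneOn seriesGap (Icc 0 t) := by
      refine monotoneOn_of_deriv_nonneg (convex_Icc 0 t) hc.continuousOn (fun s hs => ?_)
        fun s hs => ?_ <;> rw [interior_Icc] at hs
      · exact (hasDerivAt_seriesGap ⟨by linarith [hs.1], by linarith [hs.2, ht.2]⟩
          ).differentiableAt.differentiableWithinAt
      · have hs' : s ∈ Ioo (0 : ℝ) 1 := ⟨hs.1, by linarith [hs.2, ht.2]⟩
        rw [(hasDerivAt_seriesGap ⟨by linarith [hs.1], hs'.2⟩).deriv, hdiff s hs']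
        refine div_nonneg (mul_nonneg (by positivity) (hh.trans ?_)) (hden s hs').le
        exact seriesRem_antitone ⟨sq_nonneg _, by nlinarith [hs'.1, hs'.2]⟩
          ⟨sq_nonneg _, by nlinarith [ht.1, ht.2]⟩ (by nlinarith [hs.1, hs.2])
    exact h0.ge.trans (hm ⟨le_rfl, ht.1⟩ ⟨ht.1, le_rfl⟩ ht.1)
  · have hm : AntitoneOn seriesGap (Icc t 1) := by
      refine antitoneOn_of_deriv_nonpos (convex_Icc t 1) hc.continuousOn (fun s hs => ?_)
        fun s hs => ?_ <;> rw [interior_Icc] at hs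
      · exact (hasDerivAt_seriesGap ⟨by linarith [hs.1, ht.1], hs.2⟩
          ).differentiableAt.differentiableWithinAt
      · have hs' : s ∈ Ioo (0 : ℝ) 1 := ⟨by linarith [hs.1, ht.1], hs.2⟩
        rw [(hasDerivAt_seriesGap ⟨by linarith [hs'.1], hs'.2⟩).deriv, hdiff s hs']
        refine div_nonpos_of_nonpos_of_nonneg (mul_nonpos_of_nonneg_of_nonpos (by positivity)
          (le_trans ?_ hh.le)) (hden s hs').le
        exact seriesRem_antitone ⟨sq_nonneg _, by nlinarith [ht.1, ht.2]⟩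
          ⟨sq_nonneg _, by nlinarith [hs'.1, hs'.2]⟩ (by nlinarith [hs.1, ht.1])
    exact h1.trans (hm ⟨le_rfl, ht.2⟩ ⟨ht.2, le_rfl⟩ ht.2)

/-- Against the density `φ ^ m` the polynomial dominates `1 / p`. -/
theorem moment_le_series (hφ : IsShape φ) :
    (∫ t in (0 : ℝ)..1, φ t ^ m / ballShape t) ≤
      mass m φ 1 + 1 / 2 * (∫ t in (0 : ℝ)..1, t ^ 2 * φ t ^ m) +
        3 / 8 * (∫ t in (0 : ℝ)..1, t ^ 4 * φ t ^ m) +
        5 / 16 * (∫ t in (0 : ℝ)..1, t ^ 6 * φ t ^ m) +
        6401 / 2500 * (∫ t in (0 : ℝ)..1, t ^ 8 * φ t ^ m) := by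
  have iw := intervalIntegrable_pow_div hφ m
  have i0 := intervalIntegrable_pow01' hφ m
  have ij : ∀ j : ℕ, IntervalIntegrable (fun t => t ^ j * φ t ^ m) volume 0 1 := fun j =>
    i0.continuousOn_mul (g := fun t : ℝ => t ^ j) (continuous_pow j).continuousOn
  set f : ℝ → ℝ := fun t => (φ t ^ m + 1 / 2 * (t ^ 2 * φ t ^ m) + 3 / 8 * (t ^ 4 * φ t ^ m) +
    5 / 16 * (t ^ 6 * φ t ^ m) + 6401 / 2500 * (t ^ 8 * φ t ^ m)) - φ t ^ m / ballShape t with hf
  have if' : IntervalIntegrable f volume 0 1 :=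
    ((((i0.add ((ij 2).const_mul _)).add ((ij 4).const_mul _)).add ((ij 6).const_mul _)).add
      ((ij 8).const_mul _)).sub iw
  have hfc : ContinuousOn f (Ioo (0 : ℝ) 1) := by
    have hc := continuousOn_pow01 hφ m
    refine ContinuousOn.sub (by fun_prop) (hc.div cont_ball.continuousOn fun t ht => ?_)
    exact (ball_pos ⟨by linarith [ht.1], ht.2⟩).ne'
  have hcP : ContinuousOn (fun b => ∫ t in (0 : ℝ)..b, f t) (Icc 0 1) := by
    have h := intervalIntegral.continuousOn_primitive_interval' if'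
      (left_mem_uIcc (a := (0 : ℝ)) (b := 1))
    rwa [uIcc_of_le zero_le_one] at h
  have key : ∀ b ∈ Ioo (0 : ℝ) 1, 0 ≤ ∫ t in (0 : ℝ)..b, f t := by
    intro b hb
    have hsub : Icc (0 : ℝ) b ⊆ Ico 0 1 := fun s hs => ⟨hs.1, hs.2.trans_lt hb.2⟩
    have h := le_of_deriv_right_nonpos (a := 0) (b := b)
      (g := fun s => φ s ^ m * seriesGap s - ∫ t in (0 : ℝ)..s, f t)
      (g' := fun s => m * φ s ^ (m - 1) * dright φ s * seriesGap s) hb.1.le ?_ ?_ ?_
    · simp only [intervalIntegral.integral_same, sub_zero] at h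
      have e : seriesGap 0 = 0 := by simp [seriesGap]
      rw [e, mul_zero] at h
      have := mul_nonneg (pow_nonneg (hφ.nonneg b ⟨by linarith [hb.1], hb.2.le⟩) m)
        (seriesGap_nonneg ⟨hb.1.le, hb.2.le⟩)
      linarith
    · refine ContinuousOn.sub (ContinuousOn.mul ?_ ?_)
        (hcP.mono (hsub.trans Ico_subset_Icc_self))
      · exact ((shape_continuousOn hφ).mono fun s hs =>
          ⟨by linarith [(hsub hs).1], (hsub hs).2⟩).pow m
      · exact (Continuous.sub (by fun_prop) Real.continuous_arcsin).continuousOn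
    · intro s hs
      have hs' : s ∈ Ioo (0 : ℝ) 1 := ⟨hs.1, hs.2.trans hb.2⟩
      have hI : s ∈ Ioo (-1 : ℝ) 1 := ⟨by linarith [hs.1], hs'.2⟩
      have dP : HasDerivAt (fun u => ∫ t in (0 : ℝ)..u, f t) (f s) s :=
        intervalIntegral.integral_hasDerivAt_right (if'.mono_set (by
          rw [uIcc_of_le zero_le_one, uIcc_of_le hs.1.le]; exact Icc_subset_Icc le_rfl hs'.2.le))
          (hfc.stronglyMeasurableAtFilter isOpen_Ioo s hs')
          (hfc.continuousAt (Ioo_mem_nhds hs'.1 hs'.2))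
      refine ((((hasDerivWithinAt_dright hφ hI).fun_pow m).fun_mul
        (hasDerivAt_seriesGap hI).hasDerivWithinAt).fun_sub dP.hasDerivWithinAt).congr_deriv ?_
      simp only [hf, seriesPoly]
      ring
    · intro s hs
      have hs' : s ∈ Ioo (0 : ℝ) 1 := ⟨hs.1, hs.2.trans hb.2⟩
      exact mul_nonpos_of_nonpos_of_nonneg (mul_nonpos_of_nonneg_of_nonpos
        (mul_nonneg (Nat.cast_nonneg _) (pow_nonneg (hφ.nonneg s ⟨by linarith [hs.1], hs'.2.le⟩) _))
        (dright_nonpos hφ hs')) (seriesGap_nonneg (Ioo_subset_Icc_self hs'))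
  have hlim : 0 ≤ ∫ t in (0 : ℝ)..1, f t := by
    have h := (hcP 1 (right_mem_Icc.2 zero_le_one)).tendsto.mono_left
      (nhdsWithin_le_of_mem (Icc_mem_nhdsLT (zero_lt_one (α := ℝ))))
    exact ge_of_tendsto h (by filter_upwards [Ioo_mem_nhdsLT zero_lt_one] with b hb using key b hb)
  simp only [hf] at hlim
  rw [intervalIntegral.integral_sub ((((i0.add ((ij 2).const_mul _)).add
      ((ij 4).const_mul _)).add ((ij 6).const_mul _)).add ((ij 8).const_mul _)) iw,
    intervalIntegral.integral_add (((i0.add ((ij 2).const_mul _)).add ((ij 4).const_mul _)).add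
      ((ij 6).const_mul _)) ((ij 8).const_mul _),
    intervalIntegral.integral_add ((i0.add ((ij 2).const_mul _)).add ((ij 4).const_mul _))
      ((ij 6).const_mul _),
    intervalIntegral.integral_add (i0.add ((ij 2).const_mul _)) ((ij 4).const_mul _),
    intervalIntegral.integral_add i0 ((ij 2).const_mul _),
    intervalIntegral.integral_const_mul, intervalIntegral.integral_const_mul,
    intervalIntegral.integral_const_mul, intervalIntegral.integral_const_mul] at hlim
  have e : mass m φ 1 = ∫ t in (0 : ℝ)..1, φ t ^ m := rfl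
  linarith

end Vale.Agent.P237.Quant
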