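import Mathlib
import Vale.Agent.P237.Quant.MomentRangeDefs
import Vale.Agent.P237.Quant.MomentSeries
import Vale.Agent.P237.Quant.EnvelopeRange

/-!
The moment excess in a range of dimensions from kernel checks of a table of polynomials: the chain
of tail bounds up to the eighth moment, and one inequality on each piece of the logarithmic mean.
In `s = 1 / (m + 1)` every check is affine, or convex on one side and concave on the other, so the
ends of the range suffice.
-/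

namespace Vale.Agent.P237.Quant

open MeasureTheory Set Real MomentCheck Four.Checker

variable {m : ℕ} {φ : ℝ → ℝ}

theorem exp_neg_le_inv {x : ℚ} (hx : 0 ≤ x) : Real.exp (-(x : ℝ)) ≤ (((1 / momentExpLo x : ℚ)) : ℝ) := by
  have hx' : (0 : ℝ) ≤ x := by exact_mod_cast hx
  have e : ((momentExpLo x : ℚ) : ℝ) = ∑ k ∈ Finset.range 14, (x : ℝ) ^ k / (k.factorial : ℝ) := by
    have hsum : momentExpLo x = ∑ k ∈ Finset.range 14, x ^ k / (k.factorial : ℚ) := rfl
    rw [hsum]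
    push_cast
    rfl
  have h1 : (1 : ℝ) ≤ (momentExpLo x : ℝ) := by
    rw [e]
    calc (1 : ℝ) = (x : ℝ) ^ 0 / ((0 : ℕ).factorial : ℝ) := by simp
      _ ≤ _ := Finset.single_le_sum (f := fun k => (x : ℝ) ^ k / (k.factorial : ℝ))
          (fun k _ => by positivity) (Finset.mem_range.2 (by norm_num))
  push_cast
  rw [Real.exp_neg, one_div]
  exact inv_anti₀ (by linarith) (e.trans_le (Real.sum_le_exp_of_nonneg hx' 14))

theorem exp_neg_le_quadratic {x : ℝ} (hx : 0 ≤ x) : Real.exp (-x) ≤ 1 - x + x ^ 2 / 2 := by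
  have h := Real.quadratic_le_exp_of_nonneg hx
  have h0 : 0 < 1 + x + x ^ 2 / 2 := by positivity
  rw [Real.exp_neg]
  refine (inv_anti₀ h0 h).trans ?_
  rw [inv_eq_one_div, div_le_iff₀ h0]
  nlinarith [pow_nonneg hx 4]

namespace MomentTable

variable (T : MomentTable)

theorem pev_bound (j : ℕ) (x : ℝ) : pev (T.bound j) x = ev (T.zbound j) x / 10000000 := by
  rw [bound, pev_overDen]; norm_num

theorem pev_deriv_bound (j : ℕ) (x : ℝ) :
    pev (pderiv (T.bound j)) x = ev (zderiv (T.zbound j)) x / 10000000 := by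
  rw [bound, pev_pderiv_overDen]; norm_num

theorem exists_piece {f : ℚ → ℚ → Bool} {d : ℝ} : ∀ {cuts : List ℚ} {a : ℚ},
    T.chain f a cuts = true → cuts ≠ [] → (a : ℝ) ≤ d → d ≤ ((1 - T.s₀ : ℚ) : ℝ) →
    ∃ a' b' : ℚ, f a' b' = true ∧ (a' : ℝ) ≤ d ∧ d ≤ (b' : ℝ)
  | [], _, _, hne, _, _ => absurd rfl hne
  | b :: bs, a, h, _, ha, hd => by
    simp only [chain, Bool.and_eq_true] at h
    rcases le_or_gt d (b : ℝ) with hb | hb
    · exact ⟨a, b, h.1, ha, hb⟩
    · cases bs with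
      | nil =>
        simp only [chain, decide_eq_true_eq] at h
        have : ((1 - T.s₀ : ℚ) : ℝ) ≤ b := by exact_mod_cast h.2
        linarith
      | cons c cs => exact exists_piece h.2 (by simp) hb.le hd

/-- A value affine in `s` is nonnegative between two values where it is. -/
theorem affine_nonneg {p q x₀ x₁ x : ℝ} (h₀ : 0 ≤ p + q * x₀) (h₁ : 0 ≤ p + q * x₁)
    (hx : x₀ ≤ x) (hx' : x ≤ x₁) : 0 ≤ p + q * x := by
  rcases le_or_gt 0 q with hq | hq
  · exact h₀.trans (by gcongr)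
  · have := mul_le_mul_of_nonpos_left hx' hq.le
    linarith

theorem pow_le_chord (k : ℕ) {x₀ x₁ x θ : ℝ} (h₀ : 0 ≤ x₀) (h₁ : 0 ≤ x₁) (hθ : 0 ≤ θ)
    (hθ' : θ ≤ 1) (hx : x = (1 - θ) * x₀ + θ * x₁) :
    x ^ k ≤ (1 - θ) * x₀ ^ k + θ * x₁ ^ k := by
  subst hx
  have h := (convexOn_pow k).2 (mem_Ici.2 h₀) (mem_Ici.2 h₁) (sub_nonneg.2 hθ') hθ (by ring)
  simpa only [smul_eq_mul] using h

theorem exp_le_chord (i : ℕ) {a b : ℚ} (ha : 0 ≤ a) (hab : a < b) {d : ℝ} (hd : (a : ℝ) ≤ d)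
    (hd' : d ≤ (b : ℝ)) :
    Real.exp (-(2 * d)) ^ i ≤
      ((((1 / momentExpLo (2 * a)) ^ i - ((1 / momentExpLo (2 * b)) ^ i - (1 / momentExpLo (2 * a)) ^ i) / (b - a) * a
        : ℚ)) : ℝ) +
        (((((1 / momentExpLo (2 * b)) ^ i - (1 / momentExpLo (2 * a)) ^ i) / (b - a) : ℚ)) : ℝ) * d := by
  have hba : (0 : ℝ) < (b : ℝ) - a := by
    have : (a : ℝ) < b := by exact_mod_cast hab
    linarith
  set θ : ℝ := (d - a) / ((b : ℝ) - a) with hθ
  have hθ0 : 0 ≤ θ := div_nonneg (by linarith) hba.le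
  have hθ1 : θ ≤ 1 := (div_le_one hba).2 (by linarith)
  have hd2 : -(2 * d) * (i : ℝ) =
      (1 - θ) * (-(2 * (a : ℝ)) * i) + θ * (-(2 * (b : ℝ)) * i) := by
    rw [hθ]; field_simp; ring
  have hc := convexOn_exp.2 (mem_univ (-(2 * (a : ℝ)) * i)) (mem_univ (-(2 * (b : ℝ)) * i))
    (sub_nonneg.2 hθ1) hθ0 (by ring)
  simp only [smul_eq_mul, ← hd2] at hc
  have e : ∀ y : ℝ, Real.exp (-(2 * y) * i) = Real.exp (-(2 * y)) ^ i := fun y => by
    rw [mul_comm, Real.exp_nat_mul]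
  rw [e, e, e] at hc
  have hA := pow_le_pow_left₀ (Real.exp_pos _).le
    (exp_neg_le_inv (x := 2 * a) (by linarith)) i
  have hB := pow_le_pow_left₀ (Real.exp_pos _).le
    (exp_neg_le_inv (x := 2 * b) (by linarith [ha, hab])) i
  push_cast at hA hB ⊢
  refine hc.trans ((add_le_add (mul_le_mul_of_nonneg_left hA (sub_nonneg.2 hθ1))
    (mul_le_mul_of_nonneg_left hB hθ0)).trans (le_of_eq ?_))
  rw [hθ]
  field_simp
  ring

/-- The tail sums under the bounds of a checked table. -/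
theorem momentTail_le (hT : T.check = true) (hm : 1 ≤ m) (hφ : IsShape φ)
    (hs : (T.s₀ : ℝ) ≤ 1 / ((m : ℝ) + 1)) (hs' : 1 / ((m : ℝ) + 1) ≤ (T.s₁ : ℝ)) :
    ∀ j, j ≤ 8 → ∀ t ∈ Ico (0 : ℝ) 1, momentTail m φ j t ≤
      tailMass m φ t * tailScale m φ t ^ j * pev (T.bound j) (tailDelta m φ t) := by
  simp only [check, Bool.and_eq_true, List.all_eq_true, List.mem_range] at hT
  obtain ⟨-, hsteps⟩ := hT
  set s : ℝ := 1 / ((m : ℝ) + 1) with hsdef
  have hw : (m : ℝ) / (m + 1) = 1 - s := by rw [hsdef]; field_simp; ring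
  intro j
  induction j with
  | zero => intro _ t _; rw [pev_bound]; simp [zbound, ev, momentTail]
  | succ j ih =>
    intro hj
    have hall : ∀ d ∈ Icc (0 : ℝ) ((m : ℝ) / (m + 1)),
        0 ≤ pev (T.bound (j + 1)) d ∧
          ((j : ℝ) + 1) * pev (T.bound j) d ≤ ((j : ℝ) + 2) * pev (T.bound (j + 1)) d -
            d * pev (pderiv (T.bound (j + 1))) d ∧
          ((j : ℝ) + 1) * pev (T.bound j) d ≤
            (1 + ((j : ℝ) + 1) / (m + 1)) * pev (T.bound (j + 1)) d +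
              ((m : ℝ) / (m + 1) - d) * pev (pderiv (T.bound (j + 1))) d := by
      intro d hd
      rw [hw] at hd
      have hst := hsteps j (by omega)
      simp only [stepOk, Bool.and_eq_true, decide_eq_true_eq] at hst
      obtain ⟨⟨⟨⟨n1, n2, n3⟩, k1⟩, k2⟩, k3⟩ := hst
      have h0d : ((0 : ℚ) : ℝ) ≤ d := by simpa using hd.1
      have hd1 : d ≤ ((1 - T.s₀ : ℚ) : ℝ) := by push_cast; linarith [hd.2]
      obtain ⟨a₁, b₁, hp₁, u₁, v₁⟩ := T.exists_piece k1 n1 h0d hd1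
      obtain ⟨a₂, b₂, hp₂, u₂, v₂⟩ := T.exists_piece k2 n2 h0d hd1
      obtain ⟨a, b, hp, hda, hdb⟩ := T.exists_piece k3 n3 h0d hd1
      simp only [posOk, flatOk, steepOk, Bool.and_eq_true, decide_eq_true_eq] at hp₁ hp₂ hp
      have hQ' := nonnegOnZ_sound hp₁.2 hp₁.1 u₁ v₁
      have hF' := nonnegOnZ_sound hp₂.2 hp₂.1 u₂ v₂
      have hS0' := nonnegOnZ_sound hp.1.2 hp.1.1 hda hdb
      have hS1' := nonnegOnZ_sound hp.2 hp.1.1 hda hdb
      simp only [flatPoly, ev_add1, ev_smul1, ev_lin1] at hF'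
      push_cast at hF'
      have steep : ∀ q : ℚ, 0 ≤ ev (T.steepPoly j q) d →
          0 ≤ pev (T.bound (j + 1)) d - ((j : ℝ) + 1) * pev (T.bound j) d +
            (1 - d) * pev (pderiv (T.bound (j + 1))) d +
            (((j : ℝ) + 1) * pev (T.bound (j + 1)) d - pev (pderiv (T.bound (j + 1))) d) *
              (q : ℝ) := by
        intro q h
        simp only [steepPoly, forceQ_eq, forceI_eq, ev_add1, ev_smul1, ev_lin1] at h
        push_cast at h
        have hd : (0 : ℝ) < q.den := Nat.cast_pos.2 q.den_pos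
        rw [pev_bound, pev_bound, pev_deriv_bound, Rat.cast_def q]
        refine le_of_le_of_eq (div_nonneg h (by positivity : (0 : ℝ) ≤ q.den * 10000000)) ?_
        field_simp
        ring
      have hS0'' := steep _ hS0'
      have hS1'' := steep _ hS1'
      refine ⟨by rw [pev_bound]; positivity, ?_, ?_⟩
      · rw [pev_bound, pev_bound, pev_deriv_bound]
        linarith
      have hsd : s ≤ ((T.sHi a : ℚ) : ℝ) := by
        rw [sHi, Rat.cast_min]
        exact le_min hs' (by push_cast; linarith [hd.2])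
      have key := affine_nonneg (p := pev (T.bound (j + 1)) d -
          ((j : ℝ) + 1) * pev (T.bound j) d + (1 - d) * pev (pderiv (T.bound (j + 1))) d)
        (q := ((j : ℝ) + 1) * pev (T.bound (j + 1)) d - pev (pderiv (T.bound (j + 1))) d)
        (x₀ := (T.s₀ : ℝ)) (x₁ := ((T.sHi a : ℚ) : ℝ)) (x := s)
        (by linarith) (by linarith) hs hsd
      rw [hw, show ((j : ℝ) + 1) / ((m : ℝ) + 1) = ((j : ℝ) + 1) * s by rw [hsdef]; ring]
      linarith
    exact momentTail_succ_le hm hφ j (fun d => hasDerivAt_pev _ d) (fun d hd => (hall d hd).1)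
      (fun d hd => (hall d hd).2.1) (fun d hd => (hall d hd).2.2)
      fun t ht => ih (by omega) t (Ioo_subset_Ico_self ht)

/-- The moment excess in the dimensions of a checked table. -/
theorem excess_le (hT : T.check = true) (hm : 3 ≤ m) (hφ : IsShape φ) (hx : powRatio m φ ≤ 1)
    (hs : (T.s₀ : ℝ) ≤ 1 / ((m : ℝ) + 1)) (hs' : 1 / ((m : ℝ) + 1) ≤ (T.s₁ : ℝ)) :
    (∫ t in (0 : ℝ)..1, φ t ^ m / ballShape t) ≤
      (1 + 11 / (50 * ((m : ℝ) + 1))) * ballRatio m * mass m φ 1 := by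
  have hm1 : 1 ≤ m := by omega
  have htail := T.momentTail_le hT hm1 hφ hs hs'
  simp only [check, Bool.and_eq_true, decide_eq_true_eq, List.all_eq_true, List.mem_range] at hT
  obtain ⟨⟨⟨hs00, -, hne⟩, hfrom⟩, hsteps⟩ := hT
  set s : ℝ := 1 / ((m : ℝ) + 1) with hsdef
  have hs0 : 0 < s := by positivity
  set d := tailDelta m φ 0 with hddef
  have hd := tailDelta_mem (m := m) hm1 hφ (t := 0) ⟨le_rfl, zero_lt_one⟩
  have hw : (m : ℝ) / (m + 1) = 1 - s := by rw [hsdef]; field_simp; ring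
  rw [hw] at hd
  obtain ⟨a, b, hp, hda, hdb⟩ := T.exists_piece (d := d) hfrom hne (by simpa using hd.1)
    (by push_cast; linarith [hd.2])
  simp only [roomOk, Bool.and_eq_true, decide_eq_true_eq] at hp
  obtain ⟨⟨⟨ha, hab⟩, hR0⟩, hR1⟩ := hp
  have hQ0 : ∀ i, 1 ≤ i → i ≤ 4 → 0 ≤ pev (T.bound (2 * i)) d := fun i h1 h4 => by
    have h := hsteps (2 * i - 1) (by omega)
    simp only [stepOk, Bool.and_eq_true, decide_eq_true_eq] at h
    obtain ⟨⟨⟨⟨n1, -, -⟩, k1⟩, -⟩, -⟩ := h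
    obtain ⟨a₁, b₁, hp₁, u₁, v₁⟩ := T.exists_piece (d := d) k1 n1 (by simpa using hd.1)
      (by push_cast; linarith [hd.2])
    simp only [posOk, Bool.and_eq_true, decide_eq_true_eq,
      show 2 * i - 1 + 1 = 2 * i by omega] at hp₁
    rw [pev_bound]
    exact div_nonneg (nonnegOnZ_sound hp₁.2 hp₁.1 u₁ v₁) (by norm_num)
  -- the power constraint bounds the scale
  obtain ⟨hVφ, hP⟩ := power_mass_le hm1 hφ hx
  set R : ℝ := ballRatio m ^ m * mass m ballShape 1 with hRdef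
  have hR : powVal m φ ≤ R := by
    rw [powVal, div_le_iff₀ (pow_pos hVφ _)]
    exact hP
  have hR0' : 0 ≤ R := mul_nonneg (pow_nonneg (ballRatio_pos m).le _) (ball_mass_pos m).le
  set A : ℝ := (((3141593 / 2000000 * (13591409143 / 5000000000) : ℚ)) : ℝ) with hAdef
  have hA0 : 0 ≤ A := by rw [hAdef]; norm_num
  have hR2 : R ^ 2 ≤ A * Real.exp (-(3 / 2 * s)) * s := by
    have h := pow_le_pow_left₀ (by positivity) (ball_const_le hm) 2
    rw [← hRdef] at h
    have hn : √((m : ℝ) + 1) ^ 2 = 1 / s := by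
      rw [Real.sq_sqrt (by positivity), hsdef, one_div_one_div]
    have he : Real.exp (1 / 2 - 3 / (4 * ((m : ℝ) + 1))) ^ 2 =
        Real.exp 1 * Real.exp (-(3 / 2 * s)) := by
      rw [← Real.exp_nat_mul, ← Real.exp_add, hsdef]
      congr 1
      push_cast
      field_simp
      ring
    simp only [mul_pow] at h
    rw [hn, he, Real.sq_sqrt (by positivity)] at h
    have h' : R ^ 2 ≤ π / 2 * (Real.exp 1 * Real.exp (-(3 / 2 * s))) * s := by
      have := mul_le_mul_of_nonneg_right h hs0.le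
      rwa [mul_assoc, one_div_mul_cancel hs0.ne', mul_one] at this
    refine h'.trans ?_
    rw [hAdef]
    have hpe : π / 2 * Real.exp 1 ≤
        (((3141593 / 2000000 * (13591409143 / 5000000000) : ℚ)) : ℝ) := by
      push_cast
      exact mul_le_mul (by linarith [Real.pi_lt_d6]) (by linarith [Real.exp_one_lt_d9])
        (Real.exp_pos 1).le (by norm_num)
    have := mul_le_mul_of_nonneg_right hpe
      (mul_nonneg (Real.exp_pos (-(3 / 2 * s))).le hs0.le)
    linarith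
  -- the moments
  have hmom : ∀ i, 1 ≤ i → i ≤ 4 → (∫ t in (0 : ℝ)..1, t ^ (2 * i) * φ t ^ m) ≤
      mass m φ 1 * ((A * Real.exp (-(3 / 2 * s)) * s) ^ i * pev (T.piecePoly i a b) d) := by
    intro i h1 h4
    refine (moment_le_of_tail hm1 hφ (2 * i) (Q := pev (T.bound (2 * i))) hR (hQ0 i h1 h4)
      (htail (2 * i) (by omega) 0 ⟨le_rfl, zero_lt_one⟩)).trans ?_
    refine mul_le_mul_of_nonneg_left ?_ hVφ.le
    have e : (R * Real.exp (-d)) ^ (2 * i) = (R ^ 2) ^ i * Real.exp (-(2 * d)) ^ i := by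
      rw [pow_mul, mul_pow, mul_pow, ← Real.exp_nat_mul]
      push_cast
      ring_nf
    rw [e, mul_assoc]
    have hl := exp_le_chord i ha hab hda hdb
    refine mul_le_mul (pow_le_pow_left₀ (sq_nonneg R) hR2 i) ?_
      (mul_nonneg (pow_nonneg (Real.exp_pos _).le i) (hQ0 i h1 h4))
      (pow_nonneg (mul_nonneg (mul_nonneg hA0 (Real.exp_pos _).le) hs0.le) i)
    simp only [piecePoly, forceQ_eq, pev_mulLin]
    exact mul_le_mul_of_nonneg_right hl (hQ0 i h1 h4)
  -- the factors in `s`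
  have hP0 : ∀ i, 1 ≤ i → i ≤ 4 → 0 ≤ pev (T.piecePoly i a b) d := fun i h1 h4 => by
    simp only [piecePoly, forceQ_eq, pev_mulLin]
    exact mul_nonneg ((pow_nonneg (Real.exp_pos _).le i).trans (exp_le_chord i ha hab hda hdb))
      (hQ0 i h1 h4)
  have hg : Real.exp (-(3 / 2 * s)) ≤ 1 - 3 / 2 * s + 9 / 8 * s ^ 2 :=
    (exp_neg_le_quadratic (by positivity)).trans (le_of_eq (by ring))
  have hf : ∀ i : ℕ, Real.exp (-(3 / 2 * s)) ^ i ≤ ((T.factor i : ℚ) : ℝ) := fun i => by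
    rw [factor, ← Real.exp_nat_mul]
    refine le_trans (Real.exp_le_exp.2 ?_) (exp_neg_le_inv (x := 3 / 2 * (i : ℚ) * T.s₀)
      (by positivity))
    push_cast
    have := mul_le_mul_of_nonneg_left hs (by positivity : (0 : ℝ) ≤ 3 / 2 * (i : ℝ))
    linarith
  -- the room is concave in `s`
  set L : ℝ → ℝ := fun x =>
    ((MomentTable.weight 1 : ℚ) : ℝ) * (1 - 3 / 2 * x + 9 / 8 * x ^ 2) * pev (T.piecePoly 1 a b) d +
      (((MomentTable.weight 2 : ℚ) : ℝ) * (T.factor 2 : ℚ) * x * pev (T.piecePoly 2 a b) d +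
        (((MomentTable.weight 3 : ℚ) : ℝ) * (T.factor 3 : ℚ) * x ^ 2 * pev (T.piecePoly 3 a b) d +
          ((MomentTable.weight 4 : ℚ) : ℝ) * (T.factor 4 : ℚ) * x ^ 3 * pev (T.piecePoly 4 a b) d)) with hL
  set B : ℝ → ℝ := fun x =>
    18 / 25 + 47 / 200 * x - 7 / 200 * x ^ 2 - 133 / 2400 * x ^ 3 - 11 / 1200 * x ^ 4 with hB
  have hroom : ∀ q : ℚ, nonnegOn (T.roomPoly a b q) a b = true → L (q : ℝ) ≤ B (q : ℝ) := by
    intro q hq
    have h := nonnegOn_sound hq hab hda hdb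
    simp only [roomPoly, forceQ_eq, pev_padd, pev_psmul, allowed, pev] at h
    push_cast at h
    simp only [hL, hB]
    linarith
  have hwt : ∀ i, 0 ≤ ((MomentTable.weight i : ℚ) : ℝ) := fun i => by
    have : (0 : ℚ) ≤ MomentTable.weight i := by
      rcases i with - | - | - | - | - | i <;>
        simp [MomentTable.weight] <;> positivity
    exact_mod_cast this
  have hfac : ∀ i : ℕ, 0 ≤ ((T.factor i : ℚ) : ℝ) := fun i =>
    (pow_nonneg (Real.exp_pos _).le i).trans (hf i)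
  have hkey : L s ≤ B s := by
    have h0 := hroom _ hR0
    have h1 := hroom _ hR1
    set x₀ : ℝ := (T.s₀ : ℝ)
    set x₁ : ℝ := ((T.sHi a : ℚ) : ℝ) with hx₁
    have hsd : s ≤ x₁ := by
      rw [hx₁, sHi, Rat.cast_min]
      exact le_min hs' (by push_cast; linarith [hd.2])
    have h00 : (0 : ℝ) ≤ (T.s₀ : ℝ) := by exact_mod_cast hs00
    rcases eq_or_lt_of_le (hs.trans hsd) with he | hlt
    · have : s = x₀ := le_antisymm (hsd.trans he.ge) hs
      rwa [this]
    obtain ⟨θ, hθ0, hθ1, hθ⟩ : ∃ θ : ℝ, 0 ≤ θ ∧ θ ≤ 1 ∧ s = (1 - θ) * x₀ + θ * x₁ :=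
      ⟨(s - x₀) / (x₁ - x₀), div_nonneg (by linarith) (by linarith),
        (div_le_one (by linarith)).2 (by linarith),
        by field_simp [(sub_pos.2 hlt).ne']; ring⟩
    have p := fun k => pow_le_chord k h00 (h00.trans (hs.trans hsd)) hθ0 hθ1 hθ
    have q1 := mul_le_mul_of_nonneg_left (p 2) (mul_nonneg (mul_nonneg (hwt 1)
      (by norm_num : (0 : ℝ) ≤ 9 / 8)) (hP0 1 le_rfl (by norm_num)))
    have q3 := mul_le_mul_of_nonneg_left (p 2)
      (mul_nonneg (mul_nonneg (hwt 3) (hfac 3)) (hP0 3 (by norm_num) (by norm_num)))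
    have q4 := mul_le_mul_of_nonneg_left (p 3)
      (mul_nonneg (mul_nonneg (hwt 4) (hfac 4)) (hP0 4 (by norm_num) le_rfl))
    have a0 := mul_le_mul_of_nonneg_left h0 (sub_nonneg.2 hθ1)
    have a1 := mul_le_mul_of_nonneg_left h1 hθ0
    simp only [hL, hB] at a0 a1 ⊢
    linear_combination a0 + a1 + q1 + q3 + q4 + (7 / 200 : ℝ) * p 2 + (133 / 2400 : ℝ) * p 3 +
      (11 / 1200 : ℝ) * p 4 +
      (((weight 1 : ℚ) : ℝ) * (-3 / 2) * pev (T.piecePoly 1 a b) d +
        ((weight 2 : ℚ) : ℝ) * (T.factor 2 : ℚ) * pev (T.piecePoly 2 a b) d - 47 / 200) * hθ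
  -- assembly
  have hser := moment_le_series (m := m) hφ
  have w : ∀ i : ℕ, ((MomentTable.weight i : ℚ) : ℝ) =
      ((([1 / 2, 3 / 8, 5 / 16, 6401 / 2500] : List ℚ).getD (i - 1) 0 : ℚ) : ℝ) * A ^ i :=
    fun i => by rw [MomentTable.weight, hAdef]; push_cast; rfl
  have hsum : 1 / 2 * ((A * Real.exp (-(3 / 2 * s)) * s) ^ 1 * pev (T.piecePoly 1 a b) d) +
      3 / 8 * ((A * Real.exp (-(3 / 2 * s)) * s) ^ 2 * pev (T.piecePoly 2 a b) d) +
      5 / 16 * ((A * Real.exp (-(3 / 2 * s)) * s) ^ 3 * pev (T.piecePoly 3 a b) d) +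
      6401 / 2500 * ((A * Real.exp (-(3 / 2 * s)) * s) ^ 4 * pev (T.piecePoly 4 a b) d) ≤
      s * L s := by
    have w1 := w 1
    have w2 := w 2
    have w3 := w 3
    have w4 := w 4
    norm_num at w1 w2 w3 w4
    simp only [hL, w1, w2, w3, w4, mul_pow]
    have q1 := mul_le_mul_of_nonneg_left hg
      (mul_nonneg (mul_nonneg hA0 hs0.le) (hP0 1 le_rfl (by norm_num)))
    have q2 := mul_le_mul_of_nonneg_left (hf 2)
      (mul_nonneg (mul_nonneg (pow_nonneg hA0 2) (pow_nonneg hs0.le 2)) (hP0 2 (by norm_num)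
        (by norm_num)))
    have q3 := mul_le_mul_of_nonneg_left (hf 3)
      (mul_nonneg (mul_nonneg (pow_nonneg hA0 3) (pow_nonneg hs0.le 3)) (hP0 3 (by norm_num)
        (by norm_num)))
    have q4 := mul_le_mul_of_nonneg_left (hf 4)
      (mul_nonneg (mul_nonneg (pow_nonneg hA0 4) (pow_nonneg hs0.le 4)) (hP0 4 (by norm_num)
        le_rfl))
    linarith
  have hr : 1 + s * L s ≤ (1 + 11 / 50 * s) * ballRatio m := by
    have hlow := (ballRatio_bracket hm).1
    simp only [ratioCubic, ← hsdef] at hlow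
    refine le_trans ?_ (mul_le_mul_of_nonneg_left hlow (by positivity))
    have := mul_le_mul_of_nonneg_left hkey hs0.le
    simp only [hB] at this
    linarith
  have hm1' := hmom 1 le_rfl (by norm_num)
  have hm2' := hmom 2 (by norm_num) (by norm_num)
  have hm3' := hmom 3 (by norm_num) (by norm_num)
  have hm4' := hmom 4 (by norm_num) le_rfl
  have h1 := mul_le_mul_of_nonneg_left hsum hVφ.le
  have h2 := mul_le_mul_of_nonneg_left hr hVφ.le
  rw [show 11 / (50 * ((m : ℝ) + 1)) = 11 / 50 * s by rw [hsdef]; field_simp]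
  norm_num at hm1' hm2' hm3' hm4'
  linarith

end MomentTable

end Vale.Agent.P237.Quant
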