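import Mathlib.Tactic.NormNum

/-!
The data format of a window certificate and its check. All reals are numbers over `2 ^ 20`; a signed
number is a pair of naturals. The rectangle of values of the profile at two points `s < q` is cut
into boxes; on a box the integral of the weighed window is bounded below piece by piece by the
trapezoid rule less a bound on the second derivative, and one scalar inequality refutes the box.

The kernel runs the check. It evaluates `ℕ` arithmetic at once and remembers what it has reduced, so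
the recursions are written with the recursors and values are reduced by `force` only where a box's
ends are handed to all its pieces.
-/

namespace Vale.Agent.P237.Quant.WindowCert

/-- The unit of the data. -/
def unit : ℕ := 1048576

/-- Apply a function to a number after reducing it to a literal. -/
def force {α : Type} (z : ℕ) (k : ℕ → α) : α := Nat.casesOn z (k 0) fun n => k (Nat.succ n)

/-- The smaller of two numbers, by a test the kernel computes at once. -/
def least (a b : ℕ) : ℕ := bif Nat.ble a b then a else b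

/-- The larger of two numbers, by a test the kernel computes at once. -/
def most (a b : ℕ) : ℕ := bif Nat.ble a b then b else a

/-- A node, with an upper bound for the weight there. -/
structure Node where
  t : ℕ
  w : ℕ

/-- The line through `(p, x)` and `(r, y)`. -/
structure Seg where
  p : ℕ
  x : ℕ
  r : ℕ
  y : ℕ

/-- The numerator of the value of a line, cut at zero. -/
def Seg.num (g : Seg) (t : ℕ) : ℕ :=
  Nat.sub (Nat.add (Nat.mul (Nat.sub g.r t) g.x) (Nat.mul (Nat.sub t g.p) g.y))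
    (Nat.add (Nat.mul (Nat.sub t g.r) g.x) (Nat.mul (Nat.sub g.p t) g.y))

/-- A lower bound for the value of a line cut at zero. -/
def Seg.down (g : Seg) (t : ℕ) : ℕ := Nat.div (g.num t) (Nat.sub g.r g.p)

/-- An upper bound for the value of a line. -/
def Seg.up (g : Seg) (t : ℕ) : ℕ :=
  Nat.div (Nat.add (g.num t) (Nat.sub (Nat.sub g.r g.p) 1)) (Nat.sub g.r g.p)

/-- The end values of the line with the smallest sum of them. -/
noncomputable def bestUp {α : Type} (gs : List Seg) : ℕ → ℕ → ℕ → ℕ → (ℕ → ℕ → α) → α :=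
  List.rec (motive := fun _ => ℕ → ℕ → ℕ → ℕ → (ℕ → ℕ → α) → α) (fun _ _ y₀ y₁ k => k y₀ y₁)
    (fun h _ ih t u y₀ y₁ k => (fun a b =>
      bif Nat.ble (Nat.add y₀ y₁) (Nat.add a b) then ih t u y₀ y₁ k else ih t u a b k)
      (h.up t) (h.up u)) gs

/-- The data shared by the boxes. -/
structure Cert where
  /-- The exponent. -/
  m : ℕ
  /-- The first point. -/
  s : ℕ
  /-- The second point. -/
  q : ℕ
  /-- The lower bound of the moment ratio. -/
  c : ℕ
  /-- The upper bound of the constant of the power constraint. -/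
  κ : ℕ
  /-- The bound of the integral of the weight past the last node. -/
  I : ℕ
  /-- The nodes from `0` to `s`. -/
  zone₀ : List Node
  /-- The nodes from `s` to `q`. -/
  zone₁ : List Node
  /-- The nodes past `q`. -/
  zone₂ : List Node

/-- The positive part of the multiplier at a node, rounded up. -/
def multPos (C : Cert) (μ ν : ℕ) (a : Node) : ℕ :=
  Nat.add μ (Nat.div (Nat.add (Nat.mul ν (Nat.sub a.w C.c)) 1048575) 1048576)

/-- The negative part of the multiplier at a node, rounded down. -/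
def multNeg (C : Cert) (ν : ℕ) (a : Node) : ℕ :=
  Nat.div (Nat.mul ν (Nat.sub C.c a.w)) 1048576

/-- The smaller end value of the weighed power, in the unit of the exponent `m + 1`. -/
def endMin {α : Type} (m x y P N : ℕ) (k : ℕ → ℕ → α) : α :=
  (fun A B A' B' => bif Nat.ble (Nat.add A B') (Nat.add A' B) then k A B else k A' B')
    (Nat.add (Nat.mul (Nat.pow x (Nat.sub m 1)) 1099511627776) (Nat.mul N (Nat.pow x m)))
    (Nat.mul P (Nat.pow x m))
    (Nat.add (Nat.mul (Nat.pow y (Nat.sub m 1)) 1099511627776) (Nat.mul N (Nat.pow y m)))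
    (Nat.mul P (Nat.pow y m))

/-- The bound of the second derivative on a segment. -/
def curv (m x₀ x₁ P₀ N₀ P₁ N₁ : ℕ) : ℕ :=
  (fun d hi lo e₀ e₁ =>
    Nat.add
      (Nat.mul (Nat.mul (Nat.sub m 1) (Nat.mul d d))
        (Nat.sub
          (Nat.add (Nat.mul (Nat.mul (Nat.sub m 2) (Nat.pow hi (Nat.sub m 3))) 1099511627776)
            (Nat.mul (Nat.mul m (bif Nat.ble e₀ e₁ then Nat.sub N₀ P₀ else Nat.sub N₁ P₁)) (Nat.pow hi (Nat.sub m 2))))
          (Nat.mul (Nat.mul m (bif Nat.ble e₀ e₁ then Nat.sub P₀ N₀ else Nat.sub P₁ N₁)) (Nat.pow lo (Nat.sub m 2)))))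
      (Nat.mul (Nat.mul (Nat.mul 2 m) (Nat.mul (Nat.add (Nat.sub e₁ e₀) (Nat.sub e₀ e₁)) d))
        (Nat.pow hi (Nat.sub m 1))))
    (Nat.add (Nat.sub x₁ x₀) (Nat.sub x₀ x₁)) (most x₀ x₁) (least x₀ x₁) (Nat.add P₀ N₁) (Nat.add P₁ N₀)

/-- The lower bound on one piece, in the unit of the exponent `m + 3`, times twelve. -/
noncomputable def piece {α : Type} (C : Cert) (μ ν : ℕ) (low g : Seg) (gs : List Seg) (a b : Node)
    (k : ℕ → ℕ → α) : α :=
  bestUp gs a.t b.t (g.up a.t) (g.up b.t) fun y₀ y₁ =>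
  (fun x₀ x₁ P₀ N₀ P₁ N₁ =>
    endMin C.m x₀ y₀ P₀ N₀ fun A₀ B₀ => endMin C.m x₁ y₁ P₁ N₁ fun A₁ B₁ =>
    (fun K K' W => k (Nat.mul W (Nat.mul 6 (Nat.add A₀ A₁)))
      (Nat.mul W (Nat.add (Nat.mul 6 (Nat.add B₀ B₁)) (most K K'))))
      (curv C.m x₀ x₁ P₀ N₀ P₁ N₁) (curv C.m y₀ y₁ P₀ N₀ P₁ N₁)
      (Nat.mul 1048576 (Nat.sub b.t a.t)))
    (low.down a.t) (low.down b.t) (multPos C μ ν a) (multNeg C ν a) (multPos C μ ν b)
    (multNeg C ν b)

/-- The sum over the pieces from a first node through a list, added to a running total. -/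
noncomputable def piecesFrom {α : Type} (C : Cert) (μ ν : ℕ) (low g : Seg) (gs : List Seg)
    (l : List Node) : Node → ℕ → ℕ → (ℕ → ℕ → α) → α :=
  List.rec (motive := fun _ => Node → ℕ → ℕ → (ℕ → ℕ → α) → α) (fun _ P N k => k P N)
    (fun b _ ih a P N k => piece C μ ν low g gs a b fun A B => ih b (Nat.add P A) (Nat.add N B) k) l

/-- The sum over the consecutive pieces of a zone, added to a running total. -/
noncomputable def pieces {α : Type} (C : Cert) (μ ν : ℕ) (low g : Seg) (gs : List Seg)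
    (l : List Node) (P N : ℕ) (k : ℕ → ℕ → α) : α :=
  List.rec (motive := fun _ => α) (k P N)
    (fun a r _ => piecesFrom C μ ν low g gs r a P N k) l

/-- The line of constant value one. -/
def flat : Seg := ⟨0, unit, unit, unit⟩

/-- The last node. -/
def Cert.last (C : Cert) : ℕ := (C.zone₂.getLastD ⟨0, 0⟩).t

/-- The loss past the last node. -/
noncomputable def tailPiece {α : Type} (C : Cert) (μ ν : ℕ) (g : Seg) (gs : List Seg) (k : ℕ → α) : α :=
  force C.last fun te => force (g.up te) fun u₀ => force (g.up unit) fun u₁ =>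
  bestUp gs te unit u₀ u₁ fun y₀ y₁ =>
    k (12 * ((μ * unit - ν * C.c) * (unit - te) + ν * C.I * unit) * most y₀ y₁ ^ C.m)

/-- The upper lines past the second point. -/
def rightLines (C : Cert) (a₀ a₁ b₁ : ℕ) : List Seg :=
  [⟨C.s, a₀, C.q, b₁⟩, ⟨0, unit, C.s, a₁⟩, ⟨0, unit, C.q, b₁⟩]

/-- The total on a box, as a pair. -/
noncomputable def total {α : Type} (C : Cert) (μ ν a₀ a₁ b₀ b₁ : ℕ) (k : ℕ → ℕ → α) : α :=
  pieces C μ ν ⟨0, unit, C.s, a₀⟩ flat [⟨C.s, a₁, C.q, b₀⟩, ⟨C.s, a₁, unit, 0⟩] C.zone₀ 0 0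
    fun P₀ N₀ =>
  pieces C μ ν ⟨C.s, a₀, C.q, b₀⟩ flat [⟨0, unit, C.s, a₁⟩, ⟨C.q, b₁, unit, 0⟩] C.zone₁ P₀ N₀
    fun P₁ N₁ =>
  pieces C μ ν ⟨C.q, b₀, unit, 0⟩ flat (rightLines C a₀ a₁ b₁) C.zone₂ P₁ N₁ fun P₂ N₂ =>
  tailPiece C μ ν flat (rightLines C a₀ a₁ b₁) fun T => k P₂ (N₂ + T)

/-- One box is refuted. -/
noncomputable def boxOk (C : Cert) (μ ν a₀ a₁ b₀ b₁ : ℕ) : Bool :=
  total C μ ν a₀ a₁ b₀ b₁ fun P N =>
    Nat.ble ((C.m - 1) ^ (C.m - 1) * C.κ * 12 * unit ^ (2 * C.m + 1) +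
      N * (μ ^ (C.m - 1) * C.m ^ C.m) + 1) (P * (μ ^ (C.m - 1) * C.m ^ C.m))

/-- The cuts of the square: a leaf is outside the region or is refuted by its multipliers. -/
inductive Tree where
  | out
  | box (μ ν : ℕ)
  | cut₁ (l r : Tree)
  | cut₂ (l r : Tree)

/-- The least value at `q` allowed by the value at `s`. -/
def lowAt (C : Cert) (a₀ b₀ : ℕ) : ℕ := most b₀ (Seg.down ⟨C.s, a₀, unit, 0⟩ C.q)

/-- The largest value at `q` allowed by the value at `s`. -/
def highAt (C : Cert) (a₁ b₁ : ℕ) : ℕ := least b₁ (Seg.up ⟨0, unit, C.s, a₁⟩ C.q)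

/-- The check of the cuts. -/
noncomputable def Tree.check (C : Cert) : Tree → ℕ → ℕ → ℕ → ℕ → Bool
  | .out, a₀, a₁, b₀, b₁ =>
      Nat.ble (highAt C a₁ b₁ + 1) (lowAt C a₀ b₀) ||
        Nat.ble (C.q * a₁ + 1) ((C.q - C.s) * unit)
  | .box μ ν, a₀, a₁, b₀, b₁ =>
      force (lowAt C a₀ b₀) fun lo => force (highAt C a₁ b₁) fun hi => boxOk C μ ν a₀ a₁ lo hi
  | .cut₁ l r, a₀, a₁, b₀, b₁ =>
      force (Nat.div (Nat.add a₀ a₁) 2) fun c => l.check C a₀ c b₀ b₁ && r.check C c a₁ b₀ b₁
  | .cut₂ l r, a₀, a₁, b₀, b₁ =>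
      force (Nat.div (Nat.add b₀ b₁) 2) fun c => l.check C a₀ a₁ b₀ c && r.check C a₀ a₁ c b₁

/-- The check of the weight at one node. -/
def Node.ok (a : Node) : Bool :=
  Nat.ble (a.t + 1) unit &&
    Nat.ble (unit * unit * unit * unit) (a.w * a.w * (unit * unit - a.t * a.t))

/-- A list of nodes runs increasingly from `a` to `b`. -/
def runsTo : List Node → ℕ → ℕ → Bool
  | [], _, _ => false
  | [n], a, b => decide (n.t = a ∧ a = b) && n.ok
  | n :: k :: l, a, b => decide (n.t = a ∧ n.t < k.t) && n.ok && runsTo (k :: l) k.t b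

/-- The check of the shared data. -/
def Cert.wf (C : Cert) : Bool :=
  decide (3 ≤ C.m ∧ 0 < C.s ∧ C.s < C.q ∧ C.q < unit ∧ C.I ≤ unit ∧
      96 * unit ^ 4 + 5 * C.I ^ 4 ≤ 96 * unit ^ 3 * C.last + 48 * C.I ^ 2 * unit ^ 2) &&
    runsTo C.zone₀ 0 C.s && runsTo C.zone₁ C.s C.q && runsTo C.zone₂ C.q C.last

/-- Numerator of the mass of the ball profile. -/
def ballNum : ℕ → ℕ
  | 0 => 1
  | 1 => 1
  | k + 2 => ballNum k * (k + 2)

/-- Denominator of the mass of the ball profile. -/
def ballDen : ℕ → ℕ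
  | 0 => 1
  | 1 => 4
  | k + 2 => ballDen k * (k + 3)

/-- Six digits of the parity factor from below. -/
def piLow (k : ℕ) : ℕ := if k % 2 = 0 then 1000000 else 3141592

/-- Six digits of the parity factor from above. -/
def piHigh (k : ℕ) : ℕ := if k % 2 = 0 then 1000000 else 3141593

/-- The check of the moment constant, with the excess `p / (q (m + 1))`. -/
def ratioOk (C : Cert) (p q : ℕ) : Bool :=
  let m := C.m
  decide ((C.c : ℤ) * (ballNum m * piHigh m) * ballDen (m - 1) * (q * (m + 1)) ≤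
      unit * (q * (m + 1) + p) * (ballNum (m - 1) * piLow (m - 1)) * ballDen m)

/-- The check of the power constant. -/
def kappaOk (C : Cert) : Bool :=
  let m := C.m
  decide (unit * (ballNum (m - 1) * piHigh (m - 1) : ℤ) ^ m * (ballDen m : ℤ) ^ (m - 1) *
        1000000 ^ (m - 1) ≤
      C.κ * ((ballDen (m - 1) : ℤ) * 1000000) ^ m * (ballNum m * piLow m : ℤ) ^ (m - 1))

/-- The check of the two constants, with the moment excess `1 / (5 (m + 1))`. -/
def constOk (C : Cert) : Bool := ratioOk C 1 5 && kappaOk C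

/-- The check of the two constants, with the moment excess `11 / (50 (m + 1))`. -/
def constOkLarge (C : Cert) : Bool := ratioOk C 11 50 && kappaOk C

theorem force_eq {α : Type} (z : ℕ) (k : ℕ → α) : force z k = k z := by
  cases z <;> rfl

theorem check_cut₁ {C : Cert} {l r : Tree} {a₀ a₁ b₀ b₁ c : ℕ} (hc : (a₀ + a₁) / 2 = c)
    (hl : l.check C a₀ c b₀ b₁ = true) (hr : r.check C c a₁ b₀ b₁ = true) :
    (Tree.cut₁ l r).check C a₀ a₁ b₀ b₁ = true := by
  have e : Nat.div (Nat.add a₀ a₁) 2 = c := hc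
  simp only [Tree.check, force_eq, e, hl, hr, Bool.and_self]

theorem check_cut₂ {C : Cert} {l r : Tree} {a₀ a₁ b₀ b₁ c : ℕ} (hc : (b₀ + b₁) / 2 = c)
    (hl : l.check C a₀ a₁ b₀ c = true) (hr : r.check C a₀ a₁ c b₁ = true) :
    (Tree.cut₂ l r).check C a₀ a₁ b₀ b₁ = true := by
  have e : Nat.div (Nat.add b₀ b₁) 2 = c := hc
  simp only [Tree.check, force_eq, e, hl, hr, Bool.and_self]

end Vale.Agent.P237.Quant.WindowCert
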