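import Mathlib
import Vale.Agent.P237.Quant.WindowCheck
import Vale.Agent.P237.Quant.PowerWindow
import Vale.Agent.P237.Quant.BadSet

/-!
Soundness of a window certificate: a profile with power ratio at most one cannot have the moment of
`1 / p` that the certificate refutes.
-/

namespace Vale.Agent.P237.Quant.WindowCert

open MeasureTheory Set Real

theorem most_eq (a b : ℕ) : most a b = max a b := by
  unfold most
  cases h : Nat.ble a b <;> simp only [cond_true, cond_false]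
  · have : ¬a ≤ b := fun hle => by simp [Nat.ble_eq_true_of_le hle] at h
    omega
  · have := Nat.le_of_ble_eq_true h
    omega

theorem least_eq (a b : ℕ) : least a b = min a b := by
  unfold least
  cases h : Nat.ble a b <;> simp only [cond_true, cond_false]
  · have : ¬a ≤ b := fun hle => by simp [Nat.ble_eq_true_of_le hle] at h
    omega
  · have := Nat.le_of_ble_eq_true h
    omega

/-- The real number of a number of the data. -/
noncomputable def val (z : ℕ) : ℝ := (z : ℝ) / (unit : ℝ)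

theorem unit_pos : (0 : ℝ) < (unit : ℝ) := by norm_num [unit]

theorem unit_lit : (1048576 : ℕ) = unit := rfl

theorem val_le {a b : ℕ} (h : a ≤ b) : val a ≤ val b :=
  div_le_div_of_nonneg_right (Nat.cast_le.2 h) unit_pos.le

theorem val_nonneg (a : ℕ) : 0 ≤ val a := div_nonneg (Nat.cast_nonneg a) unit_pos.le

theorem val_zero : val 0 = 0 := by simp [val]

theorem val_unit : val unit = 1 := div_self unit_pos.ne'

theorem val_lt {a b : ℕ} (h : a < b) : val a < val b :=
  div_lt_div_of_pos_right (Nat.cast_lt.2 h) unit_pos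

/-- The weight is below its chord. -/
theorem inv_ball_chord {a b t : ℝ} (ha : 0 ≤ a) (hab : a < b) (hb : b < 1) (ht : t ∈ Icc a b) :
    1 / ballShape t ≤ (b - t) / (b - a) * (1 / ballShape a) + (t - a) / (b - a) * (1 / ballShape b) := by
  have hd := sub_pos.2 hab
  have hA : 0 < ballShape a := ball_pos ⟨by linarith, by linarith⟩
  have hB : 0 < ballShape b := ball_pos ⟨by linarith, hb⟩
  have ea := ball_sq (show a ∈ Icc (-1 : ℝ) 1 from ⟨by linarith, by linarith⟩)
  have eb := ball_sq (show b ∈ Icc (-1 : ℝ) 1 from ⟨by linarith, hb.le⟩)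
  set A := ballShape a
  set B := ballShape b
  set u := (b - t) / (b - a) with hu
  set v := (t - a) / (b - a) with hv
  have huv : u + v = 1 := by rw [hu, hv]; field_simp; ring
  have hu0 : 0 ≤ u := div_nonneg (sub_nonneg.2 ht.2) hd.le
  have hv0 : 0 ≤ v := div_nonneg (sub_nonneg.2 ht.1) hd.le
  have et : t = u * a + v * b := by rw [hu, hv]; field_simp; ring
  have hL : 0 < u * A + v * B := by
    rcases hu0.eq_or_lt with h | h
    · rw [← h, show v = 1 by linarith]; linarith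
    · positivity
  have hAB : A * B ≤ 1 - a * b := by
    nlinarith [sq_nonneg (A - B), sq_nonneg (a - b)]
  have hle : u * A + v * B ≤ ballShape t := by
    refine le_sqrt_of_sq_le ?_
    have e : 1 - t ^ 2 = (u + v) ^ 2 - (u * a + v * b) ^ 2 := by rw [huv, et]; ring
    rw [e]
    have h1 := congrArg (u ^ 2 * ·) ea
    have h2 := congrArg (v ^ 2 * ·) eb
    have h3 := mul_le_mul_of_nonneg_left hAB (mul_nonneg hu0 hv0)
    linarith
  refine (one_div_le_one_div_of_le hL hle).trans ?_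
  rw [div_le_iff₀ hL]
  have e : (u * (1 / A) + v * (1 / B)) * (u * A + v * B) =
      (u + v) ^ 2 + u * v * ((A - B) ^ 2 / (A * B)) := by field_simp; ring
  rw [e, huv, one_pow]
  exact le_add_of_nonneg_right (by positivity)

/-- The weighed power on a segment, from a bound on its second derivative. -/
theorem chord_le_weighed {m : ℕ} (hm : 3 ≤ m) {x₀ x₁ l₀ l₁ u : ℝ} (h₀ : 0 ≤ x₀) (h₁ : 0 ≤ x₁)
    (hu : u ∈ Icc (0 : ℝ) 1) :
    (1 - u) * (x₀ ^ (m - 1) - l₀ * x₀ ^ m) + u * (x₁ ^ (m - 1) - l₁ * x₁ ^ m) -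
        (((m : ℝ) - 1) * (x₁ - x₀) ^ 2 * max 0 (((m : ℝ) - 2) * max x₀ x₁ ^ (m - 3) +
            m * max 0 (-min l₀ l₁) * max x₀ x₁ ^ (m - 2) -
            m * max 0 (min l₀ l₁) * min x₀ x₁ ^ (m - 2)) +
          2 * m * |(l₁ - l₀) * (x₁ - x₀)| * max x₀ x₁ ^ (m - 1)) * (u * (1 - u) / 2) ≤
      (x₀ + u * (x₁ - x₀)) ^ (m - 1) - (l₀ + u * (l₁ - l₀)) * (x₀ + u * (x₁ - x₀)) ^ m := by
  obtain ⟨j, rfl⟩ : ∃ j, m = j + 3 := ⟨m - 3, by omega⟩
  simp only [show j + 3 - 1 = j + 2 by omega, show j + 3 - 2 = j + 1 by omega,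
    show j + 3 - 3 = j by omega]
  push_cast
  set δ := x₁ - x₀ with hδ
  set σ := l₁ - l₀ with hσ
  set Cc := ((j : ℝ) + 3 - 1) * δ ^ 2 * max 0 (((j : ℝ) + 3 - 2) * max x₀ x₁ ^ j +
      ((j : ℝ) + 3) * max 0 (-min l₀ l₁) * max x₀ x₁ ^ (j + 1) -
      ((j : ℝ) + 3) * max 0 (min l₀ l₁) * min x₀ x₁ ^ (j + 1)) +
    2 * ((j : ℝ) + 3) * |σ * δ| * max x₀ x₁ ^ (j + 2) with hC
  set g : ℝ → ℝ := fun s => (x₀ + s * δ) ^ (j + 2) - (l₀ + s * σ) * (x₀ + s * δ) ^ (j + 3) -
    Cc * s ^ 2 / 2 with hg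
  set g' : ℝ → ℝ := fun s => ((j : ℝ) + 2) * (x₀ + s * δ) ^ (j + 1) * δ -
    (σ * (x₀ + s * δ) ^ (j + 3) + (l₀ + s * σ) * (((j : ℝ) + 3) * (x₀ + s * δ) ^ (j + 2) * δ)) -
    Cc * s with hg'
  set g'' : ℝ → ℝ := fun s => ((j : ℝ) + 2) * ((((j : ℝ) + 1) * (x₀ + s * δ) ^ j * δ) * δ) -
    (σ * (((j : ℝ) + 3) * (x₀ + s * δ) ^ (j + 2) * δ) + (σ * (((j : ℝ) + 3) *
      (x₀ + s * δ) ^ (j + 2) * δ) + (l₀ + s * σ) * (((j : ℝ) + 3) *
      (((j : ℝ) + 2) * (x₀ + s * δ) ^ (j + 1) * δ) * δ))) - Cc with hg''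
  have hX : ∀ s, HasDerivAt (fun s => x₀ + s * δ) δ s := fun s => by
    simpa using ((hasDerivAt_id' s).mul_const δ).const_add x₀
  have hΛ : ∀ s, HasDerivAt (fun s => l₀ + s * σ) σ s := fun s => by
    simpa using ((hasDerivAt_id' s).mul_const σ).const_add l₀
  have d1 : ∀ s, HasDerivAt g (g' s) s := fun s => by
    refine ((((hX s).pow (j + 2)).sub ((hΛ s).mul ((hX s).pow (j + 3)))).sub
      (((hasDerivAt_pow 2 s).const_mul Cc).div_const 2)).congr_deriv ?_
    simp only [hg', Pi.pow_apply, show j + 2 - 1 = j + 1 by omega, show j + 3 - 1 = j + 2 by omega]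
    push_cast
    ring
  have d2 : ∀ s, HasDerivAt g' (g'' s) s := fun s => by
    refine ((((((hX s).pow (j + 1)).const_mul ((j : ℝ) + 2)).mul_const δ).sub
      (((((hX s).pow (j + 3)).const_mul σ)).add ((hΛ s).mul
        ((((hX s).pow (j + 2)).const_mul ((j : ℝ) + 3)).mul_const δ)))).sub
      ((hasDerivAt_id' s).const_mul Cc)).congr_deriv ?_
    simp only [hg'', Pi.pow_apply, show j + 1 - 1 = j by omega,
      show j + 2 - 1 = j + 1 by omega, show j + 3 - 1 = j + 2 by omega]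
    push_cast
    ring
  have hcc : ConcaveOn ℝ (Icc (0 : ℝ) 1) g := by
    refine concaveOn_of_hasDerivWithinAt2_nonpos (convex_Icc 0 1) (f' := g') (f'' := g'')
      (fun s _ => (d1 s).continuousAt.continuousWithinAt) (fun s _ => (d1 s).hasDerivWithinAt)
      (fun s _ => (d2 s).hasDerivWithinAt) fun s hs => ?_
    rw [interior_Icc] at hs
    have hxe : x₀ + s * δ = (1 - s) * x₀ + s * x₁ := by rw [hδ]; ring
    have hlo : min x₀ x₁ ≤ x₀ + s * δ := by
      rw [hxe]; nlinarith [min_le_left x₀ x₁, min_le_right x₀ x₁, hs.1, hs.2]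
    have hhi : x₀ + s * δ ≤ max x₀ x₁ := by
      rw [hxe]; nlinarith [le_max_left x₀ x₁, le_max_right x₀ x₁, hs.1, hs.2]
    have hl : min l₀ l₁ ≤ l₀ + s * σ := by
      rw [show l₀ + s * σ = (1 - s) * l₀ + s * l₁ by rw [hσ]; ring]
      nlinarith [min_le_left l₀ l₁, min_le_right l₀ l₁, hs.1, hs.2]
    have hmn : 0 ≤ min x₀ x₁ := le_min h₀ h₁
    set X := x₀ + s * δ
    set hi := max x₀ x₁
    set lo := min x₀ x₁
    set l := min l₀ l₁
    have hX0 : 0 ≤ X := hmn.trans hlo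
    have e1 : -(max 0 (-l) * hi ^ (j + 1)) + max 0 l * lo ^ (j + 1) ≤
        (l₀ + s * σ) * X ^ (j + 1) := by
      refine le_trans ?_ (mul_le_mul_of_nonneg_right hl (pow_nonneg hX0 _))
      have p1 := mul_le_mul_of_nonneg_left (pow_le_pow_left₀ hX0 hhi (j + 1))
        (le_max_left 0 (-l))
      have p2 := mul_le_mul_of_nonneg_left (pow_le_pow_left₀ hmn hlo (j + 1)) (le_max_left 0 l)
      rcases le_total 0 l with h | h
      · rw [max_eq_right h, max_eq_left (neg_nonpos.2 h)] at *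
        linarith
      · rw [max_eq_left h, max_eq_right (neg_nonneg.2 h)] at *
        linarith
    set T := ((j : ℝ) + 3 - 2) * hi ^ j + ((j : ℝ) + 3) * max 0 (-l) * hi ^ (j + 1) -
      ((j : ℝ) + 3) * max 0 l * lo ^ (j + 1)
    have e2 : ((j : ℝ) + 1) * X ^ j - ((j : ℝ) + 3) * ((l₀ + s * σ) * X ^ (j + 1)) ≤ max 0 T := by
      refine le_trans ?_ (le_max_right _ _)
      have p1 := mul_le_mul_of_nonneg_left (pow_le_pow_left₀ hX0 hhi j)
        (show (0 : ℝ) ≤ j + 1 by positivity)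
      have p2 := mul_le_mul_of_nonneg_left e1 (show (0 : ℝ) ≤ j + 3 by positivity)
      linarith
    have e3 : -(σ * δ) * X ^ (j + 2) ≤ |σ * δ| * hi ^ (j + 2) :=
      (mul_le_mul_of_nonneg_right (neg_le_abs _) (pow_nonneg hX0 _)).trans
        (mul_le_mul_of_nonneg_left (pow_le_pow_left₀ hX0 hhi _) (abs_nonneg _))
    have p3 := mul_le_mul_of_nonneg_left e2
      (show (0 : ℝ) ≤ (j + 2) * δ ^ 2 by positivity)
    have p4 := mul_le_mul_of_nonneg_left e3 (show (0 : ℝ) ≤ 2 * (j + 3) by positivity)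
    simp only [hg'', hC]
    linarith
  have h := hcc.2 (show (0 : ℝ) ∈ Icc (0 : ℝ) 1 by norm_num)
    (show (1 : ℝ) ∈ Icc (0 : ℝ) 1 by norm_num) (sub_nonneg.2 hu.2) hu.1 (by ring)
  simp only [smul_eq_mul, hg, mul_zero, mul_one, zero_add, zero_mul, add_zero, one_mul,
    hδ, hσ] at h
  rw [show x₀ + (x₁ - x₀) = x₁ by ring, show l₀ + (l₁ - l₀) = l₁ by ring] at h
  linarith

/-- The value of a line. -/
noncomputable def Seg.at (g : Seg) (t : ℝ) : ℝ :=
  lineThrough (val g.p) (val g.x) (val g.r) (val g.y) t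

theorem cast_sub_sub (a b : ℕ) : ((a - b : ℕ) : ℝ) - ((b - a : ℕ) : ℝ) = (a : ℝ) - b := by
  rcases le_total a b with h | h
  · rw [Nat.sub_eq_zero_of_le h, Nat.cast_zero, Nat.cast_sub h]
    ring
  · rw [Nat.sub_eq_zero_of_le h, Nat.cast_zero, Nat.cast_sub h]
    ring

theorem Seg.at_le (g : Seg) (hg : g.p < g.r) (t : ℕ) :
    g.at (val t) ≤ (g.num t : ℝ) / ((g.r - g.p : ℕ) : ℝ) / (unit : ℝ) ∧
      (g.num t = 0 ∨ (g.num t : ℝ) / ((g.r - g.p : ℕ) : ℝ) / (unit : ℝ) = g.at (val t)) := by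
  set A := (g.r - t) * g.x + (t - g.p) * g.y with hA
  set B := (t - g.r) * g.x + (g.p - t) * g.y with hB
  have hn : g.num t = A - B := rfl
  have hd : (0 : ℝ) < ((g.r - g.p : ℕ) : ℝ) := Nat.cast_pos.2 (Nat.sub_pos_of_lt hg)
  have e : g.at (val t) = ((A : ℝ) - B) / ((g.r - g.p : ℕ) : ℝ) / (unit : ℝ) := by
    have h1 := cast_sub_sub g.r t
    have h2 := cast_sub_sub t g.p
    have eAB : (A : ℝ) - B = ((g.r : ℝ) - t) * g.x + ((t : ℝ) - g.p) * g.y := by
      rw [← h1, ← h2, hA, hB]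
      push_cast
      ring
    have h3 : (0 : ℝ) < (g.r : ℝ) - g.p := by rwa [Nat.cast_sub hg.le] at hd
    rw [eAB, Nat.cast_sub hg.le]
    have h4 := unit_pos
    simp only [Seg.at, lineThrough, val]
    field_simp
  rw [e, hn]
  refine ⟨div_le_div_of_nonneg_right (div_le_div_of_nonneg_right ?_ hd.le) unit_pos.le, ?_⟩
  · rcases le_total A B with h | h
    · rw [Nat.sub_eq_zero_of_le h, Nat.cast_zero, sub_nonpos]
      exact Nat.cast_le.2 h
    · rw [Nat.cast_sub h]
  · rcases le_total A B with h | h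
    · exact Or.inl (Nat.sub_eq_zero_of_le h)
    · exact Or.inr (by rw [Nat.cast_sub h])

theorem Seg.down_le (g : Seg) (hg : g.p < g.r) (t : ℕ) :
    g.down t = 0 ∨ val (g.down t) ≤ g.at (val t) := by
  rcases (g.at_le hg t).2 with h | h
  · exact Or.inl (by rw [Seg.down, h]; exact Nat.zero_div _)
  · refine Or.inr ((div_le_div_of_nonneg_right ?_ unit_pos.le).trans h.le)
    exact Nat.cast_div_le

theorem Seg.le_up (g : Seg) (hg : g.p < g.r) (t : ℕ) : g.at (val t) ≤ val (g.up t) := by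
  refine (g.at_le hg t).1.trans (div_le_div_of_nonneg_right ?_ unit_pos.le)
  have hd : 0 < g.r - g.p := Nat.sub_pos_of_lt hg
  rw [div_le_iff₀ (Nat.cast_pos.2 hd)]
  have h : g.num t ≤ g.up t * (g.r - g.p) := by
    have e1 : g.up t = (g.num t + (g.r - g.p - 1)) / (g.r - g.p) := rfl
    have h1 := Nat.lt_div_mul_add hd (a := g.num t + (g.r - g.p - 1))
    rw [e1]
    omega
  exact_mod_cast h

theorem bestUp_cons {α : Type} (f : Seg) (fs : List Seg) (t u y₀ y₁ : ℕ) (k : ℕ → ℕ → α) :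
    bestUp (f :: fs) t u y₀ y₁ k = bif Nat.ble (Nat.add y₀ y₁) (Nat.add (f.up t) (f.up u))
      then bestUp fs t u y₀ y₁ k else bestUp fs t u (f.up t) (f.up u) k := rfl

theorem bestUp_mem {α : Type} (t u : ℕ) (k : ℕ → ℕ → α) : ∀ (gs : List Seg) (g : Seg),
    ∃ h ∈ g :: gs, bestUp gs t u (g.up t) (g.up u) k = k (h.up t) (h.up u)
  | [], g => ⟨g, List.mem_cons_self, rfl⟩
  | f :: fs, g => by
      rw [bestUp_cons]
      cases Nat.ble (Nat.add (g.up t) (g.up u)) (Nat.add (f.up t) (f.up u)) <;>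
        simp only [cond_true, cond_false]
      · obtain ⟨h, hh, e⟩ := bestUp_mem t u k fs f
        exact ⟨h, List.mem_cons_of_mem _ hh, e⟩
      · obtain ⟨h, hh, e⟩ := bestUp_mem t u k fs g
        rcases List.mem_cons.1 hh with r | r
        · exact ⟨h, r ▸ List.mem_cons_self, e⟩
        · exact ⟨h, List.mem_cons_of_mem _ (List.mem_cons_of_mem _ r), e⟩

theorem Node.ok_iff {a : Node} (h : a.ok = true) :
    a.t < unit ∧ 1 / ballShape (val a.t) ≤ val a.w := by
  simp only [Node.ok, Bool.and_eq_true] at h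
  have h1 : a.t < unit := Nat.le_of_ble_eq_true h.1
  have h3 := Nat.le_of_ble_eq_true h.2
  refine ⟨h1, ?_⟩
  have ht0 := val_nonneg a.t
  have ht1 : val a.t < 1 := by simpa [val_unit] using val_lt h1
  have hp : 0 < ballShape (val a.t) := ball_pos ⟨by linarith, ht1⟩
  have hsq := ball_sq (show val a.t ∈ Icc (-1 : ℝ) 1 from ⟨by linarith, ht1.le⟩)
  have h3' : (unit : ℝ) * unit * unit * unit ≤
      (a.w : ℝ) * a.w * ((unit : ℝ) * unit - a.t * a.t) := by
    have := (Nat.cast_le (α := ℝ)).2 h3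
    rw [Nat.cast_mul, Nat.cast_mul, Nat.cast_mul, Nat.cast_mul, Nat.cast_mul,
      Nat.cast_sub (Nat.mul_le_mul h1.le h1.le), Nat.cast_mul, Nat.cast_mul] at this
    exact this
  rw [div_le_iff₀ hp]
  refine le_of_pow_le_pow_left₀ two_ne_zero (mul_nonneg (val_nonneg _) hp.le) ?_
  rw [one_pow, mul_pow, hsq, val, val]
  have hu := unit_pos
  field_simp
  linarith

variable {φ : ℝ → ℝ} {C : Cert}

/-- The weighed power of a profile. -/
noncomputable def weighed (C : Cert) (μ ν : ℕ) (φ : ℝ → ℝ) (t : ℝ) : ℝ :=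
  (φ t / φ 0) ^ (C.m - 1) -
    (val μ + val ν * (1 / ballShape t - val C.c)) * (φ t / φ 0) ^ C.m

theorem intervalIntegrable_weighed (hφ : IsShape φ) (μ ν : ℕ) :
    IntervalIntegrable (weighed C μ ν φ) volume 0 1 := by
  have hw : IntervalIntegrable (fun t => 1 / ballShape t * φ t ^ C.m) volume 0 1 := by
    refine IntervalIntegrable.congr (fun t _ => ?_) (intervalIntegrable_pow_div hφ C.m)
    ring
  refine IntervalIntegrable.congr (fun t _ => ?_)
    (((intervalIntegrable_shape_pow01 hφ (C.m - 1)).div_const (φ 0 ^ (C.m - 1))).sub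
      ((((intervalIntegrable_shape_pow01 hφ C.m).const_mul (val μ - val ν * val C.c)).add
        (hw.const_mul (val ν))).div_const (φ 0 ^ C.m)))
  simp only [weighed, div_pow]
  ring

/-- The multiplier at a node. -/
noncomputable def multAt (C : Cert) (μ ν : ℕ) (a : Node) : ℝ :=
  val (multPos C μ ν a) - val (multNeg C ν a)

theorem mult_le {μ ν : ℕ} (a : Node) :
    val μ + val ν * (val a.w - val C.c) ≤ multAt C μ ν a := by
  have e1 : multPos C μ ν a = μ + (ν * (a.w - C.c) + (unit - 1)) / unit := rfl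
  have e2 : multNeg C ν a = ν * (C.c - a.w) / unit := rfl
  have hU : 0 < unit := by decide
  have h1 : ν * (a.w - C.c) ≤ (ν * (a.w - C.c) + (unit - 1)) / unit * unit := by
    have := Nat.lt_div_mul_add hU (a := ν * (a.w - C.c) + (unit - 1))
    omega
  have h1' : (ν : ℝ) * ((a.w - C.c : ℕ) : ℝ) ≤
      (((ν * (a.w - C.c) + (unit - 1)) / unit : ℕ) : ℝ) * (unit : ℝ) := by exact_mod_cast h1
  have h2' : (((ν * (C.c - a.w)) / unit : ℕ) : ℝ) * (unit : ℝ) ≤
      (ν : ℝ) * ((C.c - a.w : ℕ) : ℝ) := by exact_mod_cast Nat.div_mul_le_self _ _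
  have h3 := congrArg (fun z => (ν : ℝ) * z) (cast_sub_sub a.w C.c)
  simp only [multAt, e1, e2, val, Nat.cast_add]
  set X := (((ν * (a.w - C.c) + (unit - 1)) / unit : ℕ) : ℝ)
  set Y := (((ν * (C.c - a.w)) / unit : ℕ) : ℝ)
  have hu := unit_pos
  field_simp
  linarith

theorem endMin_mem {m : ℕ} (hm : 1 ≤ m) {α : Type} (x y P N : ℕ) (k : ℕ → ℕ → α) :
    ∃ A B : ℕ, endMin m x y P N k = k A B ∧
      ((A : ℝ) - B) / (unit : ℝ) ^ (m + 1) =
        min (val x ^ (m - 1) - (val P - val N) * val x ^ m)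
          (val y ^ (m - 1) - (val P - val N) * val y ^ m) := by
  obtain ⟨j, rfl⟩ : ∃ j, m = j + 1 := ⟨m - 1, by omega⟩
  have hu := unit_pos
  have key : ∀ z : ℕ, (((z ^ j * (unit * unit) + N * z ^ (j + 1) : ℕ) : ℝ) -
      ((P * z ^ (j + 1) : ℕ) : ℝ)) / (unit : ℝ) ^ (j + 1 + 1) =
      val z ^ j - (val P - val N) * val z ^ (j + 1) := fun z => by
    simp only [val, div_pow]
    push_cast
    field_simp
    ring
  simp only [endMin]
  simp only [Nat.pow_eq, Nat.mul_eq, Nat.add_eq, Nat.sub_eq, Nat.add_sub_cancel,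
    show (1099511627776 : ℕ) = unit * unit from rfl]
  rw [← key x, ← key y]
  set A := x ^ j * (unit * unit) + N * x ^ (j + 1)
  set B := P * x ^ (j + 1)
  set A' := y ^ j * (unit * unit) + N * y ^ (j + 1)
  set B' := P * y ^ (j + 1)
  cases h : Nat.ble (A + B') (A' + B) <;> simp only [cond_true, cond_false]
  · refine ⟨A', B', rfl, (min_eq_right (div_le_div_of_nonneg_right ?_ (by positivity))).symm⟩
    have h' : A' + B < A + B' := Nat.lt_of_not_le fun hle => by
      simp [Nat.ble_eq_true_of_le hle] at h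
    have : (A' : ℝ) + B ≤ A + B' := by exact_mod_cast h'.le
    linarith
  · refine ⟨A, B, rfl, (min_eq_left (div_le_div_of_nonneg_right ?_ (by positivity))).symm⟩
    have : (A : ℝ) + B' ≤ A' + B := by exact_mod_cast Nat.le_of_ble_eq_true h
    linarith

theorem abs_eq_sub_add_sub (a b : ℕ) :
    |(a : ℝ) - b| = ((a - b + (b - a) : ℕ) : ℝ) := by
  rcases le_total a b with h | h
  · rw [Nat.sub_eq_zero_of_le h, zero_add, Nat.cast_sub h, abs_of_nonpos (by
      rw [sub_nonpos]; exact Nat.cast_le.2 h), neg_sub]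
  · rw [Nat.sub_eq_zero_of_le h, add_zero, Nat.cast_sub h, abs_of_nonneg (by
      rw [sub_nonneg]; exact Nat.cast_le.2 h)]

theorem cast_sub_eq_max (a b : ℕ) : ((a - b : ℕ) : ℝ) = max 0 ((a : ℝ) - b) := by
  rcases le_total a b with h | h
  · rw [Nat.sub_eq_zero_of_le h, Nat.cast_zero, max_eq_left (sub_nonpos.2 (Nat.cast_le.2 h))]
  · rw [Nat.cast_sub h, max_eq_right (sub_nonneg.2 (Nat.cast_le.2 h))]

theorem curv_div {m : ℕ} (hm : 3 ≤ m) (x₀ x₁ P₀ N₀ P₁ N₁ : ℕ) :
    (curv m x₀ x₁ P₀ N₀ P₁ N₁ : ℝ) / (unit : ℝ) ^ (m + 1) =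
      ((m : ℝ) - 1) * (val x₁ - val x₀) ^ 2 * max 0 (((m : ℝ) - 2) *
          max (val x₀) (val x₁) ^ (m - 3) +
          m * max 0 (-min (val P₀ - val N₀) (val P₁ - val N₁)) *
            max (val x₀) (val x₁) ^ (m - 2) -
          m * max 0 (min (val P₀ - val N₀) (val P₁ - val N₁)) *
            min (val x₀) (val x₁) ^ (m - 2)) +
        2 * m * |((val P₁ - val N₁) - (val P₀ - val N₀)) * (val x₁ - val x₀)| *
          max (val x₀) (val x₁) ^ (m - 1) := by
  obtain ⟨j, rfl⟩ : ∃ j, m = j + 3 := ⟨m - 3, by omega⟩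
  have hu := unit_pos
  simp only [curv, most_eq, least_eq]
  simp only [Nat.pow_eq, Nat.mul_eq, Nat.add_eq, Nat.sub_eq,
    show (1099511627776 : ℕ) = unit * unit from rfl,
    show j + 3 - 1 = j + 2 by omega, show j + 3 - 2 = j + 1 by omega, show j + 3 - 3 = j by omega]
  -- the two cases of the smaller multiplier
  have hd : ((x₁ - x₀ + (x₀ - x₁) : ℕ) : ℝ) = |(x₁ : ℝ) - x₀| := (abs_eq_sub_add_sub x₁ x₀).symm
  have hl : ((P₁ + N₀ - (P₀ + N₁) + (P₀ + N₁ - (P₁ + N₀)) : ℕ) : ℝ) =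
      |((P₁ : ℝ) - N₁) - (P₀ - N₀)| := by
    rw [← abs_eq_sub_add_sub]
    push_cast
    congr 1
    ring
  set lp := bif Nat.ble (P₀ + N₁) (P₁ + N₀) then P₀ - N₀ else P₁ - N₁
  set ln := bif Nat.ble (P₀ + N₁) (P₁ + N₀) then N₀ - P₀ else N₁ - P₁
  set l := min ((P₀ : ℝ) - N₀) ((P₁ : ℝ) - N₁) with hldef
  have hlp : (lp : ℝ) = max 0 l ∧ (ln : ℝ) = max 0 (-l) := by
    simp only [lp, ln]
    cases h : Nat.ble (P₀ + N₁) (P₁ + N₀) <;> simp only [cond_true, cond_false]
    · have h' : P₁ + N₀ < P₀ + N₁ := Nat.lt_of_not_le fun hle => by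
        simp [Nat.ble_eq_true_of_le hle] at h
      have : (P₁ : ℝ) + N₀ ≤ P₀ + N₁ := by exact_mod_cast h'.le
      rw [hldef, min_eq_right (by linarith), neg_sub]
      exact ⟨cast_sub_eq_max _ _, cast_sub_eq_max _ _⟩
    · have : (P₀ : ℝ) + N₁ ≤ P₁ + N₀ := by exact_mod_cast Nat.le_of_ble_eq_true h
      rw [hldef, min_eq_left (by linarith), neg_sub]
      exact ⟨cast_sub_eq_max _ _, cast_sub_eq_max _ _⟩
  have e0 : ∀ z : ℝ, max 0 (z / (unit : ℝ)) = max 0 z / (unit : ℝ) := fun z => by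
    rw [← max_div_div_right hu.le, zero_div]
  push_cast at hd hl ⊢
  rw [hd, hl, cast_sub_eq_max]
  push_cast
  rw [hlp.1, hlp.2]
  simp only [val, ← sub_div, max_div_div_right hu.le, min_div_div_right hu.le, ← hldef, ← neg_div,
    e0, div_mul_div_comm, abs_div, abs_of_pos (mul_pos hu hu), abs_mul]
  set hi := max (x₀ : ℝ) x₁
  set lo := min (x₀ : ℝ) x₁
  set A := ((j : ℝ) + 3 - 2) * hi ^ j * ((unit : ℝ) * unit) + ((j : ℝ) + 3) * max 0 (-l) * hi ^ (j + 1) -
    ((j : ℝ) + 3) * max 0 l * lo ^ (j + 1) with hA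
  have e : ((j : ℝ) + 3 - 2) * (hi / (unit : ℝ)) ^ j +
      ((j : ℝ) + 3) * (max 0 (-l) / (unit : ℝ)) * (hi / (unit : ℝ)) ^ (j + 1) -
      ((j : ℝ) + 3) * (max 0 l / (unit : ℝ)) * (lo / (unit : ℝ)) ^ (j + 1) =
      A / (unit : ℝ) ^ (j + 2) := by
    rw [hA, div_pow, div_pow, div_pow]
    field_simp
    ring
  rw [e, show max 0 (A / (unit : ℝ) ^ (j + 2)) = max 0 A / (unit : ℝ) ^ (j + 2) by
    rw [← max_div_div_right (pow_nonneg hu.le _), zero_div], div_pow, div_pow,
    ← sq_abs ((x₁ : ℝ) - x₀)]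
  rw [show ((j : ℝ) + 1) = (j : ℝ) + 3 - 2 by ring, ← hA]
  field_simp
  ring

theorem integral_chord {a b : ℝ} (hab : a < b) (A B K : ℝ) :
    (∫ t in a..b, (b - t) / (b - a) * A + (t - a) / (b - a) * B -
      K * ((t - a) / (b - a) * ((b - t) / (b - a)) / 2)) =
      (b - a) * ((A + B) / 2 - K / 12) := by
  have hd := (sub_pos.2 hab).ne'
  rw [intervalIntegral.integral_eq_sub_of_hasDerivAt (f := fun t => A * (t - a) +
      (B - A) * (t - a) ^ 2 / (2 * (b - a)) -
      K / 2 * ((t - a) ^ 2 / (2 * (b - a)) - (t - a) ^ 3 / (3 * (b - a) ^ 2))) (fun t _ => ?_)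
    ((by fun_prop : Continuous _).intervalIntegrable _ _)]
  · field_simp
    ring
  · have h := (hasDerivAt_id' t).sub_const a
    refine (((h.const_mul A).add (((h.pow 2).const_mul (B - A)).div_const _)).sub
      ((((h.pow 2).div_const _).sub ((h.pow 3).div_const _)).const_mul (K / 2))).congr_deriv ?_
    push_cast
    field_simp
    ring

theorem pieces_cons_cons {α : Type} (μ ν : ℕ) (low g : Seg) (gs : List Seg) (a b : Node)
    (l : List Node) (P N : ℕ) (k : ℕ → ℕ → α) :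
    pieces C μ ν low g gs (a :: b :: l) P N k = piece C μ ν low g gs a b fun A B =>
      pieces C μ ν low g gs (b :: l) (P + A) (N + B) k := rfl

/-- A line is above the profile on an interval. -/
def Above (φ : ℝ → ℝ) (g : Seg) (a b : ℕ) : Prop :=
  g.p < g.r ∧ ∀ t ∈ Icc (val a) (val b), φ t / φ 0 ≤ g.at t

/-- A line is below the profile on an interval. -/
def Below (φ : ℝ → ℝ) (g : Seg) (a b : ℕ) : Prop :=
  g.p < g.r ∧ ∀ t ∈ Icc (val a) (val b), g.at t ≤ φ t / φ 0

/-- One piece. -/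
theorem piece_le (hm : 3 ≤ C.m) (hφ : IsShape φ) {μ ν : ℕ} {low g : Seg} {gs : List Seg}
    {a b : Node} (ha : a.ok = true) (hb : b.ok = true) (hab : a.t < b.t)
    (hlow : Below φ low a.t b.t) (hgs : ∀ h ∈ g :: gs, Above φ h a.t b.t)
    {α : Type} (k : ℕ → ℕ → α) :
    ∃ P N : ℕ, piece C μ ν low g gs a b k = k P N ∧
      ((P : ℝ) - N) / (12 * (unit : ℝ) ^ (C.m + 3)) ≤
        ∫ t in val a.t..val b.t, weighed C μ ν φ t := by
  obtain ⟨ha1, haw⟩ := Node.ok_iff ha
  obtain ⟨hb1, hbw⟩ := Node.ok_iff hb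
  simp only [piece]
  generalize hk : (fun y₀ y₁ => endMin C.m (low.down a.t) y₀ _ _ _) = F
  obtain ⟨h, hh, hF⟩ := bestUp_mem a.t b.t F gs g
  obtain ⟨hg, hup⟩ := hgs h hh
  subst hk
  rw [hF]
  simp only
  set x₀ := low.down a.t with hx₀
  set x₁ := low.down b.t with hx₁
  set y₀ := h.up a.t with hy₀
  set y₁ := h.up b.t with hy₁
  set l₀ := multAt C μ ν a with hl₀
  set l₁ := multAt C μ ν b with hl₁
  obtain ⟨A₀, B₀, he, hv₀⟩ := endMin_mem (show 1 ≤ C.m by omega) x₀ y₀ (multPos C μ ν a)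
    (multNeg C ν a) _
  rw [he]
  obtain ⟨A₁, B₁, he', hv₁⟩ := endMin_mem (show 1 ≤ C.m by omega) x₁ y₁ (multPos C μ ν b)
    (multNeg C ν b) _
  rw [he']
  refine ⟨_, _, rfl, ?_⟩
  simp only [most_eq]
  simp only [Nat.mul_eq, Nat.add_eq, Nat.sub_eq]
  set K₀ := curv C.m x₀ x₁ (multPos C μ ν a) (multNeg C ν a) (multPos C μ ν b) (multNeg C ν b)
    with hK₀
  set K₁ := curv C.m y₀ y₁ (multPos C μ ν a) (multNeg C ν a) (multPos C μ ν b) (multNeg C ν b)
    with hK₁
  set K := max K₀ K₁ with hK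
  set A := val a.t with hA
  set B := val b.t with hB
  set e₀ : ℝ := (A₀ : ℝ) - B₀ with he₀
  set e₁ : ℝ := (A₁ : ℝ) - B₁ with he₁
  have hA0 : 0 ≤ A := val_nonneg _
  have hB1 : B < 1 := by simpa [hB, val_unit] using val_lt hb1
  have hAB : A < B := val_lt hab
  set U : ℝ := (unit : ℝ) ^ (C.m + 1) with hU
  have hU0 : 0 < U := pow_pos unit_pos _
  have hd := sub_pos.2 hAB
  have hxA : ∀ t, t ∈ Icc A B → 0 ≤ φ t / φ 0 := fun t ht =>
    (shape_ratio_mem hφ ⟨by linarith [ht.1], by linarith [ht.2]⟩).1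
  have low_end : ∀ z, val z ∈ Icc A B → val (low.down z) ≤ φ (val z) / φ 0 := fun z hz => by
    rcases low.down_le hlow.1 z with e | e
    · rw [e, val_zero]; exact hxA _ hz
    · exact e.trans (hlow.2 _ hz)
  have hlo₀ := low_end a.t (left_mem_Icc.2 hAB.le)
  have hlo₁ := low_end b.t (right_mem_Icc.2 hAB.le)
  have key : ∀ t ∈ Icc A B, (B - t) / (B - A) * (e₀ / U) + (t - A) / (B - A) * (e₁ / U) -
      (K : ℝ) / U * ((t - A) / (B - A) * ((B - t) / (B - A)) / 2) ≤ weighed C μ ν φ t := by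
    intro t ht
    set u := (t - A) / (B - A) with hu
    have hu1 : (B - t) / (B - A) = 1 - u := by rw [hu]; field_simp; ring
    have huI : u ∈ Icc (0 : ℝ) 1 := ⟨div_nonneg (sub_nonneg.2 ht.1) hd.le,
      (div_le_one hd).2 (by linarith [ht.2])⟩
    rw [hu1]
    have hu0 := huI.1
    have hv0 : (0 : ℝ) ≤ 1 - u := sub_nonneg.2 huI.2
    have et : t = A + u * (B - A) := by rw [hu]; field_simp; ring
    have hlt : val x₀ + u * (val x₁ - val x₀) ≤ φ t / φ 0 := by
      refine le_trans (le_of_eq ?_) (line_le_shape hφ (by linarith) hAB hB1.le ht hlo₀ hlo₁)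
      rw [hu]; field_simp; ring
    have hut : φ t / φ 0 ≤ val y₀ + u * (val y₁ - val y₀) := by
      refine (hup t ht).trans ?_
      have e : h.at t = (1 - u) * h.at A + u * h.at B := by
        rw [et]; simp only [Seg.at, lineThrough]; ring
      rw [e]
      have p0 := mul_le_mul_of_nonneg_left
        (h.le_up hg a.t) hv0
      have p1 := mul_le_mul_of_nonneg_left
        (h.le_up hg b.t) hu0
      simp only [← hy₀, ← hy₁, ← hA, ← hB] at p0 p1
      linarith
    have hmt : val μ + val ν * (1 / ballShape t - val C.c) ≤ l₀ + u * (l₁ - l₀) := by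
      have h1 := inv_ball_chord hA0 hAB hB1 ht
      rw [← hu, hu1] at h1
      have h2 := mul_le_mul_of_nonneg_left (h1.trans (add_le_add
        (mul_le_mul_of_nonneg_left haw hv0) (mul_le_mul_of_nonneg_left hbw hu0))) (val_nonneg ν)
      have m0 := mul_le_mul_of_nonneg_left (mult_le (C := C) (μ := μ) (ν := ν) a) hv0
      have m1 := mul_le_mul_of_nonneg_left (mult_le (C := C) (μ := μ) (ν := ν) b) hu0
      simp only [← hl₀, ← hl₁] at m0 m1
      linarith
    have hxt := hxA t ht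
    have hX0 : 0 ≤ val x₀ + u * (val x₁ - val x₀) := by
      nlinarith [mul_nonneg hv0 (val_nonneg x₀), mul_nonneg hu0 (val_nonneg x₁)]
    set L := l₀ + u * (l₁ - l₀) with hL
    have hm' : C.m - 1 + 1 = C.m := by omega
    have hmin := min_le_tubFun' (C.m - 1) (μ := L) hX0 hlt hut
    simp only [tubFun, one_mul, hm'] at hmin
    refine le_trans ?_ ((hmin.trans ?_))
    · have c1 := chord_le_weighed hm (l₀ := l₀) (l₁ := l₁) (val_nonneg x₀) (val_nonneg x₁) huI
      have c2 := chord_le_weighed hm (l₀ := l₀) (l₁ := l₁) (val_nonneg y₀) (val_nonneg y₁) huI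
      simp only [hl₀, hl₁, multAt] at c1 c2
      rw [← curv_div hm] at c1 c2
      simp only [← hK₀, ← hK₁, ← hU] at c1 c2
      have hq : 0 ≤ u * (1 - u) / 2 := by positivity
      have k1 : (K₀ : ℝ) / U ≤ (K : ℝ) / U :=
        div_le_div_of_nonneg_right (Nat.cast_le.2 (le_max_left _ _)) hU0.le
      have k2 : (K₁ : ℝ) / U ≤ (K : ℝ) / U :=
        div_le_div_of_nonneg_right (Nat.cast_le.2 (le_max_right _ _)) hU0.le
      have k1' := mul_le_mul_of_nonneg_right k1 hq
      have k2' := mul_le_mul_of_nonneg_right k2 hq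
      have a0 := mul_le_mul_of_nonneg_left (hv₀.le.trans (min_le_left _ _)) hv0
      have b0 := mul_le_mul_of_nonneg_left (hv₀.le.trans (min_le_right _ _)) hv0
      have a1 := mul_le_mul_of_nonneg_left (hv₁.le.trans (min_le_left _ _)) hu0
      have b1 := mul_le_mul_of_nonneg_left (hv₁.le.trans (min_le_right _ _)) hu0
      simp only [hL, hl₀, hl₁, multAt]
      exact le_min (by linarith) (by linarith)
    · have := mul_le_mul_of_nonneg_right hmt (pow_nonneg hxt C.m)
      simp only [weighed]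
      linarith
  have hmono := intervalIntegral.integral_mono_on hAB.le
    ((by fun_prop : Continuous _).intervalIntegrable _ _)
    ((intervalIntegrable_weighed hφ μ ν).mono_set (by
      rw [uIcc_of_le hAB.le, uIcc_of_le zero_le_one]; exact Icc_subset_Icc hA0 hB1.le)) key
  rw [integral_chord hAB] at hmono
  refine le_trans (le_of_eq ?_) hmono
  simp only [he₀, he₁, hA, hB, val, hU, unit_lit]
  have hu := unit_pos.ne'
  push_cast [Nat.cast_sub hab.le]
  field_simp
  ring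

theorem runsTo_le : ∀ {l : List Node} {a b : ℕ}, runsTo l a b = true → a ≤ b ∧ b < unit
  | [], a, b, h => by simp [runsTo] at h
  | [n], a, b, h => by
      simp only [runsTo, Bool.and_eq_true, decide_eq_true_eq] at h
      obtain ⟨h1, -⟩ := Node.ok_iff h.2
      omega
  | n :: k :: l, a, b, h => by
      simp only [runsTo, Bool.and_eq_true, decide_eq_true_eq] at h
      obtain ⟨h2, h3⟩ := runsTo_le h.2
      omega

theorem runsTo_head {k : Node} : ∀ {l : List Node} {a b : ℕ},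
    runsTo (k :: l) a b = true → k.t = a ∧ k.ok = true
  | [], a, b, h => by
      simp only [runsTo, Bool.and_eq_true, decide_eq_true_eq] at h
      exact ⟨h.1.1, h.2⟩
  | _ :: _, a, b, h => by
      simp only [runsTo, Bool.and_eq_true, decide_eq_true_eq] at h
      exact ⟨h.1.1.1, h.1.2⟩

/-- The pieces of one zone. -/
theorem pieces_le (hm : 3 ≤ C.m) (hφ : IsShape φ) {μ ν : ℕ} {low g : Seg} {gs : List Seg}
    {α : Type} : ∀ {l : List Node} {a b : ℕ}, runsTo l a b = true →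
      Below φ low a b → (∀ h ∈ g :: gs, Above φ h a b) → ∀ (P N : ℕ) (k : ℕ → ℕ → α),
      ∃ P' N' : ℕ, pieces C μ ν low g gs l P N k = k P' N' ∧
        (((P' : ℝ) - N') - ((P : ℝ) - N)) / (12 * (unit : ℝ) ^ (C.m + 3)) ≤
          ∫ t in val a..val b, weighed C μ ν φ t
  | [], a, b, h, _, _, _, _, _ => by simp [runsTo] at h
  | [n], a, b, h, _, _, P, N, k => by
      simp only [runsTo, Bool.and_eq_true, decide_eq_true_eq] at h
      exact ⟨P, N, rfl, by simp [h.1.2]⟩
  | n :: c :: l, a, b, h, hlow, hgs, P, N, k => by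
      simp only [runsTo, Bool.and_eq_true, decide_eq_true_eq] at h
      obtain ⟨⟨⟨rfl, hnk⟩, hn⟩, hrest⟩ := h
      obtain ⟨-, hk⟩ := runsTo_head hrest
      obtain ⟨hkb, hb1⟩ := runsTo_le hrest
      have hsub1 : Icc (val n.t) (val c.t) ⊆ Icc (val n.t) (val b) :=
        Icc_subset_Icc le_rfl (val_le hkb)
      have hsub2 : Icc (val c.t) (val b) ⊆ Icc (val n.t) (val b) :=
        Icc_subset_Icc (val_le hnk.le) le_rfl
      obtain ⟨A, B, e, h1⟩ := piece_le (α := α) hm hφ (μ := μ) (ν := ν) hn hk hnk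
        ⟨hlow.1, fun t ht => hlow.2 t (hsub1 ht)⟩
        (fun q hq => ⟨(hgs q hq).1, fun t ht => (hgs q hq).2 t (hsub1 ht)⟩)
        (fun A B => pieces C μ ν low g gs (c :: l) (P + A) (N + B) k)
      obtain ⟨P', N', e', h2⟩ := pieces_le hm hφ (μ := μ) (ν := ν) hrest
        ⟨hlow.1, fun t ht => hlow.2 t (hsub2 ht)⟩
        (fun q hq => ⟨(hgs q hq).1, fun t ht => (hgs q hq).2 t (hsub2 ht)⟩) (P + A) (N + B) k
      refine ⟨P', N', ?_, ?_⟩
      · rw [pieces_cons_cons]
        exact e.trans e'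
      have hi : ∀ {x y : ℕ}, x ≤ y → y ≤ unit →
          IntervalIntegrable (weighed C μ ν φ) volume (val x) (val y) := fun hxy hy =>
        (intervalIntegrable_weighed hφ μ ν).mono_set (by
          rw [uIcc_of_le (val_le hxy), uIcc_of_le zero_le_one]
          exact Icc_subset_Icc (val_nonneg _) (val_unit ▸ val_le hy))
      rw [← intervalIntegral.integral_add_adjacent_intervals (hi hnk.le (by omega))
        (hi hkb hb1.le)]
      refine le_trans (le_of_eq ?_) (add_le_add h1 h2)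
      push_cast
      ring

/-- The tail. -/
theorem tail_le (hφ : IsShape φ) {μ ν : ℕ} {g : Seg} {gs : List Seg} {te : ℕ} (he : C.last = te)
    (hte1 : te < unit) (hI1 : C.I ≤ unit)
    (hcos : 96 * unit ^ 4 + 5 * C.I ^ 4 ≤ 96 * unit ^ 3 * te + 48 * C.I ^ 2 * unit ^ 2)
    (hgs : ∀ h ∈ g :: gs, Above φ h te unit) {α : Type} (k : ℕ → α) :
    ∃ T : ℕ, tailPiece C μ ν g gs k = k T ∧
      -(T : ℝ) / (12 * (unit : ℝ) ^ (C.m + 3)) ≤ ∫ t in val te..1, weighed C μ ν φ t := by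
  simp only [tailPiece, force_eq, he]
  generalize hF : (fun y₀ y₁ => k _) = F
  obtain ⟨h, hh, e⟩ := bestUp_mem te unit F gs g
  obtain ⟨hg, hup⟩ := hgs h hh
  subst hF
  rw [e]
  refine ⟨_, rfl, ?_⟩
  simp only [most_eq]
  set H := max (h.up te) (h.up unit) with hH
  set P := μ * unit - ν * C.c with hP
  have hu := unit_pos
  have ht0 : 0 ≤ val te := val_nonneg te
  have ht1 : val te < 1 := val_unit ▸ val_lt hte1
  rw [val_unit] at hup
  set P' : ℝ := (P : ℝ) / (unit : ℝ) ^ 2 with hP'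
  have hP0 : 0 ≤ P' := by positivity
  have hPle : val μ - val ν * val C.c ≤ P' := by
    rw [hP', le_div_iff₀ (pow_pos hu 2), hP, cast_sub_eq_max]
    refine le_trans (le_of_eq ?_) (le_max_right 0 _)
    simp only [val]; push_cast; field_simp
  have hint : IntervalIntegrable (fun t => 1 / ballShape t) volume (val te) 1 := by
    have := intervalIntegrable_inv_ball_mul (f := fun _ => (1 : ℝ)) continuous_const
    simp only [mul_one] at this
    exact this.mono_set (by
      rw [uIcc_of_le ht1.le, uIcc_of_le zero_le_one]; exact Icc_subset_Icc ht0 le_rfl)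
  have hI' : (∫ t in val te..1, 1 / ballShape t) ≤ val C.I := by
    rw [intervalIntegral.integral_eq_sub_of_hasDerivAt_of_le ht1.le
      Real.continuous_arcsin.continuousOn (fun x hx => ?_) hint, Real.arcsin_one,
      ← Real.arccos_eq_pi_div_two_sub_arcsin]
    · have hI0 : 0 ≤ val C.I := val_nonneg _
      have hI1' : val C.I ≤ 1 := val_unit ▸ val_le hI1
      have hb := (abs_le.1 (Real.cos_bound (abs_le.2 ⟨by linarith, hI1'⟩))).2
      rw [pow_abs, abs_of_nonneg (pow_nonneg hI0 4)] at hb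
      have hc : (96 : ℝ) * (unit : ℝ) ^ 4 + 5 * (C.I : ℝ) ^ 4 ≤
          96 * (unit : ℝ) ^ 3 * te + 48 * (C.I : ℝ) ^ 2 * (unit : ℝ) ^ 2 := by exact_mod_cast hcos
      have hcos' : Real.cos (val C.I) ≤ val te := by
        refine (show Real.cos (val C.I) ≤ 1 - val C.I ^ 2 / 2 + val C.I ^ 4 * (5 / 96) by
          linarith).trans ?_
        simp only [val]
        field_simp
        linarith
      have h2 := Real.arccos_le_arccos hcos'
      rwa [Real.arccos_cos hI0 (by linarith [Real.two_le_pi])] at h2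
    · exact Real.hasDerivAt_arcsin (by linarith [hx.1]) hx.2.ne
  have hmono := intervalIntegral.integral_mono_on_of_le_Ioo ht1.le
    (((intervalIntegrable_const (c := P')).add (hint.const_mul (val ν))).const_mul
      (-(val H ^ C.m)))
    ((intervalIntegrable_weighed (C := C) hφ μ ν).mono_set (by
      rw [uIcc_of_le ht1.le, uIcc_of_le zero_le_one]; exact Icc_subset_Icc ht0 le_rfl))
    fun t ht => ?_
  · refine le_trans ?_ hmono
    rw [intervalIntegral.integral_const_mul, intervalIntegral.integral_add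
      intervalIntegrable_const (hint.const_mul (val ν)), intervalIntegral.integral_const_mul,
      intervalIntegral.integral_const, smul_eq_mul, neg_mul]
    have h1 := mul_le_mul_of_nonneg_left hI' (val_nonneg ν)
    refine le_trans (le_of_eq ?_) (neg_le_neg (mul_le_mul_of_nonneg_left
      (add_le_add le_rfl h1) (pow_nonneg (val_nonneg H) _)))
    simp only [val, hP', div_pow]
    rw [Nat.cast_mul, Nat.cast_mul, Nat.cast_add, Nat.cast_mul, Nat.cast_sub hte1.le]
    push_cast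
    field_simp
    ring
  · set u := (t - val te) / (1 - val te)
    have hx0 := (shape_ratio_mem hφ ⟨by linarith [ht.1], ht.2.le⟩).1
    have hxH : φ t / φ 0 ≤ val H := by
      refine (hup t ⟨ht.1.le, ht.2.le⟩).trans ?_
      have hd := sub_pos.2 ht1
      have hu0 : 0 ≤ u := div_nonneg (by linarith [ht.1]) hd.le
      have hu1 : u ≤ 1 := (div_le_one hd).2 (by linarith [ht.2])
      have e : h.at t = (1 - u) * h.at (val te) + u * h.at 1 := by
        have et : t = val te + u * (1 - val te) := by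
          simp only [u]; field_simp; ring
        rw [et]; simp only [Seg.at, lineThrough]; ring
      rw [e]
      have p0 := mul_le_mul_of_nonneg_left ((h.le_up hg te).trans
        (val_le (le_max_left _ (h.up unit)))) (sub_nonneg.2 hu1)
      have p1 := mul_le_mul_of_nonneg_left ((h.le_up hg unit).trans
        (val_le (le_max_right (h.up te) _))) hu0
      rw [val_unit] at p1
      simp only [← hH] at p0 p1
      linarith
    have hp : 0 < 1 / ballShape t := one_div_pos.2 (ball_pos ⟨by linarith [ht.1], ht.2⟩)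
    have hL : val μ + val ν * (1 / ballShape t - val C.c) ≤ P' + val ν * (1 / ballShape t) := by
      linarith
    have hL0 : 0 ≤ P' + val ν * (1 / ballShape t) :=
      add_nonneg hP0 (mul_nonneg (val_nonneg ν) hp.le)
    have q1 := mul_le_mul_of_nonneg_right hL (pow_nonneg hx0 C.m)
    have q2 := mul_le_mul_of_nonneg_left (pow_le_pow_left₀ hx0 hxH C.m) hL0
    have q3 := pow_nonneg hx0 (C.m - 1)
    simp only [weighed]
    linarith

/-- The box is refuted. -/
theorem box_sound (hwf : C.wf = true) (hφ : IsShape φ) (hx : powRatio C.m φ ≤ 1)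
    (hc : val C.c * mass C.m φ 1 ≤ ∫ t in (0 : ℝ)..1, φ t ^ C.m / ballShape t)
    (hκ : ballRatio C.m ^ C.m * mass C.m ballShape 1 ≤ val C.κ)
    {μ ν a₀ a₁ b₀ b₁ : ℕ} (hok : boxOk C μ ν a₀ a₁ b₀ b₁ = true)
    (hs : φ (val C.s) / φ 0 ∈ Icc (val a₀) (val a₁))
    (hq : φ (val C.q) / φ 0 ∈ Icc (val b₀) (val b₁)) : False := by
  simp only [Cert.wf, Bool.and_eq_true, decide_eq_true_eq] at hwf
  obtain ⟨⟨⟨⟨hm, hs0, hsq, hq1, hI1, hcos⟩, hz0⟩, hz1⟩, hz2⟩ := hwf
  set te := C.last with hte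
  obtain ⟨hqte, hte1⟩ := runsTo_le hz2
  have hS0 : 0 < val C.s := val_zero ▸ val_lt hs0
  have hSQ : val C.s < val C.q := val_lt hsq
  have hQ1 : val C.q < 1 := val_unit ▸ val_lt hq1
  have hqte' : val C.q ≤ val te := val_le hqte
  have one : ∀ t ∈ Icc (0 : ℝ) 1, φ t / φ 0 ∈ Icc (0 : ℝ) 1 := fun t ht =>
    shape_ratio_mem hφ ⟨by linarith [ht.1], ht.2⟩
  have h00 : φ 0 / φ 0 = 1 := div_self hφ.centre.ne'
  have h11 := one 1 (by norm_num)
  have hflat : ∀ {a b : ℕ}, b ≤ unit → Above φ flat a b := fun hb =>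
    ⟨by decide, fun t ht => by
      refine (one t ⟨(val_nonneg _).trans ht.1, ht.2.trans (val_unit ▸ val_le hb)⟩).2.trans
        (le_of_eq ?_)
      simp only [Seg.at, flat, lineThrough, val_zero, val_unit]
      ring⟩
  have hleft : ∀ {p r x y a b : ℕ}, b ≤ p → p < r → r ≤ unit →
      φ (val p) / φ 0 ≤ val x → val y ≤ φ (val r) / φ 0 → Above φ ⟨p, x, r, y⟩ a b :=
    fun {p r x y a b} hbp hpr hr hx hy => ⟨hpr, fun t ht => by
      refine (shape_le_line_left hφ (by linarith [val_nonneg a, ht.1]) (ht.2.trans (val_le hbp))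
        (val_lt hpr) (val_unit ▸ val_le hr) hx hy).trans_eq ?_
      simp only [Seg.at, lineThrough]
      ring⟩
  have hright : ∀ {p r x y a b : ℕ}, p < r → r ≤ a → b ≤ unit →
      val x ≤ φ (val p) / φ 0 → φ (val r) / φ 0 ≤ val y → Above φ ⟨p, x, r, y⟩ a b :=
    fun {p r x y a b} hpr hra hb hx hy => ⟨hpr, fun t ht => by
      refine (shape_le_line_right hφ (by linarith [val_nonneg p]) (val_lt hpr)
        ((val_le hra).trans ht.1) (ht.2.trans (val_unit ▸ val_le hb)) hx hy).trans_eq ?_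
      simp only [Seg.at, lineThrough]
      ring⟩
  have hbelow : ∀ {p r x y a b : ℕ}, p < r → r ≤ unit → p ≤ a → b ≤ r →
      val x ≤ φ (val p) / φ 0 → val y ≤ φ (val r) / φ 0 → Below φ ⟨p, x, r, y⟩ a b :=
    fun {p r x y a b} hpr hr hpa hbr hx hy => ⟨hpr, fun t ht =>
      line_le_shape hφ (by linarith [val_nonneg p]) (val_lt hpr) (val_unit ▸ val_le hr)
        ⟨(val_le hpa).trans ht.1, ht.2.trans (val_le hbr)⟩ hx hy⟩
  have hu1 : φ (val 0) / φ 0 ≤ val unit ∧ val unit ≤ φ (val 0) / φ 0 := by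
    rw [val_zero, val_unit, h00]; exact ⟨le_rfl, le_rfl⟩
  have hz : val 0 ≤ φ (val unit) / φ 0 := by rw [val_zero, val_unit]; exact h11.1
  have hr : ∀ {a b : ℕ}, C.q ≤ a → b ≤ unit →
      ∀ h ∈ flat :: rightLines C a₀ a₁ b₁, Above φ h a b := by
    intro a b ha hb
    simp only [rightLines, List.forall_mem_cons, List.not_mem_nil, IsEmpty.forall_iff,
      implies_true, and_true]
    exact ⟨hflat hb, hright hsq ha hb hs.1 hq.2,
      hright hs0 (by omega) hb hu1.2 hs.2, hright (by omega) ha hb hu1.2 hq.2⟩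
  simp only [boxOk, total] at hok
  obtain ⟨P₀, N₀, r₀, e0⟩ := pieces_le (α := Bool) hm hφ (μ := μ) (ν := ν)
    (low := ⟨0, unit, C.s, a₀⟩) (g := flat) (gs := [⟨C.s, a₁, C.q, b₀⟩, ⟨C.s, a₁, unit, 0⟩]) hz0
    (hbelow hs0 (by omega) le_rfl le_rfl hu1.2 hs.1) (by
      simp only [List.forall_mem_cons, List.not_mem_nil, IsEmpty.forall_iff, implies_true,
        and_true]
      exact ⟨hflat (by omega), hleft le_rfl hsq hq1.le hs.2 hq.1,
        hleft le_rfl (by omega) le_rfl hs.2 hz⟩) 0 0 _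
  rw [r₀] at hok
  obtain ⟨P₁, N₁, r₁, e1⟩ := pieces_le (α := Bool) hm hφ (μ := μ) (ν := ν)
    (low := ⟨C.s, a₀, C.q, b₀⟩) (g := flat) (gs := [⟨0, unit, C.s, a₁⟩, ⟨C.q, b₁, unit, 0⟩]) hz1
    (hbelow hsq hq1.le le_rfl le_rfl hs.1 hq.1) (by
      simp only [List.forall_mem_cons, List.not_mem_nil, IsEmpty.forall_iff, implies_true,
        and_true]
      exact ⟨hflat hq1.le, hright hs0 le_rfl hq1.le hu1.2 hs.2,
        hleft le_rfl hq1 le_rfl hq.2 hz⟩) P₀ N₀ _
  rw [r₁] at hok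
  obtain ⟨P₂, N₂, r₂, e2⟩ := pieces_le (α := Bool) hm hφ (μ := μ) (ν := ν)
    (low := ⟨C.q, b₀, unit, 0⟩) (g := flat) (gs := rightLines C a₀ a₁ b₁) hz2
    (hbelow hq1 le_rfl le_rfl hte1.le hq.1 hz) (hr le_rfl hte1.le) P₁ N₁ _
  rw [r₂] at hok
  obtain ⟨T₃, r₃, e3⟩ := tail_le (α := Bool) (μ := μ) (ν := ν) hφ (g := flat)
    (gs := rightLines C a₀ a₁ b₁) hte.symm hte1 hI1 hcos (hr hqte le_rfl) _
  rw [r₃] at hok
  have hlt := Nat.le_of_ble_eq_true hok
  have hsub : ∀ {x y : ℝ}, 0 ≤ x → x ≤ y → y ≤ 1 →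
      IntervalIntegrable (weighed C μ ν φ) volume x y := fun hx hxy hy =>
    (intervalIntegrable_weighed hφ μ ν).mono_set (by
      rw [uIcc_of_le hxy, uIcc_of_le zero_le_one]; exact Icc_subset_Icc hx hy)
  rw [val_zero] at e0
  have hte' : val te ≤ 1 := val_unit ▸ val_le hte1.le
  set T : ℝ := (P₂ : ℝ) - ((N₂ + T₃ : ℕ) : ℝ) with hT
  have hsum : T / (12 * (unit : ℝ) ^ (C.m + 3)) ≤ ∫ t in (0 : ℝ)..1, weighed C μ ν φ t := by
    rw [← intervalIntegral.integral_add_adjacent_intervals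
        (hsub le_rfl (hS0.le.trans (hSQ.le.trans hqte')) hte')
        (hsub (by linarith) hte' le_rfl),
      ← intervalIntegral.integral_add_adjacent_intervals (hsub le_rfl (by linarith) hQ1.le)
        (hsub (by linarith) hqte' hte'),
      ← intervalIntegral.integral_add_adjacent_intervals (hsub le_rfl hS0.le (by linarith))
        (hsub hS0.le hSQ.le hQ1.le)]
    rw [hT]
    simp only [Nat.cast_add, Nat.cast_zero, sub_zero, sub_div, add_div, neg_div] at e0 e1 e2 e3 ⊢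
    linarith
  have hκ' : 0 ≤ val C.κ := le_trans (mul_nonneg (pow_nonneg (ballRatio_pos _).le _)
    (ball_mass_pos _).le) hκ
  have hm1 : (0 : ℝ) ≤ (C.m : ℝ) - 1 := by
    have : (3 : ℝ) ≤ C.m := by exact_mod_cast hm
    linarith
  have hlt' : ((C.m : ℝ) - 1) ^ (C.m - 1) * (C.κ : ℝ) * 12 * (unit : ℝ) ^ (2 * C.m + 1) <
      T * (μ : ℝ) ^ (C.m - 1) * (C.m : ℝ) ^ C.m := by
    have h := (Nat.cast_le (α := ℝ)).2 hlt
    push_cast [Nat.cast_sub (show 1 ≤ C.m by omega)] at h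
    rw [hT, Nat.cast_add]
    linarith
  have hu := unit_pos
  have hκ0 : (0 : ℝ) ≤ C.κ := by
    have := mul_nonneg hκ' hu.le
    rwa [val, div_mul_cancel₀ _ hu.ne'] at this
  have hT0 : (0 : ℝ) ≤ T := by
    by_contra hneg
    have h1 : T * (μ : ℝ) ^ (C.m - 1) * (C.m : ℝ) ^ C.m ≤ 0 :=
      mul_nonpos_of_nonpos_of_nonneg (mul_nonpos_of_nonpos_of_nonneg (not_le.1 hneg).le
        (by positivity)) (by positivity)
    have h2 : (0 : ℝ) ≤ ((C.m : ℝ) - 1) ^ (C.m - 1) * (C.κ : ℝ) * 12 *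
        (unit : ℝ) ^ (2 * C.m + 1) := by positivity
    linarith
  have hw : IntervalIntegrable (fun t => 1 / ballShape t * φ t ^ C.m) volume 0 1 :=
    IntervalIntegrable.congr (fun t _ => by ring) (intervalIntegrable_pow_div hφ C.m)
  have eint : ∀ t, min (tubFun (C.m - 1) 1 (val μ + val ν * (1 / ballShape t - val C.c))
        (φ t / φ 0)) (tubFun (C.m - 1) 1 (val μ + val ν * (1 / ballShape t - val C.c))
        (φ t / φ 0)) = weighed C μ ν φ t := fun t => by
    rw [min_self, tubFun, one_mul, show C.m - 1 + 1 = C.m by omega, weighed]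
  have hscal := window_moment_scalar (by omega) hφ hx (a := fun t => φ t / φ 0)
    (b := fun t => φ t / φ 0) (w := fun t => 1 / ballShape t) (μ := val μ) (ν := val ν)
    (c := val C.c) (K := T / (12 * (unit : ℝ) ^ (C.m + 3))) (val_nonneg μ) (val_nonneg ν)
    (by positivity) (fun t ht => ⟨(one t (Ioo_subset_Icc_self ht)).1, le_rfl⟩) (fun _ _ => le_rfl)
    hw (hc.trans (le_of_eq (intervalIntegral.integral_congr fun t _ => by ring)))
    (by simp only [eint]; exact intervalIntegrable_weighed hφ μ ν)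
    (by simp only [eint]; exact hsum)
  have hscal' := hscal.trans (mul_le_mul_of_nonneg_left hκ (by positivity))
  obtain ⟨k, hk⟩ : ∃ k, C.m = k + 1 := ⟨C.m - 1, by omega⟩
  simp only [hk, Nat.add_sub_cancel, val, div_pow] at hscal' hlt'
  push_cast at hscal' hlt'
  rw [add_sub_cancel_right] at hlt'
  field_simp at hscal'
  ring_nf at hscal' hlt'
  have := mul_lt_mul_of_pos_right hlt' hu
  linarith

/-- A checked tree leaves no profile in its rectangle. -/
theorem Tree.sound (hwf : C.wf = true) (hφ : IsShape φ) (hx : powRatio C.m φ ≤ 1)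
    (hc : val C.c * mass C.m φ 1 ≤ ∫ t in (0 : ℝ)..1, φ t ^ C.m / ballShape t)
    (hκ : ballRatio C.m ^ C.m * mass C.m ballShape 1 ≤ val C.κ) :
    ∀ (T : Tree) (a₀ a₁ b₀ b₁ : ℕ), T.check C a₀ a₁ b₀ b₁ = true →
      φ (val C.s) / φ 0 ∈ Icc (val a₀) (val a₁) →
      φ (val C.q) / φ 0 ∈ Icc (val b₀) (val b₁) → False := by
  have hwf' := hwf
  simp only [Cert.wf, Bool.and_eq_true, decide_eq_true_eq] at hwf'
  obtain ⟨⟨⟨⟨hm, hs0, hsq, hq1, -⟩, -⟩, -⟩, -⟩ := hwf'
  have hfq : 0 ≤ φ (val C.q) / φ 0 :=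
    (shape_ratio_mem hφ ⟨by linarith [val_nonneg C.q], val_unit ▸ val_le hq1.le⟩).1
  have hlo : ∀ {a b : ℕ}, val a ≤ φ (val C.s) / φ 0 → val b ≤ φ (val C.q) / φ 0 →
      val (lowAt C a b) ≤ φ (val C.q) / φ 0 := fun {a b} ha hb => by
    rw [lowAt, most_eq]
    rcases max_choice b (Seg.down ⟨C.s, a, unit, 0⟩ C.q) with e | e <;> rw [e]
    · exact hb
    rcases Seg.down_le ⟨C.s, a, unit, 0⟩ (show C.s < unit from hsq.trans hq1) C.q with e' | e'
    · rw [e', val_zero]
      exact hfq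
    · refine e'.trans ?_
      exact line_le_shape hφ (by linarith [val_nonneg C.s]) (val_lt (hsq.trans hq1))
        (le_of_eq val_unit) ⟨(val_le hsq.le), val_le hq1.le⟩ ha
        (by rw [val_zero, val_unit]; exact (shape_ratio_mem hφ (by norm_num)).1)
  have hline : ∀ {a : ℕ}, φ (val C.s) / φ 0 ≤ val a →
      φ (val C.q) / φ 0 ≤ (Seg.mk 0 unit C.s a).at (val C.q) := fun {a} ha => by
    refine (shape_le_line_right hφ (by norm_num [val_zero]) (val_lt hs0) (val_le hsq.le)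
      (val_unit ▸ val_le hq1.le) (x := val unit)
      (by rw [val_zero, val_unit, div_self hφ.centre.ne']) ha).trans_eq ?_
    simp only [Seg.at, lineThrough]
    ring
  have hhi : ∀ {a b : ℕ}, φ (val C.s) / φ 0 ≤ val a → φ (val C.q) / φ 0 ≤ val b →
      φ (val C.q) / φ 0 ≤ val (highAt C a b) := fun {a b} ha hb => by
    rw [highAt, least_eq]
    rcases min_choice b (Seg.up ⟨0, unit, C.s, a⟩ C.q) with e | e <;> rw [e]
    · exact hb
    · exact (hline ha).trans (Seg.le_up ⟨0, unit, C.s, a⟩ (show 0 < C.s from hs0) _)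
  intro T
  induction T with
  | out =>
    intro a₀ a₁ b₀ b₁ h hs hq
    simp only [Tree.check, Bool.or_eq_true] at h
    rcases h with h | h
    · linarith [val_lt (Nat.le_of_ble_eq_true h), hlo hs.1 hq.1, hhi hs.2 hq.2]
    · have h1 := (hline hs.2)
      have h2 : (C.q : ℝ) * a₁ + 1 ≤ ((C.q : ℝ) - C.s) * unit := by
        have h3 : C.q * a₁ + 1 ≤ (C.q - C.s) * unit := Nat.le_of_ble_eq_true h
        have := (Nat.cast_le (α := ℝ)).2 h3
        push_cast [Nat.cast_sub hsq.le] at this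
        exact this
      have h4 : (Seg.mk 0 unit C.s a₁).at (val C.q) < 0 := by
        simp only [Seg.at, lineThrough, val_zero, val_unit, sub_zero]
        refine div_neg_of_neg_of_pos ?_ (val_zero ▸ val_lt hs0)
        simp only [val]
        have hu := unit_pos
        field_simp
        linarith
      linarith
  | box μ ν =>
    intro a₀ a₁ b₀ b₁ h hs hq
    simp only [Tree.check, force_eq] at h
    exact box_sound hwf hφ hx hc hκ h hs ⟨hlo hs.1 hq.1, hhi hs.2 hq.2⟩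
  | cut₁ l r ihl ihr =>
    intro a₀ a₁ b₀ b₁ h hs hq
    simp only [Tree.check, force_eq, Bool.and_eq_true] at h
    rcases le_total (φ (val C.s) / φ 0) (val (Nat.div (Nat.add a₀ a₁) 2)) with e | e
    · exact ihl _ _ _ _ h.1 ⟨hs.1, e⟩ hq
    · exact ihr _ _ _ _ h.2 ⟨e, hs.2⟩ hq
  | cut₂ l r ihl ihr =>
    intro a₀ a₁ b₀ b₁ h hs hq
    simp only [Tree.check, force_eq, Bool.and_eq_true] at h
    rcases le_total (φ (val C.q) / φ 0) (val (Nat.div (Nat.add b₀ b₁) 2)) with e | e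
    · exact ihl _ _ _ _ h.1 hs ⟨hq.1, e⟩
    · exact ihr _ _ _ _ h.2 hs ⟨e, hq.2⟩

/-- A certificate bounds the moment. -/
theorem moment_lt (hφ : IsShape φ) (hx : powRatio C.m φ ≤ 1) (hwf : C.wf = true)
    (hκ : ballRatio C.m ^ C.m * mass C.m ballShape 1 ≤ val C.κ) {T : Tree}
    (hT : T.check C 0 unit 0 unit = true) :
    (∫ t in (0 : ℝ)..1, φ t ^ C.m / ballShape t) < val C.c * mass C.m φ 1 := by
  by_contra h
  have hwf' := hwf
  simp only [Cert.wf, Bool.and_eq_true, decide_eq_true_eq] at hwf'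
  obtain ⟨⟨⟨⟨-, hs0, hsq, hq1, -⟩, -⟩, -⟩, -⟩ := hwf'
  have hI : ∀ {z : ℕ}, z ≤ unit → φ (val z) / φ 0 ∈ Icc (val 0) (val unit) := fun {z} h1 => by
    rw [val_zero, val_unit]
    exact shape_ratio_mem hφ ⟨by linarith [val_nonneg z], val_unit ▸ val_le h1⟩
  exact Tree.sound hwf hφ hx (not_lt.1 h) hκ T 0 unit 0 unit hT (hI (by omega)) (hI hq1.le)

end Vale.Agent.P237.Quant.WindowCert
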