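import Mathlib
import Vale.Agent.P237.Quant.WindowSound

/-!
Rational bounds of the two constants of the ball that a window certificate uses.
-/

namespace Vale.Agent.P237.Quant.WindowCert

open MeasureTheory Set Real

theorem ballDen_pos : ∀ k, 0 < ballDen k
  | 0 => by simp [ballDen]
  | 1 => by simp [ballDen]
  | k + 2 => by have := ballDen_pos k; simp only [ballDen]; positivity

theorem mass_ball_one : mass 1 ballShape 1 = π / 4 := by
  have hi : ∀ a b : ℝ, IntervalIntegrable (fun x : ℝ => √(1 - x ^ 2)) volume a b := fun a b =>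
    (by fun_prop : Continuous fun x : ℝ => √(1 - x ^ 2)).intervalIntegrable a b
  have hneg : (∫ x in (-1 : ℝ)..0, √(1 - x ^ 2)) = ∫ x in (0 : ℝ)..1, √(1 - x ^ 2) := by
    have := intervalIntegral.integral_comp_neg (fun x : ℝ => √(1 - x ^ 2)) (a := (0 : ℝ)) (b := 1)
    simpa using this.symm
  have hadd := intervalIntegral.integral_add_adjacent_intervals (hi (-1) 0) (hi 0 1)
  rw [hneg, integral_sqrt_one_sub_sq] at hadd
  simp only [mass, pow_one, ballShape]
  linarith

theorem mass_ball_eq : ∀ k, mass k ballShape 1 =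
    (ballNum k : ℝ) / ballDen k * (if k % 2 = 0 then 1 else π)
  | 0 => by simp [mass, ballNum, ballDen]
  | 1 => by simp [mass_ball_one, ballNum, ballDen]; ring
  | k + 2 => by
      have h := ball_mass_rec k
      rw [mass_ball_eq k] at h
      have h3 : ((k : ℝ) + 3) ≠ 0 := by positivity
      have hd : (ballDen k : ℝ) ≠ 0 := Nat.cast_ne_zero.2 (ballDen_pos k).ne'
      simp only [Nat.add_mod_right, ballNum, ballDen, Nat.cast_mul, Nat.cast_add, Nat.cast_ofNat]
      field_simp at h ⊢
      linarith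

theorem mass_ball_bounds (k : ℕ) :
    (ballNum k * piLow k : ℝ) / (ballDen k * 1000000) ≤ mass k ballShape 1 ∧
      mass k ballShape 1 ≤ (ballNum k * piHigh k : ℝ) / (ballDen k * 1000000) := by
  have hd : (0 : ℝ) < ballDen k := Nat.cast_pos.2 (ballDen_pos k)
  rw [mass_ball_eq k, piLow, piHigh]
  split_ifs with h
  · constructor <;> refine le_of_eq ?_ <;> push_cast <;> field_simp
  · have h1 := Real.pi_gt_d6
    have h2 := Real.pi_lt_d6
    push_cast
    constructor
    · rw [div_mul_eq_mul_div, div_le_div_iff₀ (by positivity) hd]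
      have := mul_le_mul_of_nonneg_left (show (3141592 : ℝ) ≤ π * 1000000 by linarith)
        (show 0 ≤ (ballNum k : ℝ) * ballDen k by positivity)
      linarith
    · rw [div_mul_eq_mul_div, div_le_div_iff₀ hd (by positivity)]
      have := mul_le_mul_of_nonneg_left (show π * 1000000 ≤ (3141593 : ℝ) by linarith)
        (show 0 ≤ (ballNum k : ℝ) * ballDen k by positivity)
      linarith

theorem consts_sound {C : Cert} {p q : ℕ} (hq : 0 < q) (h : ratioOk C p q = true)
    (h' : kappaOk C = true) (hm : 1 ≤ C.m) :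
    val C.c ≤ (1 + (p : ℝ) / ((q : ℝ) * ((C.m : ℝ) + 1))) * ballRatio C.m ∧
      ballRatio C.m ^ C.m * mass C.m ballShape 1 ≤ val C.κ := by
  simp only [ratioOk, decide_eq_true_eq] at h
  simp only [kappaOk, decide_eq_true_eq] at h'
  have hc := h
  have hκ := h'
  have hq' : (0 : ℝ) < q := Nat.cast_pos.2 hq
  obtain ⟨k, hk⟩ : ∃ k, C.m = k + 1 := ⟨C.m - 1, by omega⟩
  rw [hk, Nat.add_sub_cancel] at hc hκ
  rw [hk]
  obtain ⟨hPl, hPh⟩ := mass_ball_bounds k
  obtain ⟨hVl, hVh⟩ := mass_ball_bounds (k + 1)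
  have hV : 0 < mass (k + 1) ballShape 1 := ball_mass_pos _
  have hd0 : (0 : ℝ) < ballDen k := Nat.cast_pos.2 (ballDen_pos k)
  have hd1 : (0 : ℝ) < ballDen (k + 1) := Nat.cast_pos.2 (ballDen_pos (k + 1))
  have hn : ∀ j, (0 : ℝ) < ballNum j := by
    intro j
    refine Nat.cast_pos.2 ?_
    induction j using Nat.twoStepInduction with
    | zero => simp [ballNum]
    | one => simp [ballNum]
    | more j ih _ => simp only [ballNum]; positivity
  have hl : ∀ j, (0 : ℝ) < piLow j := fun j => Nat.cast_pos.2 (by rw [piLow]; split_ifs <;> norm_num)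
  have hr : ballRatio (k + 1) = mass k ballShape 1 / mass (k + 1) ballShape 1 := rfl
  have hu := unit_pos
  constructor
  · have hc' : (C.c : ℝ) * ((ballNum (k + 1) : ℝ) * piHigh (k + 1)) * ballDen k *
        ((q : ℝ) * (((k : ℝ) + 1) + 1)) ≤ (unit : ℝ) * ((q : ℝ) * (((k : ℝ) + 1) + 1) + p) *
        ((ballNum k : ℝ) * piLow k) * ballDen (k + 1) := by exact_mod_cast hc
    have hvh : 0 < ((ballNum (k + 1) : ℝ) * piHigh (k + 1)) / (ballDen (k + 1) * 1000000) :=
      hV.trans_le hVh
    refine le_trans ?_ (mul_le_mul_of_nonneg_left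
      (show ((ballNum k : ℝ) * piLow k / (ballDen k * 1000000)) /
        ((ballNum (k + 1) : ℝ) * piHigh (k + 1) / (ballDen (k + 1) * 1000000)) ≤ ballRatio (k + 1)
        from hr ▸ div_le_div₀ (ball_mass_pos _).le hPl hV hVh) (by positivity))
    have hnh : (0 : ℝ) < (ballNum (k + 1) : ℝ) * piHigh (k + 1) := by
      rwa [lt_div_iff₀ (by positivity), zero_mul] at hvh
    rw [val]
    push_cast
    field_simp
    rw [le_div_iff₀ hnh]
    linarith
  · have hκ' : (unit : ℝ) * ((ballNum k : ℝ) * piHigh k) ^ (k + 1) * (ballDen (k + 1) : ℝ) ^ k *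
        1000000 ^ k ≤ (C.κ : ℝ) * ((ballDen k : ℝ) * 1000000) ^ (k + 1) *
        ((ballNum (k + 1) : ℝ) * piLow (k + 1)) ^ k := by exact_mod_cast hκ
    have e : ballRatio (k + 1) ^ (k + 1) * mass (k + 1) ballShape 1 =
        mass k ballShape 1 ^ (k + 1) / mass (k + 1) ballShape 1 ^ k := by
      rw [hr, div_pow, pow_succ (mass (k + 1) ballShape 1) k]
      field_simp
    have hvl : (0 : ℝ) < (ballNum (k + 1) : ℝ) * piLow (k + 1) := mul_pos (hn _) (hl _)
    rw [e]
    refine (div_le_div₀ (pow_nonneg ((ball_mass_pos k).le.trans hPh) _)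
      (pow_le_pow_left₀ (ball_mass_pos k).le hPh _) (pow_pos (div_pos hvl (by positivity)) _)
      (pow_le_pow_left₀ (div_pos hvl (by positivity)).le hVl _)).trans ?_
    rw [val, div_pow, div_pow, div_div_div_eq, div_le_div_iff₀ (by positivity) hu]
    rw [mul_pow (ballDen (k + 1) : ℝ)]
    linarith

theorem constOk_sound {C : Cert} (h : constOk C = true) (hm : 1 ≤ C.m) :
    val C.c ≤ (1 + 1 / (5 * ((C.m : ℝ) + 1))) * ballRatio C.m ∧
      ballRatio C.m ^ C.m * mass C.m ballShape 1 ≤ val C.κ := by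
  simp only [constOk, Bool.and_eq_true] at h
  simpa only [Nat.cast_one, Nat.cast_ofNat] using consts_sound (by norm_num) h.1 h.2 hm

/-- A checked certificate bounds the moment excess. -/
theorem excess_of_cert {C : Cert} {T : Tree} (hwf : C.wf = true) (hc : constOk C = true)
    (hT : T.check C 0 unit 0 unit = true) {φ : ℝ → ℝ} (hφ : IsShape φ)
    (hx : powRatio C.m φ ≤ 1) :
    (∫ t in (0 : ℝ)..1, φ t ^ C.m / ballShape t) ≤
      (1 + 1 / (5 * ((C.m : ℝ) + 1))) * ballRatio C.m * mass C.m φ 1 := by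
  have hm : 1 ≤ C.m := by
    simp only [Cert.wf, Bool.and_eq_true, decide_eq_true_eq] at hwf
    omega
  obtain ⟨h1, h2⟩ := constOk_sound hc hm
  refine (moment_lt hφ hx hwf h2 hT).le.trans (mul_le_mul_of_nonneg_right h1 ?_)
  exact intervalIntegral.integral_nonneg zero_le_one fun t ht =>
    pow_nonneg (hφ.nonneg t ⟨by linarith [ht.1], ht.2⟩) _

/-- A checked certificate bounds the moment excess by `11 / (50 (m + 1))`. -/
theorem excess_large_of_cert {C : Cert} {T : Tree} (hwf : C.wf = true)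
    (hc : constOkLarge C = true) (hT : T.check C 0 unit 0 unit = true) {φ : ℝ → ℝ}
    (hφ : IsShape φ) (hx : powRatio C.m φ ≤ 1) :
    (∫ t in (0 : ℝ)..1, φ t ^ C.m / ballShape t) ≤
      (1 + 11 / (50 * ((C.m : ℝ) + 1))) * ballRatio C.m * mass C.m φ 1 := by
  have hm : 1 ≤ C.m := by
    simp only [Cert.wf, Bool.and_eq_true, decide_eq_true_eq] at hwf
    omega
  simp only [constOkLarge, Bool.and_eq_true] at hc
  obtain ⟨h1, h2⟩ := consts_sound (by norm_num) hc.1 hc.2 hm
  simp only [Nat.cast_ofNat] at h1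
  refine (moment_lt hφ hx hwf h2 hT).le.trans (mul_le_mul_of_nonneg_right h1 ?_)
  exact intervalIntegral.integral_nonneg zero_le_one fun t ht =>
    pow_nonneg (hφ.nonneg t ⟨by linarith [ht.1], ht.2⟩) _

end Vale.Agent.P237.Quant.WindowCert
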