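import Mathlib
import Vale.Agent.P237.Quant.WindowBall
import Vale.Agent.P237.Quant.MomentRange
import Vale.Agent.P237.Quant.WindowData.N25
import Vale.Agent.P237.Quant.WindowData.N26
import Vale.Agent.P237.Quant.WindowData.N27
import Vale.Agent.P237.Quant.WindowData.N28
import Vale.Agent.P237.Quant.WindowData.N29
import Vale.Agent.P237.Quant.WindowData.N30
import Vale.Agent.P237.Quant.WindowData.N31
import Vale.Agent.P237.Quant.WindowData.N32
import Vale.Agent.P237.Quant.WindowData.N33
import Vale.Agent.P237.Quant.WindowData.N34
import Vale.Agent.P237.Quant.WindowData.N35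
import Vale.Agent.P237.Quant.WindowData.N36
import Vale.Agent.P237.Quant.WindowData.N37
import Vale.Agent.P237.Quant.WindowData.N38
import Vale.Agent.P237.Quant.WindowData.N39
import Vale.Agent.P237.Quant.MomentData.A
import Vale.Agent.P237.Quant.MomentData.B
import Vale.Agent.P237.Quant.MomentData.C

/-!
The moment excess of a profile with power ratio at most one in every dimension from twenty-five:
windows up to thirty-nine, tail moments from forty.
-/

namespace Vale.Agent.P237.Quant

open MeasureTheory Set WindowCert

theorem moment_excess_windows {m : ℕ} (hm : 24 ≤ m) (hm' : m ≤ 38) {φ : ℝ → ℝ} (hφ : IsShape φ)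
    (hx : powRatio m φ ≤ 1) :
    (∫ t in (0 : ℝ)..1, φ t ^ m / ballShape t) ≤
      (1 + 11 / (50 * ((m : ℝ) + 1))) * ballRatio m * mass m φ 1 := by
  interval_cases m
  · exact excess_large_of_cert data25_wf data25_const tree25_ok hφ hx
  · exact excess_large_of_cert data26_wf data26_const tree26_ok hφ hx
  · exact excess_large_of_cert data27_wf data27_const tree27_ok hφ hx
  · exact excess_large_of_cert data28_wf data28_const tree28_ok hφ hx
  · exact excess_large_of_cert data29_wf data29_const tree29_ok hφ hx
  · exact excess_large_of_cert data30_wf data30_const tree30_ok hφ hx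
  · exact excess_large_of_cert data31_wf data31_const tree31_ok hφ hx
  · exact excess_large_of_cert data32_wf data32_const tree32_ok hφ hx
  · exact excess_large_of_cert data33_wf data33_const tree33_ok hφ hx
  · exact excess_large_of_cert data34_wf data34_const tree34_ok hφ hx
  · exact excess_large_of_cert data35_wf data35_const tree35_ok hφ hx
  · exact excess_large_of_cert data36_wf data36_const tree36_ok hφ hx
  · exact excess_large_of_cert data37_wf data37_const tree37_ok hφ hx
  · exact excess_large_of_cert data38_wf data38_const tree38_ok hφ hx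
  · exact excess_large_of_cert data39_wf data39_const tree39_ok hφ hx

/-- From dimension `25` on a profile with power ratio at most one has at most the factor
`1 + 11 / (50 (m + 1))` times the ball's moment of `1 / p`. -/
theorem moment_excess_large {m : ℕ} (hm : 24 ≤ m) {φ : ℝ → ℝ} (hφ : IsShape φ)
    (hx : powRatio m φ ≤ 1) :
    (∫ t in (0 : ℝ)..1, φ t ^ m / ballShape t) ≤
      (1 + 11 / (50 * ((m : ℝ) + 1))) * ballRatio m * mass m φ 1 := by
  have hpos : (0 : ℝ) < (m : ℝ) + 1 := by positivity
  rcases le_or_gt m 38 with h | h
  · exact moment_excess_windows hm h hφ hx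
  rcases le_or_gt m 47 with h' | h'
  · have h1 : (m : ℝ) ≤ 47 := by exact_mod_cast h'
    have h2 : (39 : ℝ) ≤ m := by exact_mod_cast h
    refine momentTableA.excess_le momentTableA_check (by omega) hφ hx ?_ ?_ <;>
      simp only [momentTableA] <;> push_cast
    · rw [div_le_div_iff₀ (by norm_num) hpos]; linarith
    · rw [div_le_div_iff₀ hpos (by norm_num)]; linarith
  rcases le_or_gt m 55 with h'' | h''
  · have h1 : (m : ℝ) ≤ 55 := by exact_mod_cast h''
    have h2 : (48 : ℝ) ≤ m := by exact_mod_cast h'
    refine momentTableB.excess_le momentTableB_check (by omega) hφ hx ?_ ?_ <;>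
      simp only [momentTableB] <;> push_cast
    · rw [div_le_div_iff₀ (by norm_num) hpos]; linarith
    · rw [div_le_div_iff₀ hpos (by norm_num)]; linarith
  have h2 : (56 : ℝ) ≤ m := by exact_mod_cast h''
  refine momentTableC.excess_le momentTableC_check (by omega) hφ hx ?_ ?_ <;>
    simp only [momentTableC] <;> push_cast
  · positivity
  · rw [div_le_div_iff₀ hpos (by norm_num)]; linarith

end Vale.Agent.P237.Quant
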