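import Vale.Agent.P237.Quant.GeneralAssembly
import Vale.Agent.P237.Quant.MomentExcessLarge

/-!
The moment excess from twenty-five dimensions, in the form the assembly asks for.
-/

namespace Vale.Agent.P237.Quant

theorem excessLarge : ExcessLarge := fun _ hm _ hφ hx _ => moment_excess_large hm hφ hx

end Vale.Agent.P237.Quant
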