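import Mathlib
import Vale.Agent.P237.Quant.TailFlux

/-!
Concavity in the calibration of the tail lemma: the state `shapeZ`, which is the slope of the
tangent line relative to its value at the centre, is nondecreasing along a profile. A flux that is
antitone in this state can therefore be differentiated at a frozen state, and the pointwise
inequality has to hold only at `ρ = (t - z) / (1 - t * z)`.
-/

namespace Vale.Agent.P237.Quant

open MeasureTheory Set Filter Topology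

variable {m : ℕ} {φ Q W : ℝ → ℝ} {η : ℝ}

/-- The slope of the tangent line relative to its value at the centre. -/
noncomputable def shapeZ (φ : ℝ → ℝ) (t : ℝ) : ℝ :=
  -dright φ t / (φ t - t * dright φ t)

theorem shapeZ_denom_pos (hφ : IsShape φ) {t : ℝ} (ht : t ∈ Ioo (0 : ℝ) 1) :
    0 < φ t - t * dright φ t := by
  nlinarith [shape_pos hφ (sub01 ht), dright_nonpos hφ ht, ht.1]

theorem shapeZ_mem (hφ : IsShape φ) {t : ℝ} (ht : t ∈ Ioo (0 : ℝ) 1) :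
    shapeZ φ t ∈ Icc (0 : ℝ) 1 := by
  have hden := shapeZ_denom_pos hφ ht
  have hpos := shape_pos hφ (sub01 ht)
  refine ⟨div_nonneg (neg_nonneg.2 (dright_nonpos hφ ht)) hden.le, (div_le_one hden).2 ?_⟩
  have h := (shapeRho_range hφ ht).1
  rw [shapeRho, ← sub_le_iff_le_add', le_div_iff₀ hpos] at h
  nlinarith [ht.1, ht.2]

theorem shapeRho_eq_shapeZ (hφ : IsShape φ) {t : ℝ} (ht : t ∈ Ioo (0 : ℝ) 1) :
    shapeRho φ t = (t - shapeZ φ t) / (1 - t * shapeZ φ t) := by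
  have hden := (shapeZ_denom_pos hφ ht).ne'
  have hpos := (shape_pos hφ (sub01 ht)).ne'
  rw [shapeRho, shapeZ]
  field_simp
  ring_nf
  field_simp

theorem dright_antitoneOn (hφ : IsShape φ) : AntitoneOn (dright φ) (Ioo (-1) 1) := by
  intro a ha b hb hab
  have h := hφ.concave.neg.monotoneOn_rightDeriv (by rwa [interior_Icc]) (by rwa [interior_Icc]) hab
  simp only at h
  rw [(hasDerivWithinAt_dright hφ ha).neg.derivWithin (uniqueDiffWithinAt_Ioi a),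
    (hasDerivWithinAt_dright hφ hb).neg.derivWithin (uniqueDiffWithinAt_Ioi b)] at h
  linarith

theorem shapeZ_monotoneOn (hφ : IsShape φ) : MonotoneOn (shapeZ φ) (Ioo 0 1) := by
  intro s hs t ht hst
  rcases hst.eq_or_lt with rfl | hlt
  · exact le_rfl
  have h := hφ.concave.neg.rightDeriv_le_slope (Ioo_subset_Icc_self (sub01 hs))
    (Ioo_subset_Icc_self (sub01 ht)) hlt
    (hasDerivWithinAt_dright hφ (sub01 hs)).neg.differentiableWithinAt
  rw [(hasDerivWithinAt_dright hφ (sub01 hs)).neg.derivWithin (uniqueDiffWithinAt_Ioi s),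
    slope_def_field, le_div_iff₀ (sub_pos.2 hlt)] at h
  simp only [Pi.neg_apply] at h
  have hab := dright_antitoneOn hφ (sub01 hs) (sub01 ht) hst
  rw [shapeZ, shapeZ, div_le_div_iff₀ (shapeZ_denom_pos hφ hs) (shapeZ_denom_pos hφ ht)]
  nlinarith [mul_le_mul_of_nonneg_left h (neg_nonneg.2 (dright_nonpos hφ ht)),
    mul_nonneg (sub_nonneg.2 hab) (shape_pos hφ (sub01 ht)).le]

/-- Along a monotone state `Z`, a flux that is antitone in the state grows at most as fast as it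
does at a frozen state. -/
theorem sub_le_integral_of_monotone {Z : ℝ → ℝ} (hZ : Monotone Z)
    (hZm : ∀ t, Z t ∈ Icc (0 : ℝ) 1) {b B : ℝ} (hb : 0 < b) {H H' : ℝ → ℝ → ℝ}
    (hanti : ∀ t ∈ Ioc 0 b, AntitoneOn (fun z => H z t) (Icc 0 1))
    (hc : ∀ z ∈ Icc (0 : ℝ) 1, ContinuousOn (H z) (Icc 0 b))
    (hd : ∀ z ∈ Icc (0 : ℝ) 1, ∀ t ∈ Ioo 0 b, HasDerivWithinAt (H z) (H' z t) (Ioi t) t)
    (hme : ∀ z ∈ Icc (0 : ℝ) 1, AEStronglyMeasurable (H' z) (volume.restrict (Ioo 0 b)))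
    (hB : ∀ z ∈ Icc (0 : ℝ) 1, ∀ t ∈ Ioo 0 b, |H' z t| ≤ B)
    (hz : ∀ t ∈ Ioo 0 b, ContinuousOn (fun z => H' z t) (Icc 0 1)) :
    IntervalIntegrable (fun t => H' (Z t) t) volume 0 b ∧
      H (Z b) b - H (Z 0) 0 ≤ ∫ t in (0 : ℝ)..b, H' (Z t) t := by
  set st : ℕ → ℝ → ℝ := fun n t => (⌊t * n / b⌋₊ : ℝ) * b / n with hst
  set F : ℕ → ℝ → ℝ := fun n t => H' (Z (st n t)) t with hF
  have hμ : (volume.restrict (uIoc 0 b) : Measure ℝ) = volume.restrict (Ioo 0 b) := by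
    rw [uIoc_of_le hb.le]
    exact Measure.restrict_congr_set Ioo_ae_eq_Ioc.symm
  have hFm : ∀ n, AEStronglyMeasurable (F n) (volume.restrict (Ioo 0 b)) := by
    intro n
    choose g hgm hge using fun k : ℕ => (hme _ (hZm ((k : ℝ) * b / n))).aemeasurable
    have hfl : Measurable fun t : ℝ => (⌊t * n / b⌋₊, t) :=
      (Nat.measurable_floor.comp ((measurable_id.mul_const _).div_const _)).prodMk measurable_id
    have hG : Measurable fun p : ℕ × ℝ => g p.1 p.2 := measurable_from_prod_countable_right hgm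
    refine ((hG.comp hfl).aemeasurable.congr ?_).aestronglyMeasurable
    filter_upwards [ae_all_iff.2 hge] with t ht
    exact (ht _).symm
  have hlim : ∀ᵐ t ∂volume.restrict (Ioo 0 b),
      Tendsto (fun n => F n t) atTop (𝓝 (H' (Z t) t)) := by
    filter_upwards [ae_restrict_mem measurableSet_Ioo,
      ae_restrict_of_ae (hZ.countable_not_continuousAt.ae_notMem volume)] with t ht hnt
    have hcont : ContinuousAt Z t := not_not.1 hnt
    have hs : Tendsto (fun n => st n t) atTop (𝓝 t) := by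
      rw [tendsto_iff_norm_sub_tendsto_zero]
      refine squeeze_zero' (g := fun n : ℕ => b / (n : ℝ))
        (Eventually.of_forall fun n => norm_nonneg _) ?_ (tendsto_const_div_atTop_nhds_zero_nat b)
      filter_upwards [eventually_gt_atTop 0] with n hn
      have hn' : (0 : ℝ) < n := Nat.cast_pos.2 hn
      have hx : 0 ≤ t * n / b := by have := ht.1; positivity
      have e : st n t - t = ((⌊t * n / b⌋₊ : ℝ) - t * n / b) * (b / n) := by
        simp only [hst]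
        field_simp
      rw [Real.norm_eq_abs, e, abs_mul, abs_of_nonneg (show 0 ≤ b / (n : ℝ) by positivity)]
      refine mul_le_of_le_one_left (by positivity) (abs_le.2 ⟨?_, ?_⟩)
      · linarith [Nat.lt_floor_add_one (t * n / b)]
      · linarith [Nat.floor_le hx]
    exact ((hz t ht) (Z t) (hZm t)).tendsto.comp (tendsto_nhdsWithin_iff.2
      ⟨hcont.tendsto.comp hs, Eventually.of_forall fun n => hZm _⟩)
  have hint : ∀ f : ℝ → ℝ, AEStronglyMeasurable f (volume.restrict (Ioo 0 b)) →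
      (∀ᵐ t ∂volume.restrict (Ioo 0 b), |f t| ≤ B) → IntervalIntegrable f volume 0 b :=
    fun f h1 h2 => (intervalIntegrable_iff_integrableOn_Ioo_of_le hb.le).2
      (IntegrableOn.of_bound (by simp) h1 B h2)
  have hlimB : ∀ᵐ t ∂volume.restrict (Ioo 0 b), |H' (Z t) t| ≤ B := by
    filter_upwards [ae_restrict_mem measurableSet_Ioo] with t ht using hB _ (hZm t) t ht
  refine ⟨hint _ (aestronglyMeasurable_of_tendsto_ae atTop hFm hlim) hlimB, ?_⟩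
  have hT : Tendsto (fun n => ∫ t in (0 : ℝ)..b, F n t) atTop
      (𝓝 (∫ t in (0 : ℝ)..b, H' (Z t) t)) := by
    refine intervalIntegral.tendsto_integral_filter_of_dominated_convergence (fun _ => B)
      (Eventually.of_forall fun n => by rw [hμ]; exact hFm n) ?_ intervalIntegrable_const ?_
    · refine Eventually.of_forall fun n => ?_
      rw [← ae_restrict_iff' measurableSet_uIoc, hμ]
      filter_upwards [ae_restrict_mem measurableSet_Ioo] with t ht using hB _ (hZm _) t ht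
    · rw [← ae_restrict_iff' measurableSet_uIoc, hμ]
      exact hlim
  refine ge_of_tendsto hT ?_
  filter_upwards [eventually_gt_atTop 0] with n hn
  have hn' : (0 : ℝ) < n := Nat.cast_pos.2 hn
  set a : ℕ → ℝ := fun k => (k : ℝ) * b / n with ha
  have ha0 : a 0 = 0 := by simp [ha]
  have han : a n = b := by simp only [ha]; field_simp
  have hsub : ∀ k < n, 0 ≤ a k ∧ a k < a (k + 1) ∧ a (k + 1) ≤ b := fun k hk => by
    have hk' : (k : ℝ) + 1 ≤ n := by exact_mod_cast hk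
    refine ⟨by positivity, ?_, ?_⟩
    · simp only [ha, Nat.cast_succ]
      gcongr
      linarith
    · simp only [ha, Nat.cast_succ]
      rw [div_le_iff₀ hn', mul_comm b]
      exact mul_le_mul_of_nonneg_right hk' hb.le
  have piece : ∀ k < n, IntervalIntegrable (H' (Z (a k))) volume (a k) (a (k + 1)) ∧
      (∀ᵐ t, t ∈ uIoc (a k) (a (k + 1)) → F n t = H' (Z (a k)) t) ∧
      H (Z (a (k + 1))) (a (k + 1)) - H (Z (a k)) (a k) ≤
        ∫ t in a k..a (k + 1), H' (Z (a k)) t := fun k hk => by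
    obtain ⟨h0, h1, h2⟩ := hsub k hk
    have hz' := hZm (a k)
    have hi : IntervalIntegrable (H' (Z (a k))) volume (a k) (a (k + 1)) :=
      (hint _ (hme _ hz') (by
        filter_upwards [ae_restrict_mem measurableSet_Ioo] with t ht using hB _ hz' t ht)).mono_set
        (by rw [uIcc_of_le h1.le, uIcc_of_le hb.le]; exact Icc_subset_Icc h0 h2)
    refine ⟨hi, ?_, ?_⟩
    · filter_upwards [Measure.ae_ne volume (a (k + 1))] with t hne ht
      rw [uIoc_of_le h1.le] at ht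
      have hfl : ⌊t * n / b⌋₊ = k := by
        have e1 : (k : ℝ) * b < t * n := (div_lt_iff₀ hn').1 ht.1
        have e2 : t * n < ((k : ℝ) + 1) * b := by
          have := (lt_div_iff₀ hn').1 (lt_of_le_of_ne ht.2 hne)
          simpa [ha] using this
        refine Nat.floor_eq_on_Ico k _ ⟨(le_div_iff₀ hb).2 e1.le, (div_lt_iff₀ hb).2 ?_⟩
        exact_mod_cast e2
      simp only [hF, hst, hfl, ha]
    · rw [intervalIntegral.integral_eq_sub_of_hasDeriv_right_of_le h1.le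
        ((hc _ hz').mono (Icc_subset_Icc h0 h2))
        (fun t ht => hd _ hz' t ⟨h0.trans_lt ht.1, ht.2.trans_le h2⟩) hi]
      linarith [hanti _ ⟨h0.trans_lt h1, h2⟩ hz' (hZm (a (k + 1))) (hZ h1.le)]
  have hFi : ∀ k < n, IntervalIntegrable (F n) volume (a k) (a (k + 1)) := fun k hk =>
    (piece k hk).1.congr_ae ((ae_restrict_iff' measurableSet_uIoc).2
      ((piece k hk).2.1.mono fun t h ht => (h ht).symm))
  calc H (Z b) b - H (Z 0) 0
      = ∑ k ∈ Finset.range n, (H (Z (a (k + 1))) (a (k + 1)) - H (Z (a k)) (a k)) := by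
        rw [Finset.sum_range_sub fun k => H (Z (a k)) (a k), ha0, han]
    _ ≤ ∑ k ∈ Finset.range n, ∫ t in a k..a (k + 1), F n t :=
        Finset.sum_le_sum fun k hk => by
          rw [intervalIntegral.integral_congr_ae (piece k (Finset.mem_range.1 hk)).2.1]
          exact (piece k (Finset.mem_range.1 hk)).2.2
    _ = ∫ t in (0 : ℝ)..b, F n t := by
        rw [intervalIntegral.sum_integral_adjacent_intervals hFi, ha0, han]

/-- A flux that is antitone in the state `shapeZ` and whose derivative at the state is at most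
`f` has `∫ f` nonnegative. -/
theorem partial_integral_nonneg_of_flux_mono (hφ : IsShape φ) {f : ℝ → ℝ}
    (hf : IntervalIntegrable f volume 0 1) {H H' : ℝ → ℝ → ℝ}
    (hanti : ∀ t ∈ Ioo (0 : ℝ) 1, AntitoneOn (fun z => H z t) (Icc 0 1))
    (hc : ∀ z ∈ Icc (0 : ℝ) 1, ContinuousOn (H z) (Ico 0 1))
    (hd : ∀ z ∈ Icc (0 : ℝ) 1, ∀ t ∈ Ioo (0 : ℝ) 1, HasDerivWithinAt (H z) (H' z t) (Ioi t) t)
    (hme : ∀ z ∈ Icc (0 : ℝ) 1, AEStronglyMeasurable (H' z) (volume.restrict (Ioo 0 1)))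
    (hB : ∀ b ∈ Ioo (0 : ℝ) 1, ∃ B, ∀ z ∈ Icc (0 : ℝ) 1, ∀ t ∈ Ioo 0 b, |H' z t| ≤ B)
    (hz : ∀ t ∈ Ioo (0 : ℝ) 1, ContinuousOn (fun z => H' z t) (Icc 0 1))
    (h0 : H 0 0 ≤ 0) (h1 : ∀ ε > 0, ∀ᶠ b in 𝓝[<] (1 : ℝ), -ε ≤ H (shapeZ φ b) b)
    (h : ∀ t ∈ Ioo (0 : ℝ) 1, H' (shapeZ φ t) t ≤ f t) {ε : ℝ} (hε : 0 < ε) :
    ∀ᶠ b in 𝓝[<] (1 : ℝ), -ε ≤ ∫ t in (0 : ℝ)..b, f t := by
  set Z : ℝ → ℝ := fun t => if t ≤ 0 then 0 else if 1 ≤ t then 1 else shapeZ φ t with hZ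
  have hin : ∀ t ∈ Ioo (0 : ℝ) 1, Z t = shapeZ φ t := fun t ht => by
    simp only [hZ, if_neg ht.1.not_ge, if_neg ht.2.not_ge]
  have hZm : ∀ t, Z t ∈ Icc (0 : ℝ) 1 := fun t => by
    simp only [hZ]
    split_ifs with h2 h3
    · exact ⟨le_rfl, zero_le_one⟩
    · exact ⟨zero_le_one, le_rfl⟩
    · exact shapeZ_mem hφ ⟨not_le.1 h2, not_le.1 h3⟩
  have hmono : Monotone Z := fun x y hxy => by
    rcases le_or_gt x 0 with hx | hx
    · exact le_of_eq_of_le (by simp only [hZ, if_pos hx]) (hZm y).1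
    rcases le_or_gt 1 y with hy | hy
    · exact (hZm x).2.trans_eq (by simp only [hZ, if_neg (show ¬y ≤ 0 by linarith), if_pos hy])
    rw [hin x ⟨hx, hxy.trans_lt hy⟩, hin y ⟨hx.trans_le hxy, hy⟩]
    exact shapeZ_monotoneOn hφ ⟨hx, hxy.trans_lt hy⟩ ⟨hx.trans_le hxy, hy⟩ hxy
  filter_upwards [Ioo_mem_nhdsLT (zero_lt_one (α := ℝ)), h1 ε hε] with b hb hGb
  obtain ⟨B, hB'⟩ := hB b hb
  have hsub : Ioo (0 : ℝ) b ⊆ Ioo 0 1 := Ioo_subset_Ioo le_rfl hb.2.le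
  obtain ⟨hi, hle⟩ := sub_le_integral_of_monotone hmono hZm hb.1 (H := H)
    (fun t ht => hanti t ⟨ht.1, ht.2.trans_lt hb.2⟩)
    (fun z hz => (hc z hz).mono fun t ht => ⟨ht.1, ht.2.trans_lt hb.2⟩)
    (fun z hz t ht => hd z hz t (hsub ht))
    (fun z hz => (hme z hz).mono_measure (Measure.restrict_mono hsub le_rfl)) hB'
    (fun t ht => hz t (hsub ht))
  have hkey : (∫ t in (0 : ℝ)..b, H' (Z t) t) ≤ ∫ t in (0 : ℝ)..b, f t := by
    refine intervalIntegral.integral_mono_on_of_le_Ioo hb.1.le hi (hf.mono_set (by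
      rw [uIcc_of_le hb.1.le, uIcc_of_le zero_le_one]
      exact Icc_subset_Icc le_rfl hb.2.le)) fun t ht => ?_
    rw [hin t (hsub ht)]
    exact h t (hsub ht)
  rw [hin b hb, show Z 0 = 0 by simp [hZ]] at hle
  linarith

/-- The full integral is nonnegative. -/
theorem integral_nonneg_of_eventually {f : ℝ → ℝ} (hf : IntervalIntegrable f volume 0 1)
    (h : ∀ ε > 0, ∀ᶠ b in 𝓝[<] (1 : ℝ), -ε ≤ ∫ t in (0 : ℝ)..b, f t) :
    0 ≤ ∫ t in (0 : ℝ)..1, f t := by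
  refine le_of_forall_pos_le_add fun ε hε => ?_
  have hc := intervalIntegral.continuousOn_primitive_interval' hf left_mem_uIcc
  rw [uIcc_of_le zero_le_one] at hc
  have := ge_of_tendsto ((hc 1 (right_mem_Icc.2 zero_le_one)).mono_left
    (nhdsWithin_le_iff.2 (Icc_mem_nhdsLT zero_lt_one))) (h ε hε)
  linarith

/-- The calibration by a flux that is antitone in the state `shapeZ`. -/
theorem excess_le_of_flux_mono (hm : 2 ≤ m) (hφ : IsShape φ) (hQ0 : ∀ t ∈ Ioo (0 : ℝ) 1, 0 ≤ Q t)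
    (hQm : Measurable Q)
    (hQ : ∀ t ∈ Ioo (0 : ℝ) 1, ∀ r ∈ Icc (-1 : ℝ) 1, Q t * r ^ 2 ≤ pureBreg m t r)
    (hWm : Measurable W) {C : ℝ} (hWb : ∀ t ∈ Ioo (0 : ℝ) 1, |W t| ≤ C) {H H' : ℝ → ℝ → ℝ}
    (hanti : ∀ t ∈ Ioo (0 : ℝ) 1, AntitoneOn (fun z => H z t) (Icc 0 1))
    (hc : ∀ z ∈ Icc (0 : ℝ) 1, ContinuousOn (H z) (Ico 0 1))
    (hd : ∀ z ∈ Icc (0 : ℝ) 1, ∀ t ∈ Ioo (0 : ℝ) 1, HasDerivWithinAt (H z) (H' z t) (Ioi t) t)
    (hme : ∀ z ∈ Icc (0 : ℝ) 1, AEStronglyMeasurable (H' z) (volume.restrict (Ioo 0 1)))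
    (hB : ∀ b ∈ Ioo (0 : ℝ) 1, ∃ B, ∀ z ∈ Icc (0 : ℝ) 1, ∀ t ∈ Ioo 0 b, |H' z t| ≤ B)
    (hz : ∀ t ∈ Ioo (0 : ℝ) 1, ContinuousOn (fun z => H' z t) (Icc 0 1))
    (h0 : H 0 0 ≤ 0) (h1 : ∀ ε > 0, ∀ᶠ b in 𝓝[<] (1 : ℝ), -ε ≤ H (shapeZ φ b) b)
    (h : ∀ t ∈ Ioo (0 : ℝ) 1,
      H' (shapeZ φ t) t + ballShape t ^ (m - 1) * tailLoss m (specU m φ t / specM m φ) ≤
      ballShape t ^ (m - 1) * (W t * specV m φ t ^ 2 +
        tailGain m Q η t (specU m φ t / specM m φ) (shapeRho φ t))) :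
    specExcess m φ ≤ specQuad m W (specV m φ) + specSurplus m Q φ +
      η * specEnergy m Q (fun t => specU' m φ t / specM m φ) := by
  rw [show ∀ X S E : ℝ, X + S + E = X + 1 * (S + E) from fun X S E => by ring]
  refine excess_le_of_integrand hm hφ hQ0 hQm hQ hWm hWb 1 fun iup ε hε =>
    partial_integral_nonneg_of_flux_mono hφ iup hanti hc hd hme hB hz h0 h1 (fun t ht => ?_) hε
  rw [tailIntegrand_eq (by omega) hφ 1 ht, one_mul]
  linarith [h t ht]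

/-- The flux `p ^ (m + 1) * D t x z`: for an integrand `p ^ (m - 1) * g t x z` the inequality is
left only at `ρ = (t - z) / (1 - t * z)`, on the `(t, x, z)` that `S` allows. `Dt` and `Dx` enter
only through the chain rule `hDd`, so `D` may be piecewise in `t`. -/
theorem partial_integral_nonneg_of_concave (hm1 : 1 ≤ m) (hφ : IsShape φ) {f : ℝ → ℝ}
    (hf : IntervalIntegrable f volume 0 1) {g : ℝ → ℝ → ℝ → ℝ}
    (hfg : ∀ t ∈ Ioo (0 : ℝ) 1,
      f t = ballShape t ^ (m - 1) * g t (specU m φ t / specM m φ) (shapeZ φ t))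
    {D Dt Dx : ℝ → ℝ → ℝ → ℝ} {S : ℝ → ℝ → ℝ → Prop}
    (hDc : ContinuousOn (fun p : ℝ × ℝ × ℝ => D p.1 p.2.1 p.2.2)
      (Ico 0 1 ×ˢ Ioi 0 ×ˢ Icc 0 1))
    (hDz : ∀ t ∈ Ioo (0 : ℝ) 1, ∀ x, 0 < x → ContinuousOn (Dt t x) (Icc 0 1) ∧
      ContinuousOn (Dx t x) (Icc 0 1))
    (hDm : ∀ z ∈ Icc (0 : ℝ) 1, Measurable (fun p : ℝ × ℝ => Dt p.1 p.2 z) ∧
      Measurable (fun p : ℝ × ℝ => Dx p.1 p.2 z))
    (hDB : ∀ b < (1 : ℝ), ∀ a c, 0 < a → ∃ B, ∀ t ∈ Ioo 0 b, ∀ x ∈ Icc a c,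
      ∀ z ∈ Icc (0 : ℝ) 1, |Dt t x z| ≤ B ∧ |Dx t x z| ≤ B)
    (hDd : ∀ z ∈ Icc (0 : ℝ) 1, ∀ t ∈ Ioo (0 : ℝ) 1, ∀ (u : ℝ → ℝ) (u' : ℝ), 0 < u t →
      HasDerivWithinAt u u' (Ioi t) t →
      HasDerivWithinAt (fun s => D s (u s) z) (Dt t (u t) z + Dx t (u t) z * u') (Ioi t) t)
    (hanti : ∀ t ∈ Ioo (0 : ℝ) 1, ∀ x, 0 < x → (∃ z ∈ Icc (0 : ℝ) 1, S t x z) →
      AntitoneOn (D t x) (Icc 0 1))
    (hD0 : D 0 (specU m φ 0 / specM m φ) 0 ≤ 0)
    (hD1 : ∃ K : ℝ, ∀ᶠ b in 𝓝[<] (1 : ℝ), ∀ x, 0 < x → ∀ z ∈ Icc (0 : ℝ) 1,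
      -K * (1 + x ^ 2) ≤ D b x z)
    (hS : ∀ t ∈ Ioo (0 : ℝ) 1, S t (specU m φ t / specM m φ) (shapeZ φ t))
    (h : ∀ t ∈ Ioo (0 : ℝ) 1, ∀ x, 0 < x → ∀ z ∈ Icc (0 : ℝ) 1, S t x z →
      ballShape t ^ 2 * Dt t x z + (m : ℝ) / 2 * x * ((t - z) / (1 - t * z)) * Dx t x z -
        ((m : ℝ) + 1) * t * D t x z ≤ g t x z) {ε : ℝ} (hε : 0 < ε) :
    ∀ᶠ b in 𝓝[<] (1 : ℝ), -ε ≤ ∫ t in (0 : ℝ)..b, f t := by
  have hM0 := specM_pos hm1 hφ
  set X : ℝ → ℝ := fun t => specU m φ t / specM m φ with hX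
  have hXpos : ∀ t ∈ Ico (0 : ℝ) 1, 0 < X t := fun t ht =>
    div_pos (specU_pos hφ ⟨by linarith [ht.1], ht.2⟩) hM0
  have hXc : ContinuousOn X (Ico 0 1) :=
    ((continuousOn_specU hφ).mono fun t ht => ⟨by linarith [ht.1], ht.2⟩).div_const _
  have hDc1 : ∀ z ∈ Icc (0 : ℝ) 1, ContinuousOn (fun t => D t (X t) z) (Ico 0 1) := fun z hz =>
    hDc.comp (continuousOn_id.prodMk (hXc.prodMk continuousOn_const))
      fun t ht => ⟨ht, hXpos t ht, hz⟩
  set H' : ℝ → ℝ → ℝ := fun z t => ballShape t ^ (m - 1) * (ballShape t ^ 2 * Dt t (X t) z +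
    (m : ℝ) / 2 * X t * shapeRho φ t * Dx t (X t) z - ((m : ℝ) + 1) * t * D t (X t) z) with hH'
  refine partial_integral_nonneg_of_flux_mono hφ hf
    (H := fun z t => ballShape t ^ (m + 1) * D t (X t) z) (H' := H') ?_ ?_ ?_ ?_ ?_ ?_ ?_ ?_ ?_ hε
  · intro t ht z hz z' hz' hle
    exact mul_le_mul_of_nonneg_left (hanti t ht _ (hXpos t ⟨ht.1.le, ht.2⟩)
      ⟨_, shapeZ_mem hφ ht, hS t ht⟩ hz hz' hle)
      (pow_nonneg (ball_pos (sub01 ht)).le _)
  · exact fun z hz => (cont_pow _).continuousOn.mul (hDc1 z hz)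
  · intro z hz t ht
    have hp := ball_pos (sub01 ht)
    refine (((hasDerivAt_ball (sub01 ht)).hasDerivWithinAt.fun_pow (m + 1)).fun_mul
      (hDd z hz t ht X _ (hXpos t ⟨ht.1.le, ht.2⟩)
        ((hasDeriv_specU hm1 hφ (sub01 ht)).div_const (specM m φ)))).congr_deriv ?_
    obtain ⟨k, rfl⟩ : ∃ k, m = k + 1 := ⟨m - 1, by omega⟩
    simp only [hH', hX, specU', Nat.add_sub_cancel]
    push_cast
    rw [pow_succ (ballShape t) (k + 1), pow_succ (ballShape t) k]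
    field_simp
    ring
  · intro z hz
    have hXm : AEMeasurable X (volume.restrict (Ioo 0 1)) :=
      (hXc.mono Ioo_subset_Ico_self).aemeasurable measurableSet_Ioo
    have hρm : AEMeasurable (shapeRho φ) (volume.restrict (Ioo 0 1)) := by
      unfold shapeRho
      exact aemeasurable_id.add ((((measurable_const.sub (measurable_id.pow_const 2)).aemeasurable).mul
        (aemeasurable_restrict_of_antitoneOn measurableSet_Ioo
          ((dright_antitoneOn hφ).mono sub01))).div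
        (((shape_continuousOn hφ).mono sub01).aemeasurable measurableSet_Ioo))
    have hpair : AEMeasurable (fun t => (t, X t)) (volume.restrict (Ioo 0 1)) :=
      aemeasurable_id.prodMk hXm
    refine ((cont_pow _).measurable.aemeasurable.mul (((((cont_pow 2).measurable.aemeasurable.mul
      ((hDm z hz).1.comp_aemeasurable hpair))).add
      (((hXm.const_mul _).mul hρm).mul ((hDm z hz).2.comp_aemeasurable hpair))).sub
      ((measurable_id.const_mul _).aemeasurable.mul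
        (((hDc1 z hz).mono Ioo_subset_Ico_self).aemeasurable
          measurableSet_Ioo)))).aestronglyMeasurable
  · intro b hb
    have hI : Icc (0 : ℝ) b ⊆ Ico 0 1 := fun t ht => ⟨ht.1, ht.2.trans_lt hb.2⟩
    have hne : (Icc (0 : ℝ) b).Nonempty := nonempty_Icc.2 hb.1.le
    obtain ⟨t₀, ht₀, hmin⟩ := isCompact_Icc.exists_isMinOn hne (hXc.mono hI)
    obtain ⟨t₁, ht₁, hmax⟩ := isCompact_Icc.exists_isMaxOn hne (hXc.mono hI)
    obtain ⟨B, hB⟩ := hDB b hb.2 (X t₀) (X t₁) (hXpos t₀ (hI ht₀))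
    obtain ⟨R, hR⟩ := (isCompact_Icc.prod (isCompact_Icc (a := X t₀) (b := X t₁) |>.prod
      (isCompact_Icc (a := (0 : ℝ)) (b := 1)))).exists_bound_of_continuousOn
      (hDc.mono (prod_mono hI (prod_mono
        (fun x hx => (hXpos t₀ (hI ht₀)).trans_le hx.1) le_rfl)))
    refine ⟨|B| + (m : ℝ) / 2 * X t₁ * |B| + ((m : ℝ) + 1) * |R|, fun z hz t ht => ?_⟩
    have ht' : t ∈ Icc (0 : ℝ) b := Ioo_subset_Icc_self ht
    have ht01 : t ∈ Ioo (0 : ℝ) 1 := ⟨ht.1, ht.2.trans hb.2⟩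
    have hx : X t ∈ Icc (X t₀) (X t₁) := ⟨hmin ht', hmax ht'⟩
    obtain ⟨hb1, hb2⟩ := hB t ht (X t) hx z hz
    have hDR : |D t (X t) z| ≤ |R| := (hR (t, X t, z) ⟨ht', hx, hz⟩).trans (le_abs_self R)
    have hp0 : 0 ≤ ballShape t := (ball_pos (sub01 ht01)).le
    have hp1 : ballShape t ≤ 1 := Real.sqrt_le_one.2 (by nlinarith [sq_nonneg t])
    have hρ : |shapeRho φ t| ≤ 1 := abs_le.2
      ⟨(shapeRho_range hφ ht01).1, (shapeRho_range hφ ht01).2.trans ht01.2.le⟩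
    have hXt := (hXpos t (hI ht')).le
    simp only [hH']
    rw [abs_mul, abs_of_nonneg (pow_nonneg hp0 _)]
    refine le_trans (mul_le_of_le_one_left (abs_nonneg _) (pow_le_one₀ hp0 hp1)) ?_
    refine (abs_sub _ _).trans (add_le_add ((abs_add_le _ _).trans (add_le_add ?_ ?_)) ?_)
    · rw [abs_mul, abs_of_nonneg (pow_nonneg hp0 2)]
      exact (mul_le_of_le_one_left (abs_nonneg _) (pow_le_one₀ hp0 hp1)).trans
        (hb1.trans (le_abs_self B))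
    · rw [abs_mul, abs_mul, abs_of_nonneg (by positivity : 0 ≤ (m : ℝ) / 2 * X t)]
      exact mul_le_mul (mul_le_of_le_one_right (by positivity) hρ |>.trans
        (mul_le_mul_of_nonneg_left hx.2 (by positivity))) (hb2.trans (le_abs_self B))
        (abs_nonneg _) (mul_nonneg (by positivity) (hXt.trans hx.2))
    · rw [abs_mul, abs_of_nonneg (by positivity [ht.1.le] : 0 ≤ ((m : ℝ) + 1) * t)]
      exact mul_le_mul (mul_le_of_le_one_right (by positivity) ht01.2.le) hDR (abs_nonneg _)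
        (by positivity)
  · intro t ht
    have hx := hXpos t ⟨ht.1.le, ht.2⟩
    have hD : ContinuousOn (D t (X t)) (Icc 0 1) :=
      hDc.comp (continuousOn_const.prodMk (continuousOn_const.prodMk continuousOn_id))
        fun z hz => ⟨⟨ht.1.le, ht.2⟩, hx, hz⟩
    exact continuousOn_const.mul (((continuousOn_const.mul (hDz t ht _ hx).1).add
      (continuousOn_const.mul (hDz t ht _ hx).2)).sub (continuousOn_const.mul hD))
  · simpa [ballShape] using hD0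
  · intro ε hε
    obtain ⟨K, hK⟩ := hD1
    obtain ⟨L, hL0, hL⟩ := shape_exists_limit hφ
    have hp : Tendsto ballShape (𝓝[<] 1) (𝓝 0) := by
      have := (cont_ball.tendsto 1).mono_left (nhdsWithin_le_nhds (s := Iio 1))
      simpa [ballShape] using this
    have hlim : Tendsto (fun b => -|K| * (ballShape b ^ (m + 1) +
        ballShape b * φ b ^ m / specM m φ ^ 2)) (𝓝[<] 1) (𝓝 0) := by
      have := ((hp.pow (m + 1)).add ((hp.mul (hL.pow m)).div_const (specM m φ ^ 2))).const_mul (-|K|)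
      simpa using this
    filter_upwards [Ioo_mem_nhdsLT (zero_lt_one (α := ℝ)), hK,
      hlim.eventually (Ioi_mem_nhds (show -ε < 0 by linarith))] with b hb hKb hεb
    have hp0 := ball_pos (sub01 hb)
    have e : ballShape b ^ (m + 1) * X b ^ 2 = ballShape b * φ b ^ m / specM m φ ^ 2 := by
      simp only [hX, div_pow, specU_sq hφ (sub01 hb)]
      field_simp
      ring
    have h2 := mul_le_mul_of_nonneg_left
      ((mul_le_mul_of_nonneg_right (neg_le_neg (le_abs_self K))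
        (show 0 ≤ 1 + X b ^ 2 by positivity)).trans
        (hKb (X b) (hXpos b ⟨hb.1.le, hb.2⟩) _ (shapeZ_mem hφ hb)))
      (pow_nonneg hp0.le (m + 1))
    have e2 : ballShape b ^ (m + 1) * (-|K| * (1 + X b ^ 2)) = -|K| * (ballShape b ^ (m + 1) +
        ballShape b * φ b ^ m / specM m φ ^ 2) := by rw [← e]; ring
    linarith
  · intro t ht
    rw [hfg t ht]
    have h' := h t ht (X t) (hXpos t ⟨ht.1.le, ht.2⟩) (shapeZ φ t) (shapeZ_mem hφ ht) (hS t ht)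
    rw [← shapeRho_eq_shapeZ hφ ht] at h'
    exact mul_le_mul_of_nonneg_left h' (pow_nonneg (ball_pos (sub01 ht)).le _)

/-- The tail lemma with the flux `p ^ (m + 1) * D t x z`, with the weight `θ` on the surplus. -/
theorem excess_le_of_concave_scaled (hm : 2 ≤ m) (hφ : IsShape φ) (hQ0 : ∀ t ∈ Ioo (0 : ℝ) 1, 0 ≤ Q t)
    (hQm : Measurable Q)
    (hQ : ∀ t ∈ Ioo (0 : ℝ) 1, ∀ r ∈ Icc (-1 : ℝ) 1, Q t * r ^ 2 ≤ pureBreg m t r)
    (hWm : Measurable W) {C : ℝ} (hWb : ∀ t ∈ Ioo (0 : ℝ) 1, |W t| ≤ C) (θ : ℝ)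
    {D Dt Dx : ℝ → ℝ → ℝ → ℝ} {S : ℝ → ℝ → ℝ → Prop}
    (hDc : ContinuousOn (fun p : ℝ × ℝ × ℝ => D p.1 p.2.1 p.2.2)
      (Ico 0 1 ×ˢ Ioi 0 ×ˢ Icc 0 1))
    (hDz : ∀ t ∈ Ioo (0 : ℝ) 1, ∀ x, 0 < x → ContinuousOn (Dt t x) (Icc 0 1) ∧
      ContinuousOn (Dx t x) (Icc 0 1))
    (hDm : ∀ z ∈ Icc (0 : ℝ) 1, Measurable (fun p : ℝ × ℝ => Dt p.1 p.2 z) ∧
      Measurable (fun p : ℝ × ℝ => Dx p.1 p.2 z))
    (hDB : ∀ b < (1 : ℝ), ∀ a c, 0 < a → ∃ B, ∀ t ∈ Ioo 0 b, ∀ x ∈ Icc a c,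
      ∀ z ∈ Icc (0 : ℝ) 1, |Dt t x z| ≤ B ∧ |Dx t x z| ≤ B)
    (hDd : ∀ z ∈ Icc (0 : ℝ) 1, ∀ t ∈ Ioo (0 : ℝ) 1, ∀ (u : ℝ → ℝ) (u' : ℝ), 0 < u t →
      HasDerivWithinAt u u' (Ioi t) t →
      HasDerivWithinAt (fun s => D s (u s) z) (Dt t (u t) z + Dx t (u t) z * u') (Ioi t) t)
    (hanti : ∀ t ∈ Ioo (0 : ℝ) 1, ∀ x, 0 < x → (∃ z ∈ Icc (0 : ℝ) 1, S t x z) →
      AntitoneOn (D t x) (Icc 0 1))
    (hD0 : D 0 (specU m φ 0 / specM m φ) 0 ≤ 0)
    (hD1 : ∃ K : ℝ, ∀ᶠ b in 𝓝[<] (1 : ℝ), ∀ x, 0 < x → ∀ z ∈ Icc (0 : ℝ) 1,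
      -K * (1 + x ^ 2) ≤ D b x z)
    (hS : ∀ t ∈ Ioo (0 : ℝ) 1, S t (specU m φ t / specM m φ) (shapeZ φ t))
    (h : ∀ t ∈ Ioo (0 : ℝ) 1, ∀ x, 0 < x → ∀ z ∈ Icc (0 : ℝ) 1, S t x z →
      ballShape t ^ 2 * Dt t x z + (m : ℝ) / 2 * x * ((t - z) / (1 - t * z)) * Dx t x z -
        ((m : ℝ) + 1) * t * D t x z + tailLoss m x ≤
      W t * (x - 1) ^ 2 + θ * tailGain m Q η t x ((t - z) / (1 - t * z))) :
    specExcess m φ ≤ specQuad m W (specV m φ) + θ * (specSurplus m Q φ +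
      η * specEnergy m Q (fun t => specU' m φ t / specM m φ)) := by
  refine excess_le_of_integrand hm hφ hQ0 hQm hQ hWm hWb θ fun iup ε hε =>
    partial_integral_nonneg_of_concave (by omega) hφ iup
      (g := fun t x z => W t * (x - 1) ^ 2 + θ * tailGain m Q η t x ((t - z) / (1 - t * z)) -
        tailLoss m x) (fun t ht => ?_) hDc hDz hDm hDB hDd hanti hD0 hD1 hS
      (fun t ht x hx z hz hSx => ?_) hε
  · rw [tailIntegrand_eq (by omega) hφ θ ht, shapeRho_eq_shapeZ hφ ht, specV]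
    ring
  · linarith [h t ht x hx z hz hSx]

/-- The tail lemma with the flux `p ^ (m + 1) * D t x z`. -/
theorem excess_le_of_concave (hm : 2 ≤ m) (hφ : IsShape φ) (hQ0 : ∀ t ∈ Ioo (0 : ℝ) 1, 0 ≤ Q t)
    (hQm : Measurable Q)
    (hQ : ∀ t ∈ Ioo (0 : ℝ) 1, ∀ r ∈ Icc (-1 : ℝ) 1, Q t * r ^ 2 ≤ pureBreg m t r)
    (hWm : Measurable W) {C : ℝ} (hWb : ∀ t ∈ Ioo (0 : ℝ) 1, |W t| ≤ C)
    {D Dt Dx : ℝ → ℝ → ℝ → ℝ} {S : ℝ → ℝ → ℝ → Prop}
    (hDc : ContinuousOn (fun p : ℝ × ℝ × ℝ => D p.1 p.2.1 p.2.2)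
      (Ico 0 1 ×ˢ Ioi 0 ×ˢ Icc 0 1))
    (hDz : ∀ t ∈ Ioo (0 : ℝ) 1, ∀ x, 0 < x → ContinuousOn (Dt t x) (Icc 0 1) ∧
      ContinuousOn (Dx t x) (Icc 0 1))
    (hDm : ∀ z ∈ Icc (0 : ℝ) 1, Measurable (fun p : ℝ × ℝ => Dt p.1 p.2 z) ∧
      Measurable (fun p : ℝ × ℝ => Dx p.1 p.2 z))
    (hDB : ∀ b < (1 : ℝ), ∀ a c, 0 < a → ∃ B, ∀ t ∈ Ioo 0 b, ∀ x ∈ Icc a c,
      ∀ z ∈ Icc (0 : ℝ) 1, |Dt t x z| ≤ B ∧ |Dx t x z| ≤ B)
    (hDd : ∀ z ∈ Icc (0 : ℝ) 1, ∀ t ∈ Ioo (0 : ℝ) 1, ∀ (u : ℝ → ℝ) (u' : ℝ), 0 < u t →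
      HasDerivWithinAt u u' (Ioi t) t →
      HasDerivWithinAt (fun s => D s (u s) z) (Dt t (u t) z + Dx t (u t) z * u') (Ioi t) t)
    (hanti : ∀ t ∈ Ioo (0 : ℝ) 1, ∀ x, 0 < x → (∃ z ∈ Icc (0 : ℝ) 1, S t x z) →
      AntitoneOn (D t x) (Icc 0 1))
    (hD0 : D 0 (specU m φ 0 / specM m φ) 0 ≤ 0)
    (hD1 : ∃ K : ℝ, ∀ᶠ b in 𝓝[<] (1 : ℝ), ∀ x, 0 < x → ∀ z ∈ Icc (0 : ℝ) 1,
      -K * (1 + x ^ 2) ≤ D b x z)
    (hS : ∀ t ∈ Ioo (0 : ℝ) 1, S t (specU m φ t / specM m φ) (shapeZ φ t))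
    (h : ∀ t ∈ Ioo (0 : ℝ) 1, ∀ x, 0 < x → ∀ z ∈ Icc (0 : ℝ) 1, S t x z →
      ballShape t ^ 2 * Dt t x z + (m : ℝ) / 2 * x * ((t - z) / (1 - t * z)) * Dx t x z -
        ((m : ℝ) + 1) * t * D t x z + tailLoss m x ≤
      W t * (x - 1) ^ 2 + tailGain m Q η t x ((t - z) / (1 - t * z))) :
    specExcess m φ ≤ specQuad m W (specV m φ) + specSurplus m Q φ +
      η * specEnergy m Q (fun t => specU' m φ t / specM m φ) := by
  rw [show ∀ X S E : ℝ, X + S + E = X + 1 * (S + E) from fun X S E => by ring]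
  exact excess_le_of_concave_scaled hm hφ hQ0 hQm hQ hWm hWb 1 hDc hDz hDm hDB hDd hanti hD0 hD1 hS
    fun t ht x hx z hz hSx => by rw [one_mul]; exact h t ht x hx z hz hSx

end Vale.Agent.P237.Quant
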