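import Mathlib
import Vale.Agent.P237.Quant.TailConcave

/-!
Separated fluxes `∑ i, σ i t * F i x * g i z`: the regularity hypotheses of the calibrations follow
from one-variable facts of the factors.
-/

namespace Vale.Agent.P237.Quant

open MeasureTheory Set Filter Topology

/-- The factors of a separated flux. -/
structure SepFlux (ι : Type*) where
  σ : ι → ℝ → ℝ
  σ' : ι → ℝ → ℝ
  F : ι → ℝ → ℝ
  F' : ι → ℝ → ℝ
  g : ι → ℝ → ℝ

namespace SepFlux

variable {ι : Type*} [Fintype ι] (A : SepFlux ι)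

/-- The flux. -/
noncomputable def D (t x z : ℝ) : ℝ := ∑ i, A.σ i t * A.F i x * A.g i z

/-- Its right derivative in `t`. -/
noncomputable def Dt (t x z : ℝ) : ℝ := ∑ i, A.σ' i t * A.F i x * A.g i z

/-- Its derivative in `x`. -/
noncomputable def Dx (t x z : ℝ) : ℝ := ∑ i, A.σ i t * A.F' i x * A.g i z

/-- What the factors have to satisfy. -/
structure Regular : Prop where
  σc : ∀ i, Continuous (A.σ i)
  σd : ∀ i, ∀ t ∈ Ioo (0 : ℝ) 1, HasDerivWithinAt (A.σ i) (A.σ' i t) (Ioi t) t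
  σm : ∀ i, Measurable (A.σ' i)
  σb : ∀ i, ∀ b < (1 : ℝ), ∃ B, ∀ t ∈ Ioo 0 b, |A.σ' i t| ≤ B
  Fd : ∀ i, ∀ x, 0 < x → HasDerivAt (A.F i) (A.F' i x) x
  Fc : ∀ i, ContinuousOn (A.F' i) (Ioi 0)
  Fm : ∀ i, Measurable (A.F i) ∧ Measurable (A.F' i)
  gc : ∀ i, ContinuousOn (A.g i) (Icc 0 1)

variable {A}

omit [Fintype ι] in
theorem Regular.F_cont (h : A.Regular) (i : ι) : ContinuousOn (A.F i) (Ioi 0) :=
  fun x hx => (h.Fd i x hx).continuousAt.continuousWithinAt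

theorem Regular.continuousOn_D (h : A.Regular) :
    ContinuousOn (fun p : ℝ × ℝ × ℝ => A.D p.1 p.2.1 p.2.2)
      (Ico 0 1 ×ˢ Ioi 0 ×ˢ Icc 0 1) := by
  refine continuousOn_finsetSum _ fun i _ => ?_
  refine (((h.σc i).comp continuous_fst).continuousOn.mul ?_).mul ?_
  · exact (h.F_cont i).comp (continuous_fst.comp continuous_snd).continuousOn fun p hp => hp.2.1
  · exact (h.gc i).comp (continuous_snd.comp continuous_snd).continuousOn fun p hp => hp.2.2

theorem Regular.continuousOn_z (h : A.Regular) (t x : ℝ) :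
    ContinuousOn (A.Dt t x) (Icc 0 1) ∧ ContinuousOn (A.Dx t x) (Icc 0 1) :=
  ⟨continuousOn_finsetSum _ fun i _ => continuousOn_const.mul (h.gc i),
    continuousOn_finsetSum _ fun i _ => continuousOn_const.mul (h.gc i)⟩

theorem Regular.measurable_partials (h : A.Regular) (z : ℝ) :
    Measurable (fun p : ℝ × ℝ => A.Dt p.1 p.2 z) ∧
      Measurable (fun p : ℝ × ℝ => A.Dx p.1 p.2 z) :=
  ⟨Finset.measurable_sum _ fun i _ =>
      (((h.σm i).comp measurable_fst).mul ((h.Fm i).1.comp measurable_snd)).mul_const _,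
    Finset.measurable_sum _ fun i _ =>
      (((h.σc i).measurable.comp measurable_fst).mul ((h.Fm i).2.comp measurable_snd)).mul_const _⟩

theorem Regular.bound (h : A.Regular) {b : ℝ} (hb : b < 1) {a c : ℝ} (ha : 0 < a) :
    ∃ B, ∀ t ∈ Ioo 0 b, ∀ x ∈ Icc a c, ∀ z ∈ Icc (0 : ℝ) 1,
      |A.Dt t x z| ≤ B ∧ |A.Dx t x z| ≤ B := by
  have hx : Icc a c ⊆ Ioi (0 : ℝ) := fun x hx => ha.trans_le hx.1
  choose S hS using fun i => h.σb i b hb
  choose P hP using fun i =>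
    (isCompact_Icc (a := (0 : ℝ)) (b := b)).exists_bound_of_continuousOn (h.σc i).continuousOn
  choose R hR using fun i =>
    (isCompact_Icc (a := a) (b := c)).exists_bound_of_continuousOn ((h.F_cont i).mono hx)
  choose R' hR' using fun i =>
    (isCompact_Icc (a := a) (b := c)).exists_bound_of_continuousOn ((h.Fc i).mono hx)
  choose G hG using fun i =>
    (isCompact_Icc (a := (0 : ℝ)) (b := 1)).exists_bound_of_continuousOn (h.gc i)
  refine ⟨∑ i, (|S i| * |R i| + |P i| * |R' i|) * |G i|, fun t ht x hx z hz => ⟨?_, ?_⟩⟩ <;>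
    refine (Finset.abs_sum_le_sum_abs _ _).trans (Finset.sum_le_sum fun i _ => ?_) <;>
    rw [abs_mul, abs_mul] <;>
    refine mul_le_mul ?_ ((hG i z hz).trans (le_abs_self _)) (abs_nonneg _) (by positivity)
  · exact (mul_le_mul ((hS i t ht).trans (le_abs_self _)) ((hR i x hx).trans (le_abs_self _))
      (abs_nonneg _) (abs_nonneg _)).trans (le_add_of_nonneg_right (by positivity))
  · exact (mul_le_mul ((hP i t (Ioo_subset_Icc_self ht)).trans (le_abs_self _))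
      ((hR' i x hx).trans (le_abs_self _)) (abs_nonneg _) (abs_nonneg _)).trans
      (le_add_of_nonneg_left (by positivity))

theorem Regular.chain (h : A.Regular) (z : ℝ) {t : ℝ} (ht : t ∈ Ioo (0 : ℝ) 1) {u : ℝ → ℝ}
    {u' : ℝ} (hu : 0 < u t) (hd : HasDerivWithinAt u u' (Ioi t) t) :
    HasDerivWithinAt (fun s => A.D s (u s) z) (A.Dt t (u t) z + A.Dx t (u t) z * u')
      (Ioi t) t := by
  refine (HasDerivWithinAt.fun_sum (u := Finset.univ) fun i _ =>
    (((h.σd i t ht).fun_mul ((h.Fd i _ hu).comp_hasDerivWithinAt t hd)).mul_const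
      (A.g i z))).congr_deriv ?_
  rw [SepFlux.Dt, SepFlux.Dx, Finset.sum_mul, ← Finset.sum_add_distrib]
  refine Finset.sum_congr rfl fun i _ => ?_
  simp only [Function.comp_apply]
  ring

/-- Nonnegative multipliers of antitone factors give a flux that is antitone in the state. -/
theorem antitoneOn_D {t x : ℝ} (h0 : ∀ i, 0 ≤ A.σ i t * A.F i x)
    (hg : ∀ i, AntitoneOn (A.g i) (Icc 0 1)) : AntitoneOn (A.D t x) (Icc 0 1) :=
  fun _ ha _ hb hab =>
    Finset.sum_le_sum fun i _ => mul_le_mul_of_nonneg_left (hg i ha hb hab) (h0 i)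

end SepFlux

variable {m : ℕ} {φ Q W : ℝ → ℝ} {η : ℝ}

/-- The tail lemma with a separated flux: only the sign of its start and end, its monotonicity in
the state and the pointwise inequality are left. -/
theorem excess_le_of_sepFlux {ι : Type*} [Fintype ι] (hm : 2 ≤ m) (hφ : IsShape φ)
    (hQ0 : ∀ t ∈ Ioo (0 : ℝ) 1, 0 ≤ Q t) (hQm : Measurable Q)
    (hQ : ∀ t ∈ Ioo (0 : ℝ) 1, ∀ r ∈ Icc (-1 : ℝ) 1, Q t * r ^ 2 ≤ pureBreg m t r)
    (hWm : Measurable W) {C : ℝ} (hWb : ∀ t ∈ Ioo (0 : ℝ) 1, |W t| ≤ C) (θ : ℝ)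
    {A : SepFlux ι} (hA : A.Regular) {S : ℝ → ℝ → ℝ → Prop}
    (hanti : ∀ t ∈ Ioo (0 : ℝ) 1, ∀ x, 0 < x → (∃ z ∈ Icc (0 : ℝ) 1, S t x z) →
      AntitoneOn (A.D t x) (Icc 0 1))
    (hD0 : A.D 0 (specU m φ 0 / specM m φ) 0 ≤ 0)
    (hD1 : ∃ K : ℝ, ∀ᶠ b in 𝓝[<] (1 : ℝ), ∀ x, 0 < x → ∀ z ∈ Icc (0 : ℝ) 1,
      -K * (1 + x ^ 2) ≤ A.D b x z)
    (hS : ∀ t ∈ Ioo (0 : ℝ) 1, S t (specU m φ t / specM m φ) (shapeZ φ t))
    (h : ∀ t ∈ Ioo (0 : ℝ) 1, ∀ x, 0 < x → ∀ z ∈ Icc (0 : ℝ) 1, S t x z →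
      ballShape t ^ 2 * A.Dt t x z + (m : ℝ) / 2 * x * ((t - z) / (1 - t * z)) * A.Dx t x z -
        ((m : ℝ) + 1) * t * A.D t x z + tailLoss m x ≤
      W t * (x - 1) ^ 2 + θ * tailGain m Q η t x ((t - z) / (1 - t * z))) :
    specExcess m φ ≤ specQuad m W (specV m φ) + θ * (specSurplus m Q φ +
      η * specEnergy m Q (fun t => specU' m φ t / specM m φ)) :=
  excess_le_of_concave_scaled hm hφ hQ0 hQm hQ hWm hWb θ hA.continuousOn_D
    (fun t _ x _ => hA.continuousOn_z t x) (fun z _ => hA.measurable_partials z)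
    (fun _ hb _ _ ha => hA.bound hb ha) (fun z _ _ ht _ _ hu hd => hA.chain z ht hu hd)
    hanti hD0 hD1 hS h

end Vale.Agent.P237.Quant
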