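import Vale.Agent.P237.Quant.WindowBall
import Vale.Agent.P237.Quant.WindowData.N5
import Vale.Agent.P237.Quant.LinearCauchy
import Vale.Agent.P237.Quant.FluxBound
import Vale.Agent.P237.Quant.EvenPoincare

/-!
Dimension five: the two bounds of the linear term, and the mass against the squared mean, from the
moment excess `1 / 25`, the Poincaré constant and the flux of the affine weight.
-/

namespace Vale.Agent.P237.Quant

open MeasureTheory Set

variable {φ : ℝ → ℝ}

theorem ballRatio_four : ballRatio 4 = 45 * Real.pi / 128 := by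
  rw [ballRatio, show 4 - 1 = 3 from rfl, WindowCert.mass_ball_eq 3, WindowCert.mass_ball_eq 4]
  norm_num [WindowCert.ballNum, WindowCert.ballDen]
  ring

theorem fluxSlope_four : fluxSlope 4 ≤ 401 / 1000 := by
  unfold fluxSlope
  norm_num

/-- The two consequences of the Cauchy bound in dimension five. -/
theorem four_cauchy (hφ : IsShape φ) (hx : powRatio 4 φ ≤ 1)
    (hV : convexVal 4 (pureG 4) φ ≤ 0) :
    mass 4 φ 1 ≤ 1114 / 1000 * specM 4 φ ^ 2 * mass 4 ballShape 1 ∧
      specLin 4 (specV 4 φ) ≤ 329 / 10000 ∧ -specLin 4 (specV 4 φ) ≤ 47 / 1000 := by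
  have hf := linFlux_sq_le (m := 4) (by norm_num) fluxSlope_four
  obtain ⟨hg0, hg, hF⟩ := hf
  have hD : (∫ t in (0 : ℝ)..1, φ t ^ 4 / ballShape t) ≤
      (1 + 1 / 25) * ballRatio 4 * mass 4 φ 1 :=
    (WindowCert.excess_of_cert WindowCert.data5_wf WindowCert.data5_const WindowCert.tree5_ok hφ
      hx).trans_eq (by norm_num [WindowCert.data5])
  have ha : poincareA 4 = 85 / 32 := by unfold poincareA; norm_num
  have hP := specV_quad_le (m := 4) le_rfl hφ
  rw [ha] at hP
  obtain ⟨hM, hL⟩ := mul_specLin_le (m := 4) (by norm_num) hφ hV (d := 1 / 25) (a := 85 / 32)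
    (b := 0) (by norm_num) (by norm_num) (by norm_num) hg0 hg hF hD hP
  norm_num at hM hL
  have hr : ballRatio 4 - 1 ≤ 104467 / 1000000 := by
    rw [ballRatio_four]
    linarith [Real.pi_lt_d6]
  have hg0' : (401 / 1000 : ℝ) * (ballRatio 4 - 1) ≤ 4190 / 100000 := by linarith
  refine ⟨hM.trans (mul_le_mul_of_nonneg_right (mul_le_mul_of_nonneg_right (by norm_num)
    (sq_nonneg _)) (ball_mass_pos 4).le), ?_, ?_⟩
  · have h := hL (229 / 1000) (-103 / 100) (by norm_num)
    norm_num at h
    nlinarith [hg0', hg0]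
  · have h := hL (-143 / 100) 4 (by norm_num)
    norm_num at h
    nlinarith [hg0', hg0]

/-- The lower bound of the linear term in dimension five. -/
theorem four_lin_lower (hφ : IsShape φ) (hx : powRatio 4 φ ≤ 1)
    (hV : convexVal 4 (pureG 4) φ ≤ 0) : -specLin 4 (specV 4 φ) ≤ 47 / 1000 :=
  (four_cauchy hφ hx hV).2.2

/-- The upper bound of the linear term in dimension five. -/
theorem four_lin_upper (hφ : IsShape φ) (hx : powRatio 4 φ ≤ 1)
    (hV : convexVal 4 (pureG 4) φ ≤ 0) : specLin 4 (specV 4 φ) ≤ 329 / 10000 :=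
  (four_cauchy hφ hx hV).2.1

end Vale.Agent.P237.Quant
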