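import Vale.Agent.P237.Quant.FourData

/-!
The two spectral hypotheses of `pureLemma_of_sides` in dimension five, for the tail potential
`fourW` and the energy shares `4251 / 25000` and `1479 / 12500`.
-/

namespace Vale.Agent.P237.Quant

open MeasureTheory Set

/-- The tail potential of dimension five. -/
noncomputable def fourW (t : ℝ) : ℝ :=
  (93 / 40 + 23 / 20 * ballShape t - 2 / 5 * ballShape t ^ 2) / 5

theorem continuous_fourW : Continuous fourW := by
  have := cont_ball
  unfold fourW
  fun_prop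

theorem fourW_bound : ∀ t ∈ Ioo (0 : ℝ) 1, |fourW t| ≤ 1 := fun t ht => by
  have h0 := (ball_mem_Icc t).1
  have h1 := (ball_mem_Icc t).2
  rw [fourW, abs_le]
  constructor <;> nlinarith [mul_le_mul_of_nonneg_left h1 h0]

theorem ballRatio_four_bounds : (110446 / 100000 : ℝ) ≤ ballRatio 4 ∧ ballRatio 4 ≤ 110447 / 100000 := by
  rw [FourData.ballRatio_four']
  constructor <;> linarith [Real.pi_gt_d6, Real.pi_lt_d6]

theorem abs_combo_le {a b c w p : ℝ} (hw : |w| ≤ 1) (hp : |p| ≤ 3) :
    |a * w + b * p + c| ≤ |a| + 3 * |b| + |c| := by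
  refine (abs_add_le _ _).trans (add_le_add ((abs_add_le _ _).trans (add_le_add ?_ ?_)) le_rfl)
  · rw [abs_mul]; exact mul_le_of_le_one_right (abs_nonneg a) hw
  · rw [abs_mul, mul_comm 3]; exact mul_le_mul_of_nonneg_left hp (abs_nonneg b)

theorem abs_ballTerm_le (t : ℝ) : |ballRatio 4 * ballShape t - 1| ≤ 3 := by
  obtain ⟨h0, h1⟩ := ball_mem_Icc t
  obtain ⟨r0, r1⟩ := ballRatio_four_bounds
  have := mul_le_mul r1 h1 h0 (by norm_num : (0 : ℝ) ≤ 110447 / 100000)
  have := mul_nonneg (by linarith : (0 : ℝ) ≤ ballRatio 4) h0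
  rw [abs_le]
  constructor <;> linarith

/-- The certificate of the negative side, with `μ₁ = 6` and `e₁ = 47 / 1000`. -/
theorem four_certNeg :
    SpecPoincare 4 (1 - 4251 / 25000 * (1 + 6 * (47 / 1000))) (fun t => (1 + 6 * (47 / 1000)) * fourW t +
      6 * (47 / 1000) * (ballRatio 4 * ballShape t - 1) + 1 / 100000) 6 := by
  obtain ⟨hc, -, h0, h1, h2, -, -⟩ := FourData.neg_vals
  have hW : Continuous FourData.negPot.W := FourPot.continuous_P.comp cont_ball
  obtain ⟨C, hC⟩ := (isCompact_Icc (a := (0 : ℝ)) (b := 1)).exists_bound_of_continuousOn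
    hW.continuousOn
  have := cont_ball
  refine FourData.neg_poincare.mono (by norm_num) (C := |1 + 6 * (47 / 1000 : ℝ)| +
      3 * |6 * (47 / 1000 : ℝ)| + |(1 / 100000 : ℝ)|) (C' := C) ?_ le_rfl ?_
    (fun t ht => abs_combo_le (fourW_bound t ht) (abs_ballTerm_le t)) hW.measurable
    (fun t ht => hC t (Ioo_subset_Icc_self ht)) fun t _ => ?_
  · rw [hc]; norm_num
  · exact Continuous.measurable (by have := continuous_fourW; fun_prop)
  · simp only [FourPot.W, FourPot.P, h0, h1, h2, fourW]
    nlinarith [mul_le_mul_of_nonneg_right ballRatio_four_bounds.2 (ball_mem_Icc t).1]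

/-- The certificate of the positive side, with `μ₂ = 487 / 100` and `e₂ = 329 / 10000`. -/
theorem four_certPos :
    SpecPoincare 4 (1 - 1479 / 12500 + 487 / 100 * (329 / 10000)) (fun t => fourW t +
      487 / 100 * (329 / 10000) * (1 - ballRatio 4 * ballShape t) + 1 / 100000) (487 / 100) := by
  obtain ⟨hc, -, h0, h1, h2, -, -⟩ := FourData.pos_vals
  have hW : Continuous FourData.posPot.W := FourPot.continuous_P.comp cont_ball
  obtain ⟨C, hC⟩ := (isCompact_Icc (a := (0 : ℝ)) (b := 1)).exists_bound_of_continuousOn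
    hW.continuousOn
  have := cont_ball
  refine FourData.pos_poincare.mono (by norm_num) (C := |(1 : ℝ)| +
      3 * |487 / 100 * (329 / 10000 : ℝ)| + |(1 / 100000 : ℝ)|) (C' := C) ?_ le_rfl ?_
    (fun t ht => ?_) hW.measurable
    (fun t ht => hC t (Ioo_subset_Icc_self ht)) fun t _ => ?_
  · rw [hc]; norm_num
  · exact Continuous.measurable (by have := continuous_fourW; fun_prop)
  · have h := abs_combo_le (a := 1) (b := 487 / 100 * (329 / 10000)) (c := 1 / 100000) (fourW_bound t ht)
      ((abs_sub_comm _ _).trans_le (abs_ballTerm_le t))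
    rwa [one_mul] at h
  · simp only [FourPot.W, FourPot.P, h0, h1, h2, fourW]
    nlinarith [mul_le_mul_of_nonneg_right ballRatio_four_bounds.1 (ball_mem_Icc t).1]

end Vale.Agent.P237.Quant
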