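import Vale.Agent.P237.Quant.PureAssembly
import Vale.Agent.P237.Quant.FourPoincare
import Vale.Agent.P237.Quant.FourLinear

/-!
The pure lemma in dimension five from the two tail inequalities.
-/

namespace Vale.Agent.P237.Quant

open MeasureTheory Set

/-- The tail inequality of dimension five, with surplus weight `θ` and energy share `η`, on the
shapes selected by `P`. -/
def FourTail (θ η : ℝ) (P : (ℝ → ℝ) → Prop) : Prop :=
  ∀ φ, IsShape φ → powRatio 4 φ ≤ 1 → convexVal 4 (pureG 4) φ ≤ 0 → P φ →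
    specExcess 4 φ ≤ specQuad 4 fourW (specV 4 φ) + θ * specSurplus 4 (bregPoly 4) φ +
      η * specEnergy 4 (bregPoly 4) (fun t => specU' 4 φ t / specM 4 φ)

/-- The pure lemma in dimension five from the two tail inequalities. -/
theorem pureLemma_four_of_tail
    (hX₁ : FourTail (39 / 50) (4251 / 25000) fun φ => specLin 4 (specV 4 φ) < 0)
    (hX₂ : FourTail (29 / 25) (1479 / 12500) fun φ => 0 ≤ specLin 4 (specV 4 φ)) :
    PureLemma 4 :=
  pureLemma_of_sides (W₁ := fourW) (W₂ := fourW) (δ := 1 / 100000) (C₁ := 1) (C₂ := 1)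
    (θ₁ := 39 / 50) (θ₂ := 29 / 25) (e₁ := 47 / 1000) (e₂ := 329 / 10000) (μ₁ := 6)
    (μ₂ := 487 / 100) (η₁ := 4251 / 25000) (η₂ := 1479 / 12500) (by norm_num) (by norm_num) (by norm_num) (by norm_num)
    continuous_fourW.measurable fourW_bound continuous_fourW.measurable fourW_bound
    (by norm_num) (by norm_num) (fun φ h₁ h₂ h₃ => four_lin_lower h₁ h₂ h₃)
    (fun φ h₁ h₂ h₃ => four_lin_upper h₁ h₂ h₃) hX₁ hX₂ four_certNeg four_certPos

end Vale.Agent.P237.Quant
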