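import Vale.Agent.P237.Quant.CertSuper
import Vale.Agent.P237.Quant.SchurBridge
import Vale.Agent.P237.Quant.WindowBall

/-!
Spectral certificates in dimension five for potentials quadratic in `p`: three supersolutions
checked in the kernel, the test functions `1` and `a / p + b + d p`, and one quadratic inequality
whose coefficients are integrals of polynomials in `p`.
-/

namespace Vale.Agent.P237.Quant

open MeasureTheory Set Filter Four.Checker QP

/-- The data of a certificate in dimension five. -/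
structure FourPot where
  cen : Lin
  spare : Lin
  w₀ : Lin
  w₁ : Lin
  w₂ : Lin
  ξ : Lin
  η : Lin

namespace FourPot

variable (K : FourPot)

/-- The value of a datum. -/
noncomputable def v (l : Lin) : ℝ := l.eval (certS 4)

/-- The potential as a function of `p`. -/
noncomputable def P (x : ℝ) : ℝ := v K.w₀ + v K.w₁ * x + v K.w₂ * x ^ 2

/-- The potential. -/
noncomputable def W (t : ℝ) : ℝ := K.P (ballShape t)

/-- The chart of `p` between two ends. -/
def chart (lo hi : Lin) : Chart :=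
  let s := const 1 4
  let c := (lo.qp s).add (Y.mul ((hi.qp s).sub (lo.qp s)))
  ⟨c, (const 1 0).sub (c.mul c), (const 5 0).mul ((const 1 0).sub (c.mul c)), const 1 0, const 1 0,
    (const 5 0).mul ((const 1 0).sub c), s⟩

/-- The polynomials of a supersolution. -/
def polys (F : CertFam) (R : Chart) : List QP :=
  let q (l : Lin) := l.qp R.s
  let op := famOp R.c R.T R.S R.Z (q F.g) (q F.a₁) (q F.b₁) (q F.a₂) (q F.b₂) (q F.a₃) (q F.b₃)
    (q F.e₁) (q F.e₂) (q F.e₃) R.w R.v
  let D := famD (q F.a₁) (q F.b₁) (q F.a₂) (q F.b₂) (q F.a₃) (q F.b₃) R.w R.v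
  let pot := (((q K.w₀).add ((q K.w₁).mul R.c)).add ((q K.w₂).mul (R.c.mul R.c))).add (q K.spare)
  let eps := (const 1 999999).mul R.w
  [((q K.cen).mul op).sub (((const 2 0).mul pot).mul (D.mul D)),
    (((q F.a₁).mul R.w).add ((q F.b₁).mul R.v)).sub eps,
    (((q F.a₂).mul R.w).add ((q F.b₂).mul R.v)).sub eps,
    (((q F.a₃).mul R.w).add ((q F.b₃).mul R.v)).sub eps]

/-- The box of a chart. -/
def box : Box := ⟨1000, 0, 1000, 0, 1000⟩

/-- The conditions on the data. -/
def nodePolys : List QP :=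
  let q (l : Lin) := l.qp (const 1 4)
  let e := const 1 999999
  [(q K.cen).sub e, (q K.spare).sub e, (q K.η).sub e, ((q K.ξ).sub (q K.η)).sub e,
    ((const 1 0).sub (q K.ξ)).sub e]

/-- The checks. -/
def check (F₀ F₁ F₂ : CertFam) (tg t0 t1 t2 : List WeightCert.Tree) : Bool :=
  let R₂ := chart ⟨0, 0, 0⟩ K.η
  checkAll box K.nodePolys tg &&
    checkAll box (K.polys F₀ (chart K.ξ ⟨1, 0, 0⟩)) t0 &&
    checkAll box (K.polys F₁ (chart K.η K.ξ)) t1 &&
    checkAll box (fluxPoly F₂ R₂ :: K.polys F₂ R₂) t2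

theorem op_of_polys {F : CertFam} {R : Chart} {t x y : ℝ} (hR : R.At 4 t x y)
    (hZ : R.Z.val x y = 1) (h : ∀ A ∈ K.polys F R, 0 ≤ A.val x y) :
    (F.fam (certS 4)).Pos (certY 4 t) ∧
      2 * (K.W t + v K.spare) ≤
        v K.cen * certOp 4 (v F.g) (F.fam (certS 4)).L (F.fam (certS 4)).L' t := by
  simp only [polys, List.forall_mem_cons, List.not_mem_nil, IsEmpty.forall_iff,
    implies_true, and_true] at h
  obtain ⟨hA, h1, h2, h3⟩ := h
  have eq : ∀ l : Lin, (l.qp R.s).val x y = v l := fun l => l.val_qp hR.s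
  have hw : R.w.val x y = 1 := hR.zw ▸ hZ
  simp only [val_sub, val_add, val_mul, val_const, eq, hR.v, hw] at h1 h2 h3
  push_cast at h1 h2 h3
  set F' := F.fam (certS 4) with hF'
  have hpos : F'.Pos (certY 4 t) := by
    simp only [hF', Fam.Pos, CertFam.fam]
    simp only [v] at h1 h2 h3
    exact ⟨by linarith, by linarith, by linarith⟩
  refine ⟨hpos, ?_⟩
  have hop := val_famOp (F := F') (g := F.g.qp R.s) x y
    (a₁ := F.a₁.qp R.s) (b₁ := F.b₁.qp R.s) (a₂ := F.a₂.qp R.s) (b₂ := F.b₂.qp R.s)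
    (a₃ := F.a₃.qp R.s) (b₃ := F.b₃.qp R.s) (e₁ := F.e₁.qp R.s) (e₂ := F.e₂.qp R.s)
    (e₃ := F.e₃.qp R.s) ⟨eq _, eq _, eq _, eq _, eq _, eq _, eq _, eq _, eq _⟩ hpos hR.v hR.c hR.T
    hR.S (eq _)
  have hD : (famD (F.a₁.qp R.s) (F.b₁.qp R.s) (F.a₂.qp R.s) (F.b₂.qp R.s) (F.a₃.qp R.s)
      (F.b₃.qp R.s) R.w R.v).val x y = F'.D (R.w.val x y) (R.v.val x y) := by
    simp only [famD, Fam.D, hF', CertFam.fam, val_mul, val_add, eq, v]
  simp only [val_sub, val_add, val_mul, val_const, eq, hop, hD, hR.c, hR.v, hw, hZ, mul_one,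
    one_mul] at hA
  push_cast at hA
  set D := F'.D 1 (certY 4 t) with hDdef
  have hD0 : 0 < D := by
    simp only [hDdef, Fam.D, mul_one]
    simp only [Fam.Pos, mul_comm] at hpos
    have := mul_pos (mul_pos hpos.1 hpos.2.1) hpos.2.2
    linarith
  refine sub_nonneg.1 (nonneg_of_mul_nonneg_right (hA.trans_eq ?_) (mul_pos hD0 hD0))
  simp only [W, P]
  ring

theorem chart_at {lo hi : Lin} {t x y : ℝ} (ht : t ∈ Icc (0 : ℝ) 1)
    (h : v lo + y * (v hi - v lo) = ballShape t) : (chart lo hi).At 4 t x y := by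
  have hp2 : ballShape t ^ 2 = 1 - t ^ 2 := ball_sq ⟨by linarith [ht.1], ht.2⟩
  have es : (const 1 4).val x y = certS 4 := by rw [val_const, certS]; norm_num
  have e : ∀ l : Lin, (l.qp (const 1 4)).val x y = v l := fun l => l.val_qp es
  constructor <;> simp only [chart, val_mul, val_add, val_sub, val_const, val_Y, e, h, Int.cast_one,
    Int.cast_ofNat, Nat.cast_zero, zero_add, div_one, one_mul, mul_one, zero_lt_one, certY]
  · linear_combination -hp2
  · push_cast
    linear_combination (-5 : ℝ) * hp2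
  · push_cast
    ring
  · rw [← es, val_const]
    norm_num

/-- The value of a test function's polynomial part. -/
def quadP (a b d x : ℝ) : ℝ := a + b * x + d * x ^ 2

/-- The defect of the constant, divided by `p ^ 2`. -/
noncomputable def H₁ (x : ℝ) : ℝ := -(x * K.P x)

/-- The defect of `a / p + b + d p`, divided by `p ^ 2`. -/
noncomputable def H₂ (a b d x : ℝ) : ℝ :=
  v K.cen / 10 * ((weightPoly' x * x * (a - d * x ^ 2) + weightPoly x * (4 * a - 6 * d * x ^ 2)) *
    (1 - x ^ 2) - weightPoly x * x ^ 2 * (a - d * x ^ 2)) - K.P x * quadP a b d x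

/-- The residual of a defect, divided by `p ^ 2`. -/
noncomputable def res (H : ℝ → ℝ) (τ κ x : ℝ) : ℝ :=
  H x + x * (τ * (2 * (ballRatio 4 * x - 1)) + κ)

end FourPot

/-- The integral of a function of `p`. -/
noncomputable def pInt (f : ℝ → ℝ) : ℝ := ∫ t in (0 : ℝ)..1, f (ballShape t)

/-- The integral of a polynomial in `p` from its coefficients. -/
noncomputable def coefMass : List ℝ → ℕ → ℝ
  | [], _ => 0
  | a :: l, k => a * mass k ballShape 1 + coefMass l (k + 1)

/-- The polynomial with the given coefficients. -/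
noncomputable def coefVal : List ℝ → ℕ → ℝ → ℝ
  | [], _, _ => 0
  | a :: l, k, x => a * x ^ k + coefVal l (k + 1) x

theorem continuous_coefVal : ∀ (l : List ℝ) (k : ℕ), Continuous (coefVal l k)
  | [], k => by simp only [coefVal]; fun_prop
  | a :: l, k => by
    have := continuous_coefVal l (k + 1)
    simp only [coefVal]
    fun_prop

theorem pInt_coefVal : ∀ (l : List ℝ) (k : ℕ), pInt (coefVal l k) = coefMass l k
  | [], k => by simp [pInt, coefVal, coefMass]
  | a :: l, k => by
    rw [pInt]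
    simp only [coefVal, coefMass]
    rw [intervalIntegral.integral_add (((cont_pow k).intervalIntegrable _ _).const_mul a)
      (show IntervalIntegrable (fun t => coefVal l (k + 1) (ballShape t)) volume 0 1 from
        ((continuous_coefVal l (k + 1)).comp cont_ball).intervalIntegrable _ _),
      intervalIntegral.integral_const_mul]
    rw [← pInt_coefVal l (k + 1)]
    rfl

theorem pInt_eq {f : ℝ → ℝ} {l : List ℝ} (h : ∀ x, f x = coefVal l 0 x) :
    pInt f = coefMass l 0 := by
  rw [← pInt_coefVal, show f = coefVal l 0 from funext h]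

namespace FourPot

variable {K : FourPot}

theorem continuous_P : Continuous K.P := by unfold P; fun_prop

theorem test_one (c : ℝ) : CertTestFun 4 c K.W (fun _ => 1) (fun _ => 0)
    (fun t => ballShape t ^ 2 * K.H₁ (ballShape t)) := by
  obtain ⟨C, hC⟩ := (isCompact_Icc (a := (0 : ℝ)) (b := 1)).exists_bound_of_continuousOn
    (continuous_P (K := K)).continuousOn
  have hP := continuous_P (K := K)
  have hb := cont_ball
  refine ⟨fun t _ => hasDerivAt_const t 1, fun t _ => ?_, rfl, continuousOn_const, ?_,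
    |C| + 1, by positivity, fun t ht => ?_⟩
  · refine ((hasDerivAt_const t (0 : ℝ)).congr_of_eventuallyEq
      (Eventually.of_forall fun x => mul_zero _)).congr_deriv ?_
    simp only [H₁, W, show 4 - 1 = 3 from rfl]
    ring
  · exact Continuous.measurable (by unfold H₁; fun_prop)
  · have hp := ball_pos (sub01 ht)
    have hp1 := ball_le_one t
    have h2 : (1 : ℝ) ≤ (|C| + 1) / ballShape t ^ 2 := by
      rw [le_div_iff₀ (pow_pos hp 2), one_mul]
      linarith [pow_le_one₀ (n := 2) hp.le hp1, abs_nonneg C]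
    refine ⟨by rw [abs_one]; exact h2, by rw [abs_zero]; positivity, ?_⟩
    have hW : |K.P (ballShape t)| ≤ C := hC _ ⟨hp.le, hp1⟩
    rw [show 4 - 1 = 3 from rfl, H₁, abs_mul, abs_neg, abs_mul, abs_of_pos hp,
      abs_of_pos (pow_pos hp 2)]
    calc ballShape t ^ 2 * (ballShape t * |K.P (ballShape t)|)
        ≤ ballShape t ^ 2 * (ballShape t * (|C| + 1)) := by
          gcongr
          linarith [le_abs_self C]
      _ = ballShape t ^ 3 * (|C| + 1) := by ring
      _ ≤ ballShape t ^ 3 * ((|C| + 1) / ballShape t ^ 2) := mul_le_mul_of_nonneg_left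
          (le_div_self (by positivity) (pow_pos hp 2) (pow_le_one₀ hp.le hp1)) (pow_nonneg hp.le 3)

theorem test_quad (a b d : ℝ) : CertTestFun 4 (v K.cen) K.W
    (fun t => quadP a b d (ballShape t) / ballShape t)
    (fun t => (a / ballShape t ^ 2 - d) * (t / ballShape t))
    (fun t => ballShape t ^ 2 * K.H₂ a b d (ballShape t)) := by
  have hP := continuous_P (K := K)
  have hb := cont_ball
  have hw : Continuous weightPoly := by unfold weightPoly; fun_prop
  have hw' : Continuous weightPoly' := by unfold weightPoly'; fun_prop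
  have hH : Continuous (K.H₂ a b d) := by unfold H₂ quadP; fun_prop
  obtain ⟨C, hC⟩ := (isCompact_Icc (a := (0 : ℝ)) (b := 1)).exists_bound_of_continuousOn
    hH.continuousOn
  have hI : ∀ {t : ℝ}, t ∈ Ico (0 : ℝ) 1 → t ∈ Ioo (-1 : ℝ) 1 := fun ht =>
    ⟨by linarith [ht.1], ht.2⟩
  refine ⟨fun t ht => ?_, fun t ht => ?_, by simp, fun t ht => ?_, ?_,
    |a| + |b| + |d| + |C|, by positivity, fun t ht => ?_⟩
  · have hp := ball_pos (hI ht)
    have h := hasDerivAt_ball (hI ht)
    refine ((((h.const_mul b).const_add a).add ((h.pow 2).const_mul d)).div h hp.ne').congr_deriv ?_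
    simp only [quadP, Pi.pow_apply, Pi.add_apply]
    field_simp
    ring
  · have hp := ball_pos (hI ht)
    have h := hasDerivAt_ball (hI ht)
    have hk : ∀ x ∈ Ioo (-1 : ℝ) 1,
        certK 4 (v K.cen) x * ((a / ballShape x ^ 2 - d) * (x / ballShape x)) =
          v K.cen / 10 * (weightPoly (ballShape x) * ballShape x ^ 4 * (a - d * ballShape x ^ 2) * x) :=
      fun x hx => by
      have := (ball_pos hx).ne'
      simp only [certK]
      push_cast
      field_simp
      ring
    refine (((((((hasDerivAt_weightPoly _).comp t h).mul (h.pow 4)).mul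
      (((h.pow 2).const_mul d).const_sub a)).mul (hasDerivAt_id' t)).const_mul
        (v K.cen / 10)).congr_of_eventuallyEq ((isOpen_Ioo.eventually_mem (hI ht)).mono hk)).congr_deriv ?_
    simp only [H₂, W, quadP, show 4 - 1 = 3 from rfl, Pi.mul_apply, Pi.pow_apply, Function.comp_apply]
    rw [show t = t from rfl]
    have hp2 : ballShape t ^ 2 = 1 - t ^ 2 := ball_sq (Ioo_subset_Icc_self (hI ht))
    push_cast
    field_simp
    ring_nf
    rw [show t ^ 2 = 1 - ballShape t ^ 2 by linarith]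
    ring
  · have hp := ball_pos (sub01 ht)
    exact ((continuousAt_const.div (hb.continuousAt.pow 2) (pow_ne_zero 2 hp.ne')).sub
      continuousAt_const).mul (continuousAt_id.div hb.continuousAt hp.ne') |>.continuousWithinAt
  · exact ((hb.pow 2).mul (hH.comp hb)).measurable
  · have hp := ball_pos (sub01 ht)
    have hp1 := ball_le_one t
    set p := ballShape t with hpdef
    set B := |a| + |b| + |d| + |C| with hB
    have hp2 : p ^ 2 ≤ 1 := pow_le_one₀ hp.le hp1
    refine ⟨?_, ?_, ?_⟩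
    · rw [abs_div, abs_of_pos hp, div_le_div_iff₀ hp (pow_pos hp 2)]
      have : |quadP a b d p| ≤ B := by
        have h1 : |b * p| ≤ |b| := by
          rw [abs_mul, abs_of_pos hp]; exact mul_le_of_le_one_right (abs_nonneg _) hp1
        have h2 : |d * p ^ 2| ≤ |d| := by
          rw [abs_mul, abs_of_pos (pow_pos hp 2)]; exact mul_le_of_le_one_right (abs_nonneg _) hp2
        linarith [abs_add_le (a + b * p) (d * p ^ 2), abs_add_le a (b * p), abs_nonneg C,
          show quadP a b d p = a + b * p + d * p ^ 2 from rfl,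
          (congrArg abs (show quadP a b d p = a + b * p + d * p ^ 2 from rfl)).le]
      calc |quadP a b d p| * p ^ 2 ≤ B * p ^ 2 := mul_le_mul_of_nonneg_right this (by positivity)
        _ = B * p * p := by ring
        _ ≤ B * p * 1 := mul_le_mul_of_nonneg_left hp1 (by positivity)
        _ = B * p := mul_one _
    · have h1 : |a / p ^ 2 - d| ≤ (|a| + |d|) / p ^ 2 := by
        rw [add_div]
        refine (abs_sub _ _).trans (add_le_add ?_ ?_)
        · rw [abs_div, abs_of_pos (pow_pos hp 2)]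
        · exact le_div_self (abs_nonneg _) (pow_pos hp 2) hp2
      have h2 : |t / p| ≤ 1 / p := by
        rw [abs_div, abs_of_pos hp, abs_of_pos ht.1]
        exact div_le_div_of_nonneg_right ht.2.le hp.le
      rw [abs_mul]
      refine (mul_le_mul h1 h2 (abs_nonneg _) (by positivity)).trans ?_
      rw [div_mul_div_comm, mul_one, ← pow_succ, div_le_div_iff₀ (pow_pos hp 3) (pow_pos hp 4)]
      calc (|a| + |d|) * p ^ 4 = (|a| + |d|) * p * p ^ 3 := by ring
        _ ≤ B * p ^ 3 := mul_le_mul_of_nonneg_right ((mul_le_of_le_one_right (by positivity)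
            hp1).trans (by linarith [abs_nonneg b, abs_nonneg C])) (by positivity)
    · rw [show 4 - 1 = 3 from rfl, abs_mul, abs_of_pos (pow_pos hp 2),
        show p ^ 3 * (B / p ^ 2) = p * B by field_simp]
      have hW : |K.H₂ a b d p| ≤ B :=
        (hC p ⟨hp.le, hp1⟩).trans (by linarith [le_abs_self C, abs_nonneg a, abs_nonneg b, abs_nonneg d])
      exact mul_le_mul (by nlinarith) hW (abs_nonneg _) hp.le

/-- A certificate in dimension five. -/
theorem poincare {F₀ F₁ F₂ : CertFam} {tg t0 t1 t2 : List WeightCert.Tree}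
    (h : K.check F₀ F₁ F₂ tg t0 t1 t2 = true) {μ a b d τ₁ τ₂ κ₁ κ₂ : ℝ} (hμ : 0 < μ)
    (hdet : quadP a b d (v K.η) / v K.η - quadP a b d (v K.ξ) / v K.ξ ≠ 0)
    (hM : ∀ α β : ℝ, 0 ≤
      α ^ 2 * pInt (fun x => x ^ 2 * K.H₁ x) +
      2 * α * β * pInt (fun x => x * K.H₁ x * quadP a b d x) +
      β ^ 2 * pInt (fun x => x * K.H₂ a b d x * quadP a b d x) +
      2 * (α * τ₁ + β * τ₂) * (α * pInt (fun x => x ^ 3 * (2 * (ballRatio 4 * x - 1))) +
        β * pInt (fun x => x ^ 2 * (2 * (ballRatio 4 * x - 1)) * quadP a b d x)) +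
      2 * (α * κ₁ + β * κ₂) * (α * pInt (fun x => x ^ 3) +
        β * pInt (fun x => x ^ 2 * quadP a b d x)) -
      (α * τ₁ + β * τ₂) ^ 2 / (μ / mass 3 ballShape 1) -
      (α ^ 2 * pInt (fun x => x * res K.H₁ τ₁ κ₁ x ^ 2) +
        2 * α * β * pInt (fun x => x * res K.H₁ τ₁ κ₁ x * res (K.H₂ a b d) τ₂ κ₂ x) +
        β ^ 2 * pInt (fun x => x * res (K.H₂ a b d) τ₂ κ₂ x ^ 2)) / v K.spare) :
    SpecPoincare 4 (v K.cen) K.W μ := by
  simp only [check, Bool.and_eq_true] at h
  obtain ⟨⟨⟨hg, h0⟩, h1⟩, h2⟩ := h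
  have hmem : ∀ y ∈ Icc (0 : ℝ) 1, Packed.memC box (0 : ℝ) y := fun y hy =>
    ⟨by norm_num [box], by norm_num [box], by norm_num [box], by norm_num [box], by norm_num [box],
      by simpa [box] using mul_nonneg hy.1 (by norm_num : (0 : ℝ) ≤ 1000),
      by simp only [box]; push_cast; nlinarith [hy.2]⟩
  have hgr := checkAll_sound (hmem 0 ⟨le_rfl, zero_le_one⟩) hg
  have es : (const 1 4).val (0 : ℝ) 0 = certS 4 := by rw [val_const, certS]; norm_num
  simp only [nodePolys, List.forall_mem_cons, List.not_mem_nil, IsEmpty.forall_iff, implies_true,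
    and_true, val_sub, val_const, Lin.val_qp _ es] at hgr
  push_cast at hgr
  obtain ⟨gc, gs, g1, g2, g3⟩ := hgr
  have hc : 0 ≤ v K.cen := by simp only [v]; linarith
  have hs : 0 < v K.spare := by simp only [v]; linarith
  have hη0 : 0 < v K.η := by simp only [v]; linarith
  have hξη : v K.η < v K.ξ := by simp only [v]; linarith
  have hξ1 : v K.ξ < 1 := by simp only [v]; linarith
  have node : ∀ x ∈ Ioo (0 : ℝ) 1, 0 ≤ √(1 - x ^ 2) ∧ √(1 - x ^ 2) < 1 ∧
      ballShape √(1 - x ^ 2) = x := fun x hx => by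
    refine ⟨Real.sqrt_nonneg _, ?_, ?_⟩
    · rw [Real.sqrt_lt' one_pos]; nlinarith [hx.1]
    · rw [ballShape, Real.sq_sqrt (by nlinarith [hx.1, hx.2]), sub_sub_cancel, Real.sqrt_sq hx.1.le]
  obtain ⟨ξ0, ξ1, pξ⟩ := node (v K.ξ) ⟨hη0.trans hξη, hξ1⟩
  obtain ⟨η0, η1, pη⟩ := node (v K.η) ⟨hη0, hξη.trans hξ1⟩
  have hle : √(1 - v K.ξ ^ 2) ≤ √(1 - v K.η ^ 2) :=
    Real.sqrt_le_sqrt (by nlinarith)
  set ξ := √(1 - v K.ξ ^ 2)
  set η := √(1 - v K.η ^ 2)
  have anti : ∀ {a b : ℝ}, 0 ≤ a → a ≤ b → ballShape b ≤ ballShape a := fun {a b} ha hab =>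
    Real.sqrt_le_sqrt (by nlinarith [pow_le_pow_left₀ ha hab 2])
  have v01 : v (⟨0, 0, 0⟩ : Lin) = 0 ∧ v (⟨1, 0, 0⟩ : Lin) = 1 := by simp [v, Lin.eval]
  have fin : ∀ (lo hi : Lin), v lo < v hi → ∀ t ∈ Icc (0 : ℝ) 1, v lo ≤ ballShape t →
      ballShape t ≤ v hi → ∃ y ∈ Icc (0 : ℝ) 1, (chart lo hi).At 4 t 0 y ∧
        (chart lo hi).Z.val (0 : ℝ) y = 1 := fun lo hi hlh t ht h1 h2 => by
    have hd : 0 < v hi - v lo := sub_pos.2 hlh
    refine ⟨(ballShape t - v lo) / (v hi - v lo), ⟨div_nonneg (sub_nonneg.2 h1) hd.le,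
      (div_le_one hd).2 (by linarith)⟩, chart_at ht ?_, by simp [chart, val_const]⟩
    rw [div_mul_cancel₀ _ hd.ne']
    ring
  have mk : ∀ (F : CertFam) (a' b' : ℝ), 0 ≤ a' → b' < 1 →
      (∀ t ∈ Icc a' b', (F.fam (certS 4)).Pos (certY 4 t) ∧ 2 * (K.W t + v K.spare) ≤
        v K.cen * certOp 4 (v F.g) (F.fam (certS 4)).L (F.fam (certS 4)).L' t) →
      Picone.Supersolution (certK 4 (v K.cen))
        (fun t => ballShape t ^ (4 - 1) * K.W t + ballShape t ^ (4 - 1) * v K.spare)
        (certFun 4 (v F.g) (F.fam (certS 4)).u)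
        (certFlux 4 (v K.cen) (v F.g) (F.fam (certS 4)).u (F.fam (certS 4)).L) a' b' :=
    fun F a' b' ha hb hh => by
    have := supersolution_of_op (m := 4) (c := v K.cen) (g := v F.g) (u := (F.fam (certS 4)).u)
      (L := (F.fam (certS 4)).L) (L' := (F.fam (certS 4)).L')
      (P := fun t => 2 * (K.W t + v K.spare)) (by norm_num) ha hb
      (fun t ht => ⟨(F.fam (certS 4)).u_pos (hh t ht).1, (F.fam (certS 4)).hasDerivAt_u (hh t ht).1,
        (F.fam (certS 4)).hasDerivAt_L (hh t ht).1⟩) fun t ht => (hh t (Ioo_subset_Icc_self ht)).2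
    convert this using 2
    push_cast
    ring
  have ball0 : ballShape 0 = 1 := by simp [ballShape]
  have in₀ : ∀ t ∈ Icc 0 ξ, (F₀.fam (certS 4)).Pos (certY 4 t) ∧ 2 * (K.W t + v K.spare) ≤
      v K.cen * certOp 4 (v F₀.g) (F₀.fam (certS 4)).L (F₀.fam (certS 4)).L' t := fun t ht => by
    obtain ⟨y, hy, hR, hZ⟩ := fin K.ξ ⟨1, 0, 0⟩ (v01.2 ▸ hξ1) t ⟨ht.1, ht.2.trans ξ1.le⟩
      (pξ ▸ anti ht.1 ht.2) (v01.2 ▸ ball_le_one t)
    exact K.op_of_polys hR hZ (checkAll_sound (hmem y hy) h0)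
  have in₁ : ∀ t ∈ Icc ξ η, (F₁.fam (certS 4)).Pos (certY 4 t) ∧ 2 * (K.W t + v K.spare) ≤
      v K.cen * certOp 4 (v F₁.g) (F₁.fam (certS 4)).L (F₁.fam (certS 4)).L' t := fun t ht => by
    obtain ⟨y, hy, hR, hZ⟩ := fin K.η K.ξ hξη t ⟨ξ0.trans ht.1, ht.2.trans η1.le⟩
      (pη ▸ anti (ξ0.trans ht.1) ht.2) (pξ ▸ anti ξ0 ht.1)
    exact K.op_of_polys hR hZ (checkAll_sound (hmem y hy) h1)
  have in₂ : ∀ t ∈ Ico η 1, ((F₂.fam (certS 4)).Pos (certY 4 t) ∧ 2 * (K.W t + v K.spare) ≤
      v K.cen * certOp 4 (v F₂.g) (F₂.fam (certS 4)).L (F₂.fam (certS 4)).L' t) ∧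
      (0 < t → 0 ≤ certFlux 4 (v K.cen) (v F₂.g) (F₂.fam (certS 4)).u (F₂.fam (certS 4)).L t) :=
    fun t ht => by
    obtain ⟨y, hy, hR, hZ⟩ := fin ⟨0, 0, 0⟩ K.η (v01.1 ▸ hη0) t ⟨η0.trans ht.1, ht.2.le⟩
      (v01.1 ▸ Real.sqrt_nonneg _) (pη ▸ anti η0 ht.1)
    have hh := checkAll_sound (hmem y hy) h2
    have := K.op_of_polys hR hZ fun A hA => hh A (List.mem_cons_of_mem _ hA)
    exact ⟨this, fun h0 => flux_nonneg_of_poly (K := ⟨K.cen, K.cen, K.cen, K.cen, K.cen, K.cen, K.cen⟩)
      hR ⟨h0, ht.2⟩ hc this.1 (hh _ (List.mem_cons_self ..))⟩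
  have hW : Continuous K.W := continuous_P.comp cont_ball
  obtain ⟨C, hC⟩ := (isCompact_Icc (a := (0 : ℝ)) (b := 1)).exists_bound_of_continuousOn
    hW.continuousOn
  refine specPoincare_of_schur (m := 4) le_rfl hc hμ hW.measurable
    (fun t ht => hC t (Ioo_subset_Icc_self ht)) (measurable_const (a := v K.spare)) hs
    (fun t _ => ⟨le_rfl, le_rfl⟩) ξ0 hle η1 (test_one (v K.cen)) (test_quad a b d) ?_
    (mk F₀ 0 ξ le_rfl ξ1 in₀) (mk F₁ ξ η ξ0 η1 in₁)
    (Filter.eventually_of_mem (Ioo_mem_nhdsLT η1) fun b' hb =>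
      (mk F₂ η b' η0 hb.2 fun t ht => (in₂ t ⟨ht.1, ht.2.trans_lt hb.2⟩).1).barrier hb.1.le
        ((in₂ b' ⟨hb.1.le, hb.2⟩).2 (η0.trans_lt hb.1))) certFlux_zero.le
    (τ₁ := τ₁) (τ₂ := τ₂) (κ₁ := κ₁) (κ₂ := κ₂) fun α β => ?_
  · simp only [pξ, pη, one_mul, mul_one]
    exact hdet
  refine (hM α β).trans_eq ?_
  simp only [show 4 - 1 = 3 from rfl, mul_one, pInt, res]
  rw [add_div, add_div, mul_div_assoc, mul_div_assoc, mul_div_assoc,
    ← intervalIntegral.integral_div, ← intervalIntegral.integral_div,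
    ← intervalIntegral.integral_div]
  have ne : ∀ t ∈ Ioo (0 : ℝ) 1, ballShape t ≠ 0 := fun t ht => (ball_pos (sub01 ht)).ne'
  rw [
    integral_congr01 (f := fun t => ballShape t * K.H₁ (ballShape t) * quadP a b d (ballShape t))
      (g := fun t => ballShape t ^ 2 * K.H₁ (ballShape t) *
        (quadP a b d (ballShape t) / ballShape t))
      (fun t ht => by have := ne t ht; field_simp),
    integral_congr01 (f := fun t => ballShape t * K.H₂ a b d (ballShape t) *
        quadP a b d (ballShape t))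
      (g := fun t => ballShape t ^ 2 * K.H₂ a b d (ballShape t) *
        (quadP a b d (ballShape t) / ballShape t))
      (fun t ht => by have := ne t ht; field_simp),
    integral_congr01 (f := fun t => ballShape t ^ 2 * (2 * (ballRatio 4 * ballShape t - 1)) *
        quadP a b d (ballShape t))
      (g := fun t => ballShape t ^ 3 * (2 * (ballRatio 4 * ballShape t - 1)) *
        (quadP a b d (ballShape t) / ballShape t))
      (fun t ht => by have := ne t ht; field_simp),
    integral_congr01 (f := fun t => ballShape t ^ 2 * quadP a b d (ballShape t))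
      (g := fun t => ballShape t ^ 3 * (quadP a b d (ballShape t) / ballShape t))
      (fun t ht => by have := ne t ht; field_simp)]
  congr 1
  congr 1
  · congr 1
    · congr 1
      exact integral_congr01 fun t ht => by have := ne t ht; field_simp; ring
    · congr 1
      exact integral_congr01 fun t ht => by have := ne t ht; field_simp; ring
  · congr 1
    exact integral_congr01 fun t ht => by have := ne t ht; field_simp; ring

end FourPot

end Vale.Agent.P237.Quant
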