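import Vale.Agent.P237.Quant.FourCert

/-!
The two spectral certificates of dimension five (generated by notes/P237/steiner/helper8_n5).
-/

namespace Vale.Agent.P237.Quant.FourData

open MeasureTheory Set Four.Checker QP FourPot


theorem ballRatio_four' : ballRatio 4 = 45 * Real.pi / 128 := by
  rw [ballRatio, show 4 - 1 = 3 from rfl, WindowCert.mass_ball_eq 3, WindowCert.mass_ball_eq 4]
  norm_num [WindowCert.ballNum, WindowCert.ballDen]
  ring

/-- Bounds of the powers of `π`. -/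
theorem pi_bounds : (3141592 / 1000000 : ℝ) ≤ Real.pi ∧ Real.pi ≤ 3141593 / 1000000 ∧
    (3141592 / 1000000 : ℝ) ^ 2 ≤ Real.pi ^ 2 ∧ Real.pi ^ 2 ≤ (3141593 / 1000000) ^ 2 ∧
    (3141592 / 1000000 : ℝ) ^ 3 ≤ Real.pi ^ 3 ∧ Real.pi ^ 3 ≤ (3141593 / 1000000) ^ 3 := by
  have h1 : (3141592 / 1000000 : ℝ) ≤ Real.pi := by linarith [Real.pi_gt_d6]
  have h2 : Real.pi ≤ 3141593 / 1000000 := by linarith [Real.pi_lt_d6]
  exact ⟨h1, h2, pow_le_pow_left₀ (by norm_num) h1 2, pow_le_pow_left₀ Real.pi_pos.le h2 2,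
    pow_le_pow_left₀ (by norm_num) h1 3, pow_le_pow_left₀ Real.pi_pos.le h2 3⟩

/-- A binary form with bounded coefficients. -/
theorem quad_abs_nonneg (α β : ℝ) {a c h A B C : ℝ} (hA : a ≤ A) (hC : c ≤ C) (hB : |B| ≤ h)
    (ha : 0 < a) (hc : 0 ≤ c) (hd : h ^ 2 ≤ a * c) :
    0 ≤ α ^ 2 * A + 2 * α * β * B + β ^ 2 * C := by
  have hB2 : B ^ 2 ≤ A * C := calc
    B ^ 2 = |B| ^ 2 := (sq_abs B).symm
    _ ≤ h ^ 2 := pow_le_pow_left₀ (abs_nonneg B) hB 2
    _ ≤ A * C := hd.trans (mul_le_mul hA hC hc (ha.le.trans hA))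
  have hA0 : 0 < A := ha.trans_le hA
  have e : α ^ 2 * A + 2 * α * β * B + β ^ 2 * C =
      ((A * α + B * β) ^ 2 + β ^ 2 * (A * C - B ^ 2)) / A := by field_simp; ring
  rw [e]
  exact div_nonneg (add_nonneg (sq_nonneg _) (mul_nonneg (sq_nonneg β) (sub_nonneg.2 hB2))) hA0.le

/-- The certificate's data. -/
def negPot : FourPot :=
  ⟨⟨9775109, 0, 12499999⟩, ⟨53, 0, 1999⟩, ⟨15707, 0, 49999⟩, ⟨30316027, 0, 49999999⟩, ⟨-641, 0, 6249⟩,
    ⟨477, 0, 499⟩, ⟨153, 0, 249⟩⟩

/-- A supersolution. -/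
def negFam0 : CertFam :=
  ⟨⟨59, 0, 249⟩, ⟨-1, 0, 0⟩, ⟨1, 0, 0⟩, ⟨-5189, 0, 9999⟩, ⟨1, 0, 0⟩, ⟨0, 0, 0⟩, ⟨1, 0, 0⟩, ⟨1, 0, 0⟩, ⟨0, 0, 0⟩, ⟨419, 0, 4999⟩⟩

/-- A supersolution. -/
def negFam1 : CertFam :=
  ⟨⟨-28, 0, 124⟩, ⟨1, 0, 0⟩, ⟨973, 0, 499⟩, ⟨-1, 0, 0⟩, ⟨1, 0, 0⟩, ⟨1087, 0, 1249⟩, ⟨1, 0, 0⟩, ⟨1, 0, 0⟩, ⟨-1127, 0, 4999⟩, ⟨7, 0, 39⟩⟩

/-- A supersolution. -/
def negFam2 : CertFam :=
  ⟨⟨-967, 0, 499⟩, ⟨1, 0, 0⟩, ⟨1, 0, 0⟩, ⟨77687, 0, 4999⟩, ⟨1, 0, 0⟩, ⟨0, 0, 0⟩, ⟨1, 0, 0⟩, ⟨6139, 0, 9999⟩, ⟨0, 0, 0⟩, ⟨2257, 0, 9999⟩⟩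

/-- The certificate's data. -/
def posPot : FourPot :=
  ⟨⟨1041903, 0, 999999⟩, ⟨51, 0, 1999⟩, ⟨625233, 0, 999999⟩, ⟨2652005271, 0, 49999999999⟩, ⟨-2, 0, 24⟩,
    ⟨921, 0, 999⟩, ⟨213, 0, 499⟩⟩

/-- A supersolution. -/
def posFam0 : CertFam :=
  ⟨⟨401, 0, 999⟩, ⟨-1, 0, 0⟩, ⟨1, 0, 0⟩, ⟨401, 0, 2499⟩, ⟨1, 0, 0⟩, ⟨0, 0, 0⟩, ⟨1, 0, 0⟩, ⟨1, 0, 0⟩, ⟨0, 0, 0⟩, ⟨-899, 0, 4999⟩⟩

/-- A supersolution. -/
def posFam1 : CertFam :=
  ⟨⟨-389, 0, 999⟩, ⟨1, 0, 0⟩, ⟨719, 0, 249⟩, ⟨-1, 0, 0⟩, ⟨1, 0, 0⟩, ⟨-719, 0, 9999⟩, ⟨1, 0, 0⟩, ⟨1, 0, 0⟩, ⟨23831, 0, 9999⟩, ⟨4697, 0, 9999⟩⟩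

/-- A supersolution. -/
def posFam2 : CertFam :=
  ⟨⟨-28613, 0, 9999⟩, ⟨1, 0, 0⟩, ⟨1, 0, 0⟩, ⟨-141, 0, 2499⟩, ⟨1, 0, 0⟩, ⟨0, 0, 0⟩, ⟨1, 0, 0⟩, ⟨8243, 0, 4999⟩, ⟨0, 0, 0⟩, ⟨1, 0, 1⟩⟩


theorem neg_vals : v negPot.cen = (9775109 / 12500000 : ℝ) ∧ v negPot.spare = (53 / 2000 : ℝ) ∧
    v negPot.w₀ = (15707 / 50000 : ℝ) ∧ v negPot.w₁ = (30316027 / 50000000 : ℝ) ∧ v negPot.w₂ = (-641 / 6250 : ℝ) ∧
    v negPot.ξ = (477 / 500 : ℝ) ∧ v negPot.η = (153 / 250 : ℝ) := by
  refine ⟨?_, ?_, ?_, ?_, ?_, ?_, ?_⟩ <;> simp only [v, negPot, Lin.eval] <;> push_cast <;> ring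


theorem neg_a11 : pInt (fun x => x ^ 2 * H₁ negPot x) =
    (-30316027 / 93750000 : ℝ) + (-34301 / 800000 : ℝ) * Real.pi := by
  obtain ⟨hc, hs, h0, h1, h2, -, -⟩ := neg_vals
  rw [pInt_eq (l := [0,
      0,
      0,
      (-15707 / 50000 : ℝ),
      (-30316027 / 50000000 : ℝ),
      (641 / 6250 : ℝ)]) fun x => by
    simp only [coefVal, res, H₁, H₂, FourPot.P, quadP, weightPoly, weightPoly', hc, h0, h1, h2]
    ring]
  simp only [coefMass, WindowCert.mass_ball_eq, ballRatio_four']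
  norm_num [WindowCert.ballNum, WindowCert.ballDen] <;> ring


theorem neg_a12 : pInt (fun x => x * H₁ negPot x * quadP (1 : ℝ) (0 : ℝ) (-6 / 5 : ℝ) x) =
    (-43487 / 4375000 : ℝ) := by
  obtain ⟨hc, hs, h0, h1, h2, -, -⟩ := neg_vals
  rw [pInt_eq (l := [0,
      0,
      (-15707 / 50000 : ℝ),
      (-30316027 / 50000000 : ℝ),
      (59941 / 125000 : ℝ),
      (90948081 / 125000000 : ℝ),
      (-1923 / 15625 : ℝ)]) fun x => by
    simp only [coefVal, res, H₁, H₂, FourPot.P, quadP, weightPoly, weightPoly', hc, h0, h1, h2]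
    ring]
  simp only [coefMass, WindowCert.mass_ball_eq, ballRatio_four']
  norm_num [WindowCert.ballNum, WindowCert.ballDen] <;> ring


theorem neg_a22 : pInt (fun x => x * H₂ negPot (1 : ℝ) (0 : ℝ) (-6 / 5 : ℝ) x * quadP (1 : ℝ) (0 : ℝ) (-6 / 5 : ℝ) x) =
    (-7633409899937 / 451171875000000 : ℝ) + (-1434143985921 / 800000000000000 : ℝ) * Real.pi := by
  obtain ⟨hc, hs, h0, h1, h2, -, -⟩ := neg_vals
  rw [pInt_eq (l := [0,
      (-20883 / 15625000 : ℝ),
      (-30316027 / 50000000 : ℝ),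
      (333653817 / 1953125000 : ℝ),
      (108944056669 / 62500000000 : ℝ),
      (-186061832721 / 156250000000 : ℝ),
      (-86207036419 / 78125000000 : ℝ),
      (3209304138063 / 1562500000000 : ℝ),
      (-7712561001 / 12207031250 : ℝ),
      (-408003274551 / 390625000000 : ℝ),
      (23137683003 / 39062500000 : ℝ),
      (967735791 / 390625000000 : ℝ)]) fun x => by
    simp only [coefVal, res, H₁, H₂, FourPot.P, quadP, weightPoly, weightPoly', hc, h0, h1, h2]
    ring]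
  simp only [coefMass, WindowCert.mass_ball_eq, ballRatio_four']
  norm_num [WindowCert.ballNum, WindowCert.ballDen] <;> ring


theorem neg_l1 : pInt (fun x => x ^ 3 * (2 * (ballRatio 4 * x - 1))) =
    0 := by
  obtain ⟨hc, hs, h0, h1, h2, -, -⟩ := neg_vals
  rw [pInt_eq (l := [0,
      0,
      0,
      (-2 : ℝ),
      (2 : ℝ) * ballRatio 4]) fun x => by
    simp only [coefVal, res, H₁, H₂, FourPot.P, quadP, weightPoly, weightPoly', hc, h0, h1, h2]
    ring]
  simp only [coefMass, WindowCert.mass_ball_eq, ballRatio_four']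
  norm_num [WindowCert.ballNum, WindowCert.ballDen] <;> ring


theorem neg_l2 : pInt (fun x => x ^ 2 * (2 * (ballRatio 4 * x - 1)) * quadP (1 : ℝ) (0 : ℝ) (-6 / 5 : ℝ) x) =
    (-4 / 75 : ℝ) := by
  obtain ⟨hc, hs, h0, h1, h2, -, -⟩ := neg_vals
  rw [pInt_eq (l := [0,
      0,
      (-2 : ℝ),
      (2 : ℝ) * ballRatio 4,
      (12 / 5 : ℝ),
      (-12 / 5 : ℝ) * ballRatio 4]) fun x => by
    simp only [coefVal, res, H₁, H₂, FourPot.P, quadP, weightPoly, weightPoly', hc, h0, h1, h2]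
    ring]
  simp only [coefMass, WindowCert.mass_ball_eq, ballRatio_four']
  norm_num [WindowCert.ballNum, WindowCert.ballDen] <;> ring


theorem neg_n1 : pInt (fun x => x ^ 3) =
    (3 / 16 : ℝ) * Real.pi := by
  obtain ⟨hc, hs, h0, h1, h2, -, -⟩ := neg_vals
  rw [pInt_eq (l := [0,
      0,
      0,
      (1 : ℝ)]) fun x => by
    simp only [coefVal, res, H₁, H₂, FourPot.P, quadP, weightPoly, weightPoly', hc, h0, h1, h2]
    ring]
  simp only [coefMass, WindowCert.mass_ball_eq, ballRatio_four']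
  norm_num [WindowCert.ballNum, WindowCert.ballDen] <;> ring


theorem neg_n2 : pInt (fun x => x ^ 2 * quadP (1 : ℝ) (0 : ℝ) (-6 / 5 : ℝ) x) =
    (2 / 75 : ℝ) := by
  obtain ⟨hc, hs, h0, h1, h2, -, -⟩ := neg_vals
  rw [pInt_eq (l := [0,
      0,
      (1 : ℝ),
      0,
      (-6 / 5 : ℝ)]) fun x => by
    simp only [coefVal, res, H₁, H₂, FourPot.P, quadP, weightPoly, weightPoly', hc, h0, h1, h2]
    ring]
  simp only [coefMass, WindowCert.mass_ball_eq, ballRatio_four']
  norm_num [WindowCert.ballNum, WindowCert.ballDen] <;> ring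


theorem neg_s11 : pInt (fun x => x * res (H₁ negPot) (47 / 250 : ℝ) (201 / 250 : ℝ) x ^ 2) =
    (-305841072959 / 2343750000000 : ℝ) + (10461783031053103 / 112000000000000000 : ℝ) * Real.pi + (-12823679421 / 512000000000 : ℝ) * Real.pi ^ 2 + (178929 / 65536000 : ℝ) * Real.pi ^ 3 := by
  obtain ⟨hc, hs, h0, h1, h2, -, -⟩ := neg_vals
  rw [pInt_eq (l := [0,
      0,
      0,
      (32410249 / 2500000000 : ℝ),
      (-172589141711 / 1250000000000 : ℝ) + (267571 / 3125000 : ℝ) * ballRatio 4,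
      (977448901064729 / 2500000000000000 : ℝ) + (-1424853269 / 3125000000 : ℝ) * ballRatio 4 + (2209 / 15625 : ℝ) * ballRatio 4 ^ 2,
      (-19432573307 / 156250000000 : ℝ) + (30127 / 390625 : ℝ) * ballRatio 4,
      (410881 / 39062500 : ℝ)]) fun x => by
    simp only [coefVal, res, H₁, H₂, FourPot.P, quadP, weightPoly, weightPoly', hc, h0, h1, h2]
    ring]
  simp only [coefMass, WindowCert.mass_ball_eq, ballRatio_four']
  norm_num [WindowCert.ballNum, WindowCert.ballDen] <;> ring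


theorem neg_s12 : pInt (fun x => x * res (H₁ negPot) (47 / 250 : ℝ) (201 / 250 : ℝ) x * res (H₂ negPot (1 : ℝ) (0 : ℝ) (-6 / 5 : ℝ)) (-429 / 1000 : ℝ) (9 / 500 : ℝ) x) =
    (-6336596263485030999037 / 21994628906250000000000 : ℝ) + (79264672838777471126327 / 1232000000000000000000000 : ℝ) * Real.pi + (28965715538728401 / 1024000000000000000 : ℝ) * Real.pi ^ 2 + (-1633203 / 262144000 : ℝ) * Real.pi ^ 3 := by
  obtain ⟨hc, hs, h0, h1, h2, -, -⟩ := neg_vals
  rw [pInt_eq (l := [0,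
      0,
      (-118886919 / 781250000000 : ℝ),
      (49243840614307 / 1562500000000000 : ℝ) + (-981501 / 1953125000 : ℝ) * ballRatio 4,
      (-1804763613841987 / 12500000000000000 : ℝ) + (23172481 / 6250000000 : ℝ) * ballRatio 4,
      (15890504878318989 / 390625000000000000 : ℝ) + (9122693011311 / 15625000000000 : ℝ) * ballRatio 4 + (-20163 / 62500 : ℝ) * ballRatio 4 ^ 2,
      (-2221365822437359363 / 3125000000000000000 : ℝ) + (2295618259943 / 7812500000000 : ℝ) * ballRatio 4,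
      (5594863151348821203 / 7812500000000000000 : ℝ) + (-7253593729983 / 19531250000000 : ℝ) * ballRatio 4,
      (-564256012369325563 / 7812500000000000000 : ℝ) + (845810856443 / 19531250000000 : ℝ) * ballRatio 4,
      (-8923312158269825053 / 15625000000000000000 : ℝ) + (12758833945833 / 39062500000000 : ℝ) * ballRatio 4,
      (303234074692990527 / 781250000000000000 : ℝ) + (-362490367047 / 1953125000000 : ℝ) * ballRatio 4,
      (-385720826675005881 / 7812500000000000000 : ℝ) + (-15161194059 / 19531250000000 : ℝ) * ballRatio 4,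
      (-206772880677 / 976562500000000 : ℝ)]) fun x => by
    simp only [coefVal, res, H₁, H₂, FourPot.P, quadP, weightPoly, weightPoly', hc, h0, h1, h2]
    ring]
  simp only [coefMass, WindowCert.mass_ball_eq, ballRatio_four']
  norm_num [WindowCert.ballNum, WindowCert.ballDen] <;> ring


theorem neg_s22 : pInt (fun x => x * res (H₂ negPot (1 : ℝ) (0 : ℝ) (-6 / 5 : ℝ)) (-429 / 1000 : ℝ) (9 / 500 : ℝ) x ^ 2) =
    (-236728081453615309727119 / 14980316162109375000000000 : ℝ) + (-3123098471053761696816941609 / 22400000000000000000000000000 : ℝ) * Real.pi + (2709358837792893 / 2048000000000000000 : ℝ) * Real.pi ^ 2 + (14907321 / 1048576000 : ℝ) * Real.pi ^ 3 := by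
  obtain ⟨hc, hs, h0, h1, h2, -, -⟩ := neg_vals
  rw [pInt_eq (l := [0,
      (436099689 / 244140625000000 : ℝ),
      (-281585808159 / 390625000000000 : ℝ),
      (564645808391262893 / 7812500000000000000 : ℝ) + (8958807 / 3906250000 : ℝ) * ballRatio 4,
      (43241967537853683 / 488281250000000000 : ℝ) + (-5784624417 / 12500000000 : ℝ) * ballRatio 4,
      (565437378437140942109 / 976562500000000000000 : ℝ) + (-141793666443 / 488281250000 : ℝ) * ballRatio 4 + (184041 / 250000 : ℝ) * ballRatio 4 ^ 2,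
      (-92450448752385401241 / 488281250000000000000 : ℝ) + (-27228636936501 / 15625000000000 : ℝ) * ballRatio 4,
      (14780875280861962712541 / 19531250000000000000000 : ℝ) + (66208334258781 / 39062500000000 : ℝ) * ballRatio 4,
      (-731089753538196090903 / 488281250000000000000 : ℝ) + (-7720273562001 / 39062500000000 : ℝ) * ballRatio 4,
      (15103848428549420804983 / 12207031250000000000000 : ℝ) + (-116458292824731 / 78125000000000 : ℝ) * ballRatio 4,
      (66828191227567904941491 / 48828125000000000000000 : ℝ) + (3308688669429 / 3906250000000 : ℝ) * ballRatio 4,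
      (-165161576044804199507 / 61035156250000000000 : ℝ) + (138386218113 / 39062500000000 : ℝ) * ballRatio 4,
      (14294382356095656937203 / 12207031250000000000000 : ℝ),
      (12597534248104570762293 / 19531250000000000000000 : ℝ),
      (-2618559925658146077897 / 3051757812500000000000 : ℝ),
      (5860791065082638090817 / 24414062500000000000000 : ℝ),
      (2487907106979495597 / 1220703125000000000000 : ℝ),
      (104056951242488409 / 24414062500000000000000 : ℝ)]) fun x => by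
    simp only [coefVal, res, H₁, H₂, FourPot.P, quadP, weightPoly, weightPoly', hc, h0, h1, h2]
    ring]
  simp only [coefMass, WindowCert.mass_ball_eq, ballRatio_four']
  norm_num [WindowCert.ballNum, WindowCert.ballDen] <;> ring


/-- The spectral inequality of one side. -/
theorem neg_poincare : SpecPoincare 4 (v negPot.cen) negPot.W (6 : ℝ) := by
  obtain ⟨hc, hs, h0, h1, h2, hx, he⟩ := neg_vals
  refine negPot.poincare (F₀ := negFam0) (F₁ := negFam1) (F₂ := negFam2)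
    (tg := List.replicate 5 .leaf) (t0 := List.replicate 4 .leaf)
    (t1 := List.replicate 4 .leaf)
    (t2 := [.leaf, .cutY 500 .leaf (.cutY 750 .leaf .leaf), .leaf, .leaf, .leaf]) (by decide +kernel) (a := (1 : ℝ)) (b := (0 : ℝ)) (d := (-6 / 5 : ℝ))
    (τ₁ := (47 / 250 : ℝ)) (τ₂ := (-429 / 1000 : ℝ)) (κ₁ := (201 / 250 : ℝ)) (κ₂ := (9 / 500 : ℝ)) (by norm_num) ?_ fun α β => ?_
  · rw [hx, he]
    norm_num [quadP]
  rw [neg_a11, neg_a12, neg_a22, neg_l1, neg_l2, neg_n1, neg_n2, neg_s11, neg_s12, neg_s22,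
    hs, WindowCert.mass_ball_eq 3]
  norm_num [WindowCert.ballNum, WindowCert.ballDen]
  have hA : (58733 / 125000 : ℝ) ≤ (571513410143 / 124218750000 : ℝ) + (-9697465897053103 / 2968000000000000 : ℝ) * Real.pi + (12823679421 / 13568000000 : ℝ) * Real.pi ^ 2 + (-178929 / 1736704 : ℝ) * Real.pi ^ 3 := by
    nlinarith [pi_bounds.1, pi_bounds.2.1, pi_bounds.2.2.1, pi_bounds.2.2.2.1, pi_bounds.2.2.2.2.1, pi_bounds.2.2.2.2.2]
  have hC : (2131 / 500000 : ℝ) ≤ (497116810231755547188613 / 793956756591796875000000 : ℝ) + (3118620375666208314816941609 / 593600000000000000000000000 : ℝ) * Real.pi + (-2709358837792893 / 54272000000000000 : ℝ) * Real.pi ^ 2 + (-14907321 / 27787264 : ℝ) * Real.pi ^ 3 := by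
    nlinarith [pi_bounds.1, pi_bounds.2.1, pi_bounds.2.2.1, pi_bounds.2.2.2.1, pi_bounds.2.2.2.2.1, pi_bounds.2.2.2.2.2]
  have hB : |(6337455073725265374037 / 582857666015625000000 : ℝ) + (-79072200635777471126327 / 32648000000000000000000 : ℝ) * Real.pi + (-28965715538728401 / 27136000000000000 : ℝ) * Real.pi ^ 2 + (1633203 / 6946816 : ℝ) * Real.pi ^ 3| ≤ (587 / 31250 : ℝ) := by
    rw [abs_le]
    constructor <;> nlinarith [pi_bounds.1, pi_bounds.2.1, pi_bounds.2.2.1, pi_bounds.2.2.2.1, pi_bounds.2.2.2.2.1, pi_bounds.2.2.2.2.2]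
  refine sub_nonneg.1 ((quad_abs_nonneg α β hA hC hB (by norm_num) (by norm_num)
    (by norm_num)).trans_eq ?_)
  ring_nf
  simp only [inv_inv]
  ring


theorem pos_vals : v posPot.cen = (1041903 / 1000000 : ℝ) ∧ v posPot.spare = (51 / 2000 : ℝ) ∧
    v posPot.w₀ = (625233 / 1000000 : ℝ) ∧ v posPot.w₁ = (2652005271 / 50000000000 : ℝ) ∧ v posPot.w₂ = (-2 / 25 : ℝ) ∧
    v posPot.ξ = (921 / 1000 : ℝ) ∧ v posPot.η = (213 / 500 : ℝ) := by
  refine ⟨?_, ?_, ?_, ?_, ?_, ?_, ?_⟩ <;> simp only [v, posPot, Lin.eval] <;> push_cast <;> ring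


theorem pos_a11 : pInt (fun x => x ^ 2 * H₁ posPot x) =
    (-884001757 / 31250000000 : ℝ) + (-1675699 / 16000000 : ℝ) * Real.pi := by
  obtain ⟨hc, hs, h0, h1, h2, -, -⟩ := pos_vals
  rw [pInt_eq (l := [0,
      0,
      0,
      (-625233 / 1000000 : ℝ),
      (-2652005271 / 50000000000 : ℝ),
      (2 / 25 : ℝ)]) fun x => by
    simp only [coefVal, res, H₁, H₂, FourPot.P, quadP, weightPoly, weightPoly', hc, h0, h1, h2]
    ring]
  simp only [coefMass, WindowCert.mass_ball_eq, ballRatio_four']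
  norm_num [WindowCert.ballNum, WindowCert.ballDen] <;> ring


theorem pos_a12 : pInt (fun x => x * H₁ posPot x * quadP (1 : ℝ) (0 : ℝ) (3 / 10 : ℝ) x) =
    (-121595561 / 262500000 : ℝ) + (-7956015813 / 640000000000 : ℝ) * Real.pi := by
  obtain ⟨hc, hs, h0, h1, h2, -, -⟩ := pos_vals
  rw [pInt_eq (l := [0,
      0,
      (-625233 / 1000000 : ℝ),
      (-2652005271 / 50000000000 : ℝ),
      (-1075699 / 10000000 : ℝ),
      (-7956015813 / 500000000000 : ℝ),
      (3 / 125 : ℝ)]) fun x => by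
    simp only [coefVal, res, H₁, H₂, FourPot.P, quadP, weightPoly, weightPoly', hc, h0, h1, h2]
    ring]
  simp only [coefMass, WindowCert.mass_ball_eq, ballRatio_four']
  norm_num [WindowCert.ballNum, WindowCert.ballDen] <;> ring


theorem pos_a22 : pInt (fun x => x * H₂ posPot (1 : ℝ) (0 : ℝ) (3 / 10 : ℝ) x * quadP (1 : ℝ) (0 : ℝ) (3 / 10 : ℝ) x) =
    (-12471013718083 / 240625000000000 : ℝ) + (-214461070865157 / 1024000000000000 : ℝ) * Real.pi := by
  obtain ⟨hc, hs, h0, h1, h2, -, -⟩ := pos_vals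
  rw [pInt_eq (l := [0,
      (-1042359 / 5000000 : ℝ),
      (-2652005271 / 50000000000 : ℝ),
      (-1901564063 / 1250000000 : ℝ),
      (87951155337 / 250000000000 : ℝ),
      (5085409179 / 6250000000 : ℝ),
      (-2380444252839 / 5000000000000 : ℝ),
      (10461543831 / 125000000000 : ℝ),
      (-5754430269 / 500000000000 : ℝ),
      (-678278853 / 7812500000 : ℝ),
      (2466184401 / 50000000000 : ℝ),
      (103148397 / 500000000000 : ℝ)]) fun x => by
    simp only [coefVal, res, H₁, H₂, FourPot.P, quadP, weightPoly, weightPoly', hc, h0, h1, h2]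
    ring]
  simp only [coefMass, WindowCert.mass_ball_eq, ballRatio_four']
  norm_num [WindowCert.ballNum, WindowCert.ballDen] <;> ring


theorem pos_l1 : pInt (fun x => x ^ 3 * (2 * (ballRatio 4 * x - 1))) =
    0 := by
  obtain ⟨hc, hs, h0, h1, h2, -, -⟩ := pos_vals
  rw [pInt_eq (l := [0,
      0,
      0,
      (-2 : ℝ),
      (2 : ℝ) * ballRatio 4]) fun x => by
    simp only [coefVal, res, H₁, H₂, FourPot.P, quadP, weightPoly, weightPoly', hc, h0, h1, h2]
    ring]
  simp only [coefMass, WindowCert.mass_ball_eq, ballRatio_four']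
  norm_num [WindowCert.ballNum, WindowCert.ballDen] <;> ring


theorem pos_l2 : pInt (fun x => x ^ 2 * (2 * (ballRatio 4 * x - 1)) * quadP (1 : ℝ) (0 : ℝ) (3 / 10 : ℝ) x) =
    (-124 / 75 : ℝ) + (675 / 4096 : ℝ) * Real.pi ^ 2 := by
  obtain ⟨hc, hs, h0, h1, h2, -, -⟩ := pos_vals
  rw [pInt_eq (l := [0,
      0,
      (-2 : ℝ),
      (2 : ℝ) * ballRatio 4,
      (-3 / 5 : ℝ),
      (3 / 5 : ℝ) * ballRatio 4]) fun x => by
    simp only [coefVal, res, H₁, H₂, FourPot.P, quadP, weightPoly, weightPoly', hc, h0, h1, h2]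
    ring]
  simp only [coefMass, WindowCert.mass_ball_eq, ballRatio_four']
  norm_num [WindowCert.ballNum, WindowCert.ballDen] <;> ring


theorem pos_n1 : pInt (fun x => x ^ 3) =
    (3 / 16 : ℝ) * Real.pi := by
  obtain ⟨hc, hs, h0, h1, h2, -, -⟩ := pos_vals
  rw [pInt_eq (l := [0,
      0,
      0,
      (1 : ℝ)]) fun x => by
    simp only [coefVal, res, H₁, H₂, FourPot.P, quadP, weightPoly, weightPoly', hc, h0, h1, h2]
    ring]
  simp only [coefMass, WindowCert.mass_ball_eq, ballRatio_four']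
  norm_num [WindowCert.ballNum, WindowCert.ballDen] <;> ring


theorem pos_n2 : pInt (fun x => x ^ 2 * quadP (1 : ℝ) (0 : ℝ) (3 / 10 : ℝ) x) =
    (62 / 75 : ℝ) := by
  obtain ⟨hc, hs, h0, h1, h2, -, -⟩ := pos_vals
  rw [pInt_eq (l := [0,
      0,
      (1 : ℝ),
      0,
      (3 / 10 : ℝ)]) fun x => by
    simp only [coefVal, res, H₁, H₂, FourPot.P, quadP, weightPoly, weightPoly', hc, h0, h1, h2]
    ring]
  simp only [coefMass, WindowCert.mass_ball_eq, ballRatio_four']
  norm_num [WindowCert.ballNum, WindowCert.ballDen] <;> ring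


theorem pos_s11 : pInt (fun x => x * res (H₁ posPot) (-31 / 1000 : ℝ) (79 / 125 : ℝ) x ^ 2) =
    (-849851885125333 / 109375000000000000 : ℝ) + (81457161770882484087 / 112000000000000000000000 : ℝ) * Real.pi + (739909470609 / 2048000000000000 : ℝ) * Real.pi ^ 2 + (77841 / 1048576000 : ℝ) * Real.pi ^ 3 := by
  obtain ⟨hc, hs, h0, h1, h2, -, -⟩ := pos_vals
  rw [pInt_eq (l := [0,
      0,
      0,
      (4728900289 / 1000000000000 : ℝ),
      (-182370446470857 / 25000000000000000 : ℝ) + (-2131777 / 250000000 : ℝ) * ballRatio 4,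
      (34539931957411783441 / 2500000000000000000000 : ℝ) + (82212163401 / 12500000000000 : ℝ) * ballRatio 4 + (961 / 250000 : ℝ) * ballRatio 4 ^ 2,
      (-2652005271 / 312500000000 : ℝ) + (-31 / 3125 : ℝ) * ballRatio 4,
      (4 / 625 : ℝ)]) fun x => by
    simp only [coefVal, res, H₁, H₂, FourPot.P, quadP, weightPoly, weightPoly', hc, h0, h1, h2]
    ring]
  simp only [coefMass, WindowCert.mass_ball_eq, ballRatio_four']
  norm_num [WindowCert.ballNum, WindowCert.ballDen] <;> ring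


theorem pos_s12 : pInt (fun x => x * res (H₁ posPot) (-31 / 1000 : ℝ) (79 / 125 : ℝ) x * res (H₂ posPot (1 : ℝ) (0 : ℝ) (3 / 10 : ℝ)) (-9 / 50 : ℝ) (111 / 125 : ℝ) x) =
    (-46591018600161068600731 / 488769531250000000000000 : ℝ) + (5495344703681425637003493 / 394240000000000000000000000 : ℝ) * Real.pi + (5138923239288441 / 1310720000000000000 : ℝ) * Real.pi ^ 2 + (22599 / 52428800 : ℝ) * Real.pi ^ 3 := by
  obtain ⟨hc, hs, h0, h1, h2, -, -⟩ := pos_vals
  rw [pInt_eq (l := [0,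
      0,
      (-71679901353 / 5000000000000 : ℝ),
      (5826948332480001 / 62500000000000000 : ℝ) + (32313129 / 2500000000 : ℝ) * ballRatio 4,
      (-450924083590680216559 / 2500000000000000000000 : ℝ) + (-2471090836599 / 25000000000000 : ℝ) * ballRatio 4,
      (12390854966141045523 / 62500000000000000000 : ℝ) + (27383609999 / 250000000000 : ℝ) * ballRatio 4 + (279 / 12500 : ℝ) * ballRatio 4 ^ 2,
      (-1253846159798514912977 / 25000000000000000000000 : ℝ) + (-12899608121097 / 250000000000000 : ℝ) * ballRatio 4,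
      (-6037174871086892589 / 78125000000000000000 : ℝ) + (-121217593233 / 1562500000000 : ℝ) * ballRatio 4,
      (277866165272989834533 / 2500000000000000000000 : ℝ) + (908925962013 / 25000000000000 : ℝ) * ballRatio 4,
      (-25168546817855629713 / 1250000000000000000000 : ℝ) + (226060652007 / 12500000000000 : ℝ) * ballRatio 4,
      (-8002112611475827557 / 250000000000000000000 : ℝ) + (-25483905477 / 2500000000000 : ℝ) * ballRatio 4,
      (32791275315820266471 / 2500000000000000000000 : ℝ) + (-1065866769 / 25000000000000 : ℝ) * ballRatio 4,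
      (34382799 / 625000000000 : ℝ)]) fun x => by
    simp only [coefVal, res, H₁, H₂, FourPot.P, quadP, weightPoly, weightPoly', hc, h0, h1, h2]
    ring]
  simp only [coefMass, WindowCert.mass_ball_eq, ballRatio_four']
  norm_num [WindowCert.ballNum, WindowCert.ballDen] <;> ring


theorem pos_s22 : pInt (fun x => x * res (H₂ posPot (1 : ℝ) (0 : ℝ) (3 / 10 : ℝ)) (-9 / 50 : ℝ) (111 / 125 : ℝ) x ^ 2) =
    (-18252610543214526599676147 / 16618164062500000000000000 : ℝ) + (27803163146197878668502217547 / 126156800000000000000000000000 : ℝ) * Real.pi + (1092810108426399 / 32768000000000000 : ℝ) * Real.pi ^ 2 + (6561 / 2621440 : ℝ) * Real.pi ^ 3 := by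
  obtain ⟨hc, hs, h0, h1, h2, -, -⟩ := pos_vals
  rw [pInt_eq (l := [0,
      (1086512284881 / 25000000000000 : ℝ),
      (-62278860037725711 / 125000000000000000 : ℝ),
      (5090322069159445383441 / 2500000000000000000000 : ℝ) + (9381231 / 62500000 : ℝ) * ballRatio 4,
      (-113734884643616966427 / 31250000000000000000 : ℝ) + (-537731952561 / 625000000000 : ℝ) * ballRatio 4,
      (31061685148353826239023 / 12500000000000000000000 : ℝ) + (8205242121 / 7812500000 : ℝ) * ballRatio 4 + (81 / 625 : ℝ) * ballRatio 4 ^ 2,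
      (337838842558637995041 / 156250000000000000000 : ℝ) + (-1654724938383 / 6250000000000 : ℝ) * ballRatio 4,
      (-1198781927009349596484231 / 250000000000000000000000 : ℝ) + (-35192204487 / 39062500000 : ℝ) * ballRatio 4,
      (5829214464621465329799 / 3125000000000000000000 : ℝ) + (263881730907 / 625000000000 : ℝ) * ballRatio 4,
      (29725845192930848952519 / 12500000000000000000000 : ℝ) + (65630511873 / 312500000000 : ℝ) * ballRatio 4,
      (-3375069506608431727251 / 1562500000000000000000 : ℝ) + (-7398553203 / 62500000000 : ℝ) * ballRatio 4,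
      (-667990320802645465917 / 2500000000000000000000 : ℝ) + (-309445191 / 625000000000 : ℝ) * ballRatio 4,
      (9425680786499792553333 / 12500000000000000000000 : ℝ),
      (-3313105290648348507 / 31250000000000000000 : ℝ),
      (-120902143324348158057 / 1250000000000000000000 : ℝ),
      (8321948710855374861 / 312500000000000000000 : ℝ),
      (28264774185506133 / 125000000000000000000 : ℝ),
      (1182176867074401 / 2500000000000000000000 : ℝ)]) fun x => by
    simp only [coefVal, res, H₁, H₂, FourPot.P, quadP, weightPoly, weightPoly', hc, h0, h1, h2]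
    ring]
  simp only [coefMass, WindowCert.mass_ball_eq, ballRatio_four']
  norm_num [WindowCert.ballNum, WindowCert.ballDen] <;> ring


/-- The spectral inequality of one side. -/
theorem pos_poincare : SpecPoincare 4 (v posPot.cen) posPot.W (487 / 100 : ℝ) := by
  obtain ⟨hc, hs, h0, h1, h2, hx, he⟩ := pos_vals
  refine posPot.poincare (F₀ := posFam0) (F₁ := posFam1) (F₂ := posFam2)
    (tg := List.replicate 5 .leaf) (t0 := List.replicate 4 .leaf)
    (t1 := List.replicate 4 .leaf)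
    (t2 := [.leaf, .cutY 500 (.cutY 250 .leaf .leaf) .leaf, .leaf, .leaf, .leaf]) (by decide +kernel) (a := (1 : ℝ)) (b := (0 : ℝ)) (d := (3 / 10 : ℝ))
    (τ₁ := (-31 / 1000 : ℝ)) (τ₂ := (-9 / 50 : ℝ)) (κ₁ := (79 / 125 : ℝ)) (κ₂ := (111 / 125 : ℝ)) (by norm_num) ?_ fun α β => ?_
  · rw [hx, he]
    norm_num [quadP]
  rw [pos_a11, pos_a12, pos_a22, pos_l1, pos_l2, pos_n1, pos_n2, pos_s11, pos_s12, pos_s22,
    hs, WindowCert.mass_ball_eq 3]
  norm_num [WindowCert.ballNum, WindowCert.ballDen]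
  have hA : (372139 / 1000000 : ℝ) ≤ (770954728313083 / 2789062500000000 : ℝ) + (48082629482360076749877 / 463624000000000000000000 : ℝ) * Real.pi + (-246636490203 / 17408000000000 : ℝ) * Real.pi ^ 2 + (-25947 / 8912896 : ℝ) * Real.pi ^ 3 := by
    nlinarith [pi_bounds.1, pi_bounds.2.1, pi_bounds.2.2.1, pi_bounds.2.2.2.1, pi_bounds.2.2.2.2.1, pi_bounds.2.2.2.2.2]
  have hC : (3671 / 5000 : ℝ) ≤ (6368341307133148788798299 / 141254394531250000000000 : ℝ) + (-13870211467138365823154979945389 / 1566678220800000000000000000000 : ℝ) * Real.pi + (-380794036142133 / 278528000000000 : ℝ) * Real.pi ^ 2 + (-54675 / 557056 : ℝ) * Real.pi ^ 3 := by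
    nlinarith [pi_bounds.1, pi_bounds.2.1, pi_bounds.2.2.1, pi_bounds.2.2.2.1, pi_bounds.2.2.2.2.1, pi_bounds.2.2.2.2.2]
  have hB : |(47968067998774349850731 / 12463623046875000000000 : ℝ) + (-640994771518359477740233697 / 1631956480000000000000000000 : ℝ) * Real.pi + (-1769890413096147 / 11141120000000000 : ℝ) * Real.pi ^ 2 + (-37665 / 2228224 : ℝ) * Real.pi ^ 3| ≤ (522689 / 1000000 : ℝ) := by
    rw [abs_le]
    constructor <;> nlinarith [pi_bounds.1, pi_bounds.2.1, pi_bounds.2.2.1, pi_bounds.2.2.2.1, pi_bounds.2.2.2.2.1, pi_bounds.2.2.2.2.2]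
  refine sub_nonneg.1 ((quad_abs_nonneg α β hA hC hB (by norm_num) (by norm_num)
    (by norm_num)).trans_eq ?_)
  ring_nf
  simp only [inv_inv]
  ring

end Vale.Agent.P237.Quant.FourData
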