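import Vale.Agent.P237.Quant.FourPolySound

/-!
The values of the polynomials of the tail of dimension five in terms of the flux and of the lower
bound of the gain.
-/

namespace Vale.Agent.P237.Quant.FourPoly

open Four.Checker Packed Set

/-- The derivative of a polynomial in one variable. -/
noncomputable def dev : P1 → ℝ → ℝ
  | [], _ => 0
  | _ :: l, x => ev l x + x * dev l x

theorem hasDerivAt_ev : ∀ (l : P1) (x : ℝ), HasDerivAt (fun y => ev l y) (dev l x) x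
  | [], x => by simpa [ev, dev] using hasDerivAt_const x (0 : ℝ)
  | c :: l, x => by
      simp only [ev, dev]
      exact (((hasDerivAt_id' x).mul (hasDerivAt_ev l x)).const_add (c : ℝ)).congr_deriv (by ring)

theorem continuous_dev : ∀ l : P1, Continuous (dev l)
  | [] => by simpa [dev] using continuous_const
  | c :: l => by
      have := continuous_dev l
      have := continuous_ev l
      show Continuous fun x => ev l x + x * dev l x
      fun_prop

theorem abs_ev_le : ∀ (l : P1) (x : ℝ), |x| ≤ 1 → |ev l x| ≤ n1 l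
  | [], x, _ => by simp [ev, n1]
  | c :: l, x, hx => by
      simp only [ev, n1, Nat.cast_add, Nat.cast_natAbs, Int.cast_abs]
      refine (abs_add_le _ _).trans (add_le_add le_rfl ?_)
      rw [abs_mul]
      exact (mul_le_of_le_one_left (abs_nonneg _) hx).trans (abs_ev_le l x hx)

/-- The derivative of the rows from `n` on: `(v ^ n ev2 r)'` over `v ^ (n - 1)`. -/
theorem hasDerivAt_ev2 : ∀ (r : P2) (y z : ℝ), ∃ d : ℝ, HasDerivAt (fun v => ev2 r v z) d y ∧
    ∀ n : ℤ, ev2 (dRows n r) y z = (n : ℝ) * ev2 r y z + y * d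
  | [], y, z => ⟨0, by simpa [ev2] using hasDerivAt_const y (0 : ℝ), by simp [dRows, ev2]⟩
  | q :: r, y, z => by
      obtain ⟨d, hd, he⟩ := hasDerivAt_ev2 r y z
      refine ⟨ev2 r y z + y * d, ?_, fun n => ?_⟩
      · simp only [ev2]
        exact (((hasDerivAt_id' y).mul hd).const_add (ev q z)).congr_deriv (by ring)
      · simp only [dRows, ev2, ev_smul1, Int.add_def, he]
        push_cast
        ring

theorem hasDerivAt_ev3 : ∀ (P : P3) (x y z : ℝ),
    HasDerivAt (fun v => ev3 P x v z) (ev3 (dS P) x y z) y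
  | [], x, y, z => by simpa [ev3, dS] using hasDerivAt_const y (0 : ℝ)
  | [] :: P, x, y, z => by
      simp only [ev3, dS, ev2]
      exact ((hasDerivAt_ev3 P x y z).const_mul x).const_add 0 |>.congr_deriv (by ring)
  | (q :: r) :: P, x, y, z => by
      obtain ⟨d, hd, he⟩ := hasDerivAt_ev2 r y z
      simp only [ev3, dS, ev2, he]
      exact ((((hasDerivAt_id' y).mul hd).const_add (ev q z)).add
        ((hasDerivAt_ev3 P x y z).const_mul x)).congr_deriv (by push_cast; ring)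

theorem ev3_sub3 (p q : P3) (x y z : ℝ) : ev3 (sub3 p q) x y z = ev3 p x y z - ev3 q x y z := by
  rw [sub3, ev3_add3, ev3_smul3]
  push_cast
  ring

theorem ev3_sq3 (p : P3) (x y z : ℝ) : ev3 (sq3 p) x y z = ev3 p x y z ^ 2 := by
  rw [sq3, ev3_mul3, sq]

theorem ev3_C (n : ℤ) (x y z : ℝ) : ev3 (C n) x y z = n := by simp [C, ev3, ev2, ev]

theorem ev3_vw (x y z : ℝ) : ev3 vw x y z = x := by simp [vw, ev3, ev2, ev]
theorem ev3_vs (x y z : ℝ) : ev3 vs x y z = y := by simp [vs, ev3, ev2, ev]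
theorem ev3_va (x y z : ℝ) : ev3 va x y z = z := by simp [va, ev3, ev2, ev]
theorem ev3_pS (x y z : ℝ) : ev3 pS x y z = y + 1 := by simp [pS, ev3, ev2, ev]; ring
theorem ev3_pE (x y z : ℝ) : ev3 pE x y z = y - 1 := by simp [pE, ev3, ev2, ev]; ring
theorem ev3_pO (x y z : ℝ) : ev3 pO x y z = 1 + z ^ 2 := by simp [pO, ev3, ev2, ev]; ring
theorem ev3_pM (x y z : ℝ) : ev3 pM x y z = 1 + x ^ 2 := by simp [pM, ev3, ev2, ev]; ring
theorem ev3_pN (x y z : ℝ) : ev3 pN x y z = 1 - x ^ 2 := by simp [pN, ev3, ev2, ev]; ring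
theorem ev3_pTail (x y z : ℝ) : ev3 pTail x y z = 3 * y ^ 2 + 2 * y + 1 := by
  simp [pTail, ev3, ev2, ev]; ring

/-- Products and sums of the constructors. -/
theorem ev3_pW (x y z : ℝ) : ev3 pW x y z =
    2325 * (1 + x ^ 2) ^ 2 + 1150 * ((1 - x ^ 2) * (1 + x ^ 2)) - 400 * (1 - x ^ 2) ^ 2 := by
  simp only [pW, ev3_add3, ev3_smul3, ev3_sq3, ev3_mul3, ev3_pM, ev3_pN]
  push_cast
  ring

theorem ev3_pWp (x y z : ℝ) : ev3 pWp x y z =
    1000 * (1 + x ^ 2) ^ 4 - 1028 * ((1 - x ^ 2) ^ 2 * (1 + x ^ 2) ^ 2) +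
      526 * ((1 - x ^ 2) ^ 3 * (1 + x ^ 2)) + 2 * (1 - x ^ 2) ^ 4 := by
  simp only [pWp, ev3_add3, ev3_smul3, ev3_sq3, ev3_mul3, ev3_pM, ev3_pN]
  push_cast
  ring

theorem ev3_map_single : ∀ (g : List (List ℤ)) (x y z : ℝ),
    ev3 (g.map fun r => [r]) x y z = ev2 g x z
  | [], x, y, z => by simp [ev3, ev2]
  | r :: g, x, y, z => by simp [ev3, ev2, ev3_map_single g x y z]

theorem ev3_comp1 (A : P3) : ∀ (l : P1) (x y z : ℝ), ev3 (comp1 A l) x y z = ev l (ev3 A x y z)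
  | [], x, y, z => by simp [comp1, ev3, ev]
  | c :: l, x, y, z => by simp [comp1, ev3_add3, ev3_mul3, ev3_C, ev, ev3_comp1 A l x y z]

theorem ev3_compG (A : P3) : ∀ (g : List (List ℤ)) (x y z : ℝ),
    ev3 (compG A g) x y z = ev2 g x (ev3 A x y z)
  | [], x, y, z => by simp [compG, ev3, ev2]
  | r :: g, x, y, z => by
      simp [compG, ev3_add3, ev3_mul3, ev3_comp1, ev3_vw, ev2, ev3_compG A g x y z]

/-- The variable of the flux. -/
noncomputable def fq (s : ℝ) : ℝ := (s - 1) / (s + 1)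

theorem ev3_sPoly {r : List ℤ} (hr : r.length = 4) (x y z : ℝ) (hy : y + 1 ≠ 0) :
    ev3 (sPoly r) x y z = (y + 1) ^ 3 * ev r (fq y) := by
  match r, hr with
  | [a, b, c, d], _ =>
    simp only [sPoly, ev3_add3, ev3_smul3, ev3_mul3, ev3_sq3, ev3_pS, ev3_pE, ev, fq]
    field_simp
    ring

/-- The sum over the rows with multipliers, in real values. -/
noncomputable def rowSum (a : List (List ℤ)) (k : Fin 4 → ℝ) (f : P1 → ℝ) : ℝ :=
  ∑ i : Fin 4, k i * f (a.getD i [])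

/-- A flux has four rows of four numbers. -/
def Shaped (S : Side) : Prop := S.a.length = 4 ∧ ∀ r ∈ S.a, r.length = 4

theorem ev3_fluxSum {a : List (List ℤ)} (ha : a.length = 4) (hr : ∀ r ∈ a, r.length = 4)
    (k0 k1 k2 k3 : ℤ) (x y z : ℝ) (hy : y + 1 ≠ 0) :
    ev3 (fluxSum k0 k1 k2 k3 a) x y z = (y + 1) ^ 3 *
      rowSum a ![k0 * (1 + x ^ 2) ^ 3, k1 * ((1 - x ^ 2) * (1 + x ^ 2) ^ 2),
        k2 * ((1 - x ^ 2) ^ 2 * (1 + x ^ 2)), k3 * (1 - x ^ 2) ^ 3] (fun r => ev r (fq y)) := by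
  match a, ha with
  | [r0, r1, r2, r3], _ =>
    simp only [List.mem_cons, List.not_mem_nil, or_false, forall_eq_or_imp, forall_eq] at hr
    simp only [fluxSum, ev3_add3, ev3_smul3, ev3_mul3, ev3_sq3, ev3_pM, ev3_pN,
      ev3_sPoly hr.1 x y z hy, ev3_sPoly hr.2.1 x y z hy, ev3_sPoly hr.2.2.1 x y z hy,
      ev3_sPoly hr.2.2.2 x y z hy, rowSum, Fin.sum_univ_four]
    simp
    ring

theorem ev3_dS_flux {S : Side} (hS : Shaped S) (x y z : ℝ) (hy : 0 < y + 1) :
    ev3 (dS S.F) x y z = 3 * (y + 1) ^ 2 *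
        rowSum S.a ![(1 + x ^ 2) ^ 3, (1 - x ^ 2) * (1 + x ^ 2) ^ 2,
          (1 - x ^ 2) ^ 2 * (1 + x ^ 2), (1 - x ^ 2) ^ 3] (fun r => ev r (fq y)) +
      2 * (y + 1) * rowSum S.a ![(1 + x ^ 2) ^ 3, (1 - x ^ 2) * (1 + x ^ 2) ^ 2,
          (1 - x ^ 2) ^ 2 * (1 + x ^ 2), (1 - x ^ 2) ^ 3] (fun r => dev r (fq y)) := by
  set k : Fin 4 → ℝ := ![(1 + x ^ 2) ^ 3, (1 - x ^ 2) * (1 + x ^ 2) ^ 2,
    (1 - x ^ 2) ^ 2 * (1 + x ^ 2), (1 - x ^ 2) ^ 3] with hk
  have hq : HasDerivAt fq (2 / (y + 1) ^ 2) y := by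
    refine (((hasDerivAt_id' y).sub_const 1).div ((hasDerivAt_id' y).add_const 1)
      hy.ne').congr_deriv ?_
    ring
  have h1 : HasDerivAt (fun v => (v + 1) ^ 3 * rowSum S.a k fun r => ev r (fq v))
      (3 * (y + 1) ^ 2 * rowSum S.a k (fun r => ev r (fq y)) +
        2 * (y + 1) * rowSum S.a k fun r => dev r (fq y)) y := by
    have hs : HasDerivAt (fun v => rowSum S.a k fun r => ev r (fq v))
        (∑ i : Fin 4, k i * (dev (S.a.getD i []) (fq y) * (2 / (y + 1) ^ 2))) y :=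
      HasDerivAt.fun_sum fun i _ => ((hasDerivAt_ev _ _).comp y hq).const_mul (k i)
    refine ((((hasDerivAt_id' y).add_const 1).pow 3).mul hs).congr_deriv ?_
    simp only [rowSum, Fin.sum_univ_four, Nat.cast_ofNat, Pi.pow_apply]
    field_simp
    ring
  refine (hasDerivAt_ev3 S.F x y z).unique (h1.congr_of_eventuallyEq ?_)
  filter_upwards [eventually_gt_nhds (show -1 < y by linarith)] with v hv
  rw [Side.F, ev3_fluxSum hS.1 hS.2 1 1 1 1 x v z (by linarith)]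
  simp [hk]

end Vale.Agent.P237.Quant.FourPoly
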