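import Vale.Agent.P237.Quant.FourEval
import Vale.Agent.P237.Quant.BregLog
import Vale.Agent.P237.Quant.PureAssembly

/-!
The lower bound of the gain in dimension five: the model of the weight made rational by two bounds
of the logarithm, and lowered to a polynomial of degree four in the half angles.
-/

namespace Vale.Agent.P237.Quant

open Set Four.Checker

theorem two_div_le_neg_log {y : ℝ} (h0 : 0 < y) (h1 : y ≤ 1) :
    2 * (1 - y) / (1 + y) ≤ -Real.log y := by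
  have hd : ∀ x ∈ Ioi (0 : ℝ), HasDerivAt (fun x => -Real.log x - 2 * (1 - x) / (1 + x))
      (-((1 - x) ^ 2 / (x * (1 + x) ^ 2))) x := fun x hx => by
    simp only [mem_Ioi] at hx
    have hx0 : x ≠ 0 := hx.ne'
    have hx1 : 1 + x ≠ 0 := by positivity
    refine ((Real.hasDerivAt_log hx0).neg.sub
      ((((hasDerivAt_id' x).const_sub 1).const_mul 2).div ((hasDerivAt_id' x).const_add 1)
        hx1)).congr_deriv ?_
    field_simp
    ring
  have hanti : AntitoneOn (fun x => -Real.log x - 2 * (1 - x) / (1 + x)) (Ioi 0) := by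
    refine antitoneOn_of_deriv_nonpos (convex_Ioi 0)
      (fun x hx => (hd x hx).continuousAt.continuousWithinAt) ?_ ?_
    · rw [interior_Ioi]
      exact fun x hx => (hd x hx).differentiableAt.differentiableWithinAt
    intro x hx
    rw [interior_Ioi] at hx
    rw [(hd x hx).deriv]
    simp only [mem_Ioi] at hx
    exact neg_nonpos.2 (by positivity)
  have := hanti h0 (show (1 : ℝ) ∈ Ioi 0 by simp) h1
  simp at this
  linarith

theorem log_le_pade {y : ℝ} (h1 : 1 ≤ y) :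
    Real.log y ≤ (y - 1) * (y + 5) / (2 * (2 * y + 1)) := by
  have hd : ∀ x ∈ Ici (1 : ℝ), HasDerivAt
      (fun x => (x - 1) * (x + 5) / (2 * (2 * x + 1)) - Real.log x)
      ((x - 1) ^ 3 / (x * (2 * x + 1) ^ 2)) x := fun x hx => by
    simp only [mem_Ici] at hx
    have hx0 : x ≠ 0 := by positivity
    have hx1 : 2 * (2 * x + 1) ≠ 0 := by positivity
    refine ((((hasDerivAt_id' x).sub_const 1).mul ((hasDerivAt_id' x).add_const 5)).div
      ((((hasDerivAt_id' x).const_mul 2).add_const 1).const_mul 2) hx1).sub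
        (Real.hasDerivAt_log hx0) |>.congr_deriv ?_
    simp only [Pi.mul_apply]
    field_simp
    ring
  have hmono : MonotoneOn (fun x => (x - 1) * (x + 5) / (2 * (2 * x + 1)) - Real.log x) (Ici 1) := by
    refine monotoneOn_of_deriv_nonneg (convex_Ici 1)
      (fun x hx => (hd x hx).continuousAt.continuousWithinAt) ?_ ?_
    · rw [interior_Ici]
      exact fun x hx => (hd x (Ioi_subset_Ici_self hx)).differentiableAt.differentiableWithinAt
    intro x hx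
    rw [interior_Ici] at hx
    rw [(hd x (Ioi_subset_Ici_self hx)).deriv]
    simp only [mem_Ioi] at hx
    have : 0 ≤ x - 1 := by linarith
    positivity
  have := hmono (show (1 : ℝ) ∈ Ici 1 by simp) h1 h1
  simp at this
  linarith

namespace FourPoly

/-- What the checks of one side say about the gain. -/
structure Side.GapOk (S : Side) : Prop where
  neg : ∀ w a : ℝ, w ∈ Ico (0 : ℝ) 1 → a ∈ Ico (-1 : ℝ) 0 → 0 ≤ ev3 S.gapNeg w 0 a
  pos : ∀ w u : ℝ, w ∈ Ico (0 : ℝ) 1 → u ∈ Icc (0 : ℝ) 1 → 0 ≤ ev3 S.gapPos w 0 u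

/-- The half angle. -/
noncomputable def halfAngle (r : ℝ) : ℝ := r / (1 + √(1 - r ^ 2))

theorem halfAngle_spec {r : ℝ} (hr : r ∈ Icc (-1 : ℝ) 1) :
    halfAngle r ∈ Icc (-1 : ℝ) 1 ∧ r = 2 * halfAngle r / (1 + halfAngle r ^ 2) := by
  have hS0 : 0 ≤ √(1 - r ^ 2) := Real.sqrt_nonneg _
  have hS : √(1 - r ^ 2) ^ 2 = 1 - r ^ 2 := Real.sq_sqrt (by nlinarith [hr.1, hr.2])
  unfold halfAngle
  set S := √(1 - r ^ 2)
  have hd : 0 < 1 + S := by linarith
  refine ⟨⟨?_, ?_⟩, ?_⟩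
  · rw [le_div_iff₀ hd]; linarith [hr.1]
  · rw [div_le_one hd]; linarith [hr.2]
  · field_simp
    linear_combination r * hS

/-- The value of a cleared gap: `k₀`, `k₁`, `κ` tell the bound of the logarithm. -/
def gapVal (k₀ k₁ κ ε w a P : ℝ) : ℝ :=
  1048576 * 1000000 * ((1 + a ^ 2) * ((1 + w ^ 2) * ((k₀ * (1 + w ^ 2) + (1 - w ^ 2)) *
      ((1 + a ^ 2) * (1 + w ^ 2) - 4 * (w * a)) +
      k₁ * ((1 - w ^ 2) * (1 + w ^ 2) * (1 - a ^ 2))) +
      κ * ((1 - w ^ 2) * ((1 + w ^ 2) * a - 2 * w) ^ 2)) * (1 + w ^ 2) ^ 4) -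
    1048576 * 2 * ε * ((1000 * (1 + w ^ 2) ^ 4 - 1028 * ((1 - w ^ 2) ^ 2 * (1 + w ^ 2) ^ 2) +
      526 * ((1 - w ^ 2) ^ 3 * (1 + w ^ 2)) + 2 * (1 - w ^ 2) ^ 4) *
      ((k₀ * (1 + w ^ 2) + (1 - w ^ 2)) * ((1 + a ^ 2) * (1 + w ^ 2) - 4 * (w * a)) +
        k₁ * ((1 - w ^ 2) * (1 + w ^ 2) * (1 - a ^ 2)))) -
    5000000 * (((k₀ * (1 + w ^ 2) + (1 - w ^ 2)) * ((1 + a ^ 2) * (1 + w ^ 2) - 4 * (w * a)) +
        k₁ * ((1 - w ^ 2) * (1 + w ^ 2) * (1 - a ^ 2))) * (1 + w ^ 2) ^ 4 * P)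

theorem ev3_gapPoly (k₀ k₁ κ ε : ℤ) (A G : P3) (w y z : ℝ) :
    ev3 (gapPoly k₀ k₁ κ ε A G) w y z = gapVal k₀ k₁ κ ε w (ev3 A w y z) (ev3 G w y z) := by
  simp only [gapPoly, gapVal, ev3_sub3, ev3_add3, ev3_smul3, ev3_mul3, ev3_sq3, ev3_pM, ev3_pN,
    ev3_vw, ev3_C, ev3_pWp]
  push_cast
  ring

theorem gap_id_neg {w a t c r q y d K : ℝ} (P ε : ℝ) (ht : t = 2 * w / (1 + w ^ 2))
    (hc : c = (1 - w ^ 2) / (1 + w ^ 2)) (hr : r = 2 * a / (1 + a ^ 2))
    (hq : q = (1 - w ^ 2) * (1 - a ^ 2) / d) (hy : y = (1 + q) / (1 + c))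
    (hd : d = (1 + a ^ 2) * (1 + w ^ 2) - 4 * (w * a)) (hd0 : d ≠ 0)
    (hK : K = (2 * (1 + w ^ 2) + (1 - w ^ 2)) * d + (1 - w ^ 2) * (1 + w ^ 2) * (1 - a ^ 2))
    (hK0 : K ≠ 0) :
    (1 - t * r) * (2 * (1 - y) / (1 + y)) + t * r * c / (1 + c) -
      ε / 1000 * (c * weightPoly c / 2) * r ^ 2 - 5 * c / 4 * (r ^ 2 * (P / 1048576)) =
    r ^ 2 * c * gapVal 2 1 2 ε w a P / (4 * 1048576000000 * K * (1 + w ^ 2) ^ 4) := by
  have hM : (1 + w ^ 2) ≠ 0 := by positivity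
  have hoa : (1 + a ^ 2) ≠ 0 := by positivity
  have hc1 : 1 + c = 2 / (1 + w ^ 2) := by rw [hc]; field_simp; ring
  have hy1 : 1 + y = K / (2 * d) := by rw [hy, hc1, hq, hK]; field_simp; ring
  rw [hy1, hy, hc1, hq, ht, hr, hc, weightPoly, gapVal]
  field_simp
  rw [hK, hd]
  ring

theorem gap_id_pos {w a t c r q y d K : ℝ} (P ε : ℝ) (ht : t = 2 * w / (1 + w ^ 2))
    (hc : c = (1 - w ^ 2) / (1 + w ^ 2)) (hr : r = 2 * a / (1 + a ^ 2))
    (hq : q = (1 - w ^ 2) * (1 - a ^ 2) / d) (hy : y = (1 + q) / (1 + c))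
    (hd : d = (1 + a ^ 2) * (1 + w ^ 2) - 4 * (w * a)) (hd0 : d ≠ 0)
    (hK : K = (3 * (1 + w ^ 2) + (1 - w ^ 2)) * d + 2 * ((1 - w ^ 2) * (1 + w ^ 2) * (1 - a ^ 2)))
    (hK0 : K ≠ 0) :
    (1 - t * r) * (-((y - 1) * (y + 5) / (2 * (2 * y + 1)))) + t * r * c / (1 + c) -
      ε / 1000 * (c * weightPoly c / 2) * r ^ 2 - 5 * c / 4 * (r ^ 2 * (P / 1048576)) =
    r ^ 2 * c * gapVal 3 2 3 ε w a P / (4 * 1048576000000 * K * (1 + w ^ 2) ^ 4) := by
  have hM : (1 + w ^ 2) ≠ 0 := by positivity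
  have hoa : (1 + a ^ 2) ≠ 0 := by positivity
  have hc1 : 1 + c = 2 / (1 + w ^ 2) := by rw [hc]; field_simp; ring
  have hy1 : 2 * y + 1 = K / (2 * d) := by rw [hy, hc1, hq, hK]; field_simp; ring
  rw [hy1, hy, hc1, hq, ht, hr, hc, weightPoly, gapVal]
  field_simp
  rw [hK, hd]
  ring

/-- The half angles of a state and what they say. -/
theorem coords {t z : ℝ} (ht : t ∈ Ioo (0 : ℝ) 1) (hz : z ∈ Icc (0 : ℝ) 1) :
    ∃ w a : ℝ, w = t / (1 + ballShape t) ∧ a = halfAngle ((t - z) / (1 - t * z)) ∧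
      0 < w ∧ w < 1 ∧ -1 ≤ a ∧ a < 1 ∧ a ≤ w ∧ t = 2 * w / (1 + w ^ 2) ∧
      ballShape t = (1 - w ^ 2) / (1 + w ^ 2) ∧ (t - z) / (1 - t * z) = 2 * a / (1 + a ^ 2) ∧
      0 < (1 + a ^ 2) * (1 + w ^ 2) - 4 * (w * a) ∧
      ballShape z = (1 - w ^ 2) * (1 - a ^ 2) / ((1 + a ^ 2) * (1 + w ^ 2) - 4 * (w * a)) := by
  have hI : t ∈ Ioo (-1 : ℝ) 1 := ⟨by linarith [ht.1], ht.2⟩
  have hc := ball_pos hI
  have hc2 := ball_sq (Ioo_subset_Icc_self hI)
  have hzI : z ∈ Icc (-1 : ℝ) 1 := ⟨by linarith [hz.1], hz.2⟩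
  have hden : 0 < 1 - t * z := by nlinarith [mul_le_mul_of_nonneg_left hz.2 ht.1.le, ht.2]
  have ht2 : 0 < 1 - t ^ 2 := by rw [← hc2]; positivity
  have hq0 : 0 ≤ ballShape z := Real.sqrt_nonneg _
  have hz2 : ballShape z ^ 2 = 1 - z ^ 2 := ball_sq hzI
  generalize ballShape z = q at hq0 hz2 ⊢
  generalize ballShape t = c at hc hc2 ⊢
  have hr1 : (t - z) / (1 - t * z) ∈ Icc (-1 : ℝ) 1 := by
    refine ⟨?_, ?_⟩
    · rw [le_div_iff₀ hden]; nlinarith [mul_nonneg ht.1.le (sub_nonneg.2 hz.2), hz.2, ht.2]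
    · rw [div_le_one hden]; nlinarith [mul_nonneg hz.1 (sub_nonneg.2 ht.2.le), ht.2]
  have hrt : (t - z) / (1 - t * z) ≤ t := by
    rw [div_le_iff₀ hden]
    nlinarith [mul_nonneg hz.1 ht2.le]
  have hzr : z = (t - (t - z) / (1 - t * z)) / (1 - t * ((t - z) / (1 - t * z))) := by
    have e1 : 1 - t * ((t - z) / (1 - t * z)) = (1 - t ^ 2) / (1 - t * z) := by
      rw [eq_div_iff hden.ne', sub_mul, one_mul, mul_assoc, div_mul_cancel₀ _ hden.ne']
      ring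
    rw [e1, eq_div_iff (div_pos ht2 hden).ne', ← mul_div_assoc, div_eq_iff hden.ne', sub_mul,
      div_mul_cancel₀ _ hden.ne']
    ring
  obtain ⟨hta, hra⟩ := halfAngle_spec hr1
  have hha : halfAngle ((t - z) / (1 - t * z)) < 1 := by
    have := Real.sqrt_nonneg (1 - ((t - z) / (1 - t * z)) ^ 2)
    rw [halfAngle, div_lt_one (by positivity)]
    linarith [hrt.trans_lt ht.2]
  generalize halfAngle ((t - z) / (1 - t * z)) = a at hta hra hha ⊢
  generalize (t - z) / (1 - t * z) = r at hra hrt hr1 hzr ⊢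
  have het : t = 2 * (t / (1 + c)) / (1 + (t / (1 + c)) ^ 2) := by
    field_simp; linear_combination t * hc2
  have hec : c = (1 - (t / (1 + c)) ^ 2) / (1 + (t / (1 + c)) ^ 2) := by
    field_simp; linear_combination (1 + c) * hc2
  have hw0 : 0 < t / (1 + c) := div_pos ht.1 (by linarith)
  have hw1 : t / (1 + c) < 1 := by rw [div_lt_one (by linarith)]; linarith [ht.2]
  generalize t / (1 + c) = w at het hec hw0 hw1 ⊢
  have hM : 0 < 1 + w ^ 2 := by positivity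
  have hN : 0 < 1 - w ^ 2 := by nlinarith
  have hoa : 0 < 1 + a ^ 2 := by positivity
  have haw : a ≤ w := by
    by_contra hcon
    push Not at hcon
    have h1 : a * w < 1 := by
      have := mul_le_mul_of_nonneg_right hta.2 hw0.le
      linarith
    have : t < r := by
      rw [het, hra, div_lt_div_iff₀ hM hoa]
      nlinarith [mul_pos (sub_pos.2 hcon) (sub_pos.2 h1)]
    linarith
  have hd0 : 0 < (1 + a ^ 2) * (1 + w ^ 2) - 4 * (w * a) := by
    have : 0 < 1 - t * r := by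
      nlinarith [mul_le_mul_of_nonneg_left hr1.2 ht.1.le, ht.2]
    rw [het, hra] at this
    have e : (1 + a ^ 2) * (1 + w ^ 2) - 4 * (w * a) =
        (1 - 2 * w / (1 + w ^ 2) * (2 * a / (1 + a ^ 2))) * ((1 + w ^ 2) * (1 + a ^ 2)) := by
      field_simp
      ring
    rw [e]
    positivity
  refine ⟨w, a, rfl, rfl, hw0, hw1, hta.1, hha, haw, het, hec, hra, hd0, ?_⟩
  refine (sq_eq_sq₀ hq0 (div_nonneg (mul_nonneg hN.le (by nlinarith [hta.1, hta.2])) hd0.le)).1 ?_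
  have e1 : t - r = 2 * ((w - a) * (1 - w * a)) / ((1 + w ^ 2) * (1 + a ^ 2)) := by
    rw [het, hra]; field_simp; ring
  have e2 : 1 - t * r =
      ((1 + a ^ 2) * (1 + w ^ 2) - 4 * (w * a)) / ((1 + w ^ 2) * (1 + a ^ 2)) := by
    rw [het, hra]; field_simp; ring
  rw [hz2, hzr, e1, e2, div_div_div_cancel_right₀ (by positivity : (1 + w ^ 2) * (1 + a ^ 2) ≠ 0),
    div_pow, div_pow, one_sub_div (pow_ne_zero 2 hd0.ne')]
  congr 1
  ring

/-- The gain is at least the polynomial bound. -/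
theorem gain_ge {S : Side} (hG : S.GapOk) {t z x : ℝ} (ht : t ∈ Ioo (0 : ℝ) 1)
    (hz : z ∈ Icc (0 : ℝ) 1) :
    x ^ 2 * (((t - z) / (1 - t * z)) ^ 2 *
        (ev2 S.g (t / (1 + ballShape t)) (halfAngle ((t - z) / (1 - t * z))) / 1048576)) ≤
      tailGain 4 (bregPoly 4) (1 - (S.ε : ℝ) / 1000) t x ((t - z) / (1 - t * z)) := by
  obtain ⟨w, a, hwdef, hadef, hw0, hw1, ha0, ha1, haw, het, hec, hra, hd0, hqz⟩ := coords ht hz
  rw [← hwdef, ← hadef]
  have hI : t ∈ Ioo (-1 : ℝ) 1 := ⟨by linarith [ht.1], ht.2⟩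
  have hc : 0 < ballShape t := ball_pos hI
  have hc2 : ballShape t ^ 2 = 1 - t ^ 2 := ball_sq (Ioo_subset_Icc_self hI)
  have hzI : z ∈ Icc (-1 : ℝ) 1 := ⟨by linarith [hz.1], hz.2⟩
  have hden : 0 < 1 - t * z := by nlinarith [mul_le_mul_of_nonneg_left hz.2 ht.1.le, ht.2]
  have hB := logBreg_le_pureBreg (m := 4) (by norm_num) ht hzI
  have h1tr : 0 ≤ 1 - t * ((t - z) / (1 - t * z)) := by
    rw [hra, het]
    refine le_of_le_of_eq (div_nonneg hd0.le (show 0 ≤ (1 + w ^ 2) * (1 + a ^ 2) by positivity)) ?_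
    field_simp
    ring
  have hD : ballShape t ^ 2 / (1 - t * z) * logBreg t z =
      (1 - t * ((t - z) / (1 - t * z))) * Real.log ((1 + ballShape t) / (1 + ballShape z)) +
        t * ((t - z) / (1 - t * z)) * ballShape t / (1 + ballShape t) := by
    have e1 : 1 - t * ((t - z) / (1 - t * z)) = ballShape t ^ 2 / (1 - t * z) := by
      rw [hc2, eq_div_iff hden.ne', sub_mul, one_mul, mul_assoc, div_mul_cancel₀ _ hden.ne']
      ring
    rw [e1, logBreg, mul_add]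
    field_simp
  rw [hD, hqz] at hB
  rw [tailGain, bregPoly]
  generalize ballShape t = c at hc hec hB ⊢
  generalize (t - z) / (1 - t * z) = r at hra h1tr hB ⊢
  generalize hP : ev2 S.g w a = P
  set q := (1 - w ^ 2) * (1 - a ^ 2) / ((1 + a ^ 2) * (1 + w ^ 2) - 4 * (w * a)) with hq
  have hM : 0 < 1 + w ^ 2 := by positivity
  have hN : 0 < 1 - w ^ 2 := by nlinarith
  have h1a : 0 ≤ 1 - a ^ 2 := by nlinarith
  have hq0 : 0 ≤ q := div_nonneg (mul_nonneg hN.le h1a) hd0.le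
  have hy0 : 0 < (1 + q) / (1 + c) := by positivity
  have key : (q - c) * (((1 + a ^ 2) * (1 + w ^ 2) - 4 * (w * a)) * (1 + w ^ 2)) =
      2 * ((1 - w ^ 2) * (a * (2 * w - (1 + w ^ 2) * a))) := by
    have h' := div_mul_cancel₀ ((1 - w ^ 2) * (1 - a ^ 2)) hd0.ne'
    rw [← hq] at h'
    have h'' : c * (1 + w ^ 2) = 1 - w ^ 2 := by rw [hec]; field_simp
    linear_combination (1 + w ^ 2) * h' - ((1 + a ^ 2) * (1 + w ^ 2) - 4 * (w * a)) * h''
  suffices main : ∀ L, L ≤ Real.log ((1 + c) / (1 + q)) →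
      5 * c / 4 * (r ^ 2 * (P / 1048576)) ≤ (1 - t * r) * L + t * r * c / (1 + c) -
        (S.ε : ℝ) / 1000 * (c * weightPoly c / 2) * r ^ 2 →
      x ^ 2 * (r ^ 2 * (P / 1048576)) ≤ ((4 : ℕ) : ℝ) / c * x ^ 2 * (pureBreg 4 t r -
        (1 - (1 - (S.ε : ℝ) / 1000)) * (c * weightPoly c / (2 * (((4 : ℕ) : ℝ) + 1)) * r ^ 2)) by
    have hlog : Real.log ((1 + c) / (1 + q)) = -Real.log ((1 + q) / (1 + c)) := by
      rw [← inv_div, Real.log_inv]
    rcases lt_trichotomy a 0 with ha | ha | ha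
    · have hg := hG.neg w a ⟨hw0.le, hw1⟩ ⟨ha0, ha⟩
      rw [Side.gapNeg, ev3_gapPoly, ev3_compG, ev3_va, hP] at hg
      push_cast at hg
      have hK0 : 0 < (2 * (1 + w ^ 2) + (1 - w ^ 2)) * ((1 + a ^ 2) * (1 + w ^ 2) - 4 * (w * a)) +
          (1 - w ^ 2) * (1 + w ^ 2) * (1 - a ^ 2) := by positivity
      refine main (2 * (1 - (1 + q) / (1 + c)) / (1 + (1 + q) / (1 + c))) ?_ ?_
      · rw [hlog]
        refine two_div_le_neg_log hy0 ?_
        rw [div_le_one (by linarith)]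
        have h2 : 0 ≤ 2 * w - (1 + w ^ 2) * a := by
          linarith [mul_nonpos_of_nonneg_of_nonpos hM.le ha.le]
        have : (q - c) * (((1 + a ^ 2) * (1 + w ^ 2) - 4 * (w * a)) * (1 + w ^ 2)) ≤ 0 := by
          rw [key]
          linarith [mul_nonneg hN.le (mul_nonneg (neg_nonneg.2 ha.le) h2)]
        linarith [nonpos_of_mul_nonpos_left this (by positivity)]
      · rw [← sub_nonneg, gap_id_neg P (S.ε : ℝ) het hec hra hq rfl rfl hd0.ne' rfl hK0.ne']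
        positivity
    · subst ha
      have hr0 : r = 0 := by rw [hra]; simp
      have hqc : q = c := by rw [hq, hec]; simp
      refine main 0 (by simp [hqc, div_self (by positivity : (1 + c) ≠ 0)]) ?_
      simp [hr0]
    · have hg := hG.pos w (a / w) ⟨hw0.le, hw1⟩ ⟨by positivity, (div_le_one hw0).2 haw⟩
      rw [Side.gapPos, ev3_gapPoly, ev3_compG, ev3_mul3, ev3_vw, ev3_va,
        mul_div_cancel₀ a hw0.ne', hP] at hg
      push_cast at hg
      have hK0 : 0 < (3 * (1 + w ^ 2) + (1 - w ^ 2)) * ((1 + a ^ 2) * (1 + w ^ 2) - 4 * (w * a)) +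
          2 * ((1 - w ^ 2) * (1 + w ^ 2) * (1 - a ^ 2)) := by positivity
      refine main (-(((1 + q) / (1 + c) - 1) * ((1 + q) / (1 + c) + 5) /
        (2 * (2 * ((1 + q) / (1 + c)) + 1)))) ?_ ?_
      · rw [hlog]
        refine neg_le_neg (log_le_pade ?_)
        rw [one_le_div (by linarith)]
        have h2 : 0 ≤ 2 * w - (1 + w ^ 2) * a := by
          linarith [mul_le_mul_of_nonneg_left haw hM.le,
            show (1 + w ^ 2) * w ≤ 2 * w by nlinarith]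
        have : 0 ≤ (q - c) * (((1 + a ^ 2) * (1 + w ^ 2) - 4 * (w * a)) * (1 + w ^ 2)) := by
          rw [key]
          positivity
        linarith [nonneg_of_mul_nonneg_left this (by positivity)]
      · rw [← sub_nonneg, gap_id_pos P (S.ε : ℝ) het hec hra hq rfl rfl hd0.ne' rfl hK0.ne']
        positivity
  intro L hL hLP
  have h1 : (1 - t * r) * L + t * r * c / (1 + c) ≤ 5 * pureBreg 4 t r := by
    norm_num at hB
    linarith [mul_le_mul_of_nonneg_left hL h1tr]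
  have h2 : r ^ 2 * (P / 1048576) ≤ 4 / c * (pureBreg 4 t r -
      (S.ε : ℝ) / 1000 * (c * weightPoly c / 2) * r ^ 2 / 5) := by
    rw [div_mul_eq_mul_div, le_div_iff₀ hc]
    linarith
  refine (mul_le_mul_of_nonneg_left h2 (sq_nonneg x)).trans_eq ?_
  push_cast
  ring

end FourPoly

end Vale.Agent.P237.Quant
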