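import Vale.Agent.P237.Quant.FourGain
import Vale.Agent.P237.Quant.FourTailData.Numbers
import Vale.Agent.P237.Quant.FluxSum
import Vale.Agent.P237.Quant.FourPoincare

/-!
The calibration of dimension five: the flux `(x - 1) ^ 2 ∑ a i j p ^ i q ^ j`,
`q = (√x - 1) / (√x + 1)`, and its pointwise inequality from the checked polynomials.
-/

namespace Vale.Agent.P237.Quant.FourPoly

open Set Four.Checker Filter Topology

/-- The coefficients of the flux in `q`, at the power `i` of `p`. -/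
def Side.row (S : Side) (i : Fin 4) : P1 := S.a.getD i []

/-- The flux. -/
noncomputable def Side.flux (S : Side) : SepFlux (Fin 4) where
  σ i t := ballShape t ^ (i : ℕ) / 65536
  σ' i t := ((i : ℕ) : ℝ) * ballShape t ^ ((i : ℕ) - 1) * (-t / ballShape t) / 65536
  F i x := (x - 1) ^ 2 * ev (S.row i) (fq √x)
  F' i x := 2 * (x - 1) * ev (S.row i) (fq √x) +
    (x - 1) ^ 2 * (dev (S.row i) (fq √x) * (1 / (√x * (√x + 1) ^ 2)))
  g _ _ := 1

theorem continuous_fq_sqrt : Continuous fun x => fq √x := by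
  unfold fq
  exact (Real.continuous_sqrt.sub continuous_const).div
    (Real.continuous_sqrt.add continuous_const) fun x => by
      have := Real.sqrt_nonneg x
      positivity

theorem hasDerivAt_fq_sqrt {x : ℝ} (hx : 0 < x) :
    HasDerivAt (fun x => fq √x) (1 / (√x * (√x + 1) ^ 2)) x := by
  have hs : 0 < √x := Real.sqrt_pos.2 hx
  refine ((((Real.hasDerivAt_sqrt hx.ne').sub_const 1)).div
    ((Real.hasDerivAt_sqrt hx.ne').add_const 1) (by positivity)).congr_deriv ?_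
  field_simp
  ring

theorem Side.flux_regular (S : Side) : S.flux.Regular where
  σc i := ((cont_ball.pow _).div_const _)
  σd i t ht := by
    have h := ((hasDerivAt_ball (sub01 ht)).fun_pow (i : ℕ)).div_const (65536 : ℝ)
    exact h.hasDerivWithinAt
  σm i := by
    have := cont_ball.measurable
    simp only [Side.flux]
    fun_prop
  σb i b hb := by
    obtain ⟨B, hB⟩ := (isCompact_Icc (a := (0 : ℝ)) (b := max b 0)).exists_bound_of_continuousOn
      (f := fun t => ((i : ℕ) : ℝ) * ballShape t ^ ((i : ℕ) - 1) * (-t / ballShape t) / 65536) (by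
        refine ((continuousOn_const.mul (cont_ball.continuousOn.pow _)).mul
          (continuousOn_id.neg.div cont_ball.continuousOn fun t ht => ?_)).div_const _
        exact (ball_pos ⟨by linarith [ht.1], ht.2.trans_lt (max_lt hb one_pos)⟩).ne')
    exact ⟨B, fun t ht => hB t ⟨ht.1.le, ht.2.le.trans (le_max_left _ _)⟩⟩
  Fd i x hx := by
    refine ((((hasDerivAt_id' x).sub_const 1).pow 2).mul
      ((hasDerivAt_ev (S.row i) _).comp x (hasDerivAt_fq_sqrt hx))).congr_deriv ?_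
    simp only [Side.flux, Pi.pow_apply, Nat.cast_ofNat, Function.comp_apply]
    ring
  Fc i := by
    have h1 : Continuous fun x => ev (S.row i) (fq √x) :=
      (Packed.continuous_ev _).comp continuous_fq_sqrt
    have h2 : Continuous fun x => dev (S.row i) (fq √x) :=
      (continuous_dev _).comp continuous_fq_sqrt
    refine ((continuous_const.mul (continuous_id.sub continuous_const)).mul h1).continuousOn.add
      (((continuous_id.sub continuous_const).pow 2).continuousOn.mul (h2.continuousOn.mul ?_))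
    refine continuousOn_const.div ((Real.continuous_sqrt.mul
      ((Real.continuous_sqrt.add continuous_const).pow 2)).continuousOn) fun x hx => ?_
    have := Real.sqrt_pos.2 (show (0 : ℝ) < x from hx)
    positivity
  Fm i := by
    have h0 := continuous_fq_sqrt
    have h1 : Continuous fun x => ev (S.row i) (fq √x) :=
      (Packed.continuous_ev _).comp h0
    have h2 : Continuous fun x => dev (S.row i) (fq √x) := (continuous_dev _).comp h0
    have := h1.measurable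
    have := h2.measurable
    simp only [Side.flux]
    constructor <;> fun_prop
  gc _ := continuousOn_const

/-- The envelope at a state. -/
def Env (ns : List Node) (t x : ℝ) : Prop :=
  ∀ N ∈ ns, (N.Tn : ℝ) ≤ t * N.Td → x ^ 2 * ballShape t ^ 4 * N.Vd ≤ N.Vn

/-- What the checks of one side say. -/
structure Side.Ok (S : Side) : Prop where
  shaped : Shaped S
  θd : 0 < S.θd
  θn : 0 ≤ S.θn
  gap : S.GapOk
  start : ∀ s : ℝ, s ∈ Ico (0 : ℝ) (39 / 32) → 0 ≤ ev3 S.start 0 s 0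
  main : ∀ w s a : ℝ, w ∈ Ico (0 : ℝ) 1 → 0 < s → a ∈ Ico (-1 : ℝ) 1 → a ≤ w →
    (∀ N ∈ nodes, N.Holds w s) →
    0 ≤ ev3 S.R w s a ∨ (0 ≤ ev3 S.At w s a ∧ 0 ≤ ev3 S.P w s a ∧ 0 ≤ ev3 S.D w s a)

/-- The cleared inequality is nonnegative. -/
theorem Side.R_nonneg {S : Side} (hd : 0 < S.θd) (hn : 0 ≤ S.θn) {w s a : ℝ}
    (h : 0 ≤ ev3 S.R w s a ∨ (0 ≤ ev3 S.At w s a ∧ 0 ≤ ev3 S.P w s a ∧ 0 ≤ ev3 S.D w s a)) :
    0 ≤ ev3 S.R w s a := by
  rcases h with h | ⟨hA, hP, hD⟩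
  · exact h
  simp only [Side.R, Side.D, ev3_add3, ev3_sub3, ev3_smul3, ev3_mul3, ev3_sq3, ev3_pE, ev3_pO,
    ev3_va, ev3_vs, ev3_pM, ev3_pS] at hD ⊢
  push_cast at hD ⊢
  set A := ev3 S.At w s a
  set B := ev3 S.B6 w s a
  set P := ev3 S.P w s a
  have hd' : (0 : ℝ) < S.θd := by exact_mod_cast hd
  have hn' : (0 : ℝ) ≤ S.θn := by exact_mod_cast hn
  set k1 : ℝ := 1048576 * (S.θd : ℝ)
  set k2 : ℝ := 4 * (S.θn : ℝ) * (15000 * 65536)
  set M := 1 + w ^ 2
  set X := (s - 1) * (1 + a ^ 2)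
  set G := k2 / 4 * (s ^ 2 * (s + 1)) ^ 2 * M ^ 4 * P
  have hk1 : 0 < k1 := by positivity
  have hk2 : 0 ≤ k2 := by positivity
  have hG : 0 ≤ G := by positivity
  have hb : (k1 * B * (s * M)) ^ 2 ≤ 4 * (k1 * A) * G := by
    have := mul_nonneg (mul_nonneg hk1.le (sq_nonneg (s * M))) hD
    simp only [G]
    linarith
  have key : 0 ≤ k1 * A * X ^ 2 - k1 * B * (s * M) * (X * (2 * a)) + G * (2 * a) ^ 2 := by
    rcases (mul_nonneg hk1.le hA).eq_or_lt with h0 | h0
    · have : k1 * B * (s * M) = 0 := by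
        rw [← h0] at hb
        exact pow_eq_zero_iff two_ne_zero |>.1 (le_antisymm (by linarith) (sq_nonneg _))
      rw [this, ← h0]
      have : 0 ≤ G * (2 * a) ^ 2 := by positivity
      linarith
    · refine nonneg_of_mul_nonneg_right ?_ (mul_pos four_pos h0)
      linarith [sq_nonneg (2 * (k1 * A) * X - k1 * B * (s * M) * (2 * a)),
        mul_le_mul_of_nonneg_right hb (sq_nonneg (2 * a))]
  simp only [G, X] at key
  linarith

/-- The cleared inequality gives the inequality. -/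
theorem point_core {w a s n d M oa W F F' T P : ℝ} (hs : 0 < s) (hd : 0 < d) (hM : 0 < M)
    (hoa : 0 < oa)
    (h : 0 ≤ 1048576 * d * ((s - 1) ^ 2 * ((s + 1) * (196608 * (M ^ 2 * W * M ^ 2 *
        ((s + 1) ^ 2 * (s + 1))) - 327680000 * ((M ^ 2) ^ 2 * ((3 * s ^ 2 + 2 * s + 1) * (s + 1))) +
        30000 * (w * ((s + 1) ^ 3 * (M ^ 3 * T))))) * oa ^ 2 -
      2 * (a * oa * (s - 1) * (s * M * (15000 * (2 * ((s + 1) ^ 3 * (M ^ 3 * F) * (s + 1)) +
        (s - 1) * ((3 * (s + 1) ^ 2 * (M ^ 3 * F) + 2 * (s + 1) * (M ^ 3 * F')) * (s + 1) -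
          (s + 1) ^ 3 * (M ^ 3 * F))))))) +
      4 * n * 983040000 * (a ^ 2 * ((s ^ 2) ^ 2 * (s + 1) ^ 2) * ((M ^ 2) ^ 2 * P))) :
    0 ≤ W / 5000 * (s ^ 2 - 1) ^ 2 + n / d * ((s ^ 2) ^ 2 * ((2 * a / oa) ^ 2 * (P / 1048576))) -
      (-(2 * w / M) * T * (s ^ 2 - 1) ^ 2 / 65536 +
        2 * s ^ 2 * (2 * a / oa) * (2 * (s ^ 2 - 1) * F +
          (s ^ 2 - 1) ^ 2 * (F' * (((s + 1) ^ 2)⁻¹ * s⁻¹))) / 65536 +
        (s ^ 4 - 4 / 3 * s ^ 3 + 1 / 3)) := by
  refine le_of_le_of_eq (div_nonneg h (show (0 : ℝ) ≤ 1048576 * d * (15000 * 65536) *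
    (M ^ 4 * (s + 1) ^ 2 * oa ^ 2) by positivity)) ?_
  field_simp
  ring

/-- The pointwise inequality of the calibration. -/
theorem Side.pointwise {S : Side} (h : S.Ok) {t : ℝ} (ht : t ∈ Ioo (0 : ℝ) 1) {x : ℝ} (hx : 0 < x)
    {z : ℝ} (hz : z ∈ Icc (0 : ℝ) 1) (hS : Env nodes t x) :
    ballShape t ^ 2 * S.flux.Dt t x z +
      ((4 : ℕ) : ℝ) / 2 * x * ((t - z) / (1 - t * z)) * S.flux.Dx t x z -
        (((4 : ℕ) : ℝ) + 1) * t * S.flux.D t x z + tailLoss 4 x ≤
      fourW t * (x - 1) ^ 2 + (S.θn : ℝ) / S.θd *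
        tailGain 4 (bregPoly 4) (1 - (S.ε : ℝ) / 1000) t x ((t - z) / (1 - t * z)) := by
  obtain ⟨w, a, hwdef, hadef, hw0, hw1, ha0, ha1, haw, het, hec, hra, -, -⟩ := coords ht hz
  have hgain := gain_ge (x := x) h.gap ht hz
  rw [← hwdef, ← hadef] at hgain
  have hM : 0 < 1 + w ^ 2 := by positivity
  have hoa : 0 < 1 + a ^ 2 := by positivity
  set s := √x with hsdef
  have hs : 0 < s := Real.sqrt_pos.2 hx
  have hxs : x = s ^ 2 := (Real.sq_sqrt hx.le).symm
  have henv : ∀ N ∈ nodes, N.Holds w s := by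
    intro N hN hT
    have hT' : (N.Tn : ℝ) ≤ t * N.Td := by
      rw [het, div_mul_eq_mul_div, le_div_iff₀ hM]
      exact hT
    have := hS N hN hT'
    rw [hxs, hec, div_pow, mul_div_assoc', div_mul_eq_mul_div,
      div_le_iff₀ (by positivity)] at this
    linarith
  have hR := S.R_nonneg h.θd h.θn (h.main w s a ⟨hw0.le, hw1⟩ hs ⟨ha0, ha1⟩ haw henv)
  have hy : s + 1 ≠ 0 := by positivity
  simp only [Side.R, Side.At, Side.B6, Side.P, ev3_add3, ev3_sub3, ev3_smul3, ev3_mul3, ev3_sq3,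
    ev3_pE, ev3_pO, ev3_va, ev3_vs, ev3_vw, ev3_pM, ev3_pS, ev3_pW, ev3_pTail,
    ev3_map_single, Side.F, ev3_fluxSum h.shaped.1 h.shaped.2 _ _ _ _ w s a hy] at hR
  rw [← Side.F, ev3_dS_flux h.shaped w s a (by positivity)] at hR
  simp only [rowSum, Fin.sum_univ_four, Matrix.cons_val_zero, Matrix.cons_val_one,
    Matrix.cons_val] at hR
  push_cast at hR
  have hθd : (0 : ℝ) < S.θd := by exact_mod_cast h.θd
  have hθ : 0 ≤ (S.θn : ℝ) / S.θd := div_nonneg (by exact_mod_cast h.θn) hθd.le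
  refine le_trans ?_ (add_le_add le_rfl (mul_le_mul_of_nonneg_left hgain hθ))
  have hloss : tailLoss 4 x = s ^ 4 - 4 / 3 * s ^ 3 + 1 / 3 := by
    rw [tailLoss, hxs, ← Real.rpow_natCast_mul hs.le]
    norm_num
    ring
  rw [hloss]
  simp only [SepFlux.Dt, SepFlux.Dx, SepFlux.D, Side.flux, Fin.sum_univ_four, fourW, ← hsdef, Side.row]
  norm_num
  rw [hxs, ← sub_nonneg]
  set q := fq s with hq
  simp only [List.getD_eq_getElem?_getD, Fin.val_zero, Fin.val_one, Fin.val_two,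
    show ((3 : Fin 4) : ℕ) = 3 from rfl] at hR
  generalize ev (S.a[0]?.getD []) q = e0 at hR ⊢
  generalize ev (S.a[1]?.getD []) q = e1 at hR ⊢
  generalize ev (S.a[2]?.getD []) q = e2 at hR ⊢
  generalize ev (S.a[3]?.getD []) q = e3 at hR ⊢
  generalize dev (S.a[0]?.getD []) q = d0 at hR ⊢
  generalize dev (S.a[1]?.getD []) q = d1 at hR ⊢
  generalize dev (S.a[2]?.getD []) q = d2 at hR ⊢
  generalize dev (S.a[3]?.getD []) q = d3 at hR ⊢
  generalize ev2 S.g w a = P at hR ⊢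
  have hc : 0 < ballShape t := ball_pos (sub01 ht)
  generalize ballShape t = c at hec hc ⊢
  generalize (t - z) / (1 - t * z) = r at hra ⊢
  have hW : 2325 * (1 + w ^ 2) ^ 2 + 1150 * ((1 - w ^ 2) * (1 + w ^ 2)) - 400 * (1 - w ^ 2) ^ 2 =
      (1 + w ^ 2) ^ 2 * (2325 + 1150 * c - 400 * c ^ 2) := by
    rw [hec]; field_simp
  have hpoly : ∀ k0 k1 k2 k3 f0 f1 f2 f3 : ℝ,
      k0 * (1 + w ^ 2) ^ 3 * f0 + k1 * ((1 - w ^ 2) * (1 + w ^ 2) ^ 2) * f1 +
        k2 * ((1 - w ^ 2) ^ 2 * (1 + w ^ 2)) * f2 + k3 * (1 - w ^ 2) ^ 3 * f3 =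
      (1 + w ^ 2) ^ 3 * (k0 * f0 + k1 * c * f1 + k2 * c ^ 2 * f2 + k3 * c ^ 3 * f3) := fun _ _ _ _ _ _ _ _ => by
    rw [hec]; field_simp
  have hp1 : ∀ f0 f1 f2 f3 : ℝ,
      (1 + w ^ 2) ^ 3 * f0 + (1 - w ^ 2) * (1 + w ^ 2) ^ 2 * f1 +
        (1 - w ^ 2) ^ 2 * (1 + w ^ 2) * f2 + (1 - w ^ 2) ^ 3 * f3 =
      (1 + w ^ 2) ^ 3 * (f0 + c * f1 + c ^ 2 * f2 + c ^ 3 * f3) := fun f0 f1 f2 f3 => by
    linear_combination hpoly 1 1 1 1 f0 f1 f2 f3
  simp only [hW, hpoly, hp1, one_mul] at hR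
  refine le_of_le_of_eq (point_core hs hθd hM hoa hR) ?_
  rw [← hra, ← het]
  field_simp
  ring

/-- The flux at the centre is not positive. -/
theorem Side.start_nonpos {S : Side} (h : S.Ok) {x : ℝ} (hx : 0 < x) (hx' : x ≤ 148 / 100) :
    S.flux.D 0 x 0 ≤ 0 := by
  have hs : 0 < √x := Real.sqrt_pos.2 hx
  have hlt : √x < 39 / 32 := (Real.sqrt_lt' (by norm_num)).2 (by linarith [show (148 : ℝ) / 100 < (39 / 32) ^ 2 by norm_num])
  have h0 := h.start √x ⟨hs.le, hlt⟩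
  obtain ⟨h4, hr⟩ := h.shaped
  match hA : S.a, h4 with
  | [r0, r1, r2, r3], _ =>
    simp only [hA, List.mem_cons, List.not_mem_nil, or_false, forall_eq_or_imp, forall_eq] at hr
    have hy : √x + 1 ≠ 0 := by positivity
    simp only [Side.start, hA, ev3_smul3, ev3_add3, ev3_sPoly hr.1 _ _ _ hy,
      ev3_sPoly hr.2.1 _ _ _ hy, ev3_sPoly hr.2.2.1 _ _ _ hy, ev3_sPoly hr.2.2.2 _ _ _ hy] at h0
    push_cast at h0
    have hb : ballShape 0 = 1 := by simp [ballShape]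
    simp only [SepFlux.D, Side.flux, Side.row, hA, hb, Fin.sum_univ_four, one_pow, mul_one]
    simp
    have hp : 0 < (√x + 1) ^ 3 := by positivity
    have hsum : ev r0 (fq √x) + ev r1 (fq √x) + ev r2 (fq √x) + ev r3 (fq √x) ≤ 0 := by
      refine nonpos_of_mul_nonpos_right ?_ hp
      linarith
    linarith [mul_nonpos_of_nonneg_of_nonpos (sq_nonneg (x - 1)) hsum]

/-- The flux is bounded below at the end. -/
theorem Side.end_bound (S : Side) : ∃ K : ℝ, ∀ᶠ b in 𝓝[<] (1 : ℝ), ∀ x, 0 < x →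
    ∀ z ∈ Icc (0 : ℝ) 1, -K * (1 + x ^ 2) ≤ S.flux.D b x z := by
  refine ⟨∑ i : Fin 4, 2 * (Packed.n1 (S.row i) : ℝ) / 65536, Eventually.of_forall fun b x hx z _ => ?_⟩
  have hq : |fq √x| ≤ 1 := by
    have := Real.sqrt_nonneg x
    rw [fq, abs_div, abs_of_pos (show 0 < √x + 1 by positivity), div_le_one (by positivity), abs_le]
    constructor <;> linarith
  have hx2 : (x - 1) ^ 2 ≤ 2 * (1 + x ^ 2) := by nlinarith [sq_nonneg (x + 1)]
  have hb : |ballShape b| ≤ 1 :=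
    abs_le.2 ⟨by linarith [show (0 : ℝ) ≤ ballShape b from Real.sqrt_nonneg _], ball_le_one b⟩
  have key : ∀ i, |S.flux.σ i b * S.flux.F i x * S.flux.g i z| ≤
      2 * (Packed.n1 (S.row i) : ℝ) / 65536 * (1 + x ^ 2) := fun i => by
    simp only [Side.flux, mul_one, abs_mul, abs_div, abs_pow, sq_abs]
    rw [abs_of_pos (show (0 : ℝ) < 65536 by norm_num)]
    calc |ballShape b| ^ (i : ℕ) / 65536 * ((x - 1) ^ 2 * |ev (S.row i) (fq √x)|)
        ≤ 1 / 65536 * (2 * (1 + x ^ 2) * (Packed.n1 (S.row i) : ℝ)) :=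
          mul_le_mul (div_le_div_of_nonneg_right (pow_le_one₀ (abs_nonneg _) hb) (by norm_num))
            (mul_le_mul hx2 (abs_ev_le _ _ hq) (abs_nonneg _) (by positivity))
            (by positivity) (by norm_num)
      _ = _ := by ring
  have := (abs_le.1 ((Finset.abs_sum_le_sum_abs (fun i => S.flux.σ i b * S.flux.F i x * S.flux.g i z)
    Finset.univ).trans (Finset.sum_le_sum fun i _ => key i))).1
  rw [← Finset.sum_mul] at this
  rw [SepFlux.D]
  linarith

/-- The tail inequality of one side. -/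
theorem Side.excess_le {S : Side} (h : S.Ok) {φ : ℝ → ℝ} (hφ : IsShape φ)
    (hcentre : specU 4 φ 0 ≤ 148 / 100 * specM 4 φ)
    (henv : ∀ t ∈ Ioo (0 : ℝ) 1, Env nodes t (specU 4 φ t / specM 4 φ)) :
    specExcess 4 φ ≤ specQuad 4 fourW (specV 4 φ) + (S.θn : ℝ) / S.θd *
      (specSurplus 4 (bregPoly 4) φ + (1 - (S.ε : ℝ) / 1000) *
        specEnergy 4 (bregPoly 4) (fun t => specU' 4 φ t / specM 4 φ)) := by
  have hM := specM_pos (m := 4) (by norm_num) hφ
  refine excess_le_of_sepFlux (S := fun t x _ => Env nodes t x) (by norm_num) hφ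
    (fun t _ => bregPoly_nonneg 4 t) (measurable_bregPoly 4)
    (fun t ht r hr => bregPoly_mul_le (by norm_num) ht hr) continuous_fourW.measurable fourW_bound
    _ S.flux_regular ?_ ?_ S.end_bound henv (fun t ht x hx z hz hS => S.pointwise h ht hx hz hS)
  · intro t _ x _ _ a _ b _ _
    exact le_of_eq rfl
  · exact S.start_nonpos h (div_pos (specU_pos hφ ⟨by norm_num, by norm_num⟩) hM)
      ((div_le_iff₀ hM).2 hcentre)

end Vale.Agent.P237.Quant.FourPoly
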