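import Vale.Agent.P237.Quant.Packed

/-!
Integer polynomials in three variables for the tail of dimension five: their formation from the
coefficients of the flux, and a positivity test on boxes that works on packed integers.
-/

namespace Vale.Agent.P237.Quant.FourPoly

open Four.Checker Packed

/-- Coefficient lists in three variables: the outer list is in the first variable. -/
abbrev P3 := List P2

/-- Sum in three variables. -/
def add3 : P3 → P3 → P3
  | [], l => l
  | a :: k, [] => a :: k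
  | a :: k, b :: l => add2 a b :: add3 k l

/-- Scalar multiple in three variables. -/
def smul3 (c : ℤ) : P3 → P3
  | [] => []
  | a :: k => smul2 c a :: smul3 c k

/-- Product with a polynomial in the last two variables. -/
def rmul3 (r : P2) : P3 → P3
  | [] => []
  | a :: k => mul2 r a :: rmul3 r k

/-- Product in three variables. -/
def mul3 : P3 → P3 → P3
  | [], _ => []
  | a :: k, l => add3 (rmul3 a l) ([] :: mul3 k l)

/-- A constant. -/
def C (n : ℤ) : P3 := [[[n]]]
/-- The first variable. -/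
def vw : P3 := [[], [[1]]]
/-- The second variable. -/
def vs : P3 := [[[], [1]]]
/-- The third variable. -/
def va : P3 := [[[0, 1]]]

/-- Difference. -/
def sub3 (p q : P3) : P3 := add3 p (smul3 (-1) q)
/-- Square. -/
def sq3 (p : P3) : P3 := mul3 p p

/-- `1 + w²`. -/
def pM : P3 := [[[1]], [], [[1]]]
/-- `1 - w²`. -/
def pN : P3 := [[[1]], [], [[-1]]]
/-- `s + 1`. -/
def pS : P3 := [[[1], [1]]]
/-- `s - 1`. -/
def pE : P3 := [[[-1], [1]]]
/-- `1 + a²`. -/
def pO : P3 := [[[1, 0, 1]]]

/-- The coefficients of one side: those of the flux times `2 ^ 16`, those of the lower bound of the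
gain times `2 ^ 20`, the weight of the surplus `θn / θd` and `1 - η'` times `1000`. -/
structure Side where
  a : List (List ℤ)
  g : List (List ℤ)
  θn : ℤ
  θd : ℤ
  ε : ℤ

/-- `∑ j, A j e ^ j (s + 1) ^ (3 - j)`. -/
def sPoly : List ℤ → P3
  | [a0, a1, a2, a3] =>
    add3 (add3 (smul3 a0 (mul3 (sq3 pS) pS)) (smul3 a1 (mul3 (sq3 pS) pE)))
      (add3 (smul3 a2 (mul3 (sq3 pE) pS)) (smul3 a3 (mul3 (sq3 pE) pE)))
  | _ => []

/-- `∑ i, N ^ i M ^ (3 - i) k i S i`. -/
def fluxSum (k0 k1 k2 k3 : ℤ) : List (List ℤ) → P3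
  | [r0, r1, r2, r3] =>
    add3 (add3 (smul3 k0 (mul3 (mul3 (sq3 pM) pM) (sPoly r0)))
        (smul3 k1 (mul3 (mul3 (sq3 pM) pN) (sPoly r1))))
      (add3 (smul3 k2 (mul3 (mul3 (sq3 pN) pM) (sPoly r2)))
        (smul3 k3 (mul3 (mul3 (sq3 pN) pN) (sPoly r3))))
  | _ => []

/-- The derivative in the second variable of a row. -/
def dRows : ℤ → P2 → P2
  | _, [] => []
  | n, r :: l => smul1 n r :: dRows (Int.add n 1) l

/-- The derivative in the second variable. -/
def dS : P3 → P3
  | [] => []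
  | [] :: l => [] :: dS l
  | (_ :: r) :: l => dRows 1 r :: dS l

/-- `(s + 1) Φ`. -/
def Side.F (S : Side) : P3 := fluxSum 1 1 1 1 S.a

/-- The potential, times `5000 M ²`. -/
def pW : P3 :=
  add3 (smul3 2325 (sq3 pM)) (add3 (smul3 1150 (mul3 pN pM)) (smul3 (-400) (sq3 pN)))

/-- `3 s² + 2 s + 1`. -/
def pTail : P3 := [[[1], [2], [3]]]

/-- The part free of `ρ`. -/
def Side.At (S : Side) : P3 :=
  mul3 pS
    (add3 (sub3 (smul3 (65536 * 3) (mul3 (mul3 pW (sq3 pM)) (mul3 (sq3 pS) pS)))
        (smul3 (65536 * 5000) (mul3 (sq3 (sq3 pM)) (mul3 pTail pS))))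
      (smul3 30000 (mul3 vw (fluxSum 5 6 7 8 S.a))))

/-- The part linear in `ρ`, divided by `s M`. -/
def Side.B6 (S : Side) : P3 :=
  smul3 15000 (add3 (smul3 2 (mul3 S.F pS)) (mul3 pE (sub3 (mul3 (dS S.F) pS) S.F)))

/-- The lower bound of the gain. -/
def Side.P (S : Side) : P3 := S.g.map fun r => [r]

/-- The inequality, cleared. -/
def Side.R (S : Side) : P3 :=
  add3
    (smul3 (1048576 * S.θd)
      (sub3 (mul3 (mul3 (sq3 pE) S.At) (sq3 pO))
        (smul3 2 (mul3 (mul3 (mul3 va pO) pE) (mul3 (mul3 vs pM) S.B6)))))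
    (smul3 (4 * S.θn * (15000 * 65536))
      (mul3 (mul3 (sq3 va) (mul3 (sq3 (sq3 vs)) (sq3 pS))) (mul3 (sq3 (sq3 pM)) S.P)))

/-- The discriminant, cleared. -/
def Side.D (S : Side) : P3 :=
  sub3 (smul3 (4 * S.θn * (15000 * 65536))
      (mul3 (mul3 (mul3 (sq3 vs) (sq3 pS)) (sq3 pM)) (mul3 S.At S.P)))
    (smul3 (1048576 * S.θd) (sq3 S.B6))

/-- `M ^ 4` times the upper bound of the weight, times `1000`. -/
def pWp : P3 :=
  add3 (add3 (smul3 1000 (sq3 (sq3 pM))) (smul3 (-1028) (mul3 (sq3 pN) (sq3 pM))))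
    (add3 (smul3 526 (mul3 (mul3 (sq3 pN) pN) pM)) (smul3 2 (sq3 (sq3 pN))))

/-- The excess of the rational gain over the lower bound, on one branch: `A` is the third variable
as a polynomial and `G` the lower bound in it. -/
def gapPoly (k₀ k₁ κ : ℤ) (ε : ℤ) (A G : P3) : P3 :=
  let oa := add3 (C 1) (sq3 A)
  let K := add3 (mul3 (add3 (smul3 k₀ pM) pN) (sub3 (mul3 oa pM) (smul3 4 (mul3 vw A))))
    (smul3 k₁ (mul3 (mul3 pN pM) (sub3 (C 1) (sq3 A))))
  let f := mul3 (mul3 oa (add3 (mul3 pM K)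
    (smul3 κ (mul3 pN (sq3 (sub3 (mul3 pM A) (smul3 2 vw))))))) (sq3 (sq3 pM))
  sub3 (sub3 (smul3 (1048576 * 1000000) f) (smul3 (1048576 * 2 * ε) (mul3 pWp K)))
    (smul3 5000000 (mul3 (mul3 K (sq3 (sq3 pM))) G))

/-- The third variable replaced by a polynomial, row by row. -/
def comp1 (A : P3) : P1 → P3
  | [] => []
  | c :: l => add3 (C c) (mul3 A (comp1 A l))

/-- The lower bound of the gain in another variable. -/
def compG (A : P3) : List (List ℤ) → P3
  | [] => []
  | r :: l => add3 (comp1 A r) (mul3 vw (compG A l))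

/-- The gap for `a ≤ 0`. -/
def Side.gapNeg (S : Side) : P3 := gapPoly 2 1 2 S.ε va (compG va S.g)

/-- The gap for `a = u w`. -/
def Side.gapPos (S : Side) : P3 :=
  gapPoly 3 2 3 S.ε (mul3 vw va) (compG (mul3 vw va) S.g)

/-- The flux at the centre, negated. -/
def Side.start (S : Side) : P3 :=
  match S.a with
  | [r0, r1, r2, r3] => smul3 (-1) (add3 (add3 (sPoly r0) (sPoly r1)) (add3 (sPoly r2) (sPoly r3)))
  | _ => [[[-1]]]

/-- A range `[lo / den, hi / den)`. -/
structure Axis where
  lo : ℤ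
  hi : ℤ
  den : ℤ

/-- The lower half. -/
def Axis.left (A : Axis) : Axis := ⟨Int.mul 2 A.lo, Int.add A.lo A.hi, Int.mul 2 A.den⟩
/-- The upper half. -/
def Axis.right (A : Axis) : Axis := ⟨Int.add A.lo A.hi, Int.mul 2 A.hi, Int.mul 2 A.den⟩

/-- A box. -/
structure Box3 where
  w : Axis
  s : Axis
  a : Axis

/-- The rows of a polynomial, padded. -/
def padAll (L W : ℕ) : P3 → P3
  | [] => []
  | p :: P => pad2 W L p :: padAll L W P

/-- The sum of the absolute values of the coefficients. -/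
def n3 : P3 → ℕ
  | [] => 0
  | p :: P => n2 p + n3 P

/-- The largest number of rows. -/
def depth : P3 → ℕ
  | [] => 0
  | p :: P => max p.length (depth P)

/-- The largest length of a row. -/
def width3 : P3 → ℕ
  | [] => 0
  | p :: P => max (width p) (width3 P)

/-- Bounded powers. -/
def powN (N : ℕ) : ℕ → ℕ
  | 0 => 1
  | n + 1 => N * powN N n

/-- The top bit of each of `N` digits of `k + 1` bits. -/
def mask (k : ℕ) : ℕ → ℕ
  | 0 => 0
  | n + 1 => Nat.add (Nat.pow 2 k) (Nat.mul (Nat.pow 2 (k + 1)) (mask k n))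

/-- The same mask in closed form, which keeps the kernel's numbers few. -/
def maskFast (k N : ℕ) : ℕ :=
  Nat.mul (Nat.pow 2 k)
    (Nat.div (Nat.sub (Nat.pow 2 ((k + 1) * N)) 1) (Nat.sub (Nat.pow 2 (k + 1)) 1))

/-- Whether no digit is negative. -/
def signs (k N : ℕ) : ℤ → Bool
  | .ofNat v => Nat.beq (Nat.land v (maskFast k N)) 0
  | .negSucc _ => false

/-- The products of `α` and `β` that pull a list back: `β ^ n, α β ^ (n - 1), …, α ^ (n - 1) β`. -/
def weights (α β : ℤ) : ℕ → List ℤ
  | 0 => []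
  | n + 1 =>
    let r := weights α β n
    (match r with | [] => β | h :: _ => Int.mul β h) :: r.map (Int.mul α)

/-- The pairing of integer lists. -/
def dotz : P1 → List ℤ → ℤ
  | c :: l, u :: v => Int.add (Int.mul c u) (dotz l v)
  | _, _ => 0

/-- The packed pullbacks of the rows. -/
def colSum (va : List ℤ) : P2 → List ℤ
  | [] => []
  | r :: p => dotz r va :: colSum va p

/-- The packed pullbacks in the last two variables. -/
def boxSum (vs va : List ℤ) : P3 → List ℤ
  | [] => []
  | p :: P => dotz (colSum va p) vs :: boxSum vs va P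

/-- A polynomial with padded rows, its size and the sum of its coefficients' absolute values. -/
structure Pol where
  rows : P3
  len : ℕ
  depth : ℕ
  width : ℕ
  bound : ℕ
deriving DecidableEq

/-- The prepared form of a polynomial. -/
def mkPol (P : P3) : Pol := ⟨padAll (depth P) (width3 P) P, P.length, depth P, width3 P, n3 P⟩

/-- The test of a prepared polynomial on a box. -/
def fast (B : Box3) (p : Pol) : Bool :=
  let b := p.bound * powN (grow B.a.lo B.a.hi B.a.den) p.width *
    powN (grow B.s.lo B.s.hi B.s.den) p.depth * powN (grow B.w.lo B.w.hi B.w.den) p.len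
  let k := Nat.log2 b + 1
  let Q : ℤ := Int.ofNat (Nat.pow 2 (k + 1))
  let X : ℤ := Int.ofNat (Nat.pow 2 ((k + 1) * (p.width + 1)))
  let Z : ℤ := Int.ofNat (Nat.pow 2 ((k + 1) * ((p.width + 1) * (p.depth + 1))))
  let va := weights (B.a.lo + B.a.hi * Q) (B.a.den * (1 + Q)) p.width
  let vs := weights (B.s.lo + B.s.hi * X) (B.s.den * (1 + X)) p.depth
  let vw := weights (B.w.lo + B.w.hi * Z) (B.w.den * (1 + Z)) p.len
  decide (0 < B.w.den) && decide (0 < B.s.den) && decide (0 < B.a.den) &&
    signs k ((p.len + 1) * ((p.width + 1) * (p.depth + 1))) (dotz (boxSum vs va p.rows) vw)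

/-- A subdivision: `env k` points into the envelope. -/
inductive Tree where
  | cut : ℕ → Tree → Tree → Tree
  | dir : Tree
  | disc : Tree
  | out : Tree
  | env : ℕ → Tree

/-- A node of the envelope: from `Tn / Td` on, `(s c) ^ 4 ≤ Vn / Vd`. -/
structure Node where
  Tn : ℤ
  Td : ℤ
  Vn : ℤ
  Vd : ℤ

/-- The polynomials of one chart. -/
structure Polys where
  R : Pol
  D : Pol
  A : Pol
  P : Pol

/-- Whether a box lies beyond a node of the envelope. In the far chart the second variable is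
`1 / s`. -/
def beyond (far : Bool) (B : Box3) (N : Node) : Bool :=
  let D := B.w.den
  let wl := B.w.lo
  let wh := B.w.hi
  let sn := if far then B.s.den else B.s.lo
  let sd := if far then B.s.hi else B.s.den
  decide (0 < D ∧ 0 < B.s.den ∧ 0 < N.Td ∧ 0 < N.Vd ∧ 0 < N.Vn ∧ 0 ≤ wl ∧ wh ≤ D ∧ 0 ≤ sn ∧
    0 < sd) &&
  decide (N.Tn * (D * D + wl * wl) ≤ 2 * wl * D * N.Td) &&
  decide (N.Vn * powZ sd 4 * powZ (D * D + wh * wh) 4 ≤ powZ sn 4 * powZ (D * D - wh * wh) 4 * N.Vd)

/-- The half of a box along an axis. -/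
def Box3.half (B : Box3) : ℕ → Bool → Box3
  | 0, false => ⟨B.w.left, B.s, B.a⟩
  | 0, true => ⟨B.w.right, B.s, B.a⟩
  | 1, false => ⟨B.w, B.s.left, B.a⟩
  | 1, true => ⟨B.w, B.s.right, B.a⟩
  | _, false => ⟨B.w, B.s, B.a.left⟩
  | _, true => ⟨B.w, B.s, B.a.right⟩

/-- The check of a subdivision. -/
def checkTree (far : Bool) (Ps : Polys) (ns : List Node) : Box3 → Tree → Bool
  | B, .cut ax l r =>
    checkTree far Ps ns (B.half ax false) l && checkTree far Ps ns (B.half ax true) r
  | B, .dir => fast B Ps.R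
  | B, .disc => fast B Ps.A && fast B Ps.P && fast B Ps.D
  | B, .out => decide (0 < B.w.den ∧ 0 < B.a.den ∧ B.w.hi * B.a.den ≤ B.a.lo * B.w.den)
  | B, .env k => match ns[k]? with
    | some N => beyond far B N
    | none => false

/-- A subdivision on which one polynomial is checked. -/
def checkOne (P : Pol) : Box3 → Tree → Bool
  | B, .cut ax l r => checkOne P (B.half ax false) l && checkOne P (B.half ax true) r
  | B, .dir => fast B P
  | _, _ => false

/-- The rows reversed: the chart of `1 / s`. -/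
def rev (L W : ℕ) : P3 → P3
  | [] => []
  | p :: P => (pad2 W L p).reverse :: rev L W P

end Vale.Agent.P237.Quant.FourPoly
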