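import Vale.Agent.P237.Quant.FourPolyDefs

/-!
Soundness of the packed positivity test in three variables and of the subdivisions.
-/

namespace Vale.Agent.P237.Quant.FourPoly

open Four.Checker Packed Set

/-- Evaluation in three variables. -/
noncomputable def ev3 : P3 → ℝ → ℝ → ℝ → ℝ
  | [], _, _, _ => 0
  | p :: P, x, y, z => ev2 p y z + x * ev3 P x y z

theorem ev3_add3 : ∀ (k l : P3) (x y z : ℝ), ev3 (add3 k l) x y z = ev3 k x y z + ev3 l x y z
  | [], l, x, y, z => by simp [add3, ev3]
  | a :: k, [], x, y, z => by simp [add3, ev3]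
  | a :: k, b :: l, x, y, z => by
      simp only [add3, ev3, ev2_add2, ev3_add3 k l x y z]
      ring

theorem ev3_smul3 (c : ℤ) : ∀ (k : P3) (x y z : ℝ), ev3 (smul3 c k) x y z = c * ev3 k x y z
  | [], x, y, z => by simp [smul3, ev3]
  | a :: k, x, y, z => by
      simp only [smul3, ev3, ev2_smul2, ev3_smul3 c k x y z]
      ring

theorem ev3_rmul3 (r : P2) : ∀ (k : P3) (x y z : ℝ),
    ev3 (rmul3 r k) x y z = ev2 r y z * ev3 k x y z
  | [], x, y, z => by simp [rmul3, ev3]
  | a :: k, x, y, z => by
      simp only [rmul3, ev3, ev2_mul2, ev3_rmul3 r k x y z]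
      ring

theorem ev3_mul3 : ∀ (k l : P3) (x y z : ℝ), ev3 (mul3 k l) x y z = ev3 k x y z * ev3 l x y z
  | [], l, x, y, z => by simp [mul3, ev3]
  | a :: k, l, x, y, z => by
      simp only [mul3, ev3, ev3_add3, ev3_rmul3, ev3_mul3 k l x y z, ev2]
      ring

theorem continuous_ev3 : ∀ P : P3, Continuous fun q : ℝ × ℝ × ℝ => ev3 P q.1 q.2.1 q.2.2
  | [] => by simpa [ev3] using continuous_const
  | p :: P => by
      have := continuous_ev3 P
      have : Continuous fun q : ℝ × ℝ × ℝ => ev2 p q.2.1 q.2.2 :=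
        (continuous_ev2 p).comp continuous_snd
      simp only [ev3]
      fun_prop

/-- The pairing of a list of coefficients with a list of weights. -/
noncomputable def dot : P1 → List ℝ → ℝ
  | [], _ => 0
  | _, [] => 0
  | c :: l, u :: v => c * u + dot l v

theorem dot_add1 : ∀ (k l : P1) (v : List ℝ), dot (add1 k l) v = dot k v + dot l v
  | [], l, v => by simp [add1, dot]
  | a :: k, [], v => by simp [add1, dot]
  | a :: k, b :: l, [] => by simp [add1, dot]
  | a :: k, b :: l, u :: v => by
      simp only [add1, dot, Int.add_def, dot_add1 k l v]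
      push_cast
      ring

theorem dot_smul1 (c : ℤ) : ∀ (k : P1) (v : List ℝ), dot (smul1 c k) v = c * dot k v
  | [], v => by simp [smul1, dot]
  | a :: k, [] => by simp [smul1, dot]
  | a :: k, u :: v => by
      simp only [smul1, dot, Int.mul_def, dot_smul1 c k v]
      push_cast
      ring

theorem dot_nonneg : ∀ (l : P1) (v : List ℝ), nonneg1 l = true → (∀ u ∈ v, 0 ≤ u) → 0 ≤ dot l v
  | [], v, _, _ => by simp [dot]
  | a :: l, [], _, _ => by simp [dot]
  | .ofNat a :: l, u :: v, h, hv => by
      simp only [nonneg1] at h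
      have := dot_nonneg l v h fun x hx => hv x (List.mem_cons_of_mem _ hx)
      have hu := hv u List.mem_cons_self
      have ha : (0 : ℝ) ≤ ((Int.ofNat a : ℤ) : ℝ) := Int.cast_nonneg (Int.natCast_nonneg a)
      simp only [dot]
      positivity
  | .negSucc a :: l, u :: v, h, _ => by simp [nonneg1] at h

theorem dot_map_mul (Y : ℝ) : ∀ (l : P1) (v : List ℝ), dot l (v.map (Y * ·)) = Y * dot l v
  | [], v => by simp [dot]
  | a :: l, [] => by simp [dot]
  | a :: l, u :: v => by
      simp only [List.map_cons, dot, dot_map_mul Y l v]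
      ring

theorem dot_append : ∀ (r rest : P1) (u v : List ℝ), r.length = u.length →
    dot (r ++ rest) (u ++ v) = dot r u + dot rest v
  | [], rest, [], v, _ => by simp [dot]
  | [], rest, x :: u, v, h => by simp at h
  | a :: r, rest, [], v, h => by simp at h
  | a :: r, rest, x :: u, v, h => by
      simp only [List.cons_append, dot, dot_append r rest u v (by simpa using h)]
      ring

/-- `1, Z, Z ^ 2, ...`. -/
noncomputable def pows (Z : ℝ) : ℕ → List ℝ
  | 0 => []
  | n + 1 => 1 :: (pows Z n).map (Z * ·)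

theorem length_pows (Z : ℝ) : ∀ n, (pows Z n).length = n
  | 0 => by simp [pows]
  | n + 1 => by simp [pows, length_pows Z n]

theorem dot_pows (Z : ℝ) : ∀ (l : P1) (n : ℕ), l.length ≤ n → dot l (pows Z n) = ev l Z
  | [], n, _ => by simp [dot, ev]
  | a :: l, 0, h => by simp at h
  | a :: l, n + 1, h => by
      simp [pows, dot, dot_map_mul, dot_pows Z l n (by simpa using h), ev]

/-- The rows of a polynomial one after another. -/
def flat (W : ℕ) : P2 → P1
  | [] => []
  | r :: T => pad W r ++ flat W T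

/-- The weights that undo `flat`. -/
noncomputable def wts (Y Z : ℝ) (W : ℕ) : ℕ → List ℝ
  | 0 => []
  | n + 1 => pows Z W ++ (wts Y Z W n).map (Y * ·)

theorem wts_nonneg {Y Z : ℝ} (hY : 0 ≤ Y) (hZ : 0 ≤ Z) (W : ℕ) :
    ∀ n, ∀ u ∈ wts Y Z W n, 0 ≤ u := by
  have hp : ∀ n, ∀ u ∈ pows Z n, 0 ≤ u := by
    intro n
    induction n with
    | zero => simp [pows]
    | succ n ih =>
        intro u hu
        simp only [pows, List.mem_cons, List.mem_map] at hu
        rcases hu with rfl | ⟨v, hv, rfl⟩
        · exact zero_le_one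
        · exact mul_nonneg hZ (ih v hv)
  intro n
  induction n with
  | zero => simp [wts]
  | succ n ih =>
      intro u hu
      simp only [wts, List.mem_append, List.mem_map] at hu
      rcases hu with hu | ⟨v, hv, rfl⟩
      · exact hp W u hu
      · exact mul_nonneg hY (ih v hv)

theorem dot_flat (Y Z : ℝ) (W : ℕ) : ∀ (T : P2) (n : ℕ), T.length ≤ n → width T ≤ W →
    dot (flat W T) (wts Y Z W n) = ev2 T Y Z
  | [], n, _, _ => by simp [flat, dot, ev2]
  | r :: T, 0, h, _ => by simp at h
  | r :: T, n + 1, h, hW => by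
      simp only [width] at hW
      have hr : r.length ≤ W := le_trans (le_max_left _ _) hW
      simp only [flat, wts, ev2]
      rw [dot_append _ _ _ _ (by rw [length_pows, length_pad W r hr]),
        dot_pows Z _ _ (le_of_eq (length_pad W r hr)), ev_pad, dot_map_mul,
        dot_flat Y Z W T n (by simpa using h) (le_trans (le_max_right _ _) hW)]

theorem length_flat (W : ℕ) : ∀ T : P2, width T ≤ W → (flat W T).length = T.length * W
  | [], _ => by simp [flat]
  | r :: T, h => by
      simp only [width] at h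
      simp [flat, length_pad W r (le_trans (le_max_left _ _) h),
        length_flat W T (le_trans (le_max_right _ _) h), add_mul, add_comm]

theorem n1_append : ∀ r s : P1, n1 (r ++ s) = n1 r + n1 s
  | [], s => by simp [n1]
  | a :: r, s => by simp [n1, n1_append r s, add_assoc]

theorem n1_flat (W : ℕ) : ∀ T : P2, n1 (flat W T) = n2 T
  | [] => by simp [flat, n1, n2]
  | r :: T => by simp [flat, n1_append, n1_pad, n2, n1_flat W T]

theorem evz_append : ∀ (r s : P1) (Q : ℤ), evz (r ++ s) Q = evz r Q + Q ^ r.length * evz s Q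
  | [], s, Q => by simp [evz]
  | a :: r, s, Q => by
      simp only [List.cons_append, evz, evz_append r s Q, List.length_cons, pow_succ]
      ring

theorem evz_pad : ∀ (n : ℕ) (l : P1) (Q : ℤ), evz (pad n l) Q = evz l Q
  | 0, l, Q => by simp [pad]
  | n + 1, [], Q => by simp [pad, evz, evz_pad n [] Q]
  | n + 1, a :: l, Q => by simp [pad, evz, evz_pad n l Q]

theorem evz_flat (W : ℕ) (Q : ℤ) : ∀ T : P2, width T ≤ W →
    evz (flat W T) Q = ev2z T (Q ^ W) Q
  | [], _ => by simp [flat, evz, ev2z]
  | r :: T, h => by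
      simp only [width] at h
      have hr : r.length ≤ W := le_trans (le_max_left _ _) h
      simp only [flat, evz_append, evz_pad, length_pad W r hr, ev2z,
        evz_flat W Q T (le_trans (le_max_right _ _) h)]

theorem nonneg1_append : ∀ r s : P1, nonneg1 (r ++ s) = (nonneg1 r && nonneg1 s)
  | [], s => by simp [nonneg1]
  | .ofNat a :: r, s => by simp [nonneg1, nonneg1_append r s]
  | .negSucc a :: r, s => by simp [nonneg1]

theorem nonneg1_flat (W : ℕ) : ∀ T : P2, nonneg1 (flat W T) = nonneg2 T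
  | [] => by simp [flat, nonneg1, nonneg2]
  | r :: T => by simp [flat, nonneg1_append, nonneg1_pad, nonneg2, nonneg1_flat W T]

/-- Evaluation with weights in the second place. -/
noncomputable def evd : P2 → ℝ → List ℝ → ℝ
  | [], _, _ => 0
  | r :: U, x, v => dot r v + x * evd U x v

theorem evd_add2 : ∀ (k l : P2) (x : ℝ) (v : List ℝ), evd (add2 k l) x v = evd k x v + evd l x v
  | [], l, x, v => by simp [add2, evd]
  | a :: k, [], x, v => by simp [add2, evd]
  | a :: k, b :: l, x, v => by
      simp only [add2, evd, evd_add2 k l x v, dot_add1]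
      ring

theorem evd_outer (r : P1) : ∀ (l : P1) (x : ℝ) (v : List ℝ),
    evd (outer r l) x v = ev l x * dot r v
  | [], x, v => by simp [outer, evd, ev]
  | q :: l, x, v => by
      simp only [outer, evd, ev, dot_smul1, evd_outer r l x v]
      ring

theorem evd_lin2 (a b : ℤ) : ∀ (prev : P1) (k : P2) (x : ℝ) (v : List ℝ),
    evd (lin2 a b prev k) x v = b * dot prev v + (a + b * x) * evd k x v
  | prev, [], x, v => by simp [lin2, evd, dot_smul1]
  | prev, r :: k, x, v => by
      simp only [lin2, evd, dot_add1, dot_smul1, evd_lin2 a b r k x v]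
      ring

theorem evd_mobT (a b D : ℤ) (t X : ℝ) (v : List ℝ) (h : t * ((D : ℝ) * (1 + X)) = a + b * X) :
    ∀ P : P2, evd (mobT a b D P) X v = ((D : ℝ) * (1 + X)) ^ P.length * evd P t v
  | [] => by simp [mobT, evd]
  | r :: P => by
      simp only [mobT, evd, evd_add2, evd_outer, evd_lin2, ev_qpow, dot,
        evd_mobT a b D t X v h P, List.length_cons]
      rw [← h]
      ring

theorem evd_nonneg {x : ℝ} (hx : 0 ≤ x) {v : List ℝ} (hv : ∀ u ∈ v, 0 ≤ u) :
    ∀ U : P2, nonneg2 U = true → 0 ≤ evd U x v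
  | [], _ => by simp [evd]
  | r :: U, h => by
      simp only [nonneg2, Bool.and_eq_true] at h
      have h1 := evd_nonneg hx hv U h.2
      have h2 := dot_nonneg r v h.1 hv
      simp only [evd]
      positivity

theorem mobTz_rows (a b D X Q : ℤ) : ∀ U : P2,
    mobTz a b D X (U.map fun r => evz r Q) =
      (ev2z (mobT a b D U) X Q, (D * (1 + X)) ^ U.length)
  | [] => by simp [mobTz, mobT, ev2z]
  | r :: U => by
      simp only [List.map_cons, mobTz, mobTz_rows a b D X Q U, List.length_cons, pow_succ,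
        Prod.mk.injEq, and_true]
      apply Int.cast_injective (α := ℝ)
      push_cast [cast_ev2z, cast_evz]
      simp only [mobT, ev2_add2, ev2_outer, ev2_lin2, ev_qpow, ev, pow_succ]
      push_cast
      ring

theorem mask_succ (k n : ℕ) : mask k (n + 1) = 2 ^ k + 2 ^ (k + 1) * mask k n := rfl

theorem signs_sound (k : ℕ) : ∀ (N : ℕ) (l : P1) (v : ℕ), l.length ≤ N →
    2 * (n1 l : ℤ) < 2 ^ (k + 1) → (v : ℤ) = evz l (2 ^ (k + 1)) → Nat.land v (mask k N) = 0 →
    nonneg1 l = true
  | _, [], _, _, _, _, _ => by simp [nonneg1]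
  | 0, a :: l, _, h, _, _, _ => by simp at h
  | N + 1, a :: l, v, hlen, hb, hv, hm => by
      simp only [n1, Nat.cast_add] at hb
      simp only [evz] at hv
      rw [mask_succ] at hm
      replace hm : v &&& (2 ^ k + 2 ^ (k + 1) * mask k N) = 0 := hm
      set r := evz l (2 ^ (k + 1)) with hr
      have hQ : (0 : ℤ) < 2 ^ (k + 1) := by positivity
      have hhalf : (2 : ℤ) ^ (k + 1) = 2 * 2 ^ k := by ring
      rcases lt_or_ge a 0 with ha | ha
      · exfalso
        obtain ⟨b, hb'⟩ : ∃ b : ℕ, (b : ℤ) = a + 2 ^ (k + 1) :=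
          ⟨(a + 2 ^ (k + 1)).toNat, Int.toNat_of_nonneg (by omega)⟩
        have hr1 : 1 ≤ r := by
          by_contra hcon
          push Not at hcon
          have : 2 ^ (k + 1) * r ≤ 2 ^ (k + 1) * 0 := mul_le_mul_of_nonneg_left (by omega) hQ.le
          omega
        obtain ⟨q, hq⟩ : ∃ q : ℕ, (q : ℤ) = r - 1 := ⟨(r - 1).toNat, Int.toNat_of_nonneg (by omega)⟩
        have hbk : 2 ^ k ≤ b ∧ b < 2 ^ (k + 1) := by
          constructor
          · have h : ((2 ^ k : ℕ) : ℤ) ≤ (b : ℤ) := by push_cast; omega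
            exact_mod_cast h
          · have h : (b : ℤ) < ((2 ^ (k + 1) : ℕ) : ℤ) := by push_cast; omega
            exact_mod_cast h
        have hv' : v = 2 ^ (k + 1) * q + b := by
          have h : (v : ℤ) = ((2 ^ (k + 1) * q + b : ℕ) : ℤ) := by
            push_cast
            rw [hv, hb', hq]
            ring
          exact_mod_cast h
        have t1 : v.testBit k = true := by
          rw [hv', Nat.testBit_two_pow_mul_add _ hbk.2, if_pos (Nat.lt_succ_self k)]
          exact Nat.testBit_of_two_pow_le_and_two_pow_add_one_gt hbk.1 hbk.2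
        have t2 : (2 ^ k + 2 ^ (k + 1) * mask k N).testBit k = true := by
          rw [add_comm, Nat.testBit_two_pow_mul_add _
            (Nat.pow_lt_pow_right one_lt_two (Nat.lt_succ_self k)), if_pos (Nat.lt_succ_self k)]
          exact Nat.testBit_two_pow_self
        have := congrArg (fun x => x.testBit k) hm
        simp [Nat.testBit_and, t1, t2] at this
      · obtain ⟨c, rfl⟩ : ∃ c : ℕ, a = c := ⟨a.toNat, (Int.toNat_of_nonneg ha).symm⟩
        have hr0 : 0 ≤ r := by
          by_contra hcon
          push Not at hcon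
          have : 2 ^ (k + 1) * r ≤ 2 ^ (k + 1) * (-1) := mul_le_mul_of_nonneg_left (by omega) hQ.le
          simp only [Int.natAbs_natCast] at hb
          omega
        obtain ⟨q, hq⟩ : ∃ q : ℕ, r = q := ⟨r.toNat, (Int.toNat_of_nonneg hr0).symm⟩
        simp only [Int.natAbs_natCast] at hb
        have hc : c < 2 ^ (k + 1) := by
          have h : (c : ℤ) < ((2 ^ (k + 1) : ℕ) : ℤ) := by push_cast; omega
          exact_mod_cast h
        have hv' : v = 2 ^ (k + 1) * q + c := by
          have h : (v : ℤ) = ((2 ^ (k + 1) * q + c : ℕ) : ℤ) := by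
            push_cast
            rw [hv, hq]
            ring
          exact_mod_cast h
        simp only [nonneg1]
        refine signs_sound k N l q (by simpa using hlen) (by omega) hq.symm ?_
        have := congrArg (fun x => x / 2 ^ (k + 1)) hm
        simp only [Nat.and_div_two_pow, Nat.zero_div] at this
        have d1 : v / 2 ^ (k + 1) = q := by
          rw [hv', Nat.mul_add_div (by positivity), Nat.div_eq_of_lt hc, add_zero]
        have d2 : (2 ^ k + 2 ^ (k + 1) * mask k N) / 2 ^ (k + 1) = mask k N := by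
          rw [add_comm, Nat.mul_add_div (by positivity),
            Nat.div_eq_of_lt (Nat.pow_lt_pow_right one_lt_two (Nat.lt_succ_self k)), add_zero]
        rw [d1, d2] at this
        exact this

theorem maskFast_eq (k N : ℕ) : maskFast k N = mask k N := by
  have h : ∀ n, ∃ q, mask k n = 2 ^ k * q ∧ q * (2 ^ (k + 1) - 1) = 2 ^ ((k + 1) * n) - 1 := by
    intro n
    induction n with
    | zero => exact ⟨0, by simp [mask], by simp⟩
    | succ n ih =>
        obtain ⟨q, e1, e2⟩ := ih
        refine ⟨1 + 2 ^ (k + 1) * q, by rw [mask_succ, e1]; ring, ?_⟩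
        have h1 : 1 ≤ 2 ^ (k + 1) := Nat.one_le_two_pow
        have h2 : 1 ≤ 2 ^ ((k + 1) * n) := Nat.one_le_two_pow
        have h3 : 1 ≤ 2 ^ ((k + 1) * (n + 1)) := Nat.one_le_two_pow
        zify [h1, h2, h3] at e2 ⊢
        rw [Nat.mul_succ, pow_add]
        linear_combination (2 : ℤ) ^ (k + 1) * e2
  obtain ⟨q, e1, e2⟩ := h N
  show 2 ^ k * ((2 ^ ((k + 1) * N) - 1) / (2 ^ (k + 1) - 1)) = mask k N
  rw [← e2, Nat.mul_div_cancel _ (Nat.sub_pos_of_lt (Nat.one_lt_two_pow k.succ_ne_zero)), e1]

theorem powN_eq' (N : ℕ) : ∀ n, powN N n = N ^ n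
  | 0 => by simp [powN]
  | n + 1 => by rw [powN, powN_eq' N n, pow_succ']

theorem weights_length (α β : ℤ) : ∀ n, (weights α β n).length = n
  | 0 => by simp [weights]
  | n + 1 => by simp [weights, weights_length α β n]

theorem weights_succ (α β : ℤ) : ∀ n,
    weights α β (n + 1) = β ^ (n + 1) :: (weights α β n).map (α * ·)
  | 0 => by simp [weights]
  | n + 1 => by
      have h := weights_succ α β n
      show (match weights α β (n + 1) with | [] => β | h :: _ => Int.mul β h) :: _ = _
      rw [h]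
      simp only [Int.mul_def, pow_succ' β (n + 1)]
      rfl

theorem dotz_map (α : ℤ) : ∀ (l : P1) (v : List ℤ), dotz l (v.map (α * ·)) = α * dotz l v
  | [], v => by simp [dotz]
  | a :: l, [] => by simp [dotz]
  | a :: l, u :: v => by
      simp only [List.map_cons, dotz, dotz_map α l v, Int.add_def, Int.mul_def]
      ring

theorem mob1z_snd (a b D Y : ℤ) : ∀ l : P1, (mob1z a b D Y l).2 = (D * (1 + Y)) ^ l.length := by
  intro l
  rw [mob1z_eq]

theorem dotz_weights (a b D Y : ℤ) : ∀ l : P1,
    dotz l (weights (a + b * Y) (D * (1 + Y)) l.length) = (mob1z a b D Y l).1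
  | [] => by simp [dotz, mob1z]
  | c :: l => by
      rw [List.length_cons, weights_succ]
      simp only [dotz, dotz_map, dotz_weights a b D Y l, mob1z, mob1z_snd, Int.add_def, Int.mul_def,
        pow_succ]

theorem mobTz_eq_mob1z (a b D X : ℤ) : ∀ l : P1, mobTz a b D X l = mob1z a b D X l
  | [] => rfl
  | v :: l => by simp only [mobTz, mob1z, mobTz_eq_mob1z a b D X l]

theorem colSum_eq (A : Axis) (Q : ℤ) (W : ℕ) : ∀ p : P2, (∀ r ∈ p, r.length = W) →
    colSum (weights (A.lo + A.hi * Q) (A.den * (1 + Q)) W) p = mobYz A.lo A.hi A.den Q W p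
  | [], _ => rfl
  | r :: p, h => by
      have hr := h r List.mem_cons_self
      simp only [colSum, mobYz, colSum_eq A Q W p fun q hq => h q (List.mem_cons_of_mem _ hq)]
      rw [← hr, dotz_weights, hr, pad_self W r hr]
where
  /-- Padding a row of full length does nothing. -/
  pad_self : ∀ (W : ℕ) (r : P1), r.length = W → pad W r = r
  | 0, r, _ => rfl
  | W + 1, [], h => by simp at h
  | W + 1, a :: r, h => by simp [pad, pad_self W r (by simpa using h)]

theorem length_mobYz (a b D Y : ℤ) (n : ℕ) : ∀ p : P2, (mobYz a b D Y n p).length = p.length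
  | [] => rfl
  | r :: p => by simp [mobYz, length_mobYz a b D Y n p]

/-- The rows of the pullback in the last two variables. -/
def pullRows (W : ℕ) (s a : Axis) (p : P2) : P2 :=
  mobT s.lo s.hi s.den (mobY a.lo a.hi a.den W p)

theorem boxSum_eq (Q : ℤ) (W L : ℕ) (s a : Axis) : ∀ P : P3,
    (∀ p ∈ P, p.length = L ∧ ∀ r ∈ p, r.length = W) →
    boxSum (weights (s.lo + s.hi * Q ^ (W + 1)) (s.den * (1 + Q ^ (W + 1))) L)
        (weights (a.lo + a.hi * Q) (a.den * (1 + Q)) W) P =
      (P.map fun p => flat (W + 1) (pullRows W s a p)).map fun r => evz r Q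
  | [], _ => by simp [boxSum]
  | p :: P, h => by
      obtain ⟨hl, hr⟩ := h p List.mem_cons_self
      have hw : width p ≤ W := by
        clear h hl
        induction p with
        | nil => simp [width]
        | cons r p ih =>
            simp only [width]
            exact max_le (le_of_eq (hr r List.mem_cons_self))
              (ih fun q hq => hr q (List.mem_cons_of_mem _ hq))
      simp only [boxSum, List.map_cons, colSum_eq a Q W p hr,
        boxSum_eq Q W L s a P fun q hq => h q (List.mem_cons_of_mem _ hq)]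
      rw [← hl, ← length_mobYz a.lo a.hi a.den Q W p, dotz_weights, ← mobTz_eq_mob1z, mobTz_eq,
        evz_flat]
      · rfl
      · exact (width_mobT _ _ _ _).trans (width_mobY _ _ _ _ _ hw)

/-- Membership in a range. -/
def Axis.mem (A : Axis) (x : ℝ) : Prop := (A.lo : ℝ) ≤ x * A.den ∧ x * A.den < A.hi

/-- Membership in a box. -/
def Box3.mem (B : Box3) (w s a : ℝ) : Prop := B.w.mem w ∧ B.s.mem s ∧ B.a.mem a

theorem mem_padAll (L W : ℕ) : ∀ (P : P3) (q : P2), q ∈ padAll L W P → ∃ p ∈ P, q = pad2 W L p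
  | [], q, h => by simp [padAll] at h
  | p :: P, q, h => by
      simp only [padAll, List.mem_cons] at h
      rcases h with rfl | h
      · exact ⟨p, List.mem_cons_self, rfl⟩
      · obtain ⟨r, hr, e⟩ := mem_padAll L W P q h
        exact ⟨r, List.mem_cons_of_mem _ hr, e⟩

theorem mem_depth : ∀ (P : P3) (p : P2), p ∈ P → p.length ≤ depth P ∧ width p ≤ width3 P
  | [], p, h => by simp at h
  | q :: P, p, h => by
      simp only [depth, width3]
      rcases List.mem_cons.1 h with rfl | h
      · exact ⟨le_max_left _ _, le_max_left _ _⟩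
      · exact ⟨(mem_depth P p h).1.trans (le_max_right _ _),
          (mem_depth P p h).2.trans (le_max_right _ _)⟩

theorem length_padAll (L W : ℕ) : ∀ P : P3, (padAll L W P).length = P.length
  | [] => by simp [padAll]
  | p :: P => by simp [padAll, length_padAll L W P]

theorem rows_pad2 (W : ℕ) : ∀ (n : ℕ) (p : P2), width p ≤ W → p.length ≤ n →
    ∀ r ∈ pad2 W n p, r.length = W
  | 0, [], _, _, r, hr => by simp [pad2] at hr
  | 0, q :: p, _, h, r, _ => by simp at h
  | n + 1, [], hw, _, r, hr => by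
      simp only [pad2, List.mem_cons] at hr
      rcases hr with rfl | hr
      · exact length_pad W [] (Nat.zero_le _)
      · exact rows_pad2 W n [] hw (Nat.zero_le _) r hr
  | n + 1, q :: p, hw, h, r, hr => by
      simp only [width] at hw
      simp only [pad2, List.mem_cons] at hr
      rcases hr with rfl | hr
      · exact length_pad W q (le_trans (le_max_left _ _) hw)
      · exact rows_pad2 W n p (le_trans (le_max_right _ _) hw) (by simpa using h) r hr

/-- Soundness of the packed test. -/
theorem fast_sound {B : Box3} {P : P3} (h : fast B (mkPol P) = true) {w s a : ℝ} (hm : B.mem w s a) :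
    0 ≤ ev3 P w s a := by
  simp only [fast, mkPol, Bool.and_eq_true, decide_eq_true_eq] at h
  obtain ⟨⟨⟨hdw, hds⟩, hda⟩, hs⟩ := h
  set L := depth P
  set W := width3 P
  set b := n3 P * powN (grow B.a.lo B.a.hi B.a.den) W * powN (grow B.s.lo B.s.hi B.s.den) L *
    powN (grow B.w.lo B.w.hi B.w.den) P.length with hb
  set k := Nat.log2 b + 1 with hk
  set Q : ℤ := 2 ^ (k + 1) with hQ
  set P' := padAll L W P with hP'
  have hpad : ∀ q ∈ P', q.length = L ∧ width q ≤ W := fun q hq => by
    obtain ⟨p, hp, rfl⟩ := mem_padAll L W P q hq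
    exact ⟨length_pad2 W L p (mem_depth P p hp).1, width_pad2 W L p (mem_depth P p hp).2⟩
  set N := (W + 1) * (L + 1) with hN
  set rows : P2 := P'.map fun p => flat (W + 1) (pullRows W B.s B.a p) with hrows
  set U := mobT B.w.lo B.w.hi B.w.den rows with hU
  have hTw : ∀ q ∈ P', width (pullRows W B.s B.a q) ≤ W + 1 := fun q hq =>
    (width_mobT _ _ _ _).trans (width_mobY _ _ _ _ _ (hpad q hq).2)
  have hTl : ∀ q ∈ P', (pullRows W B.s B.a q).length ≤ L + 1 := fun q hq => by
    refine (length_mobT _ _ _ _).trans ?_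
    rw [length_mobY, (hpad q hq).1]
  have hrw : width rows ≤ N := by
    have : ∀ M : P3, (∀ q ∈ M, q ∈ P') →
        width (M.map fun p => flat (W + 1) (pullRows W B.s B.a p)) ≤ N := by
      intro M
      induction M with
      | nil => simp [width]
      | cons q M ih =>
          intro hM
          have hq := hM q List.mem_cons_self
          simp only [List.map_cons, width]
          refine max_le ?_ (ih fun r hr => hM r (List.mem_cons_of_mem _ hr))
          rw [length_flat _ _ (hTw q hq), hN, mul_comm]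
          exact Nat.mul_le_mul_left _ (hTl q hq)
    exact this P' fun q hq => hq
  have hrn : n2 rows ≤ n3 P * grow B.a.lo B.a.hi B.a.den ^ W * grow B.s.lo B.s.hi B.s.den ^ L := by
    have : ∀ M : P3, (∀ p ∈ M, p.length ≤ L ∧ width p ≤ W) →
        n2 ((padAll L W M).map fun p => flat (W + 1) (pullRows W B.s B.a p)) ≤
          n3 M * grow B.a.lo B.a.hi B.a.den ^ W * grow B.s.lo B.s.hi B.s.den ^ L := by
      intro M
      induction M with
      | nil => simp [padAll, n2]
      | cons p M ih =>
          intro hM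
          obtain ⟨hp1, hp2⟩ := hM p List.mem_cons_self
          have hl := length_pad2 W L p hp1
          simp only [padAll, List.map_cons, n2, n1_flat, n3, add_mul]
          refine Nat.add_le_add ?_ (ih fun r hr => hM r (List.mem_cons_of_mem _ hr))
          refine (n2_mobT _ _ _ _).trans ?_
          rw [length_mobY, hl]
          refine Nat.mul_le_mul_right _ ((n2_mobY _ _ _ _ _ (width_pad2 W L p hp2)).trans ?_)
          rw [n2_pad2]
    exact this P (mem_depth P)
  have hUw : width U ≤ N := (width_mobT _ _ _ _).trans hrw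
  have hUl : U.length ≤ P.length + 1 := by
    refine (length_mobT _ _ _ _).trans ?_
    simp [hrows, hP', length_padAll]
  have hUn : n2 U ≤ b := by
    refine (n2_mobT _ _ _ _).trans ?_
    rw [hb, powN_eq', powN_eq', powN_eq']
    simp only [hrows, List.length_map, hP', length_padAll]
    exact Nat.mul_le_mul_right _ hrn
  have hkb : 2 * (b : ℤ) < Q := by
    have : (b : ℤ) < 2 ^ k := by exact_mod_cast Nat.lt_log2_self
    rw [hQ, pow_succ]
    omega
  have eQ : ∀ n : ℕ, Int.ofNat (Nat.pow 2 ((k + 1) * n)) = Q ^ n := fun n => by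
    rw [hQ, ← pow_mul]
    exact_mod_cast rfl
  have eV : dotz (boxSum (weights (B.s.lo + B.s.hi * Q ^ (W + 1)) (B.s.den * (1 + Q ^ (W + 1))) L)
      (weights (B.a.lo + B.a.hi * Q) (B.a.den * (1 + Q)) W) P')
      (weights (B.w.lo + B.w.hi * Q ^ N) (B.w.den * (1 + Q ^ N)) P.length) = evz (flat N U) Q := by
    rw [boxSum_eq Q W L B.s B.a P' fun q hq => ⟨(hpad q hq).1, ?_⟩]
    · have hl : ((P'.map fun p => flat (W + 1) (pullRows W B.s B.a p)).map
          fun r => evz r Q).length = P.length := by simp [hP', length_padAll]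
      rw [← hl, dotz_weights, ← mobTz_eq_mob1z, mobTz_rows, evz_flat N Q U hUw]
    · obtain ⟨p, hp, rfl⟩ := mem_padAll L W P q hq
      exact rows_pad2 W L p (mem_depth P p hp).2 (mem_depth P p hp).1
  have e1 : (Int.ofNat (Nat.pow 2 (k + 1))) = Q := by
    have := eQ 1
    simpa using this
  rw [e1, eQ, eQ, eV] at hs
  have hnn : nonneg2 U = true := by
    rw [← nonneg1_flat N U]
    generalize hv : evz (flat N U) Q = V at hs
    cases V with
    | negSucc v => simp [signs] at hs
    | ofNat v =>
        simp only [signs, maskFast_eq] at hs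
        refine signs_sound k _ _ v ?_ ?_ hv.symm (Nat.eq_of_beq_eq_true hs)
        · rw [length_flat N U hUw]
          exact Nat.mul_le_mul_right _ hUl
        · rw [n1_flat]
          calc 2 * ((n2 U : ℕ) : ℤ) ≤ 2 * (b : ℤ) := by
                exact mul_le_mul_of_nonneg_left (by exact_mod_cast hUn) zero_le_two
            _ < Q := hkb
  -- the point in the new coordinates
  have chart : ∀ (A : Axis) (x : ℝ), 0 < A.den → A.mem x →
      ∃ X : ℝ, 0 ≤ X ∧ x * ((A.den : ℝ) * (1 + X)) = A.lo + A.hi * X ∧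
        0 < (A.den : ℝ) * (1 + X) := by
    intro A x hA hx
    have hA' : (0 : ℝ) < A.den := by exact_mod_cast hA
    have hd : 0 < (A.hi : ℝ) - x * A.den := by linarith [hx.2]
    have h0 : 0 ≤ (x * A.den - A.lo) / ((A.hi : ℝ) - x * A.den) :=
      div_nonneg (by linarith [hx.1]) hd.le
    refine ⟨_, h0, ?_, by positivity⟩
    field_simp
    ring
  obtain ⟨X, hX, eX, pX⟩ := chart B.w w hdw hm.1
  obtain ⟨Y, hY, eY, pY⟩ := chart B.s s hds hm.2.1
  obtain ⟨Z, hZ, eZ, pZ⟩ := chart B.a a hda hm.2.2
  set v := wts Y Z (W + 1) (L + 1) with hv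
  have h0 := evd_nonneg hX (wts_nonneg hY hZ (W + 1) (L + 1)) U hnn
  rw [hU, ← hv, evd_mobT _ _ _ w X v eX] at h0
  have h1 := (mul_nonneg_iff_of_pos_left (pow_pos pX _)).1 h0
  have hev : evd rows w v = ((B.s.den : ℝ) * (1 + Y)) ^ L * ((B.a.den : ℝ) * (1 + Z)) ^ W *
      ev3 P w s a := by
    have : ∀ M : P3, (∀ p ∈ M, p.length ≤ L ∧ width p ≤ W) →
        evd ((padAll L W M).map fun p => flat (W + 1) (pullRows W B.s B.a p)) w v =
          ((B.s.den : ℝ) * (1 + Y)) ^ L * ((B.a.den : ℝ) * (1 + Z)) ^ W * ev3 M w s a := by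
      intro M
      induction M with
      | nil => simp [padAll, evd, ev3]
      | cons p M ih =>
          intro hM
          obtain ⟨hp1, hp2⟩ := hM p List.mem_cons_self
          have hl := length_pad2 W L p hp1
          have hw' := width_pad2 W L p hp2
          have hT1 : (pullRows W B.s B.a (pad2 W L p)).length ≤ L + 1 := by
            refine (length_mobT _ _ _ _).trans ?_
            rw [length_mobY, hl]
          simp only [padAll, List.map_cons, evd, ev3,
            ih fun r hr => hM r (List.mem_cons_of_mem _ hr)]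
          rw [hv, dot_flat Y Z (W + 1) _ _ hT1
            ((width_mobT _ _ _ _).trans (width_mobY _ _ _ _ _ hw')), pullRows,
            ev2_mobT _ _ _ s Y Z eY, ev2_mobY _ _ _ _ s a Z eZ _ hw', length_mobY, hl, ev2_pad2]
          ring
    exact this P (mem_depth P)
  rw [hev] at h1
  exact (mul_nonneg_iff_of_pos_left (by positivity)).1 h1

theorem Axis.mem_halves {A : Axis} {x : ℝ} (h : A.mem x) : A.left.mem x ∨ A.right.mem x := by
  obtain ⟨h1, h2⟩ := h
  simp only [Axis.mem, Axis.left, Axis.right, Int.mul_def, Int.add_def]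
  push_cast
  by_cases hc : x * (2 * A.den) < A.lo + A.hi
  · exact Or.inl ⟨by linarith, hc⟩
  · exact Or.inr ⟨by linarith, by linarith⟩

theorem Box3.mem_half {B : Box3} {w s a : ℝ} (h : B.mem w s a) :
    ∀ ax, (B.half ax false).mem w s a ∨ (B.half ax true).mem w s a
  | 0 => (Axis.mem_halves h.1).imp (fun m => ⟨m, h.2.1, h.2.2⟩) fun m => ⟨m, h.2.1, h.2.2⟩
  | 1 => (Axis.mem_halves h.2.1).imp (fun m => ⟨h.1, m, h.2.2⟩) fun m => ⟨h.1, m, h.2.2⟩
  | _ + 2 => (Axis.mem_halves h.2.2).imp (fun m => ⟨h.1, h.2.1, m⟩) fun m => ⟨h.1, h.2.1, m⟩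

/-- What one node says at the state `(w, σ)`, with `σ = √x`. -/
def Node.Holds (N : Node) (w σ : ℝ) : Prop :=
  (N.Tn : ℝ) * (1 + w ^ 2) ≤ 2 * w * N.Td →
    σ ^ 4 * (1 - w ^ 2) ^ 4 * N.Vd ≤ (N.Vn : ℝ) * (1 + w ^ 2) ^ 4

theorem beyond_core {D L H sn sd w σ Tn Td Vn Vd : ℝ} (hD : 0 < D) (hL : 0 ≤ L) (hH : H ≤ D)
    (hsn : 0 ≤ sn) (hsd : 0 < sd) (hTd : 0 < Td) (hVd : 0 < Vd) (hVn : 0 < Vn)
    (hT : Tn * (D * D + L * L) ≤ 2 * L * D * Td)
    (hV : Vn * sd ^ 4 * (D * D + H * H) ^ 4 ≤ sn ^ 4 * (D * D - H * H) ^ 4 * Vd)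
    (w1 : L ≤ w * D) (w2 : w * D < H) (hw : w < 1) (hσ : sn ≤ σ * sd)
    (hN : Tn * (1 + w ^ 2) ≤ 2 * w * Td → σ ^ 4 * (1 - w ^ 2) ^ 4 * Vd ≤ Vn * (1 + w ^ 2) ^ 4) :
    False := by
  have hw0 : 0 ≤ w := nonneg_of_mul_nonneg_left (hL.trans w1) hD
  have hH0 : 0 < H := (mul_nonneg hw0 hD.le).trans_lt w2
  have hLw : L * w ≤ D := calc
    L * w ≤ L * 1 := mul_le_mul_of_nonneg_left hw.le hL
    _ ≤ D := by linarith [mul_le_mul_of_nonneg_right hw.le hD.le]
  have hprem : Tn * (1 + w ^ 2) ≤ 2 * w * Td := by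
    have hmono : 2 * L * D * (1 + w ^ 2) ≤ 2 * w * (D * D + L * L) := by
      linarith [mul_nonneg (sub_nonneg.2 w1) (sub_nonneg.2 hLw)]
    refine le_of_mul_le_mul_right ?_ (show 0 < D * D + L * L by positivity)
    linarith [mul_le_mul_of_nonneg_right hT (show (0 : ℝ) ≤ 1 + w ^ 2 by positivity),
      mul_le_mul_of_nonneg_right hmono hTd.le]
  have hnn : 0 ≤ D * D - H * H := sub_nonneg.2 (mul_le_mul hH hH hH0.le hD.le)
  have hsn0 : 0 < sn := by
    rcases hsn.eq_or_lt with h0 | h0
    · rw [← h0] at hV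
      have : 0 < Vn * sd ^ 4 * (D * D + H * H) ^ 4 := by positivity
      simp at hV
      linarith
    · exact h0
  have h2 : (D * D - H * H) * (1 + w ^ 2) < (1 - w ^ 2) * (D * D + H * H) := by
    linarith [mul_pos (sub_pos.2 w2) (show 0 < H + w * D by positivity)]
  have hlt : sn * (D * D - H * H) * (1 + w ^ 2) < σ * sd * ((1 - w ^ 2) * (D * D + H * H)) := by
    rw [mul_assoc]
    exact mul_lt_mul' hσ h2 (by positivity) (hsn0.trans_le hσ)
  have h4 := mul_lt_mul_of_pos_right
    (pow_lt_pow_left₀ hlt (by positivity) (show 4 ≠ 0 by norm_num)) hVd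
  simp only [mul_pow] at h4
  linarith [mul_le_mul_of_nonneg_right hV (show (0 : ℝ) ≤ (1 + w ^ 2) ^ 4 by positivity),
    mul_le_mul_of_nonneg_right (hN hprem)
      (show (0 : ℝ) ≤ sd ^ 4 * (D * D + H * H) ^ 4 by positivity)]

theorem beyond_sound {far : Bool} {B : Box3} {N : Node} (h : beyond far B N = true) {w s a : ℝ}
    (hm : B.mem w s a) (hs : 0 < s) (hw : w < 1) : ¬ N.Holds w (if far then 1 / s else s) := by
  intro hH
  simp only [beyond, Bool.and_eq_true, decide_eq_true_eq] at h
  obtain ⟨⟨⟨hD, -, hTd, hVd, hVn, hwl, hwh, hsn, hsd⟩, hT⟩, hV⟩ := h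
  simp only [powZ_eq] at hV
  obtain ⟨⟨w1, w2⟩, ⟨s1, s2⟩, -⟩ := hm
  have core := fun (sn sd : ℤ) (hsn : 0 ≤ sn) (hsd : 0 < sd)
      (hV : N.Vn * sd ^ 4 * (B.w.den * B.w.den + B.w.hi * B.w.hi) ^ 4 ≤
        sn ^ 4 * (B.w.den * B.w.den - B.w.hi * B.w.hi) ^ 4 * N.Vd) (σ : ℝ)
      (hσ : (sn : ℝ) ≤ σ * sd) (hN : N.Holds w σ) =>
    beyond_core (D := B.w.den) (L := B.w.lo) (H := B.w.hi) (sn := sn) (sd := sd)
      (Int.cast_pos.2 hD) (Int.cast_nonneg hwl) (Int.cast_le.2 hwh) (Int.cast_nonneg hsn)
      (Int.cast_pos.2 hsd) (Int.cast_pos.2 hTd) (Int.cast_pos.2 hVd) (Int.cast_pos.2 hVn)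
      (by exact_mod_cast hT) (by exact_mod_cast hV) w1 w2 hw hσ hN
  cases far
  · exact core _ _ hsn hsd hV _ (by simpa using s1) hH
  · refine core _ _ hsn hsd hV _ ?_ hH
    simp only [if_true]
    rw [one_div, inv_mul_eq_div, le_div_iff₀ hs, mul_comm]
    exact s2.le

/-- Soundness of a subdivision. -/
theorem checkTree_sound {far : Bool} {R D A P : P3} {Ps : Polys}
    (hPs : Ps = ⟨mkPol R, mkPol D, mkPol A, mkPol P⟩) {ns : List Node} {w s a : ℝ} (hs : 0 < s)
    (hw : w < 1) (ha : a ≤ w) (henv : ∀ N ∈ ns, N.Holds w (if far then 1 / s else s)) :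
    ∀ (T : Tree) (B : Box3), checkTree far Ps ns B T = true → B.mem w s a →
      0 ≤ ev3 R w s a ∨ (0 ≤ ev3 A w s a ∧ 0 ≤ ev3 P w s a ∧ 0 ≤ ev3 D w s a)
  | .cut ax l r, B, h, hm => by
      simp only [checkTree, Bool.and_eq_true] at h
      rcases Box3.mem_half hm ax with hm' | hm'
      · exact checkTree_sound hPs hs hw ha henv l _ h.1 hm'
      · exact checkTree_sound hPs hs hw ha henv r _ h.2 hm'
  | .dir, B, h, hm => by
      simp only [checkTree, hPs] at h
      exact Or.inl (fast_sound h hm)
  | .disc, B, h, hm => by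
      simp only [checkTree, Bool.and_eq_true, hPs] at h
      exact Or.inr ⟨fast_sound h.1.1 hm, fast_sound h.1.2 hm, fast_sound h.2 hm⟩
  | .out, B, h, hm => by
      simp only [checkTree, decide_eq_true_eq] at h
      obtain ⟨h1, h2, h3⟩ := h
      exfalso
      have h1' : (0 : ℝ) < B.w.den := by exact_mod_cast h1
      have h2' : (0 : ℝ) < B.a.den := by exact_mod_cast h2
      have h3' : (B.w.hi : ℝ) * B.a.den ≤ B.a.lo * B.w.den := by exact_mod_cast h3
      obtain ⟨⟨-, w2⟩, -, a1, -⟩ := hm
      have := mul_lt_mul_of_pos_right w2 h2'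
      have := mul_le_mul_of_nonneg_right a1 h1'.le
      have := mul_le_mul_of_nonneg_right ha (mul_pos h1' h2').le
      nlinarith
  | .env k, B, h, hm => by
      simp only [checkTree] at h
      exfalso
      cases hk : ns[k]? with
      | none => simp [hk] at h
      | some N =>
          simp only [hk] at h
          exact beyond_sound h hm hs hw (henv N (List.mem_of_getElem? hk))

theorem cut_ok {far : Bool} {Ps : Polys} {ns : List Node} {B : Box3} {ax : ℕ} {l r : Tree}
    (hl : checkTree far Ps ns (B.half ax false) l = true)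
    (hr : checkTree far Ps ns (B.half ax true) r = true) :
    checkTree far Ps ns B (.cut ax l r) = true := by
  simp [checkTree, hl, hr]

/-- Soundness of a subdivision for one polynomial. -/
theorem checkOne_sound {P : P3} {w s a : ℝ} :
    ∀ (T : Tree) (B : Box3), checkOne (mkPol P) B T = true → B.mem w s a → 0 ≤ ev3 P w s a
  | .cut ax l r, B, h, hm => by
      simp only [checkOne, Bool.and_eq_true] at h
      rcases Box3.mem_half hm ax with hm' | hm'
      · exact checkOne_sound l _ h.1 hm'
      · exact checkOne_sound r _ h.2 hm'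
  | .dir, B, h, hm => fast_sound h hm
  | .disc, B, h, _ => by simp [checkOne] at h
  | .out, B, h, _ => by simp [checkOne] at h
  | .env k, B, h, _ => by simp [checkOne] at h

theorem ev2_append : ∀ (p q : P2) (y z : ℝ), ev2 (p ++ q) y z = ev2 p y z + y ^ p.length * ev2 q y z
  | [], q, y, z => by simp [ev2]
  | r :: p, q, y, z => by
      simp only [List.cons_append, ev2, ev2_append p q y z, List.length_cons, pow_succ]
      ring

theorem ev2_reverse : ∀ (p : P2) (y z : ℝ), y ≠ 0 →
    y * ev2 p.reverse y z = y ^ p.length * ev2 p (1 / y) z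
  | [], y, z, _ => by simp [ev2]
  | r :: p, y, z, hy => by
      simp only [List.reverse_cons, ev2_append, ev2, List.length_cons, List.length_reverse,
        mul_add, ev2_reverse p y z hy, mul_zero, add_zero]
      field_simp
      ring

theorem ev3_rev (L W : ℕ) (w z : ℝ) {y : ℝ} (hy : y ≠ 0) : ∀ P : P3,
    (∀ p ∈ P, p.length ≤ L) → y * ev3 (rev L W P) w y z = y ^ L * ev3 P w (1 / y) z
  | [], _ => by simp [rev, ev3]
  | p :: P, h => by
      simp only [rev, ev3, mul_add, ev2_reverse _ y z hy, length_pad2 W L p (h p List.mem_cons_self),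
        ev2_pad2]
      rw [mul_left_comm, ev3_rev L W w z hy P fun q hq => h q (List.mem_cons_of_mem _ hq)]
      ring

end Vale.Agent.P237.Quant.FourPoly
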