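import Mathlib
import Vale.Agent.P237.Quant.EvenPoincare
import Vale.Agent.P237.Quant.PureInputs
import Vale.Agent.P237.Quant.EnvelopeRange

/-!
The mass against the square of the mean and the bound of a profile at the centre, from the moment
excess alone; closed values in dimensions five to twenty-four.
-/

namespace Vale.Agent.P237.Quant

open MeasureTheory Set

variable {m : ℕ} {φ : ℝ → ℝ}

/-- The mass against the square of the mean, from a bound `d` of the moment excess. -/
theorem mass_le_specM (hm : 4 ≤ m) (hφ : IsShape φ) (hV : convexVal m (pureG m) φ ≤ 0) {d : ℝ}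
    (hd : 0 ≤ d) (hd1 : d * poincareA m < 1 + d)
    (hD : (∫ t in (0 : ℝ)..1, φ t ^ m / ballShape t) ≤ (1 + d) * ballRatio m * mass m φ 1) :
    mass m φ 1 ≤ (1 + poincareA m * d / (1 + d - poincareA m * d)) * specM m φ ^ 2 *
      mass m ballShape 1 := by
  obtain ⟨hg0, hg, hF⟩ := linFlux_sq_le (show 3 ≤ m by omega) (le_refl (fluxSlope m))
  have h := (mul_specLin_le (by omega) hφ hV hd hd1 (poincareA_pos m).le hg0 hg hF hD
    (specV_quad_le hm hφ)).1
  simpa using h

/-- In dimensions `5` to `24` the mass is at most `1.114` times the ball's one. -/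
theorem mass_le_specM_small (hm : 4 ≤ m) (hm' : m ≤ 23) (hφ : IsShape φ)
    (hV : convexVal m (pureG m) φ ≤ 0)
    (hD : (∫ t in (0 : ℝ)..1, φ t ^ m / ballShape t) ≤
      (1 + 1 / (5 * ((m : ℝ) + 1))) * ballRatio m * mass m φ 1) :
    mass m φ 1 ≤ 557 / 500 * specM m φ ^ 2 * mass m ballShape 1 := by
  have hmR : (4 : ℝ) ≤ m := by exact_mod_cast hm
  set d := 1 / (5 * ((m : ℝ) + 1)) with hd
  have had : poincareA m * d = (1 + 1 / (4 * (m : ℝ))) / 10 := by
    rw [poincareA, hd]
    field_simp
    ring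
  have hle : poincareA m * d ≤ 17 / 160 := by
    rw [had, div_le_iff₀ (by norm_num)]
    have : 1 / (4 * (m : ℝ)) ≤ 1 / 16 := one_div_le_one_div_of_le (by norm_num) (by linarith)
    linarith
  have hd0 : 0 < d := by positivity
  refine (mass_le_specM hm hφ hV hd0.le (by linarith) hD).trans
    (mul_le_mul_of_nonneg_right (mul_le_mul_of_nonneg_right ?_ (sq_nonneg _))
      (ball_mass_pos m).le)
  rw [← le_sub_iff_add_le', div_le_iff₀ (by linarith)]
  interval_cases m <;> norm_num [hd, poincareA]

/-- Thousandths of the node `c` and of the bound `U₀` of `centre_small`, from `m = 4`. -/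
def centreTable : List (ℕ × ℕ) :=
  [(734,1480),(681,1497),(638,1510),(600,1517),(568,1523),(540,1526),(515,1528),(492,1528),(473,1529),(455,1529),(439,1529),(424,1528),(410,1526),(398,1526),(386,1523),(376,1523),(366,1522),(356,1519),(348,1519),(340,1518)]

/-- The node of the centre bound. -/
noncomputable def centreC (m : ℕ) : ℝ := ((centreTable.getD (m - 4) (1000, 1600)).1 : ℝ) / 1000

/-- The bound at the centre. -/
noncomputable def centreU (m : ℕ) : ℝ := ((centreTable.getD (m - 4) (1000, 1600)).2 : ℝ) / 1000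

/-- In dimensions `5` to `24` a bad profile has `u(0) ≤ centreU m` (at most `1.529`) times its
mean. -/
theorem centre_small (hm : 4 ≤ m) (hm' : m ≤ 23) (hφ : IsShape φ)
    (hV : convexVal m (pureG m) φ ≤ 0)
    (hD : (∫ t in (0 : ℝ)..1, φ t ^ m / ballShape t) ≤
      (1 + 1 / (5 * ((m : ℝ) + 1))) * ballRatio m * mass m φ 1) :
    φ 0 ^ m ≤ (centreU m * specM m φ) ^ 2 := by
  have hc : centreC m ∈ Ioc (0 : ℝ) 1 := by
    interval_cases m <;> norm_num [centreC, centreTable]
  refine centre_of_criterion (c := centreC m) (by omega) hφ hV hc ?_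
    (mass_le_specM_small hm hm' hφ hV hD) ?_
  · have hpi : Real.pi / 2 - 7 / 6 ≤ 31416 / 20000 - 7 / 6 := by linarith [Real.pi_lt_d4]
    refine lt_of_le_of_lt (add_le_add le_rfl (div_le_div_of_nonneg_right
      (mul_le_mul_of_nonneg_left hpi (by norm_num)) (by positivity))) ?_
    interval_cases m <;> norm_num [centreC, centreTable]
  · set A := (1 - (1 - centreC m) ^ (m + 1)) / (((m : ℝ) + 1) * centreC m) with hA
    have hA0 : 0 ≤ A := by
      have : (1 - centreC m) ^ (m + 1) ≤ 1 := pow_le_one₀ (by linarith [hc.2]) (by linarith [hc.1])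
      exact div_nonneg (by linarith) (mul_nonneg (by positivity) hc.1.le)
    have hn : (0 : ℝ) < (m : ℝ) + 1 := by positivity
    have hV0 : mass m ballShape 1 ^ 2 * (2 * ((m : ℝ) + 1) + 1) ≤ Real.pi := by
      have h := ball_mass_sqrt_le (show 3 ≤ m by omega)
      rw [mul_pow, Real.sq_sqrt hn.le,
        show mass m ballShape 1 ^ 2 * ((m : ℝ) + 1) * (1 + 1 / ((m : ℝ) + 1) / 2) =
          mass m ballShape 1 ^ 2 * (2 * ((m : ℝ) + 1) + 1) / 2 by field_simp] at h
      linarith
    refine le_of_pow_le_pow_left₀ two_ne_zero (mul_nonneg (sq_nonneg _) hA0) ?_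
    refine le_of_mul_le_mul_right (a := 2 * ((m : ℝ) + 1) + 1) ?_ (by positivity)
    calc (557 / 500 * mass m ballShape 1) ^ 2 * (2 * ((m : ℝ) + 1) + 1)
        = (557 / 500) ^ 2 * (mass m ballShape 1 ^ 2 * (2 * ((m : ℝ) + 1) + 1)) := by ring
      _ ≤ (557 / 500) ^ 2 * (31416 / 10000) :=
          mul_le_mul_of_nonneg_left (hV0.trans (by linarith [Real.pi_lt_d4])) (sq_nonneg _)
      _ ≤ (centreU m ^ 2 * A) ^ 2 * (2 * ((m : ℝ) + 1) + 1) := by
          rw [hA]
          interval_cases m <;> norm_num [centreU, centreC, centreTable]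

end Vale.Agent.P237.Quant
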