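import Vale.Agent.P237.Quant.FourPoint
import Vale.Agent.P237.Quant.FourAssembly
import Vale.Agent.P237.Quant.EnvelopeData.Small4
import Vale.Agent.P237.Quant.EnvelopeExact
import Vale.Agent.P237.Quant.MassBound
import Vale.Agent.P237.Quant.WindowSound
import Vale.Agent.P237.Quant.WindowData.N5
import Vale.Agent.P237.Quant.FourTailData.AuxNeg
import Vale.Agent.P237.Quant.FourTailData.AuxPos
import Vale.Agent.P237.Quant.FourTailData.MainNeg
import Vale.Agent.P237.Quant.FourTailData.MainPos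

/-!
The tail of dimension five: the checked subdivisions give the calibration on both sides, hence the
pure lemma in dimension five.
-/

namespace Vale.Agent.P237.Quant

open Set Filter Topology Four.Checker

namespace FourPoly

/-- The checked subdivisions of a side give what the calibration needs. -/
theorem ok_of_trees {S : Side} (hs : Shaped S) (hd : 0 < S.θd) (hn : 0 ≤ S.θn) {near far : Polys}
    (hnear : near = ⟨mkPol S.R, mkPol S.D, mkPol S.At, mkPol S.P⟩)
    (hfar : far = ⟨mkPol (rev (depth S.R) (width3 S.R) S.R), mkPol [[[-1]]], mkPol [[[-1]]],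
      mkPol [[[-1]]]⟩)
    {gN gP st : Pol} (hgN : mkPol S.gapNeg = gN) (hgP : mkPol S.gapPos = gP)
    (hst : mkPol S.start = st) {Tm Tf TN TP Ts : Tree}
    (hm : checkTree false near nodes ⟨⟨0, 1, 1⟩, ⟨0, 16, 1⟩, ⟨-1, 1, 1⟩⟩ Tm = true)
    (hf : checkTree true far nodes ⟨⟨0, 1, 1⟩, ⟨0, 1, 15⟩, ⟨-1, 1, 1⟩⟩ Tf = true)
    (hN : checkOne gN ⟨⟨0, 1, 1⟩, ⟨0, 1, 1⟩, ⟨-1, 0, 1⟩⟩ TN = true)
    (hP : checkOne gP ⟨⟨0, 1, 1⟩, ⟨0, 1, 1⟩, ⟨0, 1, 1⟩⟩ TP = true)
    (hS : checkOne st ⟨⟨0, 1, 1⟩, ⟨0, 39, 32⟩, ⟨-1, 1, 1⟩⟩ Ts = true) : S.Ok := by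
  refine ⟨hs, hd, hn, ⟨fun w a hw ha => ?_, fun w u hw hu => ?_⟩, fun s hs' => ?_,
    fun w s a hw hs' ha haw henv => ?_⟩
  · rw [← hgN] at hN
    exact checkOne_sound _ _ hN
      ⟨by simpa [Axis.mem] using hw, by simp [Axis.mem], by simpa [Axis.mem] using ha⟩
  · rw [← hgP] at hP
    have key : ∀ v ∈ Ico (0 : ℝ) 1, 0 ≤ ev3 S.gapPos w 0 v := fun v hv => checkOne_sound _ _ hP
      ⟨by simpa [Axis.mem] using hw, by simp [Axis.mem], by simpa [Axis.mem] using hv⟩
    rcases hu.2.lt_or_eq with h1 | rfl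
    · exact key u ⟨hu.1, h1⟩
    · have hc : Continuous fun v : ℝ => ev3 S.gapPos w 0 v :=
        (continuous_ev3 S.gapPos).comp (by fun_prop : Continuous fun v : ℝ => (w, (0 : ℝ), v))
      exact ge_of_tendsto ((hc.tendsto 1).mono_left (nhdsWithin_le_nhds (s := Iio (1 : ℝ))))
        (mem_of_superset (Ioo_mem_nhdsLT zero_lt_one) fun v hv => key v ⟨hv.1.le, hv.2⟩)
  · rw [← hst] at hS
    refine checkOne_sound _ _ hS ⟨by simp [Axis.mem], ?_, by simp [Axis.mem]⟩
    simp only [Axis.mem, Int.cast_zero, Int.cast_ofNat]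
    constructor <;> linarith [hs'.1, hs'.2]
  rcases lt_or_ge s 16 with h16 | h16
  · refine checkTree_sound hnear hs' hw.2 haw (by simpa using henv) Tm _ hm
      ⟨by simpa [Axis.mem] using hw, ?_, by simpa [Axis.mem] using ha⟩
    simp only [Axis.mem, Int.cast_zero, Int.cast_one, Int.cast_ofNat, mul_one]
    exact ⟨hs'.le, h16⟩
  have hr : 0 < 1 / s := by positivity
  have hmem : Box3.mem ⟨⟨0, 1, 1⟩, ⟨0, 1, 15⟩, ⟨-1, 1, 1⟩⟩ w (1 / s) a := by
    refine ⟨by simpa [Axis.mem] using hw, ?_, by simpa [Axis.mem] using ha⟩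
    simp only [Axis.mem, Int.cast_zero, Int.cast_one, Int.cast_ofNat]
    refine ⟨by positivity, ?_⟩
    rw [div_mul_eq_mul_div, div_lt_one hs']
    linarith
  rcases checkTree_sound hfar hr hw.2 haw (by simpa using henv) Tf _ hf hmem with h | ⟨h, -, -⟩
  · refine Or.inl ?_
    have e := ev3_rev (depth S.R) (width3 S.R) w a hr.ne' S.R fun p hp => (mem_depth S.R p hp).1
    rw [one_div_one_div] at e
    exact nonneg_of_mul_nonneg_right (e ▸ mul_nonneg hr.le h) (pow_pos hr _)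
  · simp [ev3, ev2, ev] at h
    linarith

theorem sidePos_ok : sidePos.Ok :=
  ok_of_trees (by unfold Shaped; decide +kernel) (by decide) (by decide)
    (near := Pos.near) (far := Pos.far)
    (by simp only [Pos.near, Pos.polyR_eq, Pos.polyD_eq, Pos.polyA_eq, Pos.polyG_eq])
    (by simp only [Pos.far, Pos.polyFar_eq]) Pos.polyGapNeg_eq Pos.polyGapPos_eq Pos.polyStart_eq
    Pos.mainTree_ok Pos.farTree_ok Pos.gapNegTree_ok Pos.gapPosTree_ok Pos.startTree_ok

theorem sideNeg_ok : sideNeg.Ok :=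
  ok_of_trees (by unfold Shaped; decide +kernel) (by decide) (by decide)
    (near := Neg.near) (far := Neg.far)
    (by simp only [Neg.near, Neg.polyR_eq, Neg.polyD_eq, Neg.polyA_eq, Neg.polyG_eq])
    (by simp only [Neg.far, Neg.polyFar_eq]) Neg.polyGapNeg_eq Neg.polyGapPos_eq Neg.polyStart_eq
    Neg.mainTree_ok Neg.farTree_ok Neg.gapNegTree_ok Neg.gapPosTree_ok Neg.startTree_ok

theorem nodes_table : ∀ N ∈ nodes.tail, ∃ E ∈ envExact5,
    E.t * N.Td = N.Tn ∧ 557 / 500 * E.K * N.Vd = N.Vn ∧ 0 < N.Td ∧ 0 < N.Vd := by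
  decide +kernel

/-- The centre and the envelope of a bad profile. -/
theorem env_of_bad {φ : ℝ → ℝ} (hφ : IsShape φ) (hp : powRatio 4 φ ≤ 1)
    (hV : convexVal 4 (pureG 4) φ ≤ 0) :
    specU 4 φ 0 ≤ 148 / 100 * specM 4 φ ∧
      ∀ t ∈ Ioo (0 : ℝ) 1, Env nodes t (specU 4 φ t / specM 4 φ) := by
  have hD : (∫ t in (0 : ℝ)..1, φ t ^ 4 / ballShape t) ≤
      (1 + 1 / (5 * (((4 : ℕ) : ℝ) + 1))) * ballRatio 4 * mass 4 φ 1 :=
    WindowCert.excess_of_cert WindowCert.data5_wf WindowCert.data5_const WindowCert.tree5_ok hφ hp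
  have hM : 0 < specM 4 φ := specM_pos (by norm_num) hφ
  have h0 : φ 0 ^ 4 ≤ (148 / 100 * specM 4 φ) ^ 2 := by
    refine (centre_small le_rfl (by norm_num) hφ hV hD).trans_eq ?_
    norm_num [centreU, centreTable]
  refine ⟨?_, fun t ht N hN hT => ?_⟩
  · refine (sq_le_sq₀ (specU_pos hφ ⟨by norm_num, by norm_num⟩).le (by positivity)).1 ?_
    rwa [specU_sq hφ ⟨by norm_num, by norm_num⟩, show ballShape 0 = 1 by simp [ballShape],
      div_one]
  have hI : t ∈ Ioo (-1 : ℝ) 1 := ⟨by linarith [ht.1], ht.2⟩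
  have hc := ball_pos hI
  rw [div_pow, specU_sq hφ hI, div_pow,
    show φ t ^ 4 / ballShape t ^ 4 / specM 4 φ ^ 2 * ballShape t ^ 4 * (N.Vd : ℝ) =
      φ t ^ 4 * N.Vd / specM 4 φ ^ 2 by field_simp, div_le_iff₀ (by positivity)]
  rcases List.mem_cons.1 (show N ∈ (⟨0, 1, 1369, 625⟩ : Node) :: nodes.tail from hN) with h | h
  · subst h
    have ht' : φ t ^ 4 ≤ φ 0 ^ 4 :=
      pow_le_pow_left₀ (shape_pos hφ hI).le (shape_le_centre hφ (Ioo_subset_Icc_self hI)) 4
    norm_num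
    linarith
  · obtain ⟨E, hE, ht', hK, hTd, hVd⟩ := nodes_table N h
    have ht1 := congrArg (fun x : ℚ => (x : ℝ)) ht'
    have hK1 := congrArg (fun x : ℚ => (x : ℝ)) hK
    push_cast at ht1 hK1
    have hTd' : (0 : ℝ) < N.Td := by exact_mod_cast hTd
    have hVd' : (0 : ℝ) < N.Vd := by exact_mod_cast hVd
    have hu : (E.t : ℝ) ≤ t := le_of_mul_le_mul_right (ht1.le.trans hT) hTd'
    have henv : φ t ^ 4 * mass 4 ballShape 1 ≤ (E.K : ℝ) * mass 4 φ 1 :=
      envelope_exact hφ (R := envDim5) hp envExact5_check.1 envExact5_check.2 hE hu ht.2.le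
    have hmass := mass_le_specM_small (m := 4) le_rfl (by norm_num) hφ hV hD
    have hmb : 0 < mass 4 ballShape 1 := ball_mass_pos 4
    have hE0 : (0 : ℝ) ≤ E.K := by
      have := List.all_eq_true.1 envExact5_check.2 E hE
      simp only [ExactNode.check, Bool.and_eq_true, decide_eq_true_eq] at this
      exact_mod_cast this.1.2.2.1
    have hle : φ t ^ 4 ≤ 557 / 500 * E.K * specM 4 φ ^ 2 :=
      le_of_mul_le_mul_right ((henv.trans (mul_le_mul_of_nonneg_left hmass hE0)).trans_eq (by ring))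
        hmb
    calc φ t ^ 4 * N.Vd ≤ 557 / 500 * E.K * specM 4 φ ^ 2 * N.Vd :=
          mul_le_mul_of_nonneg_right hle hVd'.le
      _ = _ := by rw [← hK1]; ring

theorem fourTail_neg : FourTail (39 / 50) (4251 / 25000) fun φ => specLin 4 (specV 4 φ) < 0 :=
  fun φ hφ hp hV _ => by
    obtain ⟨h0, he⟩ := env_of_bad hφ hp hV
    refine (Side.excess_le sideNeg_ok hφ h0 he).trans_eq ?_
    norm_num [sideNeg]
    ring

theorem fourTail_pos : FourTail (29 / 25) (1479 / 12500) fun φ => 0 ≤ specLin 4 (specV 4 φ) :=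
  fun φ hφ hp hV _ => by
    obtain ⟨h0, he⟩ := env_of_bad hφ hp hV
    refine (Side.excess_le sidePos_ok hφ h0 he).trans_eq ?_
    norm_num [sidePos]
    ring

end FourPoly

/-- The pure lemma in dimension five. -/
theorem pureLemma_four : PureLemma 4 :=
  pureLemma_four_of_tail FourPoly.fourTail_neg FourPoly.fourTail_pos

end Vale.Agent.P237.Quant
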