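import Mathlib
import Vale.Agent.P237.Quant.MassBound

/-!
The three consequences of the moment excess `d = 1 / (5 n)`, uniform in `n = m + 1 ≥ 5`: the mass
against the square of the mean, the lower bound of the linear term, and the bound at the centre.
-/

namespace Vale.Agent.P237.Quant

open MeasureTheory Set

variable {m : ℕ} {φ : ℝ → ℝ}

/-- The numbers of the Cauchy bound at `d = 1 / (5 n)`. -/
theorem flat_numbers (hm : 4 ≤ m) :
    poincareA m * (1 / (5 * ((m : ℝ) + 1))) ≤ 17 / 160 ∧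
      poincareA m * (1 / (5 * ((m : ℝ) + 1))) /
        (1 + 1 / (5 * ((m : ℝ) + 1)) - poincareA m * (1 / (5 * ((m : ℝ) + 1)))) ≤ 57 / 500 ∧
      1 / (5 * ((m : ℝ) + 1)) /
        (1 + 1 / (5 * ((m : ℝ) + 1)) - poincareA m * (1 / (5 * ((m : ℝ) + 1)))) ≤
          2 / (9 * ((m : ℝ) + 1)) := by
  have hmR : (4 : ℝ) ≤ m := by exact_mod_cast hm
  set n := (m : ℝ) + 1 with hn
  have hn0 : 0 < n := by positivity
  have hx : 1 / (4 * (m : ℝ)) ≤ 5 / 16 * (1 / n) := by
    rw [div_le_iff₀ (by positivity)]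
    field_simp
    linarith
  have hs : 1 / n ≤ 1 / 5 := one_div_le_one_div_of_le (by norm_num) (by linarith)
  have had : poincareA m * (1 / (5 * n)) = (1 + 1 / (4 * (m : ℝ))) / 10 := by
    rw [poincareA, ← hn]
    field_simp
    ring
  have hd : 1 / (5 * n) = 1 / n / 5 := by ring_nf
  have hden : 9 / 10 ≤ 1 + 1 / (5 * n) - poincareA m * (1 / (5 * n)) := by
    linarith [show 0 < 1 / n by positivity]
  refine ⟨by linarith, ?_, ?_⟩
  · rw [div_le_iff₀ (by linarith)]
    linarith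
  · rw [div_le_iff₀ (by linarith)]
    have h := mul_le_mul_of_nonneg_left hden (show 0 ≤ 2 / (9 * n) by positivity)
    refine le_trans (le_of_eq ?_) h
    field_simp
    ring

/-- The mass is at most `1.114` times the ball's one, in every dimension at least five. -/
theorem mass_le_specM_flat (hm : 4 ≤ m) (hφ : IsShape φ) (hV : convexVal m (pureG m) φ ≤ 0)
    (hD : (∫ t in (0 : ℝ)..1, φ t ^ m / ballShape t) ≤
      (1 + 1 / (5 * ((m : ℝ) + 1))) * ballRatio m * mass m φ 1) :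
    mass m φ 1 ≤ 557 / 500 * specM m φ ^ 2 * mass m ballShape 1 := by
  obtain ⟨had, hq, -⟩ := flat_numbers hm
  have hd0 : 0 ≤ 1 / (5 * ((m : ℝ) + 1)) := by positivity
  exact (mass_le_specM hm hφ hV hd0 (by linarith) hD).trans
    (mul_le_mul_of_nonneg_right (mul_le_mul_of_nonneg_right (by linarith) (sq_nonneg _))
      (ball_mass_pos m).le)

/-- The linear term is at least `-0.242 / n`, in every dimension at least five. -/
theorem neg_specLin_le_flat (hm : 4 ≤ m) (hφ : IsShape φ) (hV : convexVal m (pureG m) φ ≤ 0)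
    (hD : (∫ t in (0 : ℝ)..1, φ t ^ m / ballShape t) ≤
      (1 + 1 / (5 * ((m : ℝ) + 1))) * ballRatio m * mass m φ 1) :
    -specLin m (specV m φ) ≤ 121 / (500 * ((m : ℝ) + 1)) := by
  obtain ⟨had, hq, hΔ⟩ := flat_numbers hm
  have hmR : (4 : ℝ) ≤ m := by exact_mod_cast hm
  obtain ⟨hg0, hg, hF⟩ := linFlux_sq_le (show 3 ≤ m by omega)
    (fluxSlope_le_half (show 1 ≤ m by omega))
  have hd0 : 0 ≤ 1 / (5 * ((m : ℝ) + 1)) := by positivity
  have h := (mul_specLin_le (by omega) hφ hV hd0 (by linarith) (poincareA_pos m).le hg0 hg hF hD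
    (specV_quad_le hm hφ)).2 (-6 / 5) 3 (by norm_num)
  simp only [add_zero, zero_mul, mul_one] at h
  set n := (m : ℝ) + 1 with hn
  have hn0 : 0 < n := by positivity
  have hs : 1 / n ≤ 1 / 5 := one_div_le_one_div_of_le (by norm_num) (by linarith)
  have hr : ballRatio m - 1 ≤ 1 / n * (1 / 2 + 1 / 40) := by
    have hb := (ballRatio_bracket (show 3 ≤ m by omega)).2
    simp only [ratioCubic, zero_mul, zero_div, sub_zero] at hb
    rw [← hn] at hb
    have hs0 : 0 ≤ 1 / n := by positivity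
    nlinarith [pow_nonneg hs0 3, mul_le_mul_of_nonneg_left hs hs0]
  have hq' := mul_le_mul (show 3 ^ 2 * (1 / 2 * (ballRatio m - 1)) ≤
      3 ^ 2 * (1 / 2 * (1 / n * (1 / 2 + 1 / 40))) by linarith) hq
    (div_nonneg (mul_nonneg (poincareA_pos m).le hd0) (by linarith)) (by positivity)
  rw [show 121 / (500 * n) = 121 / 500 * (1 / n) by ring_nf]
  rw [show 2 / (9 * n) = 2 / 9 * (1 / n) by ring_nf] at hΔ
  linarith [show 0 < 1 / n by positivity]

/-- The centre from a node `c = κ / √n`, on dimensions `n₀ ≤ n` and `w ≤ 1 / n`. -/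
theorem centre_range {n₀ κ w U₀ σ : ℝ} (hm : 4 ≤ m) (hφ : IsShape φ)
    (hV : convexVal m (pureG m) φ ≤ 0) (hn₀ : 25 ≤ n₀) (hn : n₀ ≤ (m : ℝ) + 1) (hw0 : 0 ≤ w)
    (hw : w * ((m : ℝ) + 1) ≤ 1) (hκ : 7 / 5 ≤ κ) (hκ' : κ ≤ 5)
    (hcrit : 1 / ((1 + 3 * w) * κ ^ 2) + 120 * (31416 / 20000 - 7 / 6) /
      (n₀ * (1 + 10 * w) * κ ^ 4) < 999 / 2000)
    (hU : σ ^ 2 * κ ^ 2 * (31416 / 20000) ≤ U₀ ^ 4 * (999 / 1000) ^ 2)
    (hs : mass m φ 1 ≤ σ * specM m φ ^ 2 * mass m ballShape 1) :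
    φ 0 ^ m ≤ (U₀ * specM m φ) ^ 2 := by
  set n := (m : ℝ) + 1 with hn'
  have hn0 : 0 < n := by linarith
  have hsq : 0 < √n := Real.sqrt_pos.2 hn0
  have hs5 : 5 ≤ √n := by
    rw [show (5 : ℝ) = √25 by rw [show (25 : ℝ) = 5 ^ 2 by norm_num, Real.sqrt_sq (by norm_num)]]
    exact Real.sqrt_le_sqrt (by linarith)
  set c := κ / √n with hc'
  have hc : c ∈ Ioc (0 : ℝ) 1 :=
    ⟨by rw [hc']; exact div_pos (by linarith) hsq, by rw [hc', div_le_one hsq]; linarith⟩
  have hc2 : c ^ 2 = κ ^ 2 / n := by rw [hc', div_pow, Real.sq_sqrt hn0.le]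
  have hE : (1 - c) ^ (m + 1) ≤ 1 / 1000 := by
    have hx : 7 ≤ n * c := by
      rw [hc', ← mul_div_assoc, mul_comm, mul_div_assoc, Real.div_sqrt]
      nlinarith
    calc (1 - c) ^ (m + 1) ≤ Real.exp (-c) ^ (m + 1) :=
          pow_le_pow_left₀ (by linarith [hc.2]) (by linarith [Real.add_one_le_exp (-c)]) _
      _ = Real.exp (-(n * c)) := by
          rw [← Real.exp_nat_mul, hn']; congr 1; push_cast; ring
      _ ≤ Real.exp (-7) := Real.exp_le_exp.2 (by linarith)
      _ = Real.exp (-1) ^ 7 := by rw [← Real.exp_nat_mul]; norm_num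
      _ ≤ (37 / 100) ^ 7 := pow_le_pow_left₀ (Real.exp_pos _).le
          (by linarith [Real.exp_neg_one_lt_d9]) 7
      _ ≤ 1 / 1000 := by norm_num
  have hden : 0 < n * c := mul_pos hn0 hc.1
  refine centre_of_criterion (c := c) (by omega) hφ hV hc ?_ hs ?_
  · rw [← hn']
    have h1 : (m : ℝ) + 2 = n + 1 := by rw [hn']; ring
    have h2 : (m : ℝ) + 3 = n + 2 := by rw [hn']; ring
    have h3 : (m : ℝ) + 4 = n + 3 := by rw [hn']; ring
    have h4 : (m : ℝ) + 5 = n + 4 := by rw [hn']; ring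
    rw [h1, h2, h3, h4, show c ^ 4 = (c ^ 2) ^ 2 by ring, hc2]
    set A := 120 * (Real.pi / 2 - 7 / 6) with hA
    have hA0 : 0 ≤ A := by have := quintic_coeff.1; rw [hA]; linarith
    have hA1 : A ≤ 120 * (31416 / 20000 - 7 / 6) := by rw [hA]; linarith [Real.pi_lt_d4]
    have e1 : 1 / ((n + 1) * (n + 2) * (κ ^ 2 / n)) ≤ 1 / ((1 + 3 * w) * κ ^ 2) / n := by
      rw [div_div]
      refine one_div_le_one_div_of_le (by positivity) ?_
      rw [mul_comm ((1 + 3 * w) * κ ^ 2) n, show (n + 1) * (n + 2) * (κ ^ 2 / n) =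
        (n + 3 + 2 / n) * κ ^ 2 by field_simp; ring]
      have : n + 3 * (w * n) ≤ n + 3 + 2 / n := by linarith [show 0 < 2 / n by positivity]
      linarith [mul_le_mul_of_nonneg_right this (sq_nonneg κ)]
    have e2 : A / ((n + 1) * (n + 2) * (n + 3) * (n + 4) * (κ ^ 2 / n) ^ 2) ≤
        120 * (31416 / 20000 - 7 / 6) / (n₀ * (1 + 10 * w) * κ ^ 4) / n := by
      rw [div_div]
      refine div_le_div₀ (hA0.trans hA1) hA1 (by positivity) ?_
      rw [show (n + 1) * (n + 2) * (n + 3) * (n + 4) * (κ ^ 2 / n) ^ 2 =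
        ((n + 1) * (n + 2) * (n + 3) * (n + 4) / n ^ 2) * κ ^ 4 by field_simp]
      have hexp : n * n * n * n + 10 * (n * n * n) ≤ (n + 1) * (n + 2) * (n + 3) * (n + 4) := by
        nlinarith [pow_pos hn0 2]
      have hb : n₀ * (1 + 10 * w) * n ≤ (n + 1) * (n + 2) * (n + 3) * (n + 4) / n ^ 2 := by
        rw [le_div_iff₀ (by positivity)]
        calc n₀ * (1 + 10 * w) * n * n ^ 2 ≤ n * (1 + 10 * w) * n * n ^ 2 := by gcongr
          _ = n * n * n * n + 10 * (w * n) * (n * n * n) := by ring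
          _ ≤ n * n * n * n + 10 * 1 * (n * n * n) := by gcongr
          _ ≤ _ := by linarith
      linarith [mul_le_mul_of_nonneg_right hb (show (0 : ℝ) ≤ κ ^ 4 by positivity)]
    refine lt_of_le_of_lt (add_le_add e1 e2) ?_
    rw [← add_div, div_lt_div_iff₀ hn0 (by positivity)]
    linarith [mul_lt_mul_of_pos_left hcrit hn0, mul_le_mul_of_nonneg_left hE hn0.le]
  · rw [← hn']
    have hV0 := ball_mass_sqrt_le (show 3 ≤ m by omega)
    rw [← hn'] at hV0
    have hV1 : (mass m ballShape 1 * √n) ^ 2 ≤ Real.pi / 2 :=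
      le_trans (le_mul_of_one_le_right (sq_nonneg _)
        (by linarith [show 0 < 1 / n / 2 by positivity])) hV0
    have hκn : n * c = κ * √n := by
      rw [hc', ← mul_div_assoc, mul_comm, mul_div_assoc, Real.div_sqrt]
    rw [hκn, ← mul_div_assoc, le_div_iff₀ (by positivity)]
    refine le_of_pow_le_pow_left₀ two_ne_zero (mul_nonneg (sq_nonneg _) (by linarith)) ?_
    calc (σ * mass m ballShape 1 * (κ * √n)) ^ 2
        = σ ^ 2 * κ ^ 2 * (mass m ballShape 1 * √n) ^ 2 := by ring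
      _ ≤ σ ^ 2 * κ ^ 2 * (31416 / 20000) :=
          mul_le_mul_of_nonneg_left (hV1.trans (by linarith [Real.pi_lt_d4])) (by positivity)
      _ ≤ U₀ ^ 4 * (999 / 1000) ^ 2 := hU
      _ ≤ U₀ ^ 4 * (1 - (1 - c) ^ (m + 1)) ^ 2 :=
          mul_le_mul_of_nonneg_left (pow_le_pow_left₀ (by norm_num) (by linarith) 2) (by positivity)
      _ = _ := by ring

/-- The numbers of the Cauchy bound at `d = 11 / (50 n)`, from `n = 25`. -/
theorem large_numbers (hm : 24 ≤ m) :
    poincareA m * (11 / (50 * ((m : ℝ) + 1))) ≤ 9 / 80 ∧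
      poincareA m * (11 / (50 * ((m : ℝ) + 1))) /
        (1 + 11 / (50 * ((m : ℝ) + 1)) - poincareA m * (11 / (50 * ((m : ℝ) + 1)))) ≤ 31 / 250 ∧
      11 / (50 * ((m : ℝ) + 1)) /
        (1 + 11 / (50 * ((m : ℝ) + 1)) - poincareA m * (11 / (50 * ((m : ℝ) + 1)))) ≤
          22 / (89 * ((m : ℝ) + 1)) := by
  have hmR : (24 : ℝ) ≤ m := by exact_mod_cast hm
  set n := (m : ℝ) + 1 with hn
  have hn0 : 0 < n := by positivity
  have hx : 1 / (4 * (m : ℝ)) ≤ 25 / 96 * (1 / n) := by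
    rw [div_le_iff₀ (by positivity)]
    field_simp
    linarith
  have hs : 1 / n ≤ 1 / 25 := one_div_le_one_div_of_le (by norm_num) (by linarith)
  have hs0 : 0 < 1 / n := by positivity
  have had : poincareA m * (11 / (50 * n)) = 11 / 100 * (1 + 1 / (4 * (m : ℝ))) := by
    rw [poincareA, ← hn]
    field_simp
    ring
  have hd : 11 / (50 * n) = 11 / 50 * (1 / n) := by ring_nf
  have hden : 89 / 100 ≤ 1 + 11 / (50 * n) - poincareA m * (11 / (50 * n)) := by linarith
  refine ⟨by linarith, ?_, ?_⟩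
  · rw [div_le_iff₀ (by linarith)]
    linarith
  · rw [div_le_iff₀ (by linarith)]
    refine le_trans (le_of_eq ?_)
      (mul_le_mul_of_nonneg_left hden (show 0 ≤ 22 / (89 * n) by positivity))
    field_simp
    ring

/-- From `n = 25` on, with `d = 11 / (50 n)`, the mass is at most `1.124` times the ball's one. -/
theorem mass_le_specM_large (hm : 24 ≤ m) (hφ : IsShape φ) (hV : convexVal m (pureG m) φ ≤ 0)
    (hD : (∫ t in (0 : ℝ)..1, φ t ^ m / ballShape t) ≤
      (1 + 11 / (50 * ((m : ℝ) + 1))) * ballRatio m * mass m φ 1) :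
    mass m φ 1 ≤ 281 / 250 * specM m φ ^ 2 * mass m ballShape 1 := by
  obtain ⟨had, hq, -⟩ := large_numbers hm
  have hd0 : 0 ≤ 11 / (50 * ((m : ℝ) + 1)) := by positivity
  exact (mass_le_specM (by omega) hφ hV hd0 (by linarith) hD).trans
    (mul_le_mul_of_nonneg_right (mul_le_mul_of_nonneg_right (by linarith) (sq_nonneg _))
      (ball_mass_pos m).le)

/-- From `n = 25` on, with `d = 11 / (50 n)`, the linear term is at least `-0.262 / n`. -/
theorem neg_specLin_le_large (hm : 24 ≤ m) (hφ : IsShape φ) (hV : convexVal m (pureG m) φ ≤ 0)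
    (hD : (∫ t in (0 : ℝ)..1, φ t ^ m / ballShape t) ≤
      (1 + 11 / (50 * ((m : ℝ) + 1))) * ballRatio m * mass m φ 1) :
    -specLin m (specV m φ) ≤ 131 / (500 * ((m : ℝ) + 1)) := by
  obtain ⟨had, hq, hΔ⟩ := large_numbers hm
  have hmR : (24 : ℝ) ≤ m := by exact_mod_cast hm
  obtain ⟨hg0, hg, hF⟩ := linFlux_sq_le (show 3 ≤ m by omega)
    (fluxSlope_le_half (show 1 ≤ m by omega))
  have hd0 : 0 ≤ 11 / (50 * ((m : ℝ) + 1)) := by positivity
  have h := (mul_specLin_le (by omega) hφ hV hd0 (by linarith) (poincareA_pos m).le hg0 hg hF hD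
    (specV_quad_le (show 4 ≤ m by omega) hφ)).2 (-3 / 2) 4 (by norm_num)
  simp only [add_zero, zero_mul, mul_one] at h
  set n := (m : ℝ) + 1 with hn
  have hn0 : 0 < n := by positivity
  have hs : 1 / n ≤ 1 / 25 := one_div_le_one_div_of_le (by norm_num) (by linarith)
  have hr : ballRatio m - 1 ≤ 1 / n * (1 / 2 + 1 / 200) := by
    have hb := (ballRatio_bracket (show 3 ≤ m by omega)).2
    simp only [ratioCubic, zero_mul, zero_div, sub_zero] at hb
    rw [← hn] at hb
    have hs0 : 0 ≤ 1 / n := by positivity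
    nlinarith [pow_nonneg hs0 3, mul_le_mul_of_nonneg_left hs hs0]
  have hq' := mul_le_mul (show 4 ^ 2 * (1 / 2 * (ballRatio m - 1)) ≤
      4 ^ 2 * (1 / 2 * (1 / n * (1 / 2 + 1 / 200))) by linarith) hq
    (div_nonneg (mul_nonneg (poincareA_pos m).le hd0) (by linarith)) (by positivity)
  rw [show 131 / (500 * n) = 131 / 500 * (1 / n) by ring_nf]
  rw [show 22 / (89 * n) = 22 / 89 * (1 / n) by ring_nf] at hΔ
  linarith [show 0 < 1 / n by positivity]

/-- Thousandths of the node `κ` and of the bound `U₀` at the centre on a range of dimensions: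
`(n₀, n₁, κ, U₀)`; `n₁ = 0` is no upper end. -/
def centreRanges : List (ℕ × ℕ × ℕ × ℕ) :=
  [(25, 28, 1680, 1540), (28, 32, 1668, 1534), (32, 40, 1658, 1530), (40, 52, 1631, 1517),
    (52, 70, 1600, 1503), (70, 100, 1568, 1487), (100, 160, 1535, 1472), (160, 300, 1498, 1454),
    (300, 700, 1464, 1437), (700, 0, 1439, 1425)]

/-- The centre on each listed range, with `σ = 1.124`. -/
theorem centre_large (hφ : IsShape φ) (hV : convexVal m (pureG m) φ ≤ 0)
    (hs : mass m φ 1 ≤ 281 / 250 * specM m φ ^ 2 * mass m ballShape 1)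
    {P : ℕ × ℕ × ℕ × ℕ} (hP : P ∈ centreRanges) (hn : P.1 ≤ m + 1)
    (hn' : P.2.1 = 0 ∨ m + 1 ≤ P.2.1) :
    φ 0 ^ m ≤ ((P.2.2.2 : ℝ) / 1000 * specM m φ) ^ 2 := by
  have hw : (1 / (P.2.1 : ℝ)) * ((m : ℝ) + 1) ≤ 1 := by
    rcases hn' with h | h
    · simp [h]
    · rw [div_mul_eq_mul_div, one_mul,
        div_le_one (by exact_mod_cast (show 0 < P.2.1 by omega))]
      exact_mod_cast h
  have h25 : 25 ≤ P.1 := by
    simp only [centreRanges, List.mem_cons, List.not_mem_nil, or_false] at hP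
    rcases hP with rfl | rfl | rfl | rfl | rfl | rfl | rfl | rfl | rfl | rfl <;> norm_num
  refine centre_range (n₀ := (P.1 : ℝ)) (κ := (P.2.2.1 : ℝ) / 1000) (w := 1 / (P.2.1 : ℝ))
    (by omega) hφ hV (by exact_mod_cast h25) (by exact_mod_cast hn) (by positivity) hw
    ?_ ?_ ?_ ?_ hs <;>
  · simp only [centreRanges, List.mem_cons, List.not_mem_nil, or_false] at hP
    rcases hP with rfl | rfl | rfl | rfl | rfl | rfl | rfl | rfl | rfl | rfl <;> norm_num

/-- From `n = 25` on, with `d = 11 / (50 n)`, the centre is below `1.540`. -/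
theorem centre_le_large (hm : 24 ≤ m) (hφ : IsShape φ) (hV : convexVal m (pureG m) φ ≤ 0)
    (hD : (∫ t in (0 : ℝ)..1, φ t ^ m / ballShape t) ≤
      (1 + 11 / (50 * ((m : ℝ) + 1))) * ballRatio m * mass m φ 1) :
    φ 0 ^ m ≤ (1540 / 1000 * specM m φ) ^ 2 := by
  have hs := mass_le_specM_large hm hφ hV hD
  have hM := (specM_pos (show 1 ≤ m by omega) hφ).le
  have mono : ∀ u : ℝ, 0 ≤ u → φ 0 ^ m ≤ (u * specM m φ) ^ 2 → u ≤ 1540 / 1000 →
      φ 0 ^ m ≤ (1540 / 1000 * specM m φ) ^ 2 := fun u hu h hle =>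
    h.trans (pow_le_pow_left₀ (mul_nonneg hu hM) (mul_le_mul_of_nonneg_right hle hM) 2)
  obtain ⟨P, hP, h1, h2⟩ : ∃ P ∈ centreRanges, P.1 ≤ m + 1 ∧ (P.2.1 = 0 ∨ m + 1 ≤ P.2.1) := by
    by_cases h28 : m + 1 ≤ 28
    · exact ⟨(25, 28, 1680, 1540), by simp [centreRanges], by simp only; omega, Or.inr h28⟩
    by_cases h32 : m + 1 ≤ 32
    · exact ⟨(28, 32, 1668, 1534), by simp [centreRanges], by simp only; omega, Or.inr h32⟩
    by_cases h40 : m + 1 ≤ 40
    · exact ⟨(32, 40, 1658, 1530), by simp [centreRanges], by simp only; omega, Or.inr h40⟩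
    by_cases h52 : m + 1 ≤ 52
    · exact ⟨(40, 52, 1631, 1517), by simp [centreRanges], by simp only; omega, Or.inr h52⟩
    by_cases h70 : m + 1 ≤ 70
    · exact ⟨(52, 70, 1600, 1503), by simp [centreRanges], by simp only; omega, Or.inr h70⟩
    by_cases h100 : m + 1 ≤ 100
    · exact ⟨(70, 100, 1568, 1487), by simp [centreRanges], by simp only; omega, Or.inr h100⟩
    by_cases h160 : m + 1 ≤ 160
    · exact ⟨(100, 160, 1535, 1472), by simp [centreRanges], by simp only; omega, Or.inr h160⟩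
    by_cases h300 : m + 1 ≤ 300
    · exact ⟨(160, 300, 1498, 1454), by simp [centreRanges], by simp only; omega, Or.inr h300⟩
    by_cases h700 : m + 1 ≤ 700
    · exact ⟨(300, 700, 1464, 1437), by simp [centreRanges], by simp only; omega, Or.inr h700⟩
    exact ⟨(700, 0, 1439, 1425), by simp [centreRanges], by simp only; omega, Or.inl rfl⟩
  refine mono _ (by positivity) (centre_large hφ hV hs hP h1 h2) ?_
  simp only [centreRanges, List.mem_cons, List.not_mem_nil, or_false] at hP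
  rcases hP with rfl | rfl | rfl | rfl | rfl | rfl | rfl | rfl | rfl | rfl <;> norm_num

/-- Under `d = 1 / (5 n)` the centre is below `1.540` in every dimension at least five. -/
theorem centre_flat (hm : 4 ≤ m) (hφ : IsShape φ) (hV : convexVal m (pureG m) φ ≤ 0)
    (hD : (∫ t in (0 : ℝ)..1, φ t ^ m / ballShape t) ≤
      (1 + 1 / (5 * ((m : ℝ) + 1))) * ballRatio m * mass m φ 1) :
    φ 0 ^ m ≤ (1540 / 1000 * specM m φ) ^ 2 := by
  rcases le_or_gt m 23 with h | h
  · refine (centre_small hm h hφ hV hD).trans (pow_le_pow_left₀ (mul_nonneg ?_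
      (specM_pos (by omega) hφ).le) (mul_le_mul_of_nonneg_right ?_ (specM_pos (by omega) hφ).le) 2)
    · interval_cases m <;> norm_num [centreU, centreTable]
    · interval_cases m <;> norm_num [centreU, centreTable]
  · refine centre_le_large (by omega) hφ hV (hD.trans ?_)
    have hr := (ballRatio_pos m).le
    have hM : 0 ≤ mass m φ 1 :=
      (intervalIntegral.intervalIntegral_pos_of_pos_on (intervalIntegrable_shape_pow01 hφ m)
        (fun s hs' => pow_pos (shape_pos hφ ⟨by linarith [hs'.1], hs'.2⟩) m) zero_lt_one).le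
    gcongr ?_ * ballRatio m * mass m φ 1
    rw [show (1 : ℝ) / (5 * ((m : ℝ) + 1)) = 1 / 5 * (1 / ((m : ℝ) + 1)) by field_simp,
      show (11 : ℝ) / (50 * ((m : ℝ) + 1)) = 11 / 50 * (1 / ((m : ℝ) + 1)) by field_simp]
    linarith [show 0 < 1 / ((m : ℝ) + 1) by positivity]

end Vale.Agent.P237.Quant
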