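import Mathlib
import Vale.Agent.P237.Quant.Ellipsoid
import Vale.Agent.P237.Quant.Defs

/-!
The interface between a one-variable lemma and Petty's inequality: some normal of every symmetric
body has power ratio at least one, above one unless the body is an ellipsoid.
-/

namespace Vale.Agent.P237.Quant

open MeasureTheory Set Filter Topology Full
open scoped RealInnerProductSpace

variable {m : ℕ}

/-- Some normal has power ratio at least one, above one unless the body is an ellipsoid. -/
def GoodNormal (m : ℕ) : Prop :=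
  ∀ K : Set (EuclideanSpace ℝ (Fin (m + 1))), IsSymBody K →
    (∃ w v, IsTop K w v ∧ 1 ≤ powRatio m (profile K w)) ∧
      ((∃ w v, IsTop K w v ∧ 1 < powRatio m (profile K w)) ∨
        ∃ T : EuclideanSpace ℝ (Fin (m + 1)) ≃L[ℝ] EuclideanSpace ℝ (Fin (m + 1)),
          K = T '' Metric.closedBall 0 1)

private theorem ballMass_pos' (k : ℕ) : 0 < mass k ballShape 1 :=
  intervalIntegral.intervalIntegral_pos_of_pos_on
    ((by unfold ballShape; fun_prop : Continuous fun t => ballShape t ^ k).intervalIntegrable _ _)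
    (fun t ht => pow_pos (Real.sqrt_pos.2 (by nlinarith [ht.1, ht.2])) k) zero_lt_one

theorem powRatio_of_ball {φ : ℝ → ℝ} (hφ : IsShape φ)
    (h : ∀ t ∈ Ioo (0 : ℝ) 1, φ t = φ 0 * ballShape t) : powRatio m φ = 1 := by
  have e : ∀ k, (∫ t in (0 : ℝ)..1, φ t ^ k) = φ 0 ^ k * ∫ t in (0 : ℝ)..1, ballShape t ^ k := by
    intro k
    rw [← intervalIntegral.integral_const_mul]
    refine intervalIntegral.integral_congr_ae ?_
    filter_upwards [Measure.ae_ne volume (1 : ℝ)] with t ht1 ht
    rw [uIoc_of_le zero_le_one] at ht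
    rw [h t ⟨ht.1, lt_of_le_of_ne ht.2 ht1⟩, mul_pow]
  have hP : ∀ k, 0 < ∫ t in (0 : ℝ)..1, ballShape t ^ k := fun k => ballMass_pos' k
  have hA : 0 < φ 0 := hφ.centre
  rw [powRatio, powVal, powVal, mass, mass, e, e, mul_pow, mul_pow]
  have h1 := (pow_pos (hP m) (m - 1)).ne'
  have h2 := (pow_pos (hP (m - 1)) m).ne'
  have h3 := (pow_pos (pow_pos hA m) (m - 1)).ne'
  rw [← pow_mul, ← pow_mul, mul_comm (m - 1) m]
  rw [← pow_mul] at h3
  field_simp

/-- It suffices that without a normal of ratio above one almost every profile is that of the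
ball. -/
theorem goodNormal_of_ball_profiles (hm : 1 ≤ m)
    (hb : ∀ K : Set (EuclideanSpace ℝ (Fin (m + 1))), IsSymBody K →
      (∀ w v, IsTop K w v → powRatio m (profile K w) ≤ 1) →
      ∀ᵐ x ∂volume.restrict K, IsTop K (normalAt K x) (bdPoint K x) ∧
        ∀ t ∈ Ioo (0 : ℝ) 1, profile K (normalAt K x) t =
          profile K (normalAt K x) 0 * ballShape t) : GoodNormal m := by
  intro K hK
  by_cases h : ∃ w v, IsTop K w v ∧ 1 < powRatio m (profile K w)
  · obtain ⟨w, v, h1, h2⟩ := h
    exact ⟨⟨w, v, h1, h2.le⟩, Or.inl ⟨w, v, h1, h2⟩⟩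
  push Not at h
  have hp := hb K hK h
  refine ⟨?_, Or.inr (ellipsoid_of_moment hK (hp.mono fun x hx =>
    moment_of_ball_profile hm hK hx.1 hx.2))⟩
  have : NeZero (volume.restrict K) := ⟨fun e => (Measure.measure_pos_of_nonempty_interior
    volume hK.body.2.2).ne' (Measure.restrict_eq_zero.1 e)⟩
  obtain ⟨x, hx, hball⟩ := hp.exists
  exact ⟨_, _, hx, (powRatio_of_ball (isShape_profile hm hK hx) hball).ge⟩

end Vale.Agent.P237.Quant
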