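import Mathlib
import Vale.Agent.P237.Quant.Good
import Vale.Agent.P237.Quant.Caps
import Vale.Agent.P237.Four.Petty

/-!
Petty's inequality in every dimension from good normals: in the minimiser every support
value is a multiple of the shadow of the projection body, so one good normal suffices, and the
dimension two, three and four cases start the induction.
-/

namespace Vale.Agent.P237.Quant

open MeasureTheory Set Metric Full
open scoped RealInnerProductSpace ENNReal Pointwise

/-- The ball identity for the power value. -/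
theorem powVal_ball {m : ℕ} (hm : 2 ≤ m) :
    powVal m ballShape =
      kappa m ^ (2 * m - 1) / (2 * kappa (m - 1) ^ m * kappa (m + 1) ^ (m - 1)) := by
  have hmass : ∀ k, 1 ≤ k → mass k ballShape 1 = kappa (k + 1) / (2 * kappa k) := by
    intro k hk
    obtain ⟨u, hu⟩ := exists_norm_eq (EuclideanSpace ℝ (Fin (k + 1))) (zero_le_one (α := ℝ))
    have hT : IsTop (closedBall (0 : EuclideanSpace ℝ (Fin (k + 1))) 1) ((1 : ℝ)⁻¹ • u) u := by
      refine ⟨by simpa using hu.le, fun y hy => ?_, ?_⟩
      · have h1 := real_inner_le_norm u y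
        rw [hu, one_mul] at h1
        rw [inv_one, one_smul]
        exact h1.trans (mem_closedBall_zero_iff.1 hy)
      · rw [inv_one, one_smul, real_inner_self_eq_norm_sq, hu, one_pow]
    have h := volume_eq_mass hk (isSymBody_ball one_pos) hT
    rw [volume_closedBall_kappa zero_le_one, finrank_euclideanSpace_fin, one_pow, one_mul,
      inv_one, one_smul, hu, div_one] at h
    have e : mass k (profile (closedBall (0 : EuclideanSpace ℝ (Fin (k + 1))) 1) u) 1 =
        mass k ballShape 1 := by
      refine intervalIntegral.integral_congr fun t ht => ?_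
      rw [uIcc_of_le zero_le_one] at ht
      have := profile_ball hk one_pos hu (s := t) ⟨by linarith [ht.1], ht.2⟩
      simp only [inv_one, one_smul, one_mul] at this
      show profile _ u t ^ k = ballShape t ^ k
      rw [this]
    rw [e] at h
    have hk0 := kappa_pos k
    rw [h]
    field_simp
  obtain ⟨k, rfl⟩ : ∃ k, m = k + 1 := ⟨m - 1, by omega⟩
  simp only [powVal, Nat.add_sub_cancel]
  rw [show (∫ t in (0 : ℝ)..1, ballShape t ^ k) = mass k ballShape 1 from rfl,
    hmass k (by omega), hmass (k + 1) (by omega), div_pow, div_pow, mul_pow, mul_pow,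
    show 2 * (k + 1) - 1 = k + 1 + k by omega, pow_add]
  have h1 := kappa_pos k
  have h2 := kappa_pos (k + 1)
  have h3 := kappa_pos (k + 1 + 1)
  field_simp
  ring

variable {m : ℕ}

/-- The bound at one normal of a fixed point. -/
theorem bound_at (hm : 3 ≤ m) (IH : PettyAt m) {K : Set (EuclideanSpace ℝ (Fin (m + 1)))}
    (hK : IsSymBody K)
    (hfix : ∀ u : EuclideanSpace ℝ (Fin (m + 1)), ‖u‖ = 1 → IsGreatest ((fun x => ⟪x, u⟫) '' K)
      ((volume K).toReal / (volume (projBody K)).toReal * (shadow (projBody K) u).toReal))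
    {w v : EuclideanSpace ℝ (Fin (m + 1))} (h : IsTop K w v) :
    powRatio m (profile K w) * (kappa m ^ (m + 1) * (volume K).toReal ^ m) ≤
      kappa (m + 1) ^ (m - 1) * (volume (projBody K)).toReal := by
  have hS := sliceRule (n := m + 1) (by omega) IH K hK.body _ h.norm_unit
  simp only [show m + 1 - 2 = m - 1 by omega, show m + 1 - 1 = m by omega,
    show m + 1 - 3 = m - 2 by omega] at hS
  rw [sectPow_eq (by omega) hK h] at hS
  have hn := h.norm_pos
  have hV : 0 < (volume K).toReal := vol_pos hK.body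
  have hZ : 0 < (volume (projBody K)).toReal := vol_pos (isBody_projBody (by omega) hK.body)
  have hval : (volume K).toReal / (volume (projBody K)).toReal *
      (shadow (projBody K) (‖w‖⁻¹ • w)).toReal = ‖w‖⁻¹ := by
    refine (hfix _ h.norm_unit).unique ⟨⟨v, h.mem, ?_⟩, ?_⟩
    · show ⟪v, ‖w‖⁻¹ • w⟫ = ‖w‖⁻¹
      rw [real_inner_smul_right, real_inner_comm, h.eq, mul_one]
    · rintro _ ⟨y, hy, rfl⟩
      show ⟪y, ‖w‖⁻¹ • w⟫ ≤ ‖w‖⁻¹
      rw [real_inner_smul_right, real_inner_comm]
      exact mul_le_of_le_one_right (inv_pos.2 hn).le (h.le y hy)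
  set V := (volume K).toReal
  set Z := (volume (projBody K)).toReal
  set P := powVal m (profile K w)
  set s := (shadow (projBody K) (‖w‖⁻¹ • w)).toReal
  rw [powRatio, powVal_ball (by omega)]
  have hs : s = Z / (V * ‖w‖) := by
    field_simp at hval ⊢
    linarith
  rw [hs] at hS
  obtain ⟨k, rfl⟩ : ∃ k, m = k + 2 := ⟨m - 2, by omega⟩
  simp only [Nat.add_sub_cancel, show k + 2 - 1 = k + 1 from rfl,
    show 2 * (k + 2) - 1 = k + 3 + k by omega, show k + 2 + 1 = k + 3 from rfl] at hS ⊢
  have h1 := kappa_pos (k + 1)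
  have h2 := kappa_pos (k + 2)
  have h3 := kappa_pos (k + 3)
  change powVal (k + 2) (profile K w) / _ * _ ≤ _
  rw [pow_add (kappa (k + 2)) (k + 3) k]
  have h4 : 2 * kappa (k + 1) ^ (k + 2) * V ^ (k + 2) * P ≤ kappa (k + 2) ^ k * Z := by
    have h5 := mul_le_mul_of_nonneg_right hS (mul_pos hV hn).le
    rw [pow_succ V (k + 1)]
    field_simp at h5
    linarith
  have h6 := mul_le_mul_of_nonneg_left h4 (pow_pos h3 (k + 1)).le
  rw [div_div_eq_mul_div, div_mul_eq_mul_div, div_le_iff₀ (by positivity)]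
  calc P * (2 * kappa (k + 1) ^ (k + 2) * kappa (k + 3) ^ (k + 1)) *
        (kappa (k + 2) ^ (k + 3) * V ^ (k + 2))
      = kappa (k + 2) ^ (k + 3) *
          (kappa (k + 3) ^ (k + 1) * (2 * kappa (k + 1) ^ (k + 2) * V ^ (k + 2) * P)) := by ring
    _ ≤ kappa (k + 2) ^ (k + 3) * (kappa (k + 3) ^ (k + 1) * (kappa (k + 2) ^ k * Z)) :=
        mul_le_mul_of_nonneg_left h6 (pow_pos h2 _).le
    _ = _ := by ring

/-- A minimiser satisfies the inequality, strictly unless it is an ellipsoid. -/
theorem minimiser_quant (hm : 3 ≤ m) (IH : PettyAt m) (hL : GoodNormal m)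
    {K : Set (EuclideanSpace ℝ (Fin (m + 1)))} (hK : IsMinimiser K) :
    kappa m ^ (m + 1) * (volume K).toReal ^ m ≤
        kappa (m + 1) ^ (m - 1) * (volume (projBody K)).toReal ∧
      (kappa m ^ (m + 1) * (volume K).toReal ^ m =
          kappa (m + 1) ^ (m - 1) * (volume (projBody K)).toReal →
        ∃ (a : EuclideanSpace ℝ (Fin (m + 1)))
          (T : EuclideanSpace ℝ (Fin (m + 1)) ≃L[ℝ] EuclideanSpace ℝ (Fin (m + 1))),
          K = (fun x => x + a) '' (T '' closedBall 0 1)) := by
  obtain ⟨hB, -, hF, -⟩ := inputs (n := m + 1) (by omega)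
  obtain ⟨a, ha, -⟩ := hK.fixed (by omega) hB hF
  set K1 := (fun x => x + -a) '' K with hK1
  have hK1b : IsBody K1 := body_translate _ hK.1
  have sK1 : IsSymBody K1 := ⟨hK1b, by
    rintro _ ⟨z, hz, rfl⟩
    exact ⟨-(z + -a) + a, ha _ (by simpa using hz), by simp⟩⟩
  have hr : ratio K1 = ratio K := by rw [hK1, ratio_translate]
  have hmin : IsMinimiser K1 :=
    (isMinimiser_iff hK1b).2 fun L hL => hr ▸ (isMinimiser_iff hK.1).1 hK L hL
  obtain ⟨b, hb, hval⟩ := hmin.fixed (by omega) hB hF
  have hb0 : b = 0 :=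
    centre_eq_zero hK1b.2.1 (hK1b.2.2.mono interior_subset) sK1.symm hb
  simp only [hb0, inner_zero_left, zero_add] at hval
  obtain ⟨⟨w, v, hT, h1⟩, hstrict⟩ := hL K1 sK1
  have hpos : 0 < kappa m ^ (m + 1) * (volume K1).toReal ^ m :=
    mul_pos (pow_pos (kappa_pos m) _) (pow_pos (vol_pos sK1.body) _)
  have hV : (volume K1).toReal = (volume K).toReal := by
    rw [hK1, image_add_right, measure_preimage_add_right]
  have hP : (volume (projBody K1)).toReal = (volume (projBody K)).toReal := by
    have h := hr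
    rw [ratio, ratio, hV] at h
    exact (div_left_inj' (pow_pos (vol_pos hK.1) _).ne').1 h
  have hle : kappa m ^ (m + 1) * (volume K).toReal ^ m ≤
      kappa (m + 1) ^ (m - 1) * (volume (projBody K)).toReal := by
    rw [← hV, ← hP]
    exact (le_mul_of_one_le_left hpos.le h1).trans (bound_at hm IH sK1 hval hT)
  refine ⟨hle, fun heq => ?_⟩
  rcases hstrict with ⟨w', v', hT', h'⟩ | ⟨T, hT1⟩
  · have := (lt_mul_of_one_lt_left hpos h').trans_le (bound_at hm IH sK1 hval hT')
    rw [hV, hP, heq] at this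
    exact absurd this (lt_irrefl _)
  · refine ⟨a, T, ?_⟩
    rw [← hT1, hK1, image_image]
    simp

/-- The induction step. -/
theorem petty_step_quant (hm : 3 ≤ m) (IH : PettyAt m) (hL : GoodNormal m) :
    PettyAt (m + 1) ∧ ∀ L : Set (EuclideanSpace ℝ (Fin (m + 1))), IsBody L →
      kappa m ^ (m + 1) * (volume L).toReal ^ m =
          kappa (m + 1) ^ (m - 1) * (volume (projBody L)).toReal →
        ∃ (a : EuclideanSpace ℝ (Fin (m + 1)))
          (T : EuclideanSpace ℝ (Fin (m + 1)) ≃L[ℝ] EuclideanSpace ℝ (Fin (m + 1))),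
          L = (fun x => x + a) '' (T '' closedBall 0 1) := by
  obtain ⟨hB, hR, -, -⟩ := inputs (n := m + 1) (by omega)
  obtain ⟨K, hK⟩ :=
    exists_minimiser_of_rules (by omega) (imageRule (m + 1) (by omega)) hB hR
  have hk : 0 < kappa (m + 1) ^ (m - 1) := pow_pos (kappa_pos _) _
  have hle : ∀ L : Set (EuclideanSpace ℝ (Fin (m + 1))), IsBody L →
      kappa m ^ (m + 1) * (volume L).toReal ^ m ≤
        kappa (m + 1) ^ (m - 1) * (volume (projBody L)).toReal := by
    intro L hL'
    have h1 := (minimiser_quant hm IH hL hK).1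
    have h2 := mul_le_mul_of_nonneg_left (hK.2 L hL') hk.le
    simp only [Nat.add_sub_cancel] at h2
    have h3 := mul_le_mul_of_nonneg_right h1 (pow_nonneg (vol_pos hL').le m)
    refine le_of_mul_le_mul_right ?_ (pow_pos (vol_pos hK.1) m)
    linarith
  refine ⟨fun L hL' => ?_, fun L hL' heq =>
    (minimiser_quant hm IH hL (K := L) ⟨hL', fun M hM => ?_⟩).2 heq⟩
  · simpa only [Nat.add_sub_cancel, show m + 1 - 2 = m - 1 by omega] using hle L hL'
  refine le_of_mul_le_mul_left ?_ hk
  simp only [Nat.add_sub_cancel]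
  have h := mul_le_mul_of_nonneg_right (hle M hM) (pow_nonneg (vol_pos hL').le m)
  calc kappa (m + 1) ^ (m - 1) * ((volume (projBody L)).toReal * (volume M).toReal ^ m)
      = kappa m ^ (m + 1) * (volume L).toReal ^ m * (volume M).toReal ^ m := by rw [heq]; ring
    _ = kappa m ^ (m + 1) * (volume M).toReal ^ m * (volume L).toReal ^ m := by ring
    _ ≤ kappa (m + 1) ^ (m - 1) * (volume (projBody M)).toReal * (volume L).toReal ^ m := h
    _ = _ := by ring

theorem contact_of_le_four (hC : Four.Certificate) (hT : Four.Terminal) :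
    ∀ k, 3 ≤ k → k ≤ 4 → ContactBound k := by
  intro k hk hk'
  rcases (show k = 3 ∨ k = 4 by omega) with rfl | rfl
  · exact contactBound_three
  · exact Four.contactBound_four hC hT

/-- Petty's inequality up to dimension `n` from good normals in the dimensions five to `n`. -/
theorem pettyAt_of_good (hC : Four.Certificate) (hT : Four.Terminal) :
    ∀ n, 2 ≤ n → (∀ m, 4 ≤ m → m < n → GoodNormal m) → PettyAt n := by
  intro n hn
  induction n, hn using Nat.le_induction with
  | base => exact fun _ => petty_two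
  | succ n hn ih =>
    intro H
    rcases Nat.lt_or_ge n 4 with h | h
    · exact petty_induction petty_two (fun k hk => inputs hk) (n + 1) (by omega)
        fun k hk hk' => contact_of_le_four hC hT k hk (by omega)
    · have hg := H n h (by omega)
      exact (petty_step_quant (by omega) (ih fun m hm hm' => H m hm (by omega)) hg).1

/-- The inequality with its equality clause in dimension `n ≥ 3`, from good normals. -/
theorem petty_of_good (hC : Four.Certificate) (hT : Four.Terminal) {n : ℕ} (hn : 3 ≤ n)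
    (H : ∀ m, 4 ≤ m → m < n → GoodNormal m) (K : Set (EuclideanSpace ℝ (Fin n)))
    (hK : Convex ℝ K) (cK : IsCompact K) (iK : (interior K).Nonempty) :
    unitBallVolume (n - 1) ^ n * volume K ^ (n - 1) ≤
        unitBallVolume n ^ (n - 2) * volume (projBody K) ∧
      (unitBallVolume (n - 1) ^ n * volume K ^ (n - 1) =
          unitBallVolume n ^ (n - 2) * volume (projBody K) ↔
        ∃ (a : EuclideanSpace ℝ (Fin n))
          (T : EuclideanSpace ℝ (Fin n) ≃L[ℝ] EuclideanSpace ℝ (Fin n)),
          K = (fun x => x + a) '' (T '' closedBall 0 1)) := by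
  rcases Nat.lt_or_ge n 5 with h | h
  · exact Four.petty_le_four hC hT n (by omega) K hK cK iK
  obtain ⟨m, rfl⟩ : ∃ m, n = m + 1 := ⟨n - 1, by omega⟩
  have hb : IsBody K := ⟨hK, cK, iK⟩
  have hg := H m (by omega) (by omega)
  have hs := petty_step_quant (by omega)
    (pettyAt_of_good hC hT m (by omega) fun k hk hk' => H k hk (by omega)) hg
  have h1 := hs.1 K hb
  have h2 := hs.2 K hb
  have h3 : (∃ (a : EuclideanSpace ℝ (Fin (m + 1)))
      (T : EuclideanSpace ℝ (Fin (m + 1)) ≃L[ℝ] EuclideanSpace ℝ (Fin (m + 1))),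
      K = (fun x => x + a) '' (T '' closedBall 0 1)) →
      kappa m ^ (m + 1) * (volume K).toReal ^ m =
        kappa (m + 1) ^ (m - 1) * (volume (projBody K)).toReal := by
    rintro ⟨a, T, rfl⟩
    simpa only [Nat.add_sub_cancel, show m + 1 - 2 = m - 1 by omega] using
      equality_of_ellipsoid (n := m + 1) (by omega) a T
  have hP : volume (projBody K) ≠ ⊤ :=
    (isBody_projBody (by omega) hb).2.1.measure_ne_top
  simp only [Nat.add_sub_cancel, show m + 1 - 2 = m - 1 by omega] at h1 ⊢
  have n2 : ENNReal.ofReal (kappa m) ^ (m + 1) * volume K ^ m ≠ ⊤ :=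
    ENNReal.mul_ne_top (ENNReal.pow_ne_top ENNReal.ofReal_ne_top)
      (ENNReal.pow_ne_top cK.measure_ne_top)
  have n3 : ENNReal.ofReal (kappa (m + 1)) ^ (m - 1) * volume (projBody K) ≠ ⊤ :=
    ENNReal.mul_ne_top (ENNReal.pow_ne_top ENNReal.ofReal_ne_top) hP
  rw [Asym.unitBallVolume_eq' _ (by omega), Asym.unitBallVolume_eq' _ (by omega),
    ← ENNReal.toReal_le_toReal n2 n3, ← ENNReal.toReal_eq_toReal_iff' n2 n3]
  simp only [ENNReal.toReal_mul, ENNReal.toReal_pow, ENNReal.toReal_ofReal (kappa_pos _).le]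
  exact ⟨h1, h2, h3⟩

end Vale.Agent.P237.Quant
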