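import Mathlib
import Vale.Agent.P237.Quant.Good
import Vale.Agent.P237.Quant.Pure

/-!
Averaging the datum of an even convex weight: the pure lemma gives good normals.
-/

namespace Vale.Agent.P237.Quant

open MeasureTheory Set Filter Topology Full
open scoped RealInnerProductSpace

variable {m : ℕ} {G : ℝ → ℝ}

/-- The slack of a weight has mean zero. -/
theorem integral_convexSlack {K : Set (EuclideanSpace ℝ (Fin (m + 1)))} (hG : IsWeight G)
    (hK : IsSymBody K) :
    IntegrableOn (fun x => convexSlack G K (normalAt K x) (bdPoint K x)) K ∧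
      ∫ x in K, convexSlack G K (normalAt K x) (bdPoint K x) = 0 := by
  set μ : Measure (EuclideanSpace ℝ (Fin (m + 1))) := volume.restrict K with hμ
  have : IsFiniteMeasure μ := isFiniteMeasure_restrict.2 hK.body.2.1.measure_lt_top.ne
  obtain ⟨C, hC⟩ := exists_bound_normalAt hK.body.1 hK.zero_nhds
  obtain ⟨R, hR0, hR⟩ := hK.body.2.1.isBounded.subset_closedBall_lt 0 0
  obtain ⟨B, hB⟩ := (isCompact_Icc (a := -(C * R)) (b := C * R)).exists_bound_of_continuousOn
    hG.cont.continuousOn
  have hi : Integrable (Function.uncurry fun x y : EuclideanSpace ℝ (Fin (m + 1)) =>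
      G ⟪normalAt K x, bdPoint K y⟫) (μ.prod μ) := by
    refine Integrable.of_bound (hG.cont.measurable.comp ((measurable_normalAt.comp measurable_fst).inner
      ((measurable_bdPoint hK).comp measurable_snd))).aestronglyMeasurable B
      (Eventually.of_forall fun p => hB _ (_root_.abs_le.1 ?_))
    exact (abs_real_inner_le_norm _ _).trans (mul_le_mul (hC p.1)
      (mem_closedBall_zero_iff.1 (hR (bdPoint_mem hK p.2))) (norm_nonneg _)
      ((norm_nonneg _).trans (hC p.1)))
  have i1 : Integrable (fun x => ∫ y, G ⟪normalAt K x, bdPoint K y⟫ ∂μ) μ := hi.integral_prod_left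
  have i2 : Integrable (fun x => ∫ y, G ⟪normalAt K y, bdPoint K x⟫ ∂μ) μ := hi.integral_prod_right
  refine ⟨(i2.sub i1).const_mul _, ?_⟩
  show (∫ x, ((m + 1 : ℕ) : ℝ) * ((∫ y, G ⟪normalAt K y, bdPoint K x⟫ ∂μ) -
    ∫ y, G ⟪normalAt K x, bdPoint K y⟫ ∂μ) ∂μ) = 0
  rw [integral_const_mul, integral_sub i2 i1,
    integral_integral_swap (f := fun x y => G ⟪normalAt K x, bdPoint K y⟫) hi, sub_self, mul_zero]

/-- The pure lemma gives good normals. -/
theorem goodNormal_of_pureLemma (hm : 3 ≤ m) (hL : PureLemma m) : GoodNormal m := by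
  refine goodNormal_of_ball_profiles (by omega) fun K hK hle => ?_
  have hG := isWeight_pureG hm
  obtain ⟨hsi, hs0⟩ := integral_convexSlack hG hK
  have hV : 0 < (volume K).toReal := ENNReal.toReal_pos
    (Measure.measure_pos_of_nonempty_interior volume hK.body.2.2).ne' hK.body.2.1.measure_ne_top
  have hpt : ∀ᵐ x ∂volume.restrict K, 0 ≤ convexVal m (pureG m) (profile K (normalAt K x)) ∧
      (volume K).toReal * convexVal m (pureG m) (profile K (normalAt K x)) ≤
        convexSlack (pureG m) K (normalAt K x) (bdPoint K x) :=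
    ae_restrict_of_ae ((isTop_ae hK).mono fun x hx =>
      ⟨(hL _ (isShape_profile (by omega) hK hx.2) (hle _ _ hx.2)).1,
        convexSlack_ge hG (by omega) hK hx.2⟩)
  have hz := (integral_eq_zero_iff_of_nonneg_ae
    (hpt.mono fun x hx => (mul_nonneg hV.le hx.1).trans hx.2) hsi).1 hs0
  filter_upwards [hz, hpt, ae_restrict_of_ae (isTop_ae hK)] with x hx hp hT
  refine ⟨hT.2, (hL _ (isShape_profile (by omega) hK hT.2) (hle _ _ hT.2)).2
    (le_antisymm ?_ hp.1)⟩
  rw [Pi.zero_apply] at hx
  rw [hx] at hp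
  exact nonpos_of_mul_nonpos_left (by linarith [hp.2]) hV

end Vale.Agent.P237.Quant
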