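import Mathlib
import Vale.Agent.P237.Quant.Petty
import Vale.Agent.P237.Quant.PureMean
import Vale.Agent.P237.Four.Certificate

/-!
Petty's projection inequality with its equality case in every dimension, from the pure lemma.
-/

namespace Vale.Agent.P237.Quant

open MeasureTheory Set Metric
open scoped ENNReal

/-- Petty's inequality and its equality case in `R ^ n`, from the pure lemma below `n`. -/
theorem petty_of_pureLemma {n : ℕ} (hn : 3 ≤ n) (H : ∀ m, 4 ≤ m → m < n → PureLemma m)
    (K : Set (EuclideanSpace ℝ (Fin n))) (hK : Convex ℝ K) (cK : IsCompact K)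
    (iK : (interior K).Nonempty) :
    unitBallVolume (n - 1) ^ n * volume K ^ (n - 1) ≤
        unitBallVolume n ^ (n - 2) * volume (projBody K) ∧
      (unitBallVolume (n - 1) ^ n * volume K ^ (n - 1) =
          unitBallVolume n ^ (n - 2) * volume (projBody K) ↔
        ∃ (a : EuclideanSpace ℝ (Fin n))
          (T : EuclideanSpace ℝ (Fin n) ≃L[ℝ] EuclideanSpace ℝ (Fin n)),
          K = (fun x => x + a) '' (T '' closedBall 0 1)) :=
  petty_of_good Four.certificate Four.terminal hn
    (fun m h4 hmn => goodNormal_of_pureLemma (by omega) (H m h4 hmn)) K hK cK iK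

end Vale.Agent.P237.Quant
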