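import Mathlib
import Vale.Agent.P237.Quant.WindowBall
import Vale.Agent.P237.Quant.WindowData.N5
import Vale.Agent.P237.Quant.WindowData.N6
import Vale.Agent.P237.Quant.WindowData.N7
import Vale.Agent.P237.Quant.WindowData.N8
import Vale.Agent.P237.Quant.WindowData.N9
import Vale.Agent.P237.Quant.WindowData.N10
import Vale.Agent.P237.Quant.WindowData.N11
import Vale.Agent.P237.Quant.WindowData.N12
import Vale.Agent.P237.Quant.WindowData.N13
import Vale.Agent.P237.Quant.WindowData.N14
import Vale.Agent.P237.Quant.WindowData.N15
import Vale.Agent.P237.Quant.WindowData.N16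
import Vale.Agent.P237.Quant.WindowData.N17
import Vale.Agent.P237.Quant.WindowData.N18
import Vale.Agent.P237.Quant.WindowData.N19
import Vale.Agent.P237.Quant.WindowData.N20
import Vale.Agent.P237.Quant.WindowData.N21
import Vale.Agent.P237.Quant.WindowData.N22
import Vale.Agent.P237.Quant.WindowData.N23
import Vale.Agent.P237.Quant.WindowData.N24

/-!
The moment excess of a profile with power ratio at most one, in dimensions five to twenty-four.
-/

namespace Vale.Agent.P237.Quant

open MeasureTheory Set WindowCert

/-- In dimensions `5` to `24` a profile with power ratio at most one has at most the factor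
`1 + 1 / (5 (m + 1))` times the ball's moment of `1 / p`. -/
theorem moment_excess_small {m : ℕ} (hm : 4 ≤ m) (hm' : m ≤ 23) {φ : ℝ → ℝ} (hφ : IsShape φ)
    (hx : powRatio m φ ≤ 1) :
    (∫ t in (0 : ℝ)..1, φ t ^ m / ballShape t) ≤
      (1 + 1 / (5 * ((m : ℝ) + 1))) * ballRatio m * mass m φ 1 := by
  interval_cases m
  · exact excess_of_cert data5_wf data5_const tree5_ok hφ hx
  · exact excess_of_cert data6_wf data6_const tree6_ok hφ hx
  · exact excess_of_cert data7_wf data7_const tree7_ok hφ hx
  · exact excess_of_cert data8_wf data8_const tree8_ok hφ hx
  · exact excess_of_cert data9_wf data9_const tree9_ok hφ hx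
  · exact excess_of_cert data10_wf data10_const tree10_ok hφ hx
  · exact excess_of_cert data11_wf data11_const tree11_ok hφ hx
  · exact excess_of_cert data12_wf data12_const tree12_ok hφ hx
  · exact excess_of_cert data13_wf data13_const tree13_ok hφ hx
  · exact excess_of_cert data14_wf data14_const tree14_ok hφ hx
  · exact excess_of_cert data15_wf data15_const tree15_ok hφ hx
  · exact excess_of_cert data16_wf data16_const tree16_ok hφ hx
  · exact excess_of_cert data17_wf data17_const tree17_ok hφ hx
  · exact excess_of_cert data18_wf data18_const tree18_ok hφ hx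
  · exact excess_of_cert data19_wf data19_const tree19_ok hφ hx
  · exact excess_of_cert data20_wf data20_const tree20_ok hφ hx
  · exact excess_of_cert data21_wf data21_const tree21_ok hφ hx
  · exact excess_of_cert data22_wf data22_const tree22_ok hφ hx
  · exact excess_of_cert data23_wf data23_const tree23_ok hφ hx
  · exact excess_of_cert data24_wf data24_const tree24_ok hφ hx

end Vale.Agent.P237.Quant
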