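import Vale.Agent.P237.Quant.CertNeg
import Vale.Agent.P237.Quant.MassUniform
import Vale.Agent.P237.Quant.WindowExcess
import Vale.Agent.P237.Quant.FourAssembly
import Vale.Agent.P237.Quant.PettyFull
import Vale.Agent.P237.Quant.ChordEnvelope

/-!
The pure lemma for every `n ≥ 6` from the statements that the tables have to supply, each named:
the moment excess from `n = 25`, and per row of dimensions the upper bound of the linear term, the
spectral inequality of the positive side and the tail inequality on each bin of the centre. The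
negative side's certificate, the lower linear bound, the mass bound, the range of the centre and
the covering conditions are discharged here.
-/

namespace Vale.Agent.P237.Quant

open MeasureTheory Set Metric
open scoped ENNReal

variable {m : ℕ} {φ : ℝ → ℝ}

/-- The moment excess from `n = 25` on. -/
def ExcessLarge : Prop :=
  ∀ m : ℕ, 24 ≤ m → ∀ φ, IsShape φ → powRatio m φ ≤ 1 → convexVal m (pureG m) φ ≤ 0 →
    (∫ t in (0 : ℝ)..1, φ t ^ m / ballShape t) ≤
      (1 + 11 / (50 * ((m : ℝ) + 1))) * ballRatio m * mass m φ 1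

/-- A profile whose relative centre `V φ 0 ^ m / mass` lies in `[lo, hi]`, with what is known
there: the mass against the squared mean, both ways, and both bounds of `u (0)`. -/
structure BinState (m : ℕ) (lo hi : ℝ) (φ : ℝ → ℝ) : Prop where
  shape : IsShape φ
  power : powRatio m φ ≤ 1
  value : convexVal m (pureG m) φ ≤ 0
  massUp : mass m φ 1 ≤ 281 / 250 * specM m φ ^ 2 * mass m ballShape 1
  massLow : specM m φ ^ 2 * mass m ballShape 1 ≤ mass m φ 1
  relLow : lo * mass m φ 1 ≤ mass m ballShape 1 * φ 0 ^ m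
  relUp : mass m ballShape 1 * φ 0 ^ m ≤ hi * mass m φ 1
  centreUp : φ 0 ^ m ≤ (1540 / 1000 * specM m φ) ^ 2

/-- The lower end of a bin bounds the centre against the squared mean. -/
theorem BinState.centre_low {lo hi : ℝ} (h : BinState m lo hi φ) (hlo : 0 ≤ lo) :
    lo * specM m φ ^ 2 ≤ φ 0 ^ m := by
  refine le_of_mul_le_mul_right ?_ (ball_mass_pos m)
  calc lo * specM m φ ^ 2 * mass m ballShape 1
      = lo * (specM m φ ^ 2 * mass m ballShape 1) := by ring
    _ ≤ lo * mass m φ 1 := mul_le_mul_of_nonneg_left h.massLow hlo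
    _ ≤ _ := by rw [mul_comm (φ 0 ^ m)]; exact h.relLow

/-- The upper end of a bin bounds the centre against the squared mean. -/
theorem BinState.centre_high {lo hi : ℝ} (h : BinState m lo hi φ) (hhi : 0 ≤ hi) :
    φ 0 ^ m ≤ 281 / 250 * hi * specM m φ ^ 2 := by
  refine le_of_mul_le_mul_right ?_ (ball_mass_pos m)
  calc φ 0 ^ m * mass m ballShape 1 ≤ hi * mass m φ 1 := by
        rw [mul_comm]; exact h.relUp
    _ ≤ hi * (281 / 250 * specM m φ ^ 2 * mass m ballShape 1) :=
        mul_le_mul_of_nonneg_left h.massUp hhi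
    _ = _ := by ring

/-- The tail inequality on a bin, with surplus weight `θ` and energy share `η`. -/
def TailBin (m : ℕ) (W : ℝ → ℝ) (θ η lo hi : ℝ) : Prop :=
  ∀ φ, BinState m lo hi φ →
    specExcess m φ ≤ specQuad m W (specV m φ) + θ * specSurplus m (bregPoly m) φ +
      η * specEnergy m (bregPoly m) (fun t => specU' m φ t / specM m φ)

/-- A range of dimensions; `hi = 0` is no upper end. -/
structure DimRange where
  lo : ℕ
  hi : ℕ

/-- Membership. -/
def DimRange.Mem (R : DimRange) (n : ℕ) : Prop := R.lo ≤ n ∧ (R.hi = 0 ∨ n ≤ R.hi)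

/-- The ranges cover every dimension from `n₀` on. -/
def coverDims : ℕ → List DimRange → Bool
  | _, [] => false
  | n₀, R :: rest =>
    decide (R.lo ≤ n₀) && (decide (R.hi = 0) || coverDims (R.hi + 1) rest)

theorem coverDims_sound : ∀ (L : List DimRange) (n₀ : ℕ), coverDims n₀ L = true →
    ∀ n, n₀ ≤ n → ∃ R ∈ L, R.Mem n
  | [], _, h, _, _ => by simp [coverDims] at h
  | R :: rest, n₀, h, n, hn => by
    simp only [coverDims, Bool.and_eq_true, Bool.or_eq_true, decide_eq_true_eq] at h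
    obtain ⟨hlo, h | h⟩ := h
    · exact ⟨R, List.mem_cons_self .., hlo.trans hn, Or.inl h⟩
    · by_cases hh : n ≤ R.hi
      · exact ⟨R, List.mem_cons_self .., hlo.trans hn, Or.inr hh⟩
      · obtain ⟨S, hS, hS'⟩ := coverDims_sound rest _ h n (by omega)
        exact ⟨S, List.mem_cons_of_mem _ hS, hS'⟩

/-- The cuts of the bins of the relative centre reach below `3 / 5` and above `1.54 ^ 2`. -/
def coverCuts : List ℚ → Bool
  | [] => false
  | c :: rest => decide (c ≤ 3 / 5) && decide (1540 / 1000 * (1540 / 1000) ≤ (c :: rest).getLastD 0)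

/-- The consecutive pairs of a list. -/
def binsOf : List ℚ → List (ℚ × ℚ)
  | a :: b :: rest => (a, b) :: binsOf (b :: rest)
  | _ => []

theorem exists_bin : ∀ (c : ℚ) (rest : List ℚ) (b : ℝ), rest ≠ [] → (c : ℝ) ≤ b →
    b ≤ (((c :: rest).getLastD 0 : ℚ) : ℝ) →
    ∃ P ∈ binsOf (c :: rest), (P.1 : ℝ) ≤ b ∧ b ≤ (P.2 : ℝ)
  | _, [], _, h, _, _ => absurd rfl h
  | c, d :: rest, b, _, h₁, h₂ => by
    by_cases hd : b ≤ (d : ℝ)
    · exact ⟨(c, d), List.mem_cons_self .., h₁, hd⟩
    · rcases rest with - | ⟨e, rest⟩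
      · simp only [List.getLastD_cons, List.getLastD_nil] at h₂
        exact absurd h₂ hd
      · obtain ⟨P, hP, hP'⟩ := exists_bin d (e :: rest) b (by simp) (not_le.1 hd).le
          (by simpa [List.getLastD_cons] using h₂)
        exact ⟨P, List.mem_cons_of_mem _ hP, hP'⟩

/-- A row of the negative side: its dimensions and its bins. -/
structure NegRow where
  dims : DimRange
  cuts : List ℚ

/-- The tail inequalities of a row of the negative side. -/
def NegRow.Tail (R : NegRow) : Prop :=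
  ∀ m : ℕ, 5 ≤ m → R.dims.Mem (m + 1) → ∀ P ∈ binsOf R.cuts,
    TailBin m (negW m) (2500 / 3417) 0 P.1 P.2

/-- A row of the positive side: dimensions, bins, the potential
`n W = (n / m) max (a, f κ n t² / 2) + lam + cy n (1 - p)`, the share `eta`, the multiplier `mu n`
and the bound `e2 / n` of the linear term. -/
structure PosRow where
  dims : DimRange
  cuts : List ℚ
  a : ℚ
  f : ℚ
  lam : ℚ
  cy : ℚ
  eta : ℚ
  mu : ℚ
  e2 : ℚ

/-- The potential of a row. -/
noncomputable def PosRow.W (R : PosRow) (m : ℕ) (t : ℝ) : ℝ :=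
  max (R.a : ℝ) ((R.f : ℝ) / 2 * weightPoly (ballShape t) * (((m : ℝ) + 1) * t ^ 2)) / m +
    ((R.lam : ℝ) + (R.cy : ℝ) * (((m : ℝ) + 1) * (1 - ballShape t))) / ((m : ℝ) + 1)

theorem PosRow.continuous_W (R : PosRow) (m : ℕ) : Continuous (R.W m) := by
  have := cont_ball
  unfold PosRow.W weightPoly
  fun_prop

/-- The upper bound of the linear term on a row. -/
def PosRow.LinUp (R : PosRow) : Prop :=
  ∀ m : ℕ, 5 ≤ m → R.dims.Mem (m + 1) → ∀ φ, IsShape φ → powRatio m φ ≤ 1 →
    convexVal m (pureG m) φ ≤ 0 → specLin m (specV m φ) ≤ (R.e2 : ℝ) / ((m : ℝ) + 1)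

/-- The spectral inequality of a row, with spare `1 / (1000 n)`. -/
def PosRow.Spectral (R : PosRow) : Prop :=
  ∀ m : ℕ, 5 ≤ m → R.dims.Mem (m + 1) →
    SpecPoincare m (1 - (R.eta : ℝ) + (R.mu : ℝ) * R.e2)
      (fun t => R.W m t + (R.mu : ℝ) * R.e2 * (1 - ballRatio m * ballShape t) +
        1 / (1000 * ((m : ℝ) + 1)))
      ((R.mu : ℝ) * ((m : ℝ) + 1))

/-- The tail inequalities of a row: the surplus has weight `1 + mu e2`. -/
def PosRow.Tail (R : PosRow) : Prop :=
  ∀ m : ℕ, 5 ≤ m → R.dims.Mem (m + 1) → ∀ P ∈ binsOf R.cuts,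
    TailBin m (R.W m) (1 + (R.mu : ℝ) * R.e2) R.eta P.1 P.2

/-- What the data of the tables are checked for. -/
def tablesOk (negs : List NegRow) (poss : List PosRow) : Bool :=
  coverDims 6 (negs.map NegRow.dims) && coverDims 6 (poss.map PosRow.dims) &&
    negs.all (fun R => coverCuts R.cuts) &&
    poss.all (fun R => coverCuts R.cuts && decide (0 ≤ R.mu))

/-- A bad profile lies in one of the bins of a covering list of cuts. -/
theorem binState_exists (hm : 5 ≤ m) (hφ : IsShape φ) (hx : powRatio m φ ≤ 1)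
    (hV : convexVal m (pureG m) φ ≤ 0)
    (hs : mass m φ 1 ≤ 281 / 250 * specM m φ ^ 2 * mass m ballShape 1)
    (hc : φ 0 ^ m ≤ (1540 / 1000 * specM m φ) ^ 2) {cuts : List ℚ} (h : coverCuts cuts = true) :
    ∃ P ∈ binsOf cuts, BinState m P.1 P.2 φ := by
  rcases cuts with - | ⟨c, rest⟩
  · simp [coverCuts] at h
  simp only [coverCuts, Bool.and_eq_true, decide_eq_true_eq] at h
  obtain ⟨hlo, hhi⟩ := h
  have hne : rest ≠ [] := by
    rintro rfl
    simp only [List.getLastD_cons, List.getLastD_nil] at hhi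
    linarith
  have hV0 := ball_mass_pos m
  have hM : 0 < mass m φ 1 :=
    intervalIntegral.intervalIntegral_pos_of_pos_on (intervalIntegrable_shape_pow01 hφ m)
      (fun s hs' => pow_pos (shape_pos hφ ⟨by linarith [hs'.1], hs'.2⟩) m) zero_lt_one
  have hlow : specM m φ ^ 2 * mass m ballShape 1 ≤ mass m φ 1 :=
    (le_div_iff₀ hV0).1 (specM_sq_le_mass (by omega) hφ hx)
  set b := mass m ballShape 1 * φ 0 ^ m / mass m φ 1 with hb
  -- below: `(5 / 3)` dominates `r ^ m`
  have hr : ballRatio m ^ m ≤ 5 / 3 := by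
    set n := (m : ℝ) + 1 with hn
    have hn0 : 0 < n := by positivity
    have hrle : ballRatio m ≤ Real.exp (1 / n / 2) := by
      refine (ballRatio_bracket (by omega)).2.trans
        (le_trans ?_ (Real.sum_le_exp_of_nonneg (by positivity) 3))
      simp only [ratioCubic, Finset.sum_range_succ, Finset.sum_range_zero, Nat.factorial, ← hn]
      norm_num
      rw [← inv_pow]
      nlinarith [pow_nonneg (inv_nonneg.2 hn0.le) 3]
    refine (pow_le_pow_left₀ (ballRatio_pos m).le hrle m).trans ?_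
    rw [← Real.exp_nat_mul]
    refine (Real.exp_le_exp.2 (show (m : ℝ) * (1 / n / 2) ≤ 1 / 2 by
      rw [hn]; field_simp; linarith)).trans ?_
    refine (Real.exp_bound' (by norm_num) (by norm_num) (n := 5) (by norm_num)).trans ?_
    norm_num [Finset.sum_range_succ, Nat.factorial]
  have hb₁ : (c : ℝ) ≤ b := by
    have hc' : (c : ℝ) ≤ 3 / 5 := by
      have := (Rat.cast_le (K := ℝ)).2 hlo
      push_cast at this
      exact this
    refine hc'.trans ?_
    rw [hb, le_div_iff₀ hM]
    have := mass_le_centre (show 1 ≤ m by omega) hφ hx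
    calc 3 / 5 * mass m φ 1 ≤ 3 / 5 * (φ 0 ^ m * (ballRatio m ^ m * mass m ballShape 1)) := by
          linarith
      _ ≤ 3 / 5 * (φ 0 ^ m * (5 / 3 * mass m ballShape 1)) := by
          have := pow_nonneg hφ.centre.le m
          gcongr
      _ = mass m ballShape 1 * φ 0 ^ m := by ring
  have hb₂ : b ≤ (((c :: rest).getLastD 0 : ℚ) : ℝ) := by
    have hh := (Rat.cast_le (K := ℝ)).2 hhi
    push_cast at hh
    refine le_trans ?_ hh
    rw [hb, div_le_iff₀ hM]
    calc mass m ballShape 1 * φ 0 ^ m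
        ≤ mass m ballShape 1 * (1540 / 1000 * specM m φ) ^ 2 :=
          mul_le_mul_of_nonneg_left hc hV0.le
      _ = 1540 / 1000 * (1540 / 1000) * (specM m φ ^ 2 * mass m ballShape 1) := by ring
      _ ≤ 1540 / 1000 * (1540 / 1000) * mass m φ 1 :=
          mul_le_mul_of_nonneg_left hlow (by norm_num)
  obtain ⟨P, hP, hP₁, hP₂⟩ := exists_bin c rest b hne hb₁ hb₂
  exact ⟨P, hP, hφ, hx, hV, hs, hlow, (le_div_iff₀ hM).1 hP₁, (div_le_iff₀ hM).1 hP₂, hc⟩

/-- What follows from the moment excess in every dimension at least six. -/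
theorem general_facts (hD : ExcessLarge) (hm : 5 ≤ m) (hφ : IsShape φ) (hx : powRatio m φ ≤ 1)
    (hV : convexVal m (pureG m) φ ≤ 0) :
    mass m φ 1 ≤ 281 / 250 * specM m φ ^ 2 * mass m ballShape 1 ∧
      -specLin m (specV m φ) ≤ 131 / (500 * ((m : ℝ) + 1)) ∧
      φ 0 ^ m ≤ (1540 / 1000 * specM m φ) ^ 2 := by
  rcases le_or_gt m 23 with h | h
  · have hE := moment_excess_small (by omega) h hφ hx
    refine ⟨(mass_le_specM_flat (by omega) hφ hV hE).trans (mul_le_mul_of_nonneg_right
      (mul_le_mul_of_nonneg_right (by norm_num) (sq_nonneg _)) (ball_mass_pos m).le),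
      (neg_specLin_le_flat (by omega) hφ hV hE).trans ?_, centre_flat (by omega) hφ hV hE⟩
    gcongr
    norm_num
  · have hE := hD m h φ hφ hx hV
    exact ⟨mass_le_specM_large h hφ hV hE, neg_specLin_le_large h hφ hV hE,
      centre_le_large h hφ hV hE⟩

/-- The pure lemma in one dimension at least six from a row of each side that holds it. -/
theorem pureLemma_rows (hD : ExcessLarge) {RN : NegRow} {RP : PosRow}
    (hcutN : coverCuts RN.cuts = true) (hcutP : coverCuts RP.cuts = true) (hmu : 0 ≤ RP.mu)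
    (hN : RN.Tail) (hLin : RP.LinUp) (hSpec : RP.Spectral) (hP : RP.Tail)
    (hmN : RN.dims.Mem (m + 1)) (hmP : RP.dims.Mem (m + 1)) (hm : 5 ≤ m) : PureLemma m := by
  have hmuR : (0 : ℝ) ≤ RP.mu := by exact_mod_cast hmu
  set n := (m : ℝ) + 1 with hn
  have hn0 : 0 < n := by positivity
  obtain ⟨C₁, -, hC₁⟩ := bounded_unit (continuous_negW m)
  obtain ⟨C₂, -, hC₂⟩ := bounded_unit (RP.continuous_W m)
  have htau : (RP.mu : ℝ) * n * ((RP.e2 : ℝ) / n) = (RP.mu : ℝ) * RP.e2 := by field_simp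
  have hspec := hSpec m hm hmP
  refine pureLemma_of_sides (W₁ := negW m) (W₂ := RP.W m) (C₁ := C₁) (C₂ := C₂)
    (η₁ := 0) (η₂ := (RP.eta : ℝ)) (θ₁ := 2500 / 3417) (θ₂ := 1 + (RP.mu : ℝ) * RP.e2)
    (δ := 1 / (1000 * n)) (e₁ := 131 / (500 * n)) (e₂ := (RP.e2 : ℝ) / n)
    (μ₁ := 7 / 5 * n) (μ₂ := (RP.mu : ℝ) * n) (by omega) (by positivity) (by positivity)
    (mul_nonneg hmuR hn0.le) (continuous_negW m).measurable
    (fun t ht => hC₁ t (Ioo_subset_Icc_self ht)) (RP.continuous_W m).measurable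
    (fun t ht => hC₂ t (Ioo_subset_Icc_self ht)) (le_of_eq (by field_simp; ring))
    (by rw [htau]) (fun φ hφ hx hV => (general_facts hD hm hφ hx hV).2.1)
    (fun φ hφ hx hV => hLin m hm hmP φ hφ hx hV) (fun φ hφ hx hV _ => ?_)
    (fun φ hφ hx hV _ => ?_)
    (hcertNeg_negW hm rfl rfl rfl (one_div_le_one_div_of_le (by positivity) (by linarith))) ?_
  · obtain ⟨hs, -, hc⟩ := general_facts hD hm hφ hx hV
    obtain ⟨P, hPm, hst⟩ := binState_exists hm hφ hx hV hs hc hcutN
    exact hN m hm hmN P hPm φ hst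
  · obtain ⟨hs, -, hc⟩ := general_facts hD hm hφ hx hV
    obtain ⟨P, hPm, hst⟩ := binState_exists hm hφ hx hV hs hc hcutP
    exact hP m hm hmP P hPm φ hst
  · rw [htau]
    exact hspec

/-- The pure lemma in every dimension at least six from the tables. -/
theorem pureLemma_general (hD : ExcessLarge) {negs : List NegRow} {poss : List PosRow}
    (hok : tablesOk negs poss = true) (hN : ∀ R ∈ negs, R.Tail) (hLin : ∀ R ∈ poss, R.LinUp)
    (hSpec : ∀ R ∈ poss, R.Spectral) (hP : ∀ R ∈ poss, R.Tail) (hm : 5 ≤ m) : PureLemma m := by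
  simp only [tablesOk, Bool.and_eq_true] at hok
  obtain ⟨⟨⟨hcN, hcP⟩, hbN⟩, hbP⟩ := hok
  obtain ⟨DN, hDN, hmN⟩ := coverDims_sound _ _ hcN (m + 1) (by omega)
  obtain ⟨RN, hRN, rfl⟩ := List.mem_map.1 hDN
  obtain ⟨DP, hDP, hmP⟩ := coverDims_sound _ _ hcP (m + 1) (by omega)
  obtain ⟨RP, hRP, rfl⟩ := List.mem_map.1 hDP
  have hP' := List.all_eq_true.1 hbP RP hRP
  simp only [Bool.and_eq_true, decide_eq_true_eq] at hP'
  exact pureLemma_rows hD (List.all_eq_true.1 hbN RN hRN) hP'.1 hP'.2 (hN RN hRN) (hLin RP hRP)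
    (hSpec RP hRP) (hP RP hRP) hmN hmP hm

/-- Petty's inequality with its equality case in every dimension, from the open statements. -/
theorem petty_of_tables (hD : ExcessLarge) {negs : List NegRow} {poss : List PosRow}
    (hok : tablesOk negs poss = true) (hN : ∀ R ∈ negs, R.Tail) (hLin : ∀ R ∈ poss, R.LinUp)
    (hSpec : ∀ R ∈ poss, R.Spectral) (hP : ∀ R ∈ poss, R.Tail)
    (hX₁ : FourTail (39 / 50) (4251 / 25000) fun φ => specLin 4 (specV 4 φ) < 0)
    (hX₂ : FourTail (29 / 25) (1479 / 12500) fun φ => 0 ≤ specLin 4 (specV 4 φ))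
    {n : ℕ} (hn : 3 ≤ n) (K : Set (EuclideanSpace ℝ (Fin n))) (hK : Convex ℝ K) (cK : IsCompact K)
    (iK : (interior K).Nonempty) :
    unitBallVolume (n - 1) ^ n * volume K ^ (n - 1) ≤
        unitBallVolume n ^ (n - 2) * volume (projBody K) ∧
      (unitBallVolume (n - 1) ^ n * volume K ^ (n - 1) =
          unitBallVolume n ^ (n - 2) * volume (projBody K) ↔
        ∃ (a : EuclideanSpace ℝ (Fin n))
          (T : EuclideanSpace ℝ (Fin n) ≃L[ℝ] EuclideanSpace ℝ (Fin n)),
          K = (fun x => x + a) '' (T '' closedBall 0 1)) :=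
  petty_of_pureLemma hn (fun m h4 _ => by
    rcases h4.eq_or_lt with rfl | h
    · exact pureLemma_four_of_tail hX₁ hX₂
    · exact pureLemma_general hD hok hN hLin hSpec hP h) K hK cK iK

end Vale.Agent.P237.Quant
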