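import Vale.Agent.P237.Quant.GeneralAssembly

/-!
The rows of the positive side for `n ≥ 14`. The cuts are squares of the cuts of
`u₀ / √B`.
-/

namespace Vale.Agent.P237.Quant

/-- The cuts for `n = 14, 15`. -/
def posCuts14 : List ℚ := [3 / 5, 1026169 / 1000000, 11025 / 10000, 23716 / 10000]

/-- The cuts for `16 ≤ n ≤ 99`. -/
def posCuts16 : List ℚ :=
  [3 / 5, 1012036 / 1000000, 104550625 / 100000000, 1108809 / 1000000, 23716 / 10000]

/-- `n = 14, 15`. -/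
def posRow14 : PosRow :=
  ⟨⟨14, 15⟩, posCuts14, 28351 / 10000, 725 / 1000, -27 / 100, 137 / 10000, 2049 / 10000,
    9722 / 10000, 75 / 1000⟩

/-- The rows `16 ≤ n ≤ 29` share all constants but `lam`. -/
def posRowA (R : DimRange) (lam : ℚ) : PosRow :=
  ⟨R, posCuts16, 31608 / 10000, 7731 / 10000, lam, -116 / 10000, 1968 / 10000, 8343 / 10000,
    75 / 1000⟩

/-- The rows `30 ≤ n ≤ 99` share all constants but `lam`. -/
def posRowB (R : DimRange) (lam : ℚ) : PosRow :=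
  ⟨R, posCuts16, 31812 / 10000, 8029 / 10000, lam, -314 / 10000, 2031 / 10000, 8078 / 10000,
    75 / 1000⟩

/-- `16 ≤ n ≤ 19`. -/
def posRow16 : PosRow := posRowA ⟨16, 19⟩ (-392 / 1000)

/-- `20 ≤ n ≤ 24`. -/
def posRow20 : PosRow := posRowA ⟨20, 24⟩ (-385 / 1000)

/-- `25 ≤ n ≤ 29`. -/
def posRow25 : PosRow := posRowA ⟨25, 29⟩ (-384 / 1000)

/-- `30 ≤ n ≤ 36`. -/
def posRow30 : PosRow := posRowB ⟨30, 36⟩ (-376 / 1000)

/-- `37 ≤ n ≤ 42`. -/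
def posRow37 : PosRow := posRowB ⟨37, 42⟩ (-386 / 1000)

/-- `43 ≤ n ≤ 54`. -/
def posRow43 : PosRow := posRowB ⟨43, 54⟩ (-398 / 1000)

/-- `55 ≤ n ≤ 99`. -/
def posRow55 : PosRow := posRowB ⟨55, 99⟩ (-411 / 1000)

/-- The cuts for `n ≥ 100`. -/
def posCuts100 : List ℚ := [3 / 5, 253 / 250, 257 / 250, 209 / 200, 277 / 250, 23716 / 10000]

/-- The rows `n ≥ 100` share all constants but `lam`. -/
def posRowC (R : DimRange) (lam : ℚ) : PosRow :=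
  ⟨R, posCuts100, 3, 31 / 40, lam, 0, 19 / 200, 17 / 20, 85 / 1000⟩

/-- `100 ≤ n ≤ 135`. -/
def posRow100 : PosRow := posRowC ⟨100, 135⟩ (3 / 100)

/-- `136 ≤ n ≤ 210`. -/
def posRow136 : PosRow := posRowC ⟨136, 210⟩ (46 / 1000)

/-- `211 ≤ n ≤ 315`. -/
def posRow211 : PosRow := posRowC ⟨211, 315⟩ (4 / 100)

/-- `316 ≤ n ≤ 450`. -/
def posRow316 : PosRow := posRowC ⟨316, 450⟩ (3 / 100)

/-- `n ≥ 451`. -/
def posRow451 : PosRow := posRowC ⟨451, 0⟩ (3 / 100)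

end Vale.Agent.P237.Quant
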