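import Vale.Agent.P237.Quant.CertPos
import Vale.Agent.P237.Quant.PosRowsMid
import Vale.Agent.P237.Quant.PosData.SR14Super
import Vale.Agent.P237.Quant.PosData.SR14Tests
import Vale.Agent.P237.Quant.PosData.SR16Super
import Vale.Agent.P237.Quant.PosData.SR16Tests
import Vale.Agent.P237.Quant.PosData.SR20Super
import Vale.Agent.P237.Quant.PosData.SR20Tests
import Vale.Agent.P237.Quant.PosData.SR25Super
import Vale.Agent.P237.Quant.PosData.SR25Tests
import Vale.Agent.P237.Quant.PosData.SR30Super
import Vale.Agent.P237.Quant.PosData.SR30Tests
import Vale.Agent.P237.Quant.PosData.SR37Super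
import Vale.Agent.P237.Quant.PosData.SR37Tests
import Vale.Agent.P237.Quant.PosData.SR43Super
import Vale.Agent.P237.Quant.PosData.SR43Tests
import Vale.Agent.P237.Quant.PosData.SR55Super
import Vale.Agent.P237.Quant.PosData.SR55Tests
import Vale.Agent.P237.Quant.PosData.SU100Super
import Vale.Agent.P237.Quant.PosData.SU100Tests
import Vale.Agent.P237.Quant.PosData.SU135Super
import Vale.Agent.P237.Quant.PosData.SU135Tests
import Vale.Agent.P237.Quant.PosData.SU210Super
import Vale.Agent.P237.Quant.PosData.SU210Tests
import Vale.Agent.P237.Quant.PosData.SU315Super
import Vale.Agent.P237.Quant.PosData.SU315Tests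
import Vale.Agent.P237.Quant.PosData.SU450Super
import Vale.Agent.P237.Quant.PosData.SU450Tests

/-!
The spectral inequality of the positive side for `n ≥ 14`.
-/

namespace Vale.Agent.P237.Quant

theorem posRow14_spectral : posRow14.Spectral :=
  PosRow.spectral_of_cert (K := potSR14) (mu := testsSR14.mu) (G := gridSR14) (by decide +kernel)
    fun _ => specPoincare_split superSR14_check testsSR14_check

theorem posRow16_spectral : posRow16.Spectral :=
  PosRow.spectral_of_cert (K := potSR16) (mu := testsSR16.mu) (G := gridSR16) (by decide +kernel)
    fun _ => specPoincare_split superSR16_check testsSR16_check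

theorem posRow20_spectral : posRow20.Spectral :=
  PosRow.spectral_of_cert (K := potSR20) (mu := testsSR20.mu) (G := gridSR20) (by decide +kernel)
    fun _ => specPoincare_split superSR20_check testsSR20_check

theorem posRow25_spectral : posRow25.Spectral :=
  PosRow.spectral_of_cert (K := potSR25) (mu := testsSR25.mu) (G := gridSR25) (by decide +kernel)
    fun _ => specPoincare_split superSR25_check testsSR25_check

theorem posRow30_spectral : posRow30.Spectral :=
  PosRow.spectral_of_cert (K := potSR30) (mu := testsSR30.mu) (G := gridSR30) (by decide +kernel)
    fun _ => specPoincare_split superSR30_check testsSR30_check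

theorem posRow37_spectral : posRow37.Spectral :=
  PosRow.spectral_of_cert (K := potSR37) (mu := testsSR37.mu) (G := gridSR37) (by decide +kernel)
    fun _ => specPoincare_split superSR37_check testsSR37_check

theorem posRow43_spectral : posRow43.Spectral :=
  PosRow.spectral_of_cert (K := potSR43) (mu := testsSR43.mu) (G := gridSR43) (by decide +kernel)
    fun _ => specPoincare_split superSR43_check testsSR43_check

theorem posRow55_spectral : posRow55.Spectral :=
  PosRow.spectral_of_cert (K := potSR55) (mu := testsSR55.mu) (G := gridSR55) (by decide +kernel)
    fun _ => specPoincare_split superSR55_check testsSR55_check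

theorem posRow100_spectral : posRow100.Spectral :=
  PosRow.spectral_of_cert (K := potSU100) (mu := testsSU100.mu) (G := gridSU100) (by decide +kernel)
    fun _ => specPoincare_split superSU100_check testsSU100_check

theorem posRow136_spectral : posRow136.Spectral :=
  PosRow.spectral_of_cert (K := potSU135) (mu := testsSU135.mu) (G := gridSU135) (by decide +kernel)
    fun _ => specPoincare_split superSU135_check testsSU135_check

theorem posRow211_spectral : posRow211.Spectral :=
  PosRow.spectral_of_cert (K := potSU210) (mu := testsSU210.mu) (G := gridSU210) (by decide +kernel)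
    fun _ => specPoincare_split superSU210_check testsSU210_check

theorem posRow316_spectral : posRow316.Spectral :=
  PosRow.spectral_of_cert (K := potSU315) (mu := testsSU315.mu) (G := gridSU315) (by decide +kernel)
    fun _ => specPoincare_split superSU315_check testsSU315_check

theorem posRow451_spectral : posRow451.Spectral :=
  PosRow.spectral_of_cert (K := potSU450) (mu := testsSU450.mu) (G := gridSU450) (by decide +kernel)
    fun _ => specPoincare_split superSU450_check testsSU450_check

end Vale.Agent.P237.Quant
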