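import Vale.Agent.P237.Quant.NegRowsSmall

/-!
The rows of the negative side for `n ≥ 11`.
-/

namespace Vale.Agent.P237.Quant

/-- `n = 11, 12, 13`. -/
def negRow11 : NegRow := ⟨⟨11, 13⟩, [3 / 5, 2809 / 2500, 121 / 100, 23716 / 10000]⟩

/-- `14 ≤ n ≤ 99`. -/
def negRow14 : NegRow := ⟨⟨14, 99⟩, [3 / 5, 11025 / 10000, 23716 / 10000]⟩

/-- `n ≥ 100`, with the cuts of the bins on ranges of dimensions. -/
def negRow100 : NegRow := ⟨⟨100, 0⟩, [3 / 5, 277 / 250, 121 / 100, 23716 / 10000]⟩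

end Vale.Agent.P237.Quant
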