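import Vale.Agent.P237.Quant.GeneralAssembly

/-!
The rows of the positive side for `6 ≤ n ≤ 13`. The cuts are squares of the cuts of `u₀ / √B`.
-/

namespace Vale.Agent.P237.Quant

/-- `n = 6`. -/
def posRow6 : PosRow :=
  ⟨⟨6, 6⟩, [3 / 5, 23716 / 10000], 2888 / 1000, 6828 / 10000, 40 / 100, -1502 / 10000, 83 / 10000,
    17921 / 10000, 85 / 1000⟩

/-- `n = 7`. -/
def posRow7 : PosRow :=
  ⟨⟨7, 7⟩, [3 / 5, 23716 / 10000], 2957 / 1000, 7213 / 10000, 28 / 100, -64 / 1000, 5 / 10000,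
    20625 / 10000, 85 / 1000⟩

/-- `n = 8`. -/
def posRow8 : PosRow :=
  ⟨⟨8, 8⟩, [3 / 5, 23716 / 10000], 2745 / 1000, 724 / 1000, 255 / 1000, 252 / 10000, 133 / 10000,
    19694 / 10000, 85 / 1000⟩

/-- `n = 9, 10`. -/
def posRow9 : PosRow :=
  ⟨⟨9, 10⟩, [3 / 5, 2809 / 2500, 23716 / 10000], 27515 / 10000, 7641 / 10000, 12 / 100, 216 / 10000,
    577 / 10000,
    1434 / 1000, 85 / 1000⟩

/-- `n = 11, 12, 13`. -/
def posRow11 : PosRow :=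
  ⟨⟨11, 13⟩, [3 / 5, 2809 / 2500, 121 / 100, 23716 / 10000], 27428 / 10000, 7486 / 10000, 12 / 100,
    263 / 10000, 848 / 10000, 12896 / 10000, 75 / 1000⟩

end Vale.Agent.P237.Quant
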