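import Vale.Agent.P237.Quant.CertPos
import Vale.Agent.P237.Quant.PosRowsSmall
import Vale.Agent.P237.Quant.PosData.R6
import Vale.Agent.P237.Quant.PosData.R7
import Vale.Agent.P237.Quant.PosData.R8
import Vale.Agent.P237.Quant.PosData.R9
import Vale.Agent.P237.Quant.PosData.SR11Super
import Vale.Agent.P237.Quant.PosData.SR11Tests

/-!
The spectral inequality of the positive side for `6 ≤ n ≤ 13`.
-/

namespace Vale.Agent.P237.Quant

theorem posRow6_spectral : posRow6.Spectral :=
  PosRow.spectral_of_cert (K := potR6) (mu := testsR6.mu) (G := gridR6) (by decide +kernel)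
    fun _ => specPoincare_cert superR6_check testsR6_check

theorem posRow7_spectral : posRow7.Spectral :=
  PosRow.spectral_of_cert (K := potR7) (mu := testsR7.mu) (G := gridR7) (by decide +kernel)
    fun _ => specPoincare_cert superR7_check testsR7_check

theorem posRow8_spectral : posRow8.Spectral :=
  PosRow.spectral_of_cert (K := potR8) (mu := testsR8.mu) (G := gridR8) (by decide +kernel)
    fun _ => specPoincare_cert superR8_check testsR8_check

theorem posRow9_spectral : posRow9.Spectral :=
  PosRow.spectral_of_cert (K := potR9) (mu := testsR9.mu) (G := gridR9) (by decide +kernel)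
    fun _ => specPoincare_cert superR9_check testsR9_check

theorem posRow11_spectral : posRow11.Spectral :=
  PosRow.spectral_of_cert (K := potSR11) (mu := testsSR11.mu) (G := gridSR11) (by decide +kernel)
    fun _ => specPoincare_split superSR11_check testsSR11_check

end Vale.Agent.P237.Quant
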