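import Vale.Agent.P237.Quant.CertNeg
import Vale.Agent.P237.Quant.ExcessInstance
import Vale.Agent.P237.Quant.FourTail
import Vale.Agent.P237.Quant.NegRowsMid
import Vale.Agent.P237.Quant.PosSpectralMid
import Vale.Agent.P237.Quant.PosSpectralSmall

/-!
The two tables of rows for every dimension at least six, and what is left to supply for them: the
tail inequalities of each row and the upper bound of the linear term on each row of the positive
side. A row of finitely many dimensions is filled dimension by dimension and bin by bin.
-/

namespace Vale.Agent.P237.Quant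

open MeasureTheory Metric

variable {m : ℕ}

/-- The tail inequalities of a row of the negative side in one dimension. -/
def NegRow.TailAt (R : NegRow) (m : ℕ) : Prop :=
  ∀ P ∈ binsOf R.cuts, TailBin m (negW m) (2500 / 3417) 0 P.1 P.2

/-- The tail inequalities of a row of the positive side in one dimension. -/
def PosRow.TailAt (R : PosRow) (m : ℕ) : Prop :=
  ∀ P ∈ binsOf R.cuts, TailBin m (R.W m) (1 + (R.mu : ℝ) * R.e2) R.eta P.1 P.2

/-- One dimension from its bins: the hypothesis unfolds to a conjunction over the bins. -/
theorem NegRow.tailAt_of {R : NegRow}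
    (h : (binsOf R.cuts).Forall fun P => TailBin m (negW m) (2500 / 3417) 0 P.1 P.2) :
    R.TailAt m :=
  List.forall_iff_forall_mem.1 h

/-- One dimension from its bins: the hypothesis unfolds to a conjunction over the bins. -/
theorem PosRow.tailAt_of {R : PosRow}
    (h : (binsOf R.cuts).Forall fun P =>
      TailBin m (R.W m) (1 + (R.mu : ℝ) * R.e2) R.eta P.1 P.2) : R.TailAt m :=
  List.forall_iff_forall_mem.1 h

/-- A bounded row from its dimensions, one at a time. -/
theorem NegRow.tail_of_each {R : NegRow} (hhi : R.dims.hi ≠ 0)
    (h : ∀ m, 5 ≤ m → R.dims.lo - 1 ≤ m → m ≤ R.dims.hi - 1 → R.TailAt m) : R.Tail :=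
  fun m hm hmem => h m hm (Nat.sub_le_of_le_add hmem.1)
    (Nat.le_sub_one_of_lt (hmem.2.resolve_left hhi))

/-- A bounded row from its dimensions, one at a time. -/
theorem PosRow.tail_of_each {R : PosRow} (hhi : R.dims.hi ≠ 0)
    (h : ∀ m, 5 ≤ m → R.dims.lo - 1 ≤ m → m ≤ R.dims.hi - 1 → R.TailAt m) : R.Tail :=
  fun m hm hmem => h m hm (Nat.sub_le_of_le_add hmem.1)
    (Nat.le_sub_one_of_lt (hmem.2.resolve_left hhi))

/-- The rows of the negative side. -/
def negRows : List NegRow := [negRow6, negRow9, negRow11, negRow14, negRow100]

/-- The rows of the positive side. -/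
def posRows : List PosRow :=
  [posRow6, posRow7, posRow8, posRow9, posRow11, posRow14, posRow16, posRow20, posRow25, posRow30,
    posRow37, posRow43, posRow55, posRow100, posRow136, posRow211, posRow316, posRow451]

theorem rows_ok : tablesOk negRows posRows = true := by decide +kernel

theorem posRows_spectral : ∀ R ∈ posRows, R.Spectral := by
  simp only [posRows, List.forall_mem_cons]
  exact ⟨posRow6_spectral, posRow7_spectral, posRow8_spectral, posRow9_spectral, posRow11_spectral,
    posRow14_spectral, posRow16_spectral, posRow20_spectral, posRow25_spectral, posRow30_spectral,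
    posRow37_spectral, posRow43_spectral, posRow55_spectral, posRow100_spectral,
    posRow136_spectral, posRow211_spectral, posRow316_spectral, posRow451_spectral,
    List.forall_mem_nil _⟩

/-- The pure lemma in every dimension at least six from the tails and the linear bounds of the
rows. -/
theorem pureLemma_of_rows (hN : ∀ R ∈ negRows, R.Tail) (hP : ∀ R ∈ posRows, R.Tail)
    (hLin : ∀ R ∈ posRows, R.LinUp) (hm : 5 ≤ m) : PureLemma m :=
  pureLemma_general excessLarge rows_ok hN hLin posRows_spectral hP hm

/-- Petty's inequality with its equality case in every dimension at least three, from the tails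
and the linear bounds of the rows. -/
theorem petty_of_rows (hN : ∀ R ∈ negRows, R.Tail) (hP : ∀ R ∈ posRows, R.Tail)
    (hLin : ∀ R ∈ posRows, R.LinUp) {n : ℕ} (hn : 3 ≤ n) (K : Set (EuclideanSpace ℝ (Fin n)))
    (hK : Convex ℝ K) (cK : IsCompact K) (iK : (interior K).Nonempty) :
    unitBallVolume (n - 1) ^ n * volume K ^ (n - 1) ≤
        unitBallVolume n ^ (n - 2) * volume (projBody K) ∧
      (unitBallVolume (n - 1) ^ n * volume K ^ (n - 1) =
          unitBallVolume n ^ (n - 2) * volume (projBody K) ↔
        ∃ (a : EuclideanSpace ℝ (Fin n))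
          (T : EuclideanSpace ℝ (Fin n) ≃L[ℝ] EuclideanSpace ℝ (Fin n)),
          K = (fun x => x + a) '' (T '' closedBall 0 1)) :=
  petty_of_pureLemma hn (fun m h4 _ => by
    rcases h4.eq_or_lt with rfl | h
    · exact pureLemma_four
    · exact pureLemma_of_rows hN hP hLin h) K hK cK iK

end Vale.Agent.P237.Quant
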