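import Vale.Agent.P237.Quant.LinearUpperMid
import Vale.Agent.P237.Quant.PosSpectralMid
import Vale.Agent.P237.Quant.RowTables
import Vale.Agent.P237.Quant.GeneralAssembly

/-!
The pure lemma for `14 ≤ n ≤ 99` from the tail inequalities in each single dimension.
-/

namespace Vale.Agent.P237.Quant

variable {m : ℕ}

/-- The tail inequalities in one dimension `m + 1` between `14` and `99`. -/
structure MidTailsAt (m : ℕ) : Prop where
  neg : negRow14.TailAt m
  p14 : 14 ≤ m + 1 → m + 1 ≤ 15 → posRow14.TailAt m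
  p16 : 16 ≤ m + 1 → m + 1 ≤ 19 → posRow16.TailAt m
  p20 : 20 ≤ m + 1 → m + 1 ≤ 24 → posRow20.TailAt m
  p25 : 25 ≤ m + 1 → m + 1 ≤ 29 → posRow25.TailAt m
  p30 : 30 ≤ m + 1 → m + 1 ≤ 36 → posRow30.TailAt m
  p37 : 37 ≤ m + 1 → m + 1 ≤ 42 → posRow37.TailAt m
  p43 : 43 ≤ m + 1 → m + 1 ≤ 54 → posRow43.TailAt m
  p55 : 55 ≤ m + 1 → m + 1 ≤ 99 → posRow55.TailAt m

/-- The negative row with one dimension. -/
theorem negRow14_tail (T : ∀ k, 13 ≤ k → k ≤ 98 → MidTailsAt k) : negRow14.Tail :=
  NegRow.tail_of_each (by decide) fun k _ h₁ h₂ => (T k h₁ h₂).neg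

/-- The pure lemma for `14 ≤ n ≤ 99` from the tails. -/
theorem pureLemma_mid (T : ∀ k, 13 ≤ k → k ≤ 98 → MidTailsAt k) (h13 : 13 ≤ m) (h98 : m ≤ 98) :
    PureLemma m := by
  have hN := negRow14_tail T
  have hn : negRow14.dims.Mem (m + 1) :=
    ⟨show 14 ≤ m + 1 by omega, Or.inr (show m + 1 ≤ 99 by omega)⟩
  rcases (show m + 1 ≤ 15 ∨ (16 ≤ m + 1 ∧ m + 1 ≤ 19) ∨ (20 ≤ m + 1 ∧ m + 1 ≤ 24) ∨
      (25 ≤ m + 1 ∧ m + 1 ≤ 29) ∨ (30 ≤ m + 1 ∧ m + 1 ≤ 36) ∨ (37 ≤ m + 1 ∧ m + 1 ≤ 42) ∨
      (43 ≤ m + 1 ∧ m + 1 ≤ 54) ∨ 55 ≤ m + 1 by omega) with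
    h | ⟨a, h⟩ | ⟨a, h⟩ | ⟨a, h⟩ | ⟨a, h⟩ | ⟨a, h⟩ | ⟨a, h⟩ | a
  · exact pureLemma_rows excessLarge (by decide +kernel) (by decide +kernel) (by decide +kernel)
      hN (posRow14_linUp excessLarge) posRow14_spectral
      (PosRow.tail_of_each (by decide) fun k _ h₁ h₂ => by
        change 13 ≤ k at h₁; change k ≤ 14 at h₂
        exact (T k h₁ (by omega)).p14 (by omega) (by omega))
      hn ⟨show 14 ≤ m + 1 by omega, Or.inr (show m + 1 ≤ 15 by omega)⟩ (by omega)
  · exact pureLemma_rows excessLarge (by decide +kernel) (by decide +kernel) (by decide +kernel)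
      hN (posRow16_linUp excessLarge) posRow16_spectral
      (PosRow.tail_of_each (by decide) fun k _ h₁ h₂ => by
        change 15 ≤ k at h₁; change k ≤ 18 at h₂
        exact (T k (by omega) (by omega)).p16 (by omega) (by omega))
      hn ⟨a, Or.inr h⟩ (by omega)
  · exact pureLemma_rows excessLarge (by decide +kernel) (by decide +kernel) (by decide +kernel)
      hN (posRow20_linUp excessLarge) posRow20_spectral
      (PosRow.tail_of_each (by decide) fun k _ h₁ h₂ => by
        change 19 ≤ k at h₁; change k ≤ 23 at h₂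
        exact (T k (by omega) (by omega)).p20 (by omega) (by omega))
      hn ⟨a, Or.inr h⟩ (by omega)
  · exact pureLemma_rows excessLarge (by decide +kernel) (by decide +kernel) (by decide +kernel)
      hN (posRow25_linUp excessLarge) posRow25_spectral
      (PosRow.tail_of_each (by decide) fun k _ h₁ h₂ => by
        change 24 ≤ k at h₁; change k ≤ 28 at h₂
        exact (T k (by omega) (by omega)).p25 (by omega) (by omega))
      hn ⟨a, Or.inr h⟩ (by omega)
  · exact pureLemma_rows excessLarge (by decide +kernel) (by decide +kernel) (by decide +kernel)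
      hN (posRow30_linUp excessLarge) posRow30_spectral
      (PosRow.tail_of_each (by decide) fun k _ h₁ h₂ => by
        change 29 ≤ k at h₁; change k ≤ 35 at h₂
        exact (T k (by omega) (by omega)).p30 (by omega) (by omega))
      hn ⟨a, Or.inr h⟩ (by omega)
  · exact pureLemma_rows excessLarge (by decide +kernel) (by decide +kernel) (by decide +kernel)
      hN (posRow37_linUp excessLarge) posRow37_spectral
      (PosRow.tail_of_each (by decide) fun k _ h₁ h₂ => by
        change 36 ≤ k at h₁; change k ≤ 41 at h₂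
        exact (T k (by omega) (by omega)).p37 (by omega) (by omega))
      hn ⟨a, Or.inr h⟩ (by omega)
  · exact pureLemma_rows excessLarge (by decide +kernel) (by decide +kernel) (by decide +kernel)
      hN (posRow43_linUp excessLarge) posRow43_spectral
      (PosRow.tail_of_each (by decide) fun k _ h₁ h₂ => by
        change 42 ≤ k at h₁; change k ≤ 53 at h₂
        exact (T k (by omega) (by omega)).p43 (by omega) (by omega))
      hn ⟨a, Or.inr h⟩ (by omega)
  · exact pureLemma_rows excessLarge (by decide +kernel) (by decide +kernel) (by decide +kernel)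
      hN (posRow55_linUp excessLarge) posRow55_spectral
      (PosRow.tail_of_each (by decide) fun k _ h₁ h₂ => by
        change 54 ≤ k at h₁; change k ≤ 98 at h₂
        exact (T k (by omega) h₂).p55 (by omega) (by omega))
      hn ⟨a, Or.inr (show m + 1 ≤ 99 by omega)⟩ (by omega)

end Vale.Agent.P237.Quant
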