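import Vale.Agent.P237.Quant.MidTails.From14
import Vale.Agent.P237.Quant.MidTails.From30
import Vale.Agent.P237.Quant.MidTails.From43
import Vale.Agent.P237.Quant.MidTails.From55
import Vale.Agent.P237.Quant.MidTails.From70
import Vale.Agent.P237.Quant.MidTails.From85

/-!
The tail inequalities in every dimension from 14 to 99.
-/

namespace Vale.Agent.P237.Quant

/-- The tail inequalities for `14 ≤ n ≤ 99`, indexed by `k = n - 1`. -/
theorem midTails : ∀ k, 13 ≤ k → k ≤ 98 → MidTailsAt k := by
  intro k h₁ h₂
  by_cases h14 : k ≤ 28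
  · exact midTails_14_29 k (by omega) h14
  by_cases h30 : k ≤ 41
  · exact midTails_30_42 k (by omega) h30
  by_cases h43 : k ≤ 53
  · exact midTails_43_54 k (by omega) h43
  by_cases h55 : k ≤ 68
  · exact midTails_55_69 k (by omega) h55
  by_cases h70 : k ≤ 83
  · exact midTails_70_84 k (by omega) h70
  exact midTails_85_99 k (by omega) h₂

end Vale.Agent.P237.Quant
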