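import Vale.Agent.P237.Quant.TailUniformCover
import Vale.Agent.P237.Quant.TailUniformData.negTail100Bin5Bin
import Vale.Agent.P237.Quant.TailUniformData.negTail100Bin6Bin
import Vale.Agent.P237.Quant.TailUniformData.negTail100Bin7Bin
import Vale.Agent.P237.Quant.TailUniformData.negTail135Bin5Bin
import Vale.Agent.P237.Quant.TailUniformData.negTail135Bin6Bin
import Vale.Agent.P237.Quant.TailUniformData.negTail135Bin7Bin
import Vale.Agent.P237.Quant.TailUniformData.negTail210Bin5Bin
import Vale.Agent.P237.Quant.TailUniformData.negTail210Bin6Bin
import Vale.Agent.P237.Quant.TailUniformData.negTail210Bin7Bin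
import Vale.Agent.P237.Quant.TailUniformData.negTail450Bin5Bin
import Vale.Agent.P237.Quant.TailUniformData.negTail450Bin6Bin
import Vale.Agent.P237.Quant.TailUniformData.negTail450Bin7Bin

/-!
The tail inequality of the negative row from `n = 100` on, from one checked calibration for each of
the four ranges of dimensions and each of the three bins.
-/

namespace Vale.Agent.P237.Quant.TailUniform

/-- The tail inequality of `negRow100`. -/
theorem negRow100_tail : negRow100.Tail := by
  have e : (23716 / 10000 : ℚ) = 5929 / 2500 := by norm_num
  apply negRow100_tail_of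
  simp only [uniformDims, negRow100, binsOf, List.Forall, e]
  exact ⟨⟨fun m => negTail100Bin5_tail, fun m => negTail100Bin6_tail, fun m => negTail100Bin7_tail⟩,
    ⟨fun m => negTail135Bin5_tail, fun m => negTail135Bin6_tail, fun m => negTail135Bin7_tail⟩,
    ⟨fun m => negTail210Bin5_tail, fun m => negTail210Bin6_tail, fun m => negTail210Bin7_tail⟩,
    ⟨fun m => negTail450Bin5_tail, fun m => negTail450Bin6_tail, fun m => negTail450Bin7_tail⟩⟩

end Vale.Agent.P237.Quant.TailUniform
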