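import Vale.Agent.P237.Quant.TailUniformData.posTail100Bin0Bin
import Vale.Agent.P237.Quant.TailUniformData.posTail116Bin0Bin
import Vale.Agent.P237.Quant.TailUniformData.posTail100Bin1R100Bin
import Vale.Agent.P237.Quant.TailUniformData.posTail100Bin1R109Bin
import Vale.Agent.P237.Quant.TailUniformData.posTail100Bin1R120Bin
import Vale.Agent.P237.Quant.TailUniformData.posTail100Bin2R100Bin
import Vale.Agent.P237.Quant.TailUniformData.posTail100Bin2R115Bin
import Vale.Agent.P237.Quant.TailUniformData.posTail100Bin3Bin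
import Vale.Agent.P237.Quant.TailUniformData.posTail105Bin3Bin
import Vale.Agent.P237.Quant.TailUniformData.posTail116Bin3Bin
import Vale.Agent.P237.Quant.TailUniformData.posTail100Bin4Bin
import Vale.Agent.P237.Quant.TailUniformData.posTail105Bin4Bin
import Vale.Agent.P237.Quant.TailUniformData.posTail116Bin4Bin

/-!
The tail inequality of the positive row on `100 ≤ n ≤ 135`, from checked calibrations on two or three sub-ranges for each bin.
-/

namespace Vale.Agent.P237.Quant.TailUniform

/-- The tail inequality of `posRow100`. -/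
theorem posRow100_tail : posRow100.Tail := by
  intro m _ hmem P hP
  have e : (23716 / 10000 : ℚ) = 5929 / 2500 := by norm_num
  have hc : binsOf posRow100.cuts = [(3 / 5, 253 / 250), (253 / 250, 257 / 250), (257 / 250, 209 / 200),
      (209 / 200, 277 / 250), (277 / 250, 5929 / 2500)] := by
    simp only [posRow100, posRowC, posCuts100, binsOf, e]
  simp only [hc, List.mem_cons, List.not_mem_nil, or_false] at hP
  rcases hP with rfl | rfl | rfl | rfl | rfl
  · obtain ⟨h1, h2⟩ := hmem
    have h3 : m + 1 ≤ 135 := h2.resolve_left (by norm_num [posRow100, posRowC])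
    by_cases c115 : m + 1 ≤ 115
    · exact posTail100Bin0_tail ⟨h1, Or.inr c115⟩
    exact posTail116Bin0_tail ⟨show 116 ≤ m + 1 by omega, Or.inr h3⟩
  · obtain ⟨h1, h2⟩ := hmem
    have h3 : m + 1 ≤ 135 := h2.resolve_left (by norm_num [posRow100, posRowC])
    by_cases c108 : m + 1 ≤ 108
    · exact posTail100Bin1R100_tail ⟨h1, Or.inr c108⟩
    by_cases c119 : m + 1 ≤ 119
    · exact posTail100Bin1R109_tail ⟨show 109 ≤ m + 1 by omega, Or.inr c119⟩
    exact posTail100Bin1R120_tail ⟨show 120 ≤ m + 1 by omega, Or.inr h3⟩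
  · obtain ⟨h1, h2⟩ := hmem
    have h3 : m + 1 ≤ 135 := h2.resolve_left (by norm_num [posRow100, posRowC])
    by_cases c114 : m + 1 ≤ 114
    · exact posTail100Bin2R100_tail ⟨h1, Or.inr c114⟩
    exact posTail100Bin2R115_tail ⟨show 115 ≤ m + 1 by omega, Or.inr h3⟩
  · obtain ⟨h1, h2⟩ := hmem
    have h3 : m + 1 ≤ 135 := h2.resolve_left (by norm_num [posRow100, posRowC])
    by_cases c104 : m + 1 ≤ 104
    · exact posTail100Bin3_tail ⟨h1, Or.inr c104⟩
    by_cases c115 : m + 1 ≤ 115
    · exact posTail105Bin3_tail ⟨show 105 ≤ m + 1 by omega, Or.inr c115⟩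
    exact posTail116Bin3_tail ⟨show 116 ≤ m + 1 by omega, Or.inr h3⟩
  · obtain ⟨h1, h2⟩ := hmem
    have h3 : m + 1 ≤ 135 := h2.resolve_left (by norm_num [posRow100, posRowC])
    by_cases c104 : m + 1 ≤ 104
    · exact posTail100Bin4_tail ⟨h1, Or.inr c104⟩
    by_cases c115 : m + 1 ≤ 115
    · exact posTail105Bin4_tail ⟨show 105 ≤ m + 1 by omega, Or.inr c115⟩
    exact posTail116Bin4_tail ⟨show 116 ≤ m + 1 by omega, Or.inr h3⟩

end Vale.Agent.P237.Quant.TailUniform
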