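import Vale.Agent.P237.Quant.TailUniformData.posTail316Bin0Bin
import Vale.Agent.P237.Quant.TailUniformData.posTail316Bin1Bin
import Vale.Agent.P237.Quant.TailUniformData.posTail316Bin2Bin
import Vale.Agent.P237.Quant.TailUniformData.posTail316Bin3Bin
import Vale.Agent.P237.Quant.TailUniformData.posTail316Bin4Bin

/-!
The tail inequality of the positive row for `316 ≤ n ≤ 450`, from one checked calibration for each bin.
-/

namespace Vale.Agent.P237.Quant.TailUniform

/-- The tail inequality of `posRow316`. -/
theorem posRow316_tail : posRow316.Tail := by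
  intro m _ hmem P hP
  have e : (23716 / 10000 : ℚ) = 5929 / 2500 := by norm_num
  have hc : binsOf posRow316.cuts = [(3 / 5, 253 / 250), (253 / 250, 257 / 250), (257 / 250, 209 / 200),
      (209 / 200, 277 / 250), (277 / 250, 5929 / 2500)] := by
    simp only [posRow316, posRowC, posCuts100, binsOf, e]
  simp only [hc, List.mem_cons, List.not_mem_nil, or_false] at hP
  rcases hP with rfl | rfl | rfl | rfl | rfl
  · exact posTail316Bin0_tail hmem
  · exact posTail316Bin1_tail hmem
  · exact posTail316Bin2_tail hmem
  · exact posTail316Bin3_tail hmem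
  · exact posTail316Bin4_tail hmem

end Vale.Agent.P237.Quant.TailUniform
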