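import Vale.Agent.P237.Quant.TailUniformData.posTail451Bin0Bin
import Vale.Agent.P237.Quant.TailUniformData.posTail451Bin1Bin
import Vale.Agent.P237.Quant.TailUniformData.posTail451Bin2Bin
import Vale.Agent.P237.Quant.TailUniformData.posTail451Bin3Bin
import Vale.Agent.P237.Quant.TailUniformData.posTail451Bin4Bin

/-!
The tail inequality of the positive row from `n = 451` on, from one checked calibration for each bin.
-/

namespace Vale.Agent.P237.Quant.TailUniform

/-- The tail inequality of `posRow451`. -/
theorem posRow451_tail : posRow451.Tail := by
  intro m _ hmem P hP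
  have e : (23716 / 10000 : ℚ) = 5929 / 2500 := by norm_num
  have hc : binsOf posRow451.cuts = [(3 / 5, 253 / 250), (253 / 250, 257 / 250), (257 / 250, 209 / 200),
      (209 / 200, 277 / 250), (277 / 250, 5929 / 2500)] := by
    simp only [posRow451, posRowC, posCuts100, binsOf, e]
  simp only [hc, List.mem_cons, List.not_mem_nil, or_false] at hP
  rcases hP with rfl | rfl | rfl | rfl | rfl
  · exact posTail451Bin0_tail hmem
  · exact posTail451Bin1_tail hmem
  · exact posTail451Bin2_tail hmem
  · exact posTail451Bin3_tail hmem
  · exact posTail451Bin4_tail hmem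

end Vale.Agent.P237.Quant.TailUniform
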