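import Vale.Agent.P237.Quant.TailTableBins
import Vale.Agent.P237.Quant.PosRowsSmall
import Vale.Agent.P237.Quant.EnvelopeTableData.N6
import Vale.Agent.P237.Quant.TailSmallData.P11A
import Vale.Agent.P237.Quant.TailSmallData.P11B
import Vale.Agent.P237.Quant.TailSmallData.P11C
import Vale.Agent.P237.Quant.TailSmallData.P12A
import Vale.Agent.P237.Quant.TailSmallData.P12B
import Vale.Agent.P237.Quant.TailSmallData.P12C
import Vale.Agent.P237.Quant.TailSmallData.P13A
import Vale.Agent.P237.Quant.TailSmallData.P13B
import Vale.Agent.P237.Quant.TailSmallData.P13C

/-!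
The tail inequalities of the row of the positive side for `11 ≤ n ≤ 13`, one checked calibration for each
dimension and bin.
-/

namespace Vale.Agent.P237.Quant

open TailCert TailData

/-- The bins of `posRow11` in dimension 11. -/
theorem posRow11_bins_11 : ∀ P ∈ binsOf posRow11.cuts,
    TailBin 10 (posRow11.W 10) (1 + (posRow11.mu : ℝ) * posRow11.e2)
      posRow11.eta P.1 P.2 := by
  intro P hP
  simp only [posRow11, binsOf, List.mem_cons, List.not_mem_nil, or_false] at hP
  rcases hP with rfl | rfl | rfl
  · exact tailBin_posTable tailP11A_check envTable11_check (by decide +kernel)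
  · exact tailBin_posTable tailP11B_check envTable11_check (by decide +kernel)
  · exact tailBin_posTable tailP11C_check envTable11_check (by decide +kernel)

/-- The bins of `posRow11` in dimension 12. -/
theorem posRow11_bins_12 : ∀ P ∈ binsOf posRow11.cuts,
    TailBin 11 (posRow11.W 11) (1 + (posRow11.mu : ℝ) * posRow11.e2)
      posRow11.eta P.1 P.2 := by
  intro P hP
  simp only [posRow11, binsOf, List.mem_cons, List.not_mem_nil, or_false] at hP
  rcases hP with rfl | rfl | rfl
  · exact tailBin_posTable tailP12A_check envTable12_check (by decide +kernel)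
  · exact tailBin_posTable tailP12B_check envTable12_check (by decide +kernel)
  · exact tailBin_posTable tailP12C_check envTable12_check (by decide +kernel)

/-- The bins of `posRow11` in dimension 13. -/
theorem posRow11_bins_13 : ∀ P ∈ binsOf posRow11.cuts,
    TailBin 12 (posRow11.W 12) (1 + (posRow11.mu : ℝ) * posRow11.e2)
      posRow11.eta P.1 P.2 := by
  intro P hP
  simp only [posRow11, binsOf, List.mem_cons, List.not_mem_nil, or_false] at hP
  rcases hP with rfl | rfl | rfl
  · exact tailBin_posTable tailP13A_check envTable13_check (by decide +kernel)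
  · exact tailBin_posTable tailP13B_check envTable13_check (by decide +kernel)
  · exact tailBin_posTable tailP13C_check envTable13_check (by decide +kernel)

/-- The tail inequality of `posRow11`. -/
theorem posRow11_tail : posRow11.Tail := by
  intro m hm hmem
  simp only [posRow11, DimRange.Mem] at hmem
  obtain rfl | rfl | rfl : m = 10 ∨ m = 11 ∨ m = 12 := by omega
  · exact posRow11_bins_11
  · exact posRow11_bins_12
  · exact posRow11_bins_13

end Vale.Agent.P237.Quant
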