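import Vale.Agent.P237.Quant.TailRowsMid13Neg
import Vale.Agent.P237.Quant.TailRowsMid13Pos

/-!
The tail inequalities of the rows of both sides for `11 ≤ n ≤ 13` (`negRow11_tail`, `posRow11_tail`).
-/
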