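import Vale.Agent.P237.Quant.GeneralAssembly

/-!
The rows of the negative side for `6 ≤ n ≤ 10`. The cuts are squares of the cuts of `u₀ / √B`.
-/

namespace Vale.Agent.P237.Quant

/-- `n = 6, 7, 8`. -/
def negRow6 : NegRow := ⟨⟨6, 8⟩, [3 / 5, 23716 / 10000]⟩

/-- `n = 9, 10`. -/
def negRow9 : NegRow := ⟨⟨9, 10⟩, [3 / 5, 2809 / 2500, 23716 / 10000]⟩

end Vale.Agent.P237.Quant
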