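import Vale.Agent.P237.Quant.TailTableBins
import Vale.Agent.P237.Quant.PosRowsSmall
import Vale.Agent.P237.Quant.NegRowsSmall
import Vale.Agent.P237.Quant.EnvelopeTableData.N6
import Vale.Agent.P237.Quant.TailSmallData.N6
import Vale.Agent.P237.Quant.TailSmallData.P6
import Vale.Agent.P237.Quant.TailSmallData.N7
import Vale.Agent.P237.Quant.TailSmallData.P7
import Vale.Agent.P237.Quant.TailSmallData.N8
import Vale.Agent.P237.Quant.TailSmallData.P8
import Vale.Agent.P237.Quant.TailSmallData.N9A
import Vale.Agent.P237.Quant.TailSmallData.N9B
import Vale.Agent.P237.Quant.TailSmallData.P9A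
import Vale.Agent.P237.Quant.TailSmallData.P9B
import Vale.Agent.P237.Quant.TailSmallData.N10A
import Vale.Agent.P237.Quant.TailSmallData.N10B
import Vale.Agent.P237.Quant.TailSmallData.P10A
import Vale.Agent.P237.Quant.TailSmallData.P10B

/-!
The tail inequalities of the rows of both sides for `6 ≤ n ≤ 10`, one checked calibration for each
dimension and bin.
-/

namespace Vale.Agent.P237.Quant

open TailCert TailData

/-- The tail inequality of `negRow6`. -/
theorem negRow6_tail : negRow6.Tail := by
  intro m hm hmem P hP
  simp only [negRow6, DimRange.Mem] at hmem
  simp only [negRow6, binsOf, List.mem_cons, List.not_mem_nil, or_false] at hP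
  obtain rfl | rfl | rfl : m = 5 ∨ m = 6 ∨ m = 7 := by omega
  · subst hP
    exact tailBin_negTable tailN6_check envTable6_check (by decide +kernel)
  · subst hP
    exact tailBin_negTable tailN7_check envTable7_check (by decide +kernel)
  · subst hP
    exact tailBin_negTable tailN8_check envTable8_check (by decide +kernel)

/-- The tail inequality of `negRow9`. -/
theorem negRow9_tail : negRow9.Tail := by
  intro m hm hmem P hP
  simp only [negRow9, DimRange.Mem] at hmem
  simp only [negRow9, binsOf, List.mem_cons, List.not_mem_nil, or_false] at hP
  obtain rfl | rfl : m = 8 ∨ m = 9 := by omega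
  · rcases hP with rfl | rfl
    · exact tailBin_negTable tailN9A_check envTable9_check (by decide +kernel)
    · exact tailBin_negTable tailN9B_check envTable9_check (by decide +kernel)
  · rcases hP with rfl | rfl
    · exact tailBin_negTable tailN10A_check envTable10_check (by decide +kernel)
    · exact tailBin_negTable tailN10B_check envTable10_check (by decide +kernel)

/-- The tail inequality of `posRow6`. -/
theorem posRow6_tail : posRow6.Tail := by
  intro m hm hmem P hP
  simp only [posRow6, DimRange.Mem] at hmem
  simp only [posRow6, binsOf, List.mem_cons, List.not_mem_nil, or_false] at hP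
  obtain rfl : m = 5 := by omega
  subst hP
  exact tailBin_posTable tailP6_check envTable6_check (by decide +kernel)

/-- The tail inequality of `posRow7`. -/
theorem posRow7_tail : posRow7.Tail := by
  intro m hm hmem P hP
  simp only [posRow7, DimRange.Mem] at hmem
  simp only [posRow7, binsOf, List.mem_cons, List.not_mem_nil, or_false] at hP
  obtain rfl : m = 6 := by omega
  subst hP
  exact tailBin_posTable tailP7_check envTable7_check (by decide +kernel)

/-- The tail inequality of `posRow8`. -/
theorem posRow8_tail : posRow8.Tail := by
  intro m hm hmem P hP
  simp only [posRow8, DimRange.Mem] at hmem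
  simp only [posRow8, binsOf, List.mem_cons, List.not_mem_nil, or_false] at hP
  obtain rfl : m = 7 := by omega
  subst hP
  exact tailBin_posTable tailP8_check envTable8_check (by decide +kernel)

/-- The tail inequality of `posRow9`. -/
theorem posRow9_tail : posRow9.Tail := by
  intro m hm hmem P hP
  simp only [posRow9, DimRange.Mem] at hmem
  simp only [posRow9, binsOf, List.mem_cons, List.not_mem_nil, or_false] at hP
  obtain rfl | rfl : m = 8 ∨ m = 9 := by omega
  · rcases hP with rfl | rfl
    · exact tailBin_posTable tailP9A_check envTable9_check (by decide +kernel)
    · exact tailBin_posTable tailP9B_check envTable9_check (by decide +kernel)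
  · rcases hP with rfl | rfl
    · exact tailBin_posTable tailP10A_check envTable10_check (by decide +kernel)
    · exact tailBin_posTable tailP10B_check envTable10_check (by decide +kernel)

end Vale.Agent.P237.Quant
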