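import Vale.Agent.P237.Quant.SmallAssembly
import Vale.Agent.P237.Quant.TailRowsSmall
import Vale.Agent.P237.Quant.TailRowsMid13
import Vale.Agent.P237.Quant.LinearUpperTables.P0
import Vale.Agent.P237.Quant.LinearUpperTables.P1
import Vale.Agent.P237.Quant.LinearUpperTables.P2
import Vale.Agent.P237.Quant.LinearUpperTables.P3
import Vale.Agent.P237.Quant.LinearUpperTables.P4
import Vale.Agent.P237.Quant.LinearUpperTables.P5
import Vale.Agent.P237.Quant.LinearUpperTables.P6
import Vale.Agent.P237.Quant.LinearUpperTables.P7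

/-!
The linear term for `11 ≤ n ≤ 13` from its checked tables, and Petty's inequality with its
equality case up to dimension thirteen.
-/

namespace Vale.Agent.P237.Quant

open MeasureTheory Metric

variable {m : ℕ}

/-- The tables of the linear term for `11 ≤ n ≤ 13`. -/
def upThirteenTabs : List UpData :=
  [upTabPB0, upTabPB1, upTabPB2, upTabPB3, upTabPB4, upTabPB5, upTabPB6, upTabPB7]

/-- Their bins. -/
def upThirteenParts : List (DimRange × List ℚ) :=
  [(⟨11, 13⟩, [3 / 5, 2601 / 2500, 11109 / 10000, 5843 / 5000, 1529 / 1250, 643 / 500, 6903 / 5000,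
    3969 / 2500, 5929 / 2500])]

theorem upThirteenTabs_valid : ∀ T ∈ upThirteenTabs, T.Valid := by
  simp only [upThirteenTabs, List.forall_mem_cons, List.not_mem_nil, false_imp_iff, implies_true,
    and_true, UpData.Valid]
  exact ⟨upTabPB0_valid, upTabPB1_valid, upTabPB2_valid, upTabPB3_valid, upTabPB4_valid,
    upTabPB5_valid, upTabPB6_valid, upTabPB7_valid⟩

theorem upThirteen_rangeOK :
    upRangeOK posRow11.e2 upThirteenTabs upThirteenParts posRow11.dims = true := by
  decide +kernel

/-- The bound of the linear term of the row `11 ≤ n ≤ 13`. -/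
theorem linUp_thirteen : posRow11.LinUp :=
  PosRow.linUp_of_range excessLarge upThirteen_rangeOK upThirteenTabs_valid

/-- The pure lemma for `6 ≤ n ≤ 13`. -/
theorem pureLemma_thirteen (h5 : 5 ≤ m) (h12 : m ≤ 12) : PureLemma m := by
  rcases Nat.lt_or_ge m 10 with h | h
  · exact pureLemma_small
      ⟨negRow6_tail, negRow9_tail, posRow6_tail, posRow7_tail, posRow8_tail, posRow9_tail⟩ h5
      (by omega)
  · exact pureLemma_rows excessLarge (by decide +kernel) (by decide +kernel) (by decide +kernel)
      negRow11_tail linUp_thirteen posRow11_spectral posRow11_tail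
      ⟨show 11 ≤ m + 1 by omega, Or.inr (show m + 1 ≤ 13 by omega)⟩
      ⟨show 11 ≤ m + 1 by omega, Or.inr (show m + 1 ≤ 13 by omega)⟩ h5

/-- Petty's inequality with its equality case for `3 ≤ n ≤ 13`. -/
theorem petty_thirteen {n : ℕ} (h3 : 3 ≤ n) (h13 : n ≤ 13)
    (K : Set (EuclideanSpace ℝ (Fin n))) (hK : Convex ℝ K) (cK : IsCompact K)
    (iK : (interior K).Nonempty) :
    unitBallVolume (n - 1) ^ n * volume K ^ (n - 1) ≤
        unitBallVolume n ^ (n - 2) * volume (projBody K) ∧
      (unitBallVolume (n - 1) ^ n * volume K ^ (n - 1) =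
          unitBallVolume n ^ (n - 2) * volume (projBody K) ↔
        ∃ (a : EuclideanSpace ℝ (Fin n))
          (T : EuclideanSpace ℝ (Fin n) ≃L[ℝ] EuclideanSpace ℝ (Fin n)),
          K = (fun x => x + a) '' (T '' closedBall 0 1)) :=
  petty_of_pureLemma h3 (fun m h4 hmn => by
    rcases h4.eq_or_lt with rfl | h
    · exact pureLemma_four
    · exact pureLemma_thirteen h (by omega)) K hK cK iK

end Vale.Agent.P237.Quant
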