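import Vale.Agent.P237.Quant.LargeAssembly
import Vale.Agent.P237.Quant.MidAssembly
import Vale.Agent.P237.Quant.ThirteenAssembly
import Vale.Agent.P237.Quant.MidTails
import Vale.Agent.P237.Quant.TailRowsLargeNeg
import Vale.Agent.P237.Quant.TailRowsPos100
import Vale.Agent.P237.Quant.TailRowsPos136
import Vale.Agent.P237.Quant.TailRowsPos211
import Vale.Agent.P237.Quant.TailRowsPos316
import Vale.Agent.P237.Quant.TailRowsPos451

/-!
The pure lemma in every dimension at least five, and Petty's inequality with its equality case in
every dimension at least three.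
-/

namespace Vale.Agent.P237.Quant

open MeasureTheory Metric

variable {m : ℕ}

/-- The pure lemma for every `m ≥ 5`. -/
theorem pureLemma_all (h5 : 5 ≤ m) : PureLemma m := by
  rcases (show m ≤ 12 ∨ (13 ≤ m ∧ m ≤ 98) ∨ 99 ≤ m by omega) with h | ⟨a, h⟩ | h
  · exact pureLemma_thirteen h5 h
  · exact pureLemma_mid midTails a h
  · exact pureLemma_large
      ⟨TailUniform.negRow100_tail, TailUniform.posRow100_tail, TailUniform.posRow136_tail,
        TailUniform.posRow211_tail, TailUniform.posRow316_tail, TailUniform.posRow451_tail⟩ h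

/-- Petty's inequality with its equality case in every dimension at least three. -/
theorem petty_all {n : ℕ} (h3 : 3 ≤ n) (K : Set (EuclideanSpace ℝ (Fin n))) (hK : Convex ℝ K)
    (cK : IsCompact K) (iK : (interior K).Nonempty) :
    unitBallVolume (n - 1) ^ n * volume K ^ (n - 1) ≤
        unitBallVolume n ^ (n - 2) * volume (projBody K) ∧
      (unitBallVolume (n - 1) ^ n * volume K ^ (n - 1) =
          unitBallVolume n ^ (n - 2) * volume (projBody K) ↔
        ∃ (a : EuclideanSpace ℝ (Fin n))
          (T : EuclideanSpace ℝ (Fin n) ≃L[ℝ] EuclideanSpace ℝ (Fin n)),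
          K = (fun x => x + a) '' (T '' closedBall 0 1)) :=
  petty_of_pureLemma h3 (fun m h4 _ => by
    rcases h4.eq_or_lt with rfl | h
    · exact pureLemma_four
    · exact pureLemma_all h) K hK cK iK

end Vale.Agent.P237.Quant
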