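import Vale.Agent.P237.Quant.LinearUpperLarge
import Vale.Agent.P237.Quant.RowTables

/-!
The pure lemma for `n ≥ 100` from the tail inequalities of the rows on ranges of dimensions.
-/

namespace Vale.Agent.P237.Quant

variable {m : ℕ}

/-- The tail inequalities of the rows `n ≥ 100`. -/
structure LargeTails : Prop where
  neg : negRow100.Tail
  p100 : posRow100.Tail
  p136 : posRow136.Tail
  p211 : posRow211.Tail
  p316 : posRow316.Tail
  p451 : posRow451.Tail

/-- The pure lemma for `n ≥ 100` from the tails. -/
theorem pureLemma_large (T : LargeTails) (h99 : 99 ≤ m) : PureLemma m := by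
  have hn : negRow100.dims.Mem (m + 1) := ⟨show 100 ≤ m + 1 by omega, Or.inl rfl⟩
  rcases (show m + 1 ≤ 135 ∨ (136 ≤ m + 1 ∧ m + 1 ≤ 210) ∨ (211 ≤ m + 1 ∧ m + 1 ≤ 315) ∨
      (316 ≤ m + 1 ∧ m + 1 ≤ 450) ∨ 451 ≤ m + 1 by omega) with
    h | ⟨a, h⟩ | ⟨a, h⟩ | ⟨a, h⟩ | a
  · exact pureLemma_rows excessLarge (by decide +kernel) (by decide +kernel) (by decide +kernel)
      T.neg (PosRow.linUp_large excessLarge (by decide +kernel) (by decide +kernel))
      posRow100_spectral T.p100 hn ⟨show 100 ≤ m + 1 by omega, Or.inr h⟩ (by omega)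
  · exact pureLemma_rows excessLarge (by decide +kernel) (by decide +kernel) (by decide +kernel)
      T.neg (PosRow.linUp_large excessLarge (by decide +kernel) (by decide +kernel))
      posRow136_spectral T.p136 hn ⟨a, Or.inr h⟩ (by omega)
  · exact pureLemma_rows excessLarge (by decide +kernel) (by decide +kernel) (by decide +kernel)
      T.neg (PosRow.linUp_large excessLarge (by decide +kernel) (by decide +kernel))
      posRow211_spectral T.p211 hn ⟨a, Or.inr h⟩ (by omega)
  · exact pureLemma_rows excessLarge (by decide +kernel) (by decide +kernel) (by decide +kernel)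
      T.neg (PosRow.linUp_large excessLarge (by decide +kernel) (by decide +kernel))
      posRow316_spectral T.p316 hn ⟨a, Or.inr h⟩ (by omega)
  · exact pureLemma_rows excessLarge (by decide +kernel) (by decide +kernel) (by decide +kernel)
      T.neg (PosRow.linUp_large excessLarge (by decide +kernel) (by decide +kernel))
      posRow451_spectral T.p451 hn ⟨a, Or.inl rfl⟩ (by omega)

end Vale.Agent.P237.Quant
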