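import Mathlib
import Vale.Agent.P237.Quant.TailConcave
import Vale.Agent.P237.Quant.EnergyPotential

/-!
An upper bound of the linear term by a calibration: the mean, the energy bound and the moment
bound with multipliers, against a flux in `(t, x, z)`.
-/

namespace Vale.Agent.P237.Quant

open MeasureTheory Set Filter Topology

variable {m : ℕ} {φ Q : ℝ → ℝ}

/-- The linear term is at most `e` by a flux: the mean, the energy bound and the moment bound `d`
enter with the multipliers `κ`, `t₁`, `t₂`. -/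
theorem specLin_le_of_flux (hm : 1 ≤ m) (hφ : IsShape φ) (hV : convexVal m (pureG m) φ ≤ 0)
    (hQ0 : ∀ t ∈ Ioo (0 : ℝ) 1, 0 ≤ Q t) (hQm : Measurable Q)
    (hQ : ∀ t ∈ Ioo (0 : ℝ) 1, ∀ r ∈ Icc (-1 : ℝ) 1, Q t * r ^ 2 ≤ pureBreg m t r)
    {d e κ t₁ t₂ : ℝ} (ht₁ : 0 ≤ t₁) (ht₂ : 0 ≤ t₂)
    (hD : (∫ t in (0 : ℝ)..1, φ t ^ m / ballShape t) ≤ (1 + d) * ballRatio m * mass m φ 1)
    {D Dt Dx : ℝ → ℝ → ℝ → ℝ} {S : ℝ → ℝ → ℝ → Prop}
    (hDc : ContinuousOn (fun p : ℝ × ℝ × ℝ => D p.1 p.2.1 p.2.2)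
      (Ico 0 1 ×ˢ Ioi 0 ×ˢ Icc 0 1))
    (hDz : ∀ t ∈ Ioo (0 : ℝ) 1, ∀ x, 0 < x → ContinuousOn (Dt t x) (Icc 0 1) ∧
      ContinuousOn (Dx t x) (Icc 0 1))
    (hDm : ∀ z ∈ Icc (0 : ℝ) 1, Measurable (fun p : ℝ × ℝ => Dt p.1 p.2 z) ∧
      Measurable (fun p : ℝ × ℝ => Dx p.1 p.2 z))
    (hDB : ∀ b < (1 : ℝ), ∀ a c, 0 < a → ∃ B, ∀ t ∈ Ioo 0 b, ∀ x ∈ Icc a c,
      ∀ z ∈ Icc (0 : ℝ) 1, |Dt t x z| ≤ B ∧ |Dx t x z| ≤ B)
    (hDd : ∀ z ∈ Icc (0 : ℝ) 1, ∀ t ∈ Ioo (0 : ℝ) 1, ∀ (u : ℝ → ℝ) (u' : ℝ), 0 < u t →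
      HasDerivWithinAt u u' (Ioi t) t →
      HasDerivWithinAt (fun s => D s (u s) z) (Dt t (u t) z + Dx t (u t) z * u') (Ioi t) t)
    (hanti : ∀ t ∈ Ioo (0 : ℝ) 1, ∀ x, 0 < x → (∃ z ∈ Icc (0 : ℝ) 1, S t x z) →
      AntitoneOn (D t x) (Icc 0 1))
    (hD0 : D 0 (specU m φ 0 / specM m φ) 0 ≤ 0)
    (hD1 : ∃ K : ℝ, ∀ᶠ b in 𝓝[<] (1 : ℝ), ∀ x, 0 < x → ∀ z ∈ Icc (0 : ℝ) 1,
      -K * (1 + x ^ 2) ≤ D b x z)
    (hS : ∀ t ∈ Ioo (0 : ℝ) 1, S t (specU m φ t / specM m φ) (shapeZ φ t))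
    (h : ∀ t ∈ Ioo (0 : ℝ) 1, ∀ x, 0 < x → ∀ z ∈ Icc (0 : ℝ) 1, S t x z →
      ballShape t ^ 2 * Dt t x z + (m : ℝ) / 2 * x * ((t - z) / (1 - t * z)) * Dx t x z -
        ((m : ℝ) + 1) * t * D t x z ≤
      e - 2 * (ballRatio m * ballShape t - 1) * (x - 1) + κ * (x - 1) +
        t₁ * (2 * (ballRatio m * ballShape t - 1) * (x - 1) +
          (ballRatio m * ballShape t - 1) * (x - 1) ^ 2 +
          m / ballShape t * x ^ 2 * (Q t * ((t - z) / (1 - t * z)) ^ 2)) -
        t₂ * (d * (1 + (x - 1) ^ 2) + (1 + d) * (2 * (ballRatio m * ballShape t - 1) * (x - 1) +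
          (ballRatio m * ballShape t - 1) * (x - 1) ^ 2))) :
    specLin m (specV m φ) ≤ e := by
  have hP0 : 0 < mass (m - 1) ballShape 1 := ball_mass_pos _
  set P := mass (m - 1) ballShape 1 with hP
  set r := ballRatio m with hr
  set v := specV m φ with hv
  obtain ⟨iEn, -, -, -⟩ := goal_le_value hm hφ hQ0 hQm hQ
  have hsum := sum_nonpos hm hφ hQ0 hQm hQ hV
  have iE : IntervalIntegrable
      (fun t => 4 / m * Q t * ballShape t ^ (m + 2) * (specU' m φ t / specM m φ) ^ 2) volume 0 1 :=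
    (iEn.div_const (specM m φ ^ 2)).congr fun t _ => by ring
  have hb : ∀ t ∈ Ioo (0 : ℝ) 1, |r * ballShape t - 1| ≤ r + 1 := fun t _ =>
    (abs_sub _ _).trans (add_le_add (ball_bound m) (le_of_eq abs_one))
  have hbm : Measurable fun t => r * ballShape t - 1 :=
    (cont_ball.measurable.const_mul r).sub_const 1
  have i0 : IntervalIntegrable (fun t => ballShape t ^ (m - 1)) volume 0 1 :=
    (cont_pow _).intervalIntegrable _ _
  have i1 : IntervalIntegrable (fun t => ballShape t ^ (m - 1) * v t) volume 0 1 :=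
    intervalIntegrable_wv hm hφ
  have iL : IntervalIntegrable (fun t => ballShape t ^ (m - 1) *
      (2 * (r * ballShape t - 1) * v t)) volume 0 1 :=
    (i1.continuousOn_mul (g := fun t => 2 * (r * ballShape t - 1))
      (continuous_const.mul ((cont_ball.const_smul r).sub continuous_const)).continuousOn).congr
      fun t _ => by ring
  have iR := intervalIntegrable_quad hm hφ hbm hb
  have iq : IntervalIntegrable (fun t => ballShape t ^ (m - 1) * v t ^ 2) volume 0 1 :=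
    intervalIntegrable_wv2 hm hφ
  set f : ℝ → ℝ := fun t => (e * ballShape t ^ (m - 1) -
    ballShape t ^ (m - 1) * (2 * (r * ballShape t - 1) * v t) +
    κ * (ballShape t ^ (m - 1) * v t)) +
    t₁ * (ballShape t ^ (m - 1) * (2 * (r * ballShape t - 1) * v t) +
      ballShape t ^ (m - 1) * ((r * ballShape t - 1) * v t ^ 2) +
      4 / m * Q t * ballShape t ^ (m + 2) * (specU' m φ t / specM m φ) ^ 2) -
    t₂ * (d * (ballShape t ^ (m - 1) + ballShape t ^ (m - 1) * v t ^ 2) +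
      (1 + d) * (ballShape t ^ (m - 1) * (2 * (r * ballShape t - 1) * v t) +
        ballShape t ^ (m - 1) * ((r * ballShape t - 1) * v t ^ 2))) with hfdef
  have hif : IntervalIntegrable f volume 0 1 :=
    ((((i0.const_mul e).sub iL).add (i1.const_mul κ)).add (((iL.add iR).add iE).const_mul t₁)).sub
      ((((i0.add iq).const_mul d).add ((iL.add iR).const_mul (1 + d))).const_mul t₂)
  have key := integral_nonneg_of_eventually hif fun ε hε => partial_integral_nonneg_of_concave hm hφ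
    hif (g := fun t x z => e - 2 * (r * ballShape t - 1) * (x - 1) + κ * (x - 1) +
        t₁ * (2 * (r * ballShape t - 1) * (x - 1) + (r * ballShape t - 1) * (x - 1) ^ 2 +
          m / ballShape t * x ^ 2 * (Q t * ((t - z) / (1 - t * z)) ^ 2)) -
        t₂ * (d * (1 + (x - 1) ^ 2) + (1 + d) * (2 * (r * ballShape t - 1) * (x - 1) +
          (r * ballShape t - 1) * (x - 1) ^ 2)))
    (fun t ht => ?_) hDc hDz hDm hDB hDd hanti hD0 hD1 hS h hε
  swap
  · have hp := ball_pos (sub01 ht)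
    simp only [hfdef, hv, specV, ← shapeRho_eq_shapeZ hφ ht]
    obtain ⟨k, rfl⟩ : ∃ k, m = k + 1 := ⟨m - 1, by omega⟩
    simp only [specU', Nat.add_sub_cancel]
    field_simp
    ring
  simp only [hfdef] at key
  rw [intervalIntegral.integral_sub
      ((((i0.const_mul e).sub iL).add (i1.const_mul κ)).add (((iL.add iR).add iE).const_mul t₁))
      ((((i0.add iq).const_mul d).add ((iL.add iR).const_mul (1 + d))).const_mul t₂),
    intervalIntegral.integral_add (((i0.const_mul e).sub iL).add (i1.const_mul κ))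
      (((iL.add iR).add iE).const_mul t₁),
    intervalIntegral.integral_add ((i0.const_mul e).sub iL) (i1.const_mul κ),
    intervalIntegral.integral_sub (i0.const_mul e) iL, intervalIntegral.integral_const_mul,
    intervalIntegral.integral_const_mul, intervalIntegral.integral_const_mul,
    intervalIntegral.integral_add (iL.add iR) iE, intervalIntegral.integral_add iL iR,
    intervalIntegral.integral_const_mul,
    intervalIntegral.integral_add ((i0.add iq).const_mul d) ((iL.add iR).const_mul (1 + d)),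
    intervalIntegral.integral_const_mul, intervalIntegral.integral_const_mul,
    intervalIntegral.integral_add iL iR, intervalIntegral.integral_add i0 iq,
    mean_specV hm hφ] at key
  have hM := pow_pos (specM_pos hm hφ) 2
  have hsq := sq_expand (m := m) hm hφ
  have hmass := mass_expand (m := m) hm hφ
  have eR : (∫ t in (0 : ℝ)..1, ballShape t ^ (m - 1) * (r * ballShape t * v t ^ 2)) =
      (∫ t in (0 : ℝ)..1, ballShape t ^ (m - 1) * ((r * ballShape t - 1) * v t ^ 2)) +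
        ∫ t in (0 : ℝ)..1, ballShape t ^ (m - 1) * v t ^ 2 := by
    rw [← intervalIntegral.integral_add iR iq]
    exact integral_congr01 fun t _ => by ring
  rw [eR] at hmass
  have hD' := div_le_div_of_nonneg_right hD hM.le
  rw [mul_assoc (1 + d), mul_div_assoc, hsq, hmass] at hD'
  have hPeq : (∫ t in (0 : ℝ)..1, ballShape t ^ (m - 1)) = P := rfl
  have eL : (∫ t in (0 : ℝ)..1, ballShape t ^ (m - 1) * (2 * (r * ballShape t - 1) * v t)) =
      specLin m v * P := by
    rw [specLin, specMean, div_mul_cancel₀ _ hP0.ne']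
  have eQ : (∫ t in (0 : ℝ)..1, ballShape t ^ (m - 1) * ((r * ballShape t - 1) * v t ^ 2)) =
      specQuad m (fun t => r * ballShape t - 1) v * P := by
    rw [specQuad, specMean, div_mul_cancel₀ _ hP0.ne']
  have eE : (∫ t in (0 : ℝ)..1, 4 / m * Q t * ballShape t ^ (m + 2) *
      (specU' m φ t / specM m φ) ^ 2) =
      specEnergy m Q (fun t => specU' m φ t / specM m φ) * P := by
    rw [specEnergy, div_mul_cancel₀ _ hP0.ne']
  rw [hPeq, eL, eQ, eE] at key
  rw [eQ] at hD'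
  have a1 := mul_nonpos_of_nonneg_of_nonpos (mul_nonneg ht₁ hP0.le) hsum
  have a2 := mul_nonneg ht₂ (sub_nonneg.2 hD')
  refine le_of_mul_le_mul_right ?_ hP0
  linarith


end Vale.Agent.P237.Quant
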