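import Mathlib
import Vale.Agent.P237.Quant.TailFlux
import Vale.Agent.P237.Quant.LinearCauchy

/-!
The linear term by a calibration. On a profile with nonpositive value, power ratio at most one and
relative moment excess at most `d`, one pointwise inequality in `(t, x, ρ)`, with `x = specU / M` and the ranges that the
profile allows, bounds any combination of the linear term and of the mass.
-/

namespace Vale.Agent.P237.Quant

open MeasureTheory Set Filter Topology

variable {m : ℕ} {φ : ℝ → ℝ}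

/-- The integrand of the calibration: the linear term and the mass with coefficients `cL`, `cX`,
the mean and the three constraints with multipliers `lam`, `t₁`, `t₂`, `t₃`. -/
noncomputable def linLoss (m : ℕ) (cL cX d lam t₁ t₂ t₃ t x ρ : ℝ) : ℝ :=
  cL * (2 * (ballRatio m * ballShape t - 1) * x) + cX * (ballRatio m * ballShape t * x ^ 2) +
    lam * (x - 1) +
    t₂ * (ballRatio m * ballShape t - 1 + d / (1 + d)) * x ^ 2 -
    t₁ * (ballRatio m * ballShape t - 1 + m * bregPoly m t * ρ ^ 2 / ballShape t) * x ^ 2 +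
    t₃ * ((ballRatio m * ballShape t - 1) * x ^ 2 + tailLoss m x)

/-- The calibration. -/
theorem linear_le_of_flux (hm2 : 2 ≤ m) (hφ : IsShape φ) (hV : convexVal m (pureG m) φ ≤ 0)
    (hx1 : powRatio m φ ≤ 1)
    {cL cX d lam t₁ t₂ t₃ e : ℝ} (hd : 0 ≤ d) (ht₁ : 0 ≤ t₁) (ht₂ : 0 ≤ t₂) (ht₃ : 0 ≤ t₃)
    (hD : (∫ t in (0 : ℝ)..1, φ t ^ m / ballShape t) ≤ (1 + d) * ballRatio m * mass m φ 1)
    {G G' : ℝ → ℝ} (hGc : ContinuousOn G (Ico 0 1)) (hG0 : G 0 ≤ 0)
    (hG1 : ∀ ε > 0, ∀ᶠ b in 𝓝[<] (1 : ℝ), -ε ≤ G b)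
    (hGd : ∀ t ∈ Ioo (0 : ℝ) 1, HasDerivWithinAt G (G' t) (Ioi t) t)
    (h : ∀ t ∈ Ioo (0 : ℝ) 1, G' t + ballShape t ^ (m - 1) *
      linLoss m cL cX d lam t₁ t₂ t₃ t (specU m φ t / specM m φ) (shapeRho φ t) ≤
        ballShape t ^ (m - 1) * e) :
    cL * specLin m (specV m φ) +
      cX * (mass m φ 1 / (specM m φ ^ 2 * mass m ballShape 1)) ≤ e := by
  have hm : 1 ≤ m := by omega
  have hQ0 : ∀ t ∈ Ioo (0 : ℝ) 1, 0 ≤ bregPoly m t := fun t _ => bregPoly_nonneg m t
  have hQ := fun t ht r hr => bregPoly_mul_le (m := m) hm (t := t) (r := r) ht hr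
  have hsum := sum_nonpos hm hφ hQ0 (measurable_bregPoly m) hQ hV
  obtain ⟨iEn, -, -, -⟩ := goal_le_value hm hφ hQ0 (measurable_bregPoly m) hQ
  have hM0 := specM_pos hm hφ
  set M := specM m φ with hMdef
  set v := specV m φ with hv
  set r := ballRatio m with hr
  set P := mass (m - 1) ballShape 1 with hPdef
  have hP0 : 0 < P := ball_mass_pos _
  set δ := d / (1 + d) with hδ
  have mb : Measurable fun t => r * ballShape t - 1 :=
    (cont_ball.measurable.const_mul r).sub_const 1
  have bb : ∀ t ∈ Ioo (0 : ℝ) 1, |r * ballShape t - 1| ≤ r + 1 := fun t _ =>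
    (abs_sub _ _).trans (add_le_add (ball_bound m) (le_of_eq abs_one))
  have i0 : IntervalIntegrable (fun t => ballShape t ^ (m - 1)) volume 0 1 :=
    (cont_pow _).intervalIntegrable _ _
  have ib : IntervalIntegrable (fun t => ballShape t ^ (m - 1) * (r * ballShape t - 1)) volume 0 1 :=
    (cont_linIntegrand m).intervalIntegrable _ _
  have i1 := intervalIntegrable_wv hm hφ
  have i2 := intervalIntegrable_wv2 hm hφ
  have jb := intervalIntegrable_quad hm hφ mb bb
  have jl : IntervalIntegrable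
      (fun t => ballShape t ^ (m - 1) * (2 * (r * ballShape t - 1) * v t)) volume 0 1 :=
    (i1.mul_continuousOn (show ContinuousOn (fun t => 2 * (r * ballShape t - 1)) (uIcc 0 1) from
      (continuous_const.mul ((continuous_const.mul cont_ball).sub
        continuous_const)).continuousOn)).congr fun t _ => by
        simp only [hv]
        ring
  set EI : ℝ → ℝ := fun t =>
    4 / m * bregPoly m t * ballShape t ^ (m + 2) * (specU' m φ t / M) ^ 2 with hEI
  have iE : IntervalIntegrable EI volume 0 1 :=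
    (iEn.div_const (M ^ 2)).congr fun t _ => by simp only [hEI]; ring
  -- the two quadratic integrands
  set A : ℝ → ℝ := fun t => ballShape t ^ (m - 1) * (r * ballShape t - 1) +
    ballShape t ^ (m - 1) * (2 * (r * ballShape t - 1) * v t) +
    ballShape t ^ (m - 1) * ((r * ballShape t - 1) * v t ^ 2) with hA
  set B : ℝ → ℝ := fun t => ballShape t ^ (m - 1) + 2 * (ballShape t ^ (m - 1) * v t) +
    ballShape t ^ (m - 1) * v t ^ 2 with hB
  have iA : IntervalIntegrable A volume 0 1 := (ib.add jl).add jb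
  have iB : IntervalIntegrable B volume 0 1 := (i0.add (i1.const_mul 2)).add i2
  set L := specLin m v with hL
  set R := specQuad m (fun t => r * ballShape t - 1) v with hR
  set q := specQuad m (fun _ => 1) v with hq
  have hb0 : (∫ t in (0 : ℝ)..1, ballShape t ^ (m - 1) * (r * ballShape t - 1)) = 0 := by
    have := linFlux_one hm
    rwa [linFlux] at this
  have hmv := mean_specV hm hφ
  have eL : (∫ t in (0 : ℝ)..1, ballShape t ^ (m - 1) * (2 * (r * ballShape t - 1) * v t)) =
      L * P := by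
    rw [hL, specLin, specMean, ← hPdef, div_mul_cancel₀ _ hP0.ne']
  have eR : (∫ t in (0 : ℝ)..1, ballShape t ^ (m - 1) * ((r * ballShape t - 1) * v t ^ 2)) =
      R * P := by
    rw [hR, specQuad, specMean, ← hPdef, div_mul_cancel₀ _ hP0.ne']
  have eq1 : (∫ t in (0 : ℝ)..1, ballShape t ^ (m - 1) * v t ^ 2) = q * P := by
    rw [hq, specQuad, specMean, ← hPdef, div_mul_cancel₀ _ hP0.ne']
    exact integral_congr01 fun t _ => by ring
  have eA : (∫ t in (0 : ℝ)..1, A t) = (L + R) * P := by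
    rw [hA, intervalIntegral.integral_add (ib.add jl) jb,
      intervalIntegral.integral_add ib jl, hb0, eL, eR]
    ring
  have eB : (∫ t in (0 : ℝ)..1, B t) = (1 + q) * P := by
    rw [hB, intervalIntegral.integral_add (i0.add (i1.const_mul 2)) i2,
      intervalIntegral.integral_add i0 (i1.const_mul 2), intervalIntegral.integral_const_mul, hmv,
      eq1, show (∫ t in (0 : ℝ)..1, ballShape t ^ (m - 1)) = P from rfl]
    ring
  have eE : (∫ t in (0 : ℝ)..1, EI t) =
      specEnergy m (bregPoly m) (fun t => specU' m φ t / M) * P := by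
    rw [specEnergy, ← hPdef, div_mul_cancel₀ _ hP0.ne']
  -- the moment bound
  have hdX : 0 ≤ (L + R) + δ * (1 + q) := by
    have h1 := mass_expand hm hφ
    have h2 := sq_expand hm hφ
    have e : (∫ t in (0 : ℝ)..1, ballShape t ^ (m - 1) * (r * ballShape t * v t ^ 2)) =
        (R + q) * P := by
      rw [add_mul, ← eR, ← eq1, ← intervalIntegral.integral_add jb i2]
      exact integral_congr01 fun t _ => by ring
    rw [← hr, ← hv, ← hL, ← hPdef, e] at h1
    rw [← hv, ← hPdef, eq1] at h2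
    have h3 := div_le_div_of_nonneg_right hD (sq_nonneg M)
    rw [mul_assoc, mul_div_assoc, h1, h2] at h3
    have h4 : 1 + q ≤ (1 + d) * (1 + L + R + q) := by
      refine le_of_mul_le_mul_right ?_ hP0
      linarith
    have h5 : (L + R) + δ * (1 + q) = ((1 + d) * (1 + L + R + q) - (1 + q)) / (1 + d) := by
      have : (1 + d) ≠ 0 := by linarith
      rw [hδ]
      field_simp
      ring
    rw [h5]
    exact div_nonneg (by linarith) (by linarith)
  -- the power constraint
  set qe : ℝ := 2 - 2 / (m : ℝ) with hqe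
  set g : ℝ → ℝ := fun t => (specU m φ t / M) ^ qe - (1 + qe * v t) with hg
  have hxq : ∀ t ∈ Ioo (0 : ℝ) 1, ballShape t ^ (m - 1) * (specU m φ t / M) ^ qe =
      φ t ^ (m - 1) / M ^ qe := fun t ht => by
    rw [Real.div_rpow (specU_pos hφ (sub01 ht)).le hM0.le, hqe, specU_rpow hm hφ (sub01 ht),
      div_pow, mul_div_assoc', mul_div_cancel₀ _ (pow_ne_zero _ (ball_pos (sub01 ht)).ne')]
  have ig : IntervalIntegrable (fun t => ballShape t ^ (m - 1) * g t) volume 0 1 := by
    refine interval_iff01.2 ((interval_iff01.1 (((intervalIntegrable_shape_pow01 hφ (m - 1)).div_const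
      (M ^ qe)).sub (i0.add (i1.const_mul qe)))).congr_fun (fun t ht => ?_) measurableSet_Ioo)
    dsimp only
    rw [← hxq t ht]
    ring
  set T : ℝ → ℝ := fun t => ballShape t ^ (m - 1) * v t ^ 2 -
    m / (m - 1) * (ballShape t ^ (m - 1) * g t) with hT
  have iT : IntervalIntegrable T volume 0 1 := i2.sub (ig.const_mul _)
  have hLT : 0 ≤ (L + R) * P + ∫ t in (0 : ℝ)..1, T t := by
    have hexc := excess_le hm2 hφ ig fun t _ => le_of_eq (by simp only [hg, hv, hqe, hMdef]; ring)
    have hlow := excess_lower hm2 hφ hx1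
    have e : (∫ t in (0 : ℝ)..1, T t) = (q - m / (m - 1) * specMean m g) * P := by
      rw [hT, intervalIntegral.integral_sub i2 (ig.const_mul _),
        intervalIntegral.integral_const_mul, eq1, specMean, ← hPdef, sub_mul, mul_assoc,
        div_mul_cancel₀ _ hP0.ne']
    rw [← hv, ← hL, ← hR] at hlow
    rw [← hv, ← hq] at hexc
    rw [e, ← add_mul]
    exact mul_nonneg (by linarith) hP0.le
  -- the calibration
  set up : ℝ → ℝ := fun t => e * ballShape t ^ (m - 1) -
    (cL * (ballShape t ^ (m - 1) * (2 * (r * ballShape t - 1) * v t)) + cX * (A t + B t)) -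
    (lam * (ballShape t ^ (m - 1) * v t) +
      cL * 2 * (ballShape t ^ (m - 1) * (r * ballShape t - 1))) -
    t₂ * (A t + δ * B t) + t₁ * (A t + EI t) - t₃ * (A t + T t) with hup
  have iup : IntervalIntegrable up volume 0 1 :=
    (((((i0.const_mul e).sub ((jl.const_mul cL).add ((iA.add iB).const_mul cX))).sub
      ((i1.const_mul lam).add (ib.const_mul (cL * 2)))).sub
      ((iA.add (iB.const_mul δ)).const_mul t₂)).add ((iA.add iE).const_mul t₁)).sub
      ((iA.add iT).const_mul t₃)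
  have hle : ∀ t ∈ Ioo (0 : ℝ) 1, G' t ≤ up t := fun t ht => by
    have hp := ball_pos (sub01 ht)
    have hmne : (m : ℝ) ≠ 0 := Nat.cast_ne_zero.2 (by omega)
    have hx : specU m φ t / M = 1 + v t := by simp only [hv, specV, hMdef]; ring
    have e1 : EI t = ballShape t ^ (m - 1) *
        (m * bregPoly m t * shapeRho φ t ^ 2 / ballShape t * (1 + v t) ^ 2) := by
      rw [← hx]
      simp only [hEI, specU']
      obtain ⟨k, rfl⟩ : ∃ k, m = k + 1 := ⟨m - 1, by omega⟩
      simp only [Nat.add_sub_cancel, pow_succ (ballShape t) (k + 2),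
        show k + 1 + 2 = k + 2 + 1 from rfl, pow_add (ballShape t) k 2]
      field_simp
      ring
    have e2 : ballShape t ^ (m - 1) *
        linLoss m cL cX d lam t₁ t₂ t₃ t (specU m φ t / M) (shapeRho φ t) =
        cL * (ballShape t ^ (m - 1) * (2 * (r * ballShape t - 1) * v t)) + cX * (A t + B t) +
          (lam * (ballShape t ^ (m - 1) * v t) +
            cL * 2 * (ballShape t ^ (m - 1) * (r * ballShape t - 1))) +
          t₂ * (A t + δ * B t) - t₁ * (A t + EI t) + t₃ * (A t + T t) := by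
      rw [e1, hx, linLoss, tailLoss, ← hr, ← hδ, ← hqe]
      simp only [hA, hB, hT, hg, hx]
      ring
    have := h t ht
    rw [e2] at this
    simp only [hup]
    linarith
  have key : 0 ≤ ∫ t in (0 : ℝ)..1, up t := by
    refine le_of_forall_pos_le_add fun ε hε => ?_
    have hc := intervalIntegral.continuousOn_primitive_interval' iup left_mem_uIcc
    rw [uIcc_of_le zero_le_one] at hc
    have hlim : -ε ≤ ∫ t in (0 : ℝ)..1, up t := by
      refine ge_of_tendsto ((hc 1 (right_mem_Icc.2 zero_le_one)).mono_left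
        (nhdsWithin_le_iff.2 (Icc_mem_nhdsLT zero_lt_one))) ?_
      filter_upwards [Ioo_mem_nhdsLT (zero_lt_one (α := ℝ)), hG1 ε hε] with b hb hGb
      have hs := intervalIntegral.sub_le_integral_of_hasDeriv_right_of_le (φ := up) hb.1.le
        (hGc.mono fun t ht => ⟨ht.1, ht.2.trans_lt hb.2⟩)
        (fun t ht => hGd t ⟨ht.1, ht.2.trans hb.2⟩)
        ((intervalIntegrable_iff_integrableOn_Icc_of_le hb.1.le).1 (iup.mono_set (by
          rw [uIcc_of_le hb.1.le, uIcc_of_le zero_le_one]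
          exact Icc_subset_Icc le_rfl hb.2.le)))
        fun t ht => hle t ⟨ht.1, ht.2.trans hb.2⟩
      linarith
    linarith
  have eup : (∫ t in (0 : ℝ)..1, up t) = e * P -
      (cL * (L * P) + cX * ((L + R) * P + (1 + q) * P)) -
      t₂ * ((L + R) * P + δ * ((1 + q) * P)) +
      t₁ * ((L + R) * P + specEnergy m (bregPoly m) (fun t => specU' m φ t / M) * P) -
      t₃ * ((L + R) * P + ∫ t in (0 : ℝ)..1, T t) := by
    have j5 := (iA.add iT).const_mul t₃
    have j0 := i0.const_mul e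
    have j1 := (jl.const_mul cL).add ((iA.add iB).const_mul cX)
    have j2 := (i1.const_mul lam).add (ib.const_mul (cL * 2))
    have j3 := (iA.add (iB.const_mul δ)).const_mul t₂
    have j4 := (iA.add iE).const_mul t₁
    rw [hup, intervalIntegral.integral_sub ((((j0.sub j1).sub j2).sub j3).add j4) j5,
      intervalIntegral.integral_add (((j0.sub j1).sub j2).sub j3) j4,
      intervalIntegral.integral_sub ((j0.sub j1).sub j2) j3,
      intervalIntegral.integral_sub (j0.sub j1) j2, intervalIntegral.integral_sub j0 j1,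
      intervalIntegral.integral_add (jl.const_mul cL) ((iA.add iB).const_mul cX),
      intervalIntegral.integral_add (i1.const_mul lam) (ib.const_mul (cL * 2))]
    simp only [intervalIntegral.integral_const_mul]
    rw [intervalIntegral.integral_add iA (iB.const_mul δ), intervalIntegral.integral_add iA iB,
      intervalIntegral.integral_add iA iE, intervalIntegral.integral_add iA iT,
      intervalIntegral.integral_const_mul,
      show (∫ t in (0 : ℝ)..1, ballShape t ^ (m - 1)) = P from rfl,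
      hmv, hb0, eL, eA, eB, eE]
    ring
  have eX : mass m φ 1 / (M ^ 2 * mass m ballShape 1) = 1 + q + L + R := by
    have h1 := mass_expand hm hφ
    have e : (∫ t in (0 : ℝ)..1, ballShape t ^ (m - 1) * (r * ballShape t * v t ^ 2)) =
        (R + q) * P := by
      rw [add_mul, ← eR, ← eq1, ← intervalIntegral.integral_add jb i2]
      exact integral_congr01 fun t _ => by ring
    rw [← hr, ← hv, ← hL, ← hPdef, e] at h1
    have hS := ball_mass_pos m
    have h2 : r * mass m φ 1 / M ^ 2 = mass m φ 1 / (M ^ 2 * mass m ballShape 1) * P := by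
      rw [hr, ballRatio, ← hPdef]
      field_simp
    rw [h2] at h1
    refine mul_right_cancel₀ hP0.ne' (h1.trans ?_)
    ring
  rw [eX]
  refine le_of_mul_le_mul_right ?_ hP0
  have k1 := mul_nonneg ht₂ (mul_nonneg hdX hP0.le)
  have k3 := mul_nonneg ht₃ hLT
  have k2 := mul_nonpos_of_nonneg_of_nonpos ht₁ (mul_nonpos_of_nonpos_of_nonneg hsum hP0.le)
  linarith

/-- The derivative of the quadratic flux. -/
theorem hasDeriv_quadFlux (hm : 1 ≤ m) (hφ : IsShape φ) {A B C : ℝ → ℝ} {A' B' C' t : ℝ}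
    (ht : t ∈ Ioo (0 : ℝ) 1) (hA : HasDerivWithinAt A A' (Ioi t) t)
    (hB : HasDerivWithinAt B B' (Ioi t) t) (hC : HasDerivWithinAt C C' (Ioi t) t) :
    HasDerivWithinAt (fun s => ballShape s ^ (m + 1) * (A s + B s * (specU m φ s / specM m φ) +
        C s * (specU m φ s / specM m φ) ^ 2))
      (ballShape t ^ (m - 1) * ((ballShape t ^ 2 * A' - ((m : ℝ) + 1) * t * A t) +
        (ballShape t ^ 2 * B' - ((m : ℝ) + 1) * t * B t) * (specU m φ t / specM m φ) +
        (ballShape t ^ 2 * C' - ((m : ℝ) + 1) * t * C t) * (specU m φ t / specM m φ) ^ 2 +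
        (m : ℝ) / 2 * shapeRho φ t * (specU m φ t / specM m φ) *
          (B t + 2 * C t * (specU m φ t / specM m φ)))) (Ioi t) t := by
  have hp := ball_pos (sub01 ht)
  have hx := (hasDeriv_specU hm hφ (sub01 ht)).div_const (specM m φ)
  refine (((hasDerivAt_ball (sub01 ht)).hasDerivWithinAt.fun_pow (m + 1)).fun_mul
    ((hA.fun_add (hB.fun_mul hx)).fun_add (hC.fun_mul (hx.fun_pow 2)))).congr_deriv ?_
  obtain ⟨k, rfl⟩ : ∃ k, m = k + 1 := ⟨m - 1, by omega⟩
  simp only [specU', Nat.add_sub_cancel, show (2 : ℕ) - 1 = 1 from rfl]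
  push_cast
  rw [pow_succ (ballShape t) (k + 1), pow_succ (ballShape t) k]
  field_simp
  ring

/-- The linear term from a quadratic flux: one inequality on every `(t, x, ρ)` that `S` allows. -/
theorem linear_le_of_quadFlux (hm2 : 2 ≤ m) (hφ : IsShape φ) (hV : convexVal m (pureG m) φ ≤ 0)
    (hx1 : powRatio m φ ≤ 1)
    {cL cX d lam t₁ t₂ t₃ e K : ℝ} (hd : 0 ≤ d) (ht₁ : 0 ≤ t₁) (ht₂ : 0 ≤ t₂) (ht₃ : 0 ≤ t₃)
    (hD : (∫ t in (0 : ℝ)..1, φ t ^ m / ballShape t) ≤ (1 + d) * ballRatio m * mass m φ 1)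
    {A A' B B' C C' : ℝ → ℝ} {S : ℝ → ℝ → ℝ → Prop}
    (hAc : ContinuousOn A (Ico 0 1)) (hBc : ContinuousOn B (Ico 0 1))
    (hCc : ContinuousOn C (Ico 0 1)) (hA0 : A 0 = 0) (hB0 : B 0 = 0) (hC0 : C 0 = 0)
    (hK : ∀ t ∈ Ico (0 : ℝ) 1, |A t| ≤ K ∧ |B t| ≤ K ∧ |C t| ≤ K)
    (hAd : ∀ t ∈ Ioo (0 : ℝ) 1, HasDerivWithinAt A (A' t) (Ioi t) t)
    (hBd : ∀ t ∈ Ioo (0 : ℝ) 1, HasDerivWithinAt B (B' t) (Ioi t) t)
    (hCd : ∀ t ∈ Ioo (0 : ℝ) 1, HasDerivWithinAt C (C' t) (Ioi t) t)
    (hS : ∀ t ∈ Ioo (0 : ℝ) 1, S t (specU m φ t / specM m φ) (shapeRho φ t))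
    (h : ∀ t ∈ Ioo (0 : ℝ) 1, ∀ x, 0 < x → ∀ ρ ∈ Icc (-1 : ℝ) t, S t x ρ →
      (ballShape t ^ 2 * A' t - ((m : ℝ) + 1) * t * A t) +
        (ballShape t ^ 2 * B' t - ((m : ℝ) + 1) * t * B t) * x +
        (ballShape t ^ 2 * C' t - ((m : ℝ) + 1) * t * C t) * x ^ 2 +
        (m : ℝ) / 2 * ρ * x * (B t + 2 * C t * x) + linLoss m cL cX d lam t₁ t₂ t₃ t x ρ ≤ e) :
    cL * specLin m (specV m φ) +
      cX * (mass m φ 1 / (specM m φ ^ 2 * mass m ballShape 1)) ≤ e := by
  have hm : 1 ≤ m := by omega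
  have hM0 := specM_pos hm hφ
  set M := specM m φ with hM
  have hx : ∀ t ∈ Ico (0 : ℝ) 1, 0 < specU m φ t / M := fun t ht =>
    div_pos (specU_pos hφ ⟨by linarith [ht.1], ht.2⟩) hM0
  have hcx : ContinuousOn (fun t => specU m φ t / M) (Ico 0 1) :=
    ((continuousOn_specU hφ).mono fun t ht => ⟨by linarith [ht.1], ht.2⟩).div_const _
  refine linear_le_of_flux (lam := lam) (cL := cL) (cX := cX) hm2 hφ hV hx1 hd ht₁ ht₂ ht₃ hD
    (G := fun s => ballShape s ^ (m + 1) *
      (A s + B s * (specU m φ s / M) + C s * (specU m φ s / M) ^ 2))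
    ((cont_pow (m + 1)).continuousOn.mul ((hAc.add (hBc.mul hcx)).add (hCc.mul (hcx.pow 2))))
    ?_ ?_ (fun t ht => hasDeriv_quadFlux hm hφ ht (hAd t ht) (hBd t ht) (hCd t ht)) fun t ht => ?_
  · simp [hA0, hB0, hC0]
  · intro ε hε
    have hK0 : 0 ≤ K := (abs_nonneg _).trans (hK 0 (left_mem_Ico.2 one_pos)).1
    have hlim : Tendsto (fun b => 3 * K * (1 + φ 0 ^ m / M ^ 2) * ballShape b) (𝓝[<] (1 : ℝ))
        (𝓝 0) := by
      have := ((cont_ball.tendsto 1).mono_left
        (nhdsWithin_le_nhds (s := Iio (1 : ℝ)))).const_mul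
        (3 * K * (1 + φ 0 ^ m / M ^ 2))
      simpa [ballShape] using this
    filter_upwards [Ioo_mem_nhdsLT (zero_lt_one (α := ℝ)),
      hlim.eventually (eventually_le_nhds hε)] with b hb hbe
    have hp := ball_pos (sub01 hb)
    have hp1 := ball_le_one b
    obtain ⟨hA1, hB1, hC1⟩ := hK b ⟨hb.1.le, hb.2⟩
    have hx0 := hx b ⟨hb.1.le, hb.2⟩
    have hu : ballShape b ^ m * (specU m φ b / M) ^ 2 ≤ φ 0 ^ m / M ^ 2 := by
      rw [div_pow, specU_sq hφ (sub01 hb), div_pow, mul_div_assoc', mul_div_cancel₀ _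
        (pow_ne_zero _ hp.ne')]
      exact div_le_div_of_nonneg_right (pow_le_pow_left₀ (hφ.nonneg b
        (Ioo_subset_Icc_self (sub01 hb))) (shape_le_centre hφ (Ioo_subset_Icc_self (sub01 hb))) m)
        (sq_nonneg _)
    set x := specU m φ b / M with hxdef
    have habs : |A b + B b * x + C b * x ^ 2| ≤ 3 * K * (1 + x ^ 2) := by
      refine ((abs_add_le _ _).trans (add_le_add (abs_add_le _ _) le_rfl)).trans ?_
      rw [abs_mul, abs_mul, abs_of_pos hx0, abs_of_nonneg (sq_nonneg x)]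
      nlinarith [mul_le_mul_of_nonneg_right hB1 hx0.le, mul_le_mul_of_nonneg_right hC1 (sq_nonneg x),
        mul_nonneg hK0 (sq_nonneg (x - 1))]
    have hpm : ballShape b ^ (m + 1) * (1 + x ^ 2) ≤ ballShape b * (1 + φ 0 ^ m / M ^ 2) := by
      rw [pow_succ]
      nlinarith [mul_le_mul_of_nonneg_right (pow_le_one₀ hp.le hp1 (n := m)) hp.le,
        mul_le_mul_of_nonneg_right hu hp.le]
    have h1 := (abs_le.1 habs).1
    have h2 := mul_le_mul_of_nonneg_left hpm (show 0 ≤ 3 * K by positivity)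
    have h3 := mul_le_mul_of_nonneg_left h1 (pow_nonneg hp.le (m + 1))
    linarith
  · rw [← mul_add]
    exact mul_le_mul_of_nonneg_left
      (h t ht _ (hx t ⟨ht.1.le, ht.2⟩) _ (shapeRho_range hφ ht) (hS t ht))
      (pow_nonneg (ball_pos (sub01 ht)).le _)

end Vale.Agent.P237.Quant
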