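import Vale.Agent.P237.Quant.LinearUpperCell
import Vale.Agent.P237.Quant.LinearFluxGen

/-!
From the three checks of a table to the bound `specLin ≤ eps / n` on its dimensions and its bin.
-/

namespace Vale.Agent.P237.Quant

open MeasureTheory Set Filter Topology Real

variable {m : ℕ} {φ : ℝ → ℝ}

/-- The pointwise form in the scale `n`: `s = e σ ^ 2`, `r = √n ρ`. -/
noncomputable def upForm (e σ s a a' b b' c c' R w t L x r : ℝ) : ℝ :=
  ((1 - s) / 2 * a' - 2 * σ / (1 + s) * a) + ((1 - s) / 2 * b' - 2 * σ / (1 + s) * b) * x +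
    ((1 - s) / 2 * c' - 2 * σ / (1 + s) * c) * x ^ 2 + (1 - e) / 2 * r * x * (b + 2 * c * x) +
    2 * (R * ((1 - s) / (1 + s)) - 2 * σ ^ 2 / (1 + s)) * x + L * (x - 1) -
    t * (R * ((1 - s) / (1 + s)) - 2 * σ ^ 2 / (1 + s)) * x ^ 2 -
    t * ((1 - e) / 2 * w) * r ^ 2 * x ^ 2

/-- From the cleared inequality to the form. -/
theorem upForm_le {e σ s a a' b b' c c' A A' SA B B' SB C C' SC S2 D R w t L x r ε : ℝ}
    (hD : 0 < D) (hs : 0 ≤ s) (hA : A = a * D) (hA' : A' = a' * D) (hSA : SA = σ * a * D)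
    (hB : B = b * D) (hB' : B' = b' * D) (hSB : SB = σ * b * D)
    (hC : C = c * D) (hC' : C' = c' * D) (hSC : SC = σ * c * D) (hS2 : S2 = σ ^ 2 * D)
    (h : ((1 - s) / 2 * ((1 + s) * A') - 2 * SA) + ((1 - s) / 2 * ((1 + s) * B') - 2 * SB) * x +
      ((1 - s) / 2 * ((1 + s) * C') - 2 * SC) * x ^ 2 +
      (1 - e) / 2 * (1 + s) * (r * x) * (B + 2 * C * x) +
      2 * (R * ((1 - s) * D) - 2 * S2) * x + L * ((1 + s) * D) * (x - 1) -
      t * (R * ((1 - s) * D) - 2 * S2) * x ^ 2 -
      t * ((1 - e) / 2 * (1 + s) * w * D) * (r * x) ^ 2 ≤ ε * ((1 + s) * D)) :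
    upForm e σ s a a' b b' c c' R w t L x r ≤ ε := by
  subst hA hA' hSA hB hB' hSB hC hC' hSC hS2
  have hH : 0 < 1 + s := by linarith
  refine le_of_mul_le_mul_right (le_trans (le_of_eq ?_) h) (mul_pos hH hD)
  unfold upForm
  field_simp

namespace UpData

variable (D : UpData)

/-- The dimensions of the table. -/
def Range (n : ℕ) : Prop := D.n₀ ≤ n ∧ (D.n₁ = 0 ∨ n ≤ D.n₁)

/-- `1 / n` between the ends. -/
theorem range_bounds {D : UpData} (h4 : 4 ≤ D.n₀) (hn : D.Range (m + 1)) :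
    (if D.n₁ = 0 then (0 : ℝ) else 1 / (D.n₁ : ℝ)) ≤ 1 / ((m : ℝ) + 1) ∧
      1 / ((m : ℝ) + 1) ≤ 1 / (D.n₀ : ℝ) ∧ 1 / (D.n₀ : ℝ) ≤ 1 / 4 := by
  have hlo : (D.n₀ : ℝ) ≤ (m : ℝ) + 1 := by exact_mod_cast hn.1
  have hlo4 : (4 : ℝ) ≤ D.n₀ := by exact_mod_cast h4
  refine ⟨?_, one_div_le_one_div_of_le (by linarith) hlo, one_div_le_one_div_of_le (by norm_num) hlo4⟩
  split_ifs with h
  · positivity
  · refine one_div_le_one_div_of_le (by positivity) ?_
    exact_mod_cast hn.2.resolve_left h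

end UpData

/-- The cells cover. -/
theorem upChain_sound {n₁ : ℕ} : ∀ {s : ℤ} {cs : List UpCell}, upChain n₁ s cs = true →
    ∀ {σ : ℝ}, upR s ≤ σ → (0 < n₁ → σ ^ 2 < n₁) → 0 ≤ s →
      (∀ c ∈ cs, c.far = false → c.lo < c.hi) → ∃ c ∈ cs, c.Mem σ
  | s, [], h, σ, h0, h1, hs, _ => by
      simp only [upChain, decide_eq_true_eq] at h
      have hR : (n₁ : ℝ) * 4294967296 ≤ (s : ℝ) * s := by exact_mod_cast h.2
      have hσ : 0 ≤ σ := le_trans (div_nonneg (by exact_mod_cast hs) (by norm_num)) h0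
      have := pow_le_pow_left₀ (div_nonneg (by exact_mod_cast hs) (by norm_num)) h0 2
      have := h1 h.1
      simp only [upR, div_pow] at *
      linarith
  | s, c :: cs, h, σ, h0, h1, hs, hw => by
      simp only [upChain, Bool.and_eq_true, Bool.or_eq_true, decide_eq_true_eq] at h
      obtain ⟨rfl, h2⟩ := h
      by_cases hf : c.far = true
      · exact ⟨c, List.mem_cons_self, h0, fun e => by simp [hf] at e⟩
      · by_cases hσ : σ < upR c.hi
        · exact ⟨c, List.mem_cons_self, h0, fun _ => hσ⟩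
        · obtain ⟨d, hd, hdm⟩ := upChain_sound (h2.resolve_left hf) (not_lt.1 hσ) h1
            (by have := hw c List.mem_cons_self (by simpa using hf); omega)
            fun d hd => hw d (List.mem_cons_of_mem _ hd)
          exact ⟨d, List.mem_cons_of_mem _ hd, hdm⟩

namespace UpCell

variable {c : UpCell} {D : UpData}

theorem box_mem (h4 : 4 ≤ D.n₀) (hn : D.Range (m + 1)) (hlo : c.far = true → 0 < c.lo) {t σ : ℝ}
    (hP : UpPoint m t σ) (hσ : c.Mem σ) :
    Packed.memC (c.box D)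
      (if c.far then 1 / σ else 1 / ((m : ℝ) + 1))
      (if c.far then 1 / ((m : ℝ) + 1) * σ ^ 2 else σ) := by
  obtain ⟨he0, he1, -⟩ := UpData.range_bounds h4 hn
  have he : 0 < 1 / ((m : ℝ) + 1) := by positivity
  by_cases hf : c.far = true
  · have hlo' : (0 : ℝ) < c.lo := by exact_mod_cast hlo hf
    simp only [box, hf, if_true, Packed.memC]
    have h1 : (1 / σ) * 65536 ≤ ((4294967296 / c.lo + 1 : ℤ) : ℝ) := by
      have hq := Int.lt_ediv_add_one_mul_self (4294967296 : ℤ) (hlo hf)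
      have hq' : (4294967296 : ℝ) < ((4294967296 / c.lo + 1 : ℤ) : ℝ) * c.lo := by
        exact_mod_cast hq
      have hσl : (c.lo : ℝ) / 65536 ≤ σ := hσ.1
      rw [div_le_iff₀ (by norm_num)] at hσl
      have h2 : 65536 / σ ≤ 4294967296 / (c.lo : ℝ) := by
        rw [div_le_div_iff₀ hP.σ_pos hlo']
        linarith
      rw [div_mul_eq_mul_div, one_mul]
      refine h2.trans ?_
      rw [div_le_iff₀ hlo']
      exact hq'.le
    have hstrict : 1 / σ * 65536 < ((4294967296 / c.lo + 1 : ℤ) : ℝ) := by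
      have hq := Int.lt_ediv_add_one_mul_self (4294967296 : ℤ) (hlo hf)
      have hq' : (4294967296 : ℝ) < ((4294967296 / c.lo + 1 : ℤ) : ℝ) * c.lo := by
        exact_mod_cast hq
      have hσl : (c.lo : ℝ) ≤ σ * 65536 := by
        have := hσ.1
        rwa [upR, div_le_iff₀ (by norm_num)] at this
      rw [div_mul_eq_mul_div, one_mul, div_lt_iff₀ hP.σ_pos]
      have h0 : (0 : ℝ) ≤ ((4294967296 / c.lo + 1 : ℤ) : ℝ) := by
        have := Int.ediv_nonneg (show (0 : ℤ) ≤ 4294967296 by norm_num) (hlo hf).le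
        exact_mod_cast (show (0 : ℤ) ≤ 4294967296 / c.lo + 1 by linarith)
      linarith [mul_le_mul_of_nonneg_left hσl h0]
    have hX : (c.farX D : ℝ) ≤ 1 / σ * 65536 := by
      unfold farX
      split_ifs with h
      · obtain ⟨hn₁, hhi, hsq⟩ := h
        have hhi' : (0 : ℝ) < c.hi := by exact_mod_cast hhi
        have hsq' : (D.n₁ : ℝ) * 4294967296 ≤ (c.hi : ℝ) * c.hi := by exact_mod_cast hsq
        have hn' : (m : ℝ) + 1 ≤ (D.n₁ : ℝ) := by exact_mod_cast hn.2.resolve_left (by omega)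
        have hu := hP.u_lt
        rw [div_mul_eq_mul_div, one_mul, div_lt_one (by positivity)] at hu
        have hle : σ * 65536 ≤ (c.hi : ℝ) :=
          (pow_le_pow_iff_left₀ (mul_pos hP.σ_pos (by norm_num)).le hhi'.le two_ne_zero).1 (by
            linarith)
        have hq := Int.ediv_mul_le (4294967296 : ℤ) hhi.ne'
        have hq' : ((4294967296 / c.hi : ℤ) : ℝ) * c.hi ≤ 4294967296 := by exact_mod_cast hq
        rw [div_mul_eq_mul_div, one_mul, le_div_iff₀ hP.σ_pos]
        have hq0 : (0 : ℝ) ≤ ((4294967296 / c.hi : ℤ) : ℝ) := by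
          exact_mod_cast Int.ediv_nonneg (by norm_num) hhi.le
        linarith [mul_le_mul_of_nonneg_left hle hq0]
      · simpa using (one_div_pos.2 hP.σ_pos).le
    have hY : (c.farY D : ℝ) ≤ 1 / ((m : ℝ) + 1) * σ ^ 2 * 65536 := by
      unfold farY
      split_ifs with h
      · simpa using mul_nonneg he.le (sq_nonneg σ)
      · have hn₁ : (0 : ℝ) < (D.n₁ : ℝ) := by exact_mod_cast Nat.pos_of_ne_zero h
        have hn' : (m : ℝ) + 1 ≤ (D.n₁ : ℝ) := by exact_mod_cast hn.2.resolve_left h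
        have hden : ((D.n₁ : ℤ) * 65536) ≠ 0 := by
          simp [h]
        have hq := Int.ediv_mul_le (c.lo * c.lo) hden
        have hden' : (0 : ℝ) < (D.n₁ : ℝ) * 65536 := by positivity
        have hq' : ((c.lo * c.lo / ((D.n₁ : ℤ) * 65536) : ℤ) : ℝ) * ((D.n₁ : ℝ) * 65536) ≤
            (c.lo : ℝ) * c.lo := by
          have h2 : (0 : ℤ) < (D.n₁ : ℤ) * 65536 := by positivity
          exact_mod_cast Int.ediv_mul_le (c.lo * c.lo) h2.ne'
        refine le_trans ((le_div_iff₀ hden').2 hq') ?_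
        have hσl : (c.lo : ℝ) ≤ σ * 65536 := by
          have := hσ.1
          rwa [upR, div_le_iff₀ (by norm_num)] at this
        have hsq := mul_self_le_mul_self hlo'.le hσl
        rw [show 1 / ((m : ℝ) + 1) * σ ^ 2 * 65536 = σ ^ 2 * 65536 / ((m : ℝ) + 1) by ring,
          div_le_div_iff₀ hden' (by positivity)]
        refine (mul_le_mul_of_nonneg_right hsq (by positivity)).trans ?_
        have := mul_le_mul_of_nonneg_left hn' (mul_self_nonneg (σ * 65536))
        linarith
    have hY1 : 1 / ((m : ℝ) + 1) * σ ^ 2 * 65536 < 65536 := by linarith [hP.u_lt]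
    refine ⟨by norm_num, ?_, ?_, by simpa using hX, by simpa using h1, by simpa using hY,
      by simpa using hY1.le⟩
    · exact_mod_cast hX.trans_lt hstrict
    · exact_mod_cast hY.trans_lt hY1
  · simp only [box, hf, if_false, Packed.memC, Bool.false_eq_true]
    have hn0 : (0 : ℤ) < (D.n₀ : ℤ) := by exact_mod_cast (by omega : 0 < D.n₀)
    have hA : ((if D.n₁ = 0 then 0 else 65536 / (D.n₁ : ℤ) : ℤ) : ℝ) ≤
        1 / ((m : ℝ) + 1) * 65536 := by
      refine le_trans ?_ (mul_le_mul_of_nonneg_right he0 (by norm_num))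
      split_ifs with h
      · simp
      · have hq := Int.ediv_mul_le (65536 : ℤ) (show (D.n₁ : ℤ) ≠ 0 by exact_mod_cast h)
        have hq' : ((65536 / (D.n₁ : ℤ) : ℤ) : ℝ) * (D.n₁ : ℝ) ≤ 65536 := by exact_mod_cast hq
        rw [div_mul_eq_mul_div, one_mul, le_div_iff₀ (by exact_mod_cast Nat.pos_of_ne_zero h)]
        exact hq'
    have hB : 1 / ((m : ℝ) + 1) * 65536 < ((65536 / (D.n₀ : ℤ) + 1 : ℤ) : ℝ) := by
      refine lt_of_le_of_lt (mul_le_mul_of_nonneg_right he1 (by norm_num)) ?_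
      have hq := Int.lt_ediv_add_one_mul_self (65536 : ℤ) hn0
      have hq' : (65536 : ℝ) < ((65536 / (D.n₀ : ℤ) + 1 : ℤ) : ℝ) * (D.n₀ : ℝ) := by
        exact_mod_cast hq
      rw [div_mul_eq_mul_div, one_mul, div_lt_iff₀ (by exact_mod_cast (by omega : 0 < D.n₀))]
      exact hq'
    have hlo' : (c.lo : ℝ) ≤ σ * 65536 := by
      have := hσ.1
      rwa [upR, div_le_iff₀ (by norm_num)] at this
    have hhi' : σ * 65536 < (c.hi : ℝ) := by
      have := hσ.2 (by simpa using hf)
      rwa [upR, lt_div_iff₀ (by norm_num)] at this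
    refine ⟨by norm_num, ?_, by exact_mod_cast hlo'.trans_lt hhi', by simpa using hA,
      by simpa using hB.le, by simpa using hlo', by simpa using hhi'.le⟩
    exact_mod_cast hA.trans_lt hB

/-- A part of the cell holds the point. -/
theorem subs_sound {σ : ℝ} (hσ : c.Mem σ) (hf : c.far = false) : ∀ (bs : List ℤ) (a : ℤ),
    upR a ≤ σ → 0 ≤ a → (∀ x ∈ bs, 0 ≤ x) →
    ∃ p ∈ c.subsFrom a bs, p.Mem σ ∧ 0 ≤ p.lo ∧ p.U = c.U
  | [], a, ha, h0, _ =>
      ⟨c.restrict a c.hi, by simp [subsFrom], ⟨ha, hσ.2⟩, h0, rfl⟩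
  | b :: bs, a, ha, h0, hbs => by
      by_cases h : σ < upR b
      · exact ⟨c.restrict a b, by simp [subsFrom], ⟨ha, fun _ => h⟩, h0, rfl⟩
      · obtain ⟨p, hp, h1⟩ := subs_sound hσ hf bs b (not_lt.1 h) (hbs b (by simp))
          fun x hx => hbs x (by simp [hx])
        exact ⟨p, by simp [subsFrom, hp], h1⟩

theorem triOK_nonneg {p : List ℤ} (h : c.triOK D p = true) {x y : ℝ}
    (hm : Packed.memC (c.box D) x y) : 0 ≤ (c.tri D p).val x y := by
  simp only [triOK, Bool.or_eq_true, List.isEmpty_iff] at h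
  rcases h with rfl | h
  · simp [tri, UE.val_const]
  · exact UE.val_nonneg h hm

theorem eVar_val {D : UpData} (hf : c.far = false) (h4 : 4 ≤ D.n₀) (hn : D.Range (m + 1)) (x y : ℝ)
    (hx : x = 1 / ((m : ℝ) + 1)) : (c.eVar D).val x y = x := by
  unfold eVar
  simp only [hf, Bool.false_eq_true, if_false]
  split_ifs with h
  · simp only [Nat.beq_eq] at h
    obtain ⟨h0, h1⟩ := hn
    have e : D.n₀ = m + 1 := by omega
    rw [UE.val_const, hx, e, Nat.add_sub_cancel, Int.cast_one]
  · rfl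

theorem coef_pieces {F : UpFlux} (hF : F.check = true) :
    (∀ A ∈ [F.A, F.B, F.C], (∀ p ∈ A.pieces F.ws, 0 < p.1) ∧ A.last F.ws = F.last) ∧
      (F.A.pieces F.ws).length = F.ws.length ∧
      ∀ j, rampKnot (F.B.pieces F.ws) 0 j = rampKnot (F.A.pieces F.ws) 0 j ∧
        rampKnot (F.C.pieces F.ws) 0 j = rampKnot (F.A.pieces F.ws) 0 j := by
  simp only [UpFlux.check, Bool.and_eq_true, decide_eq_true_eq] at hF
  obtain ⟨hw, hA, hB, hC, hlB, hlC⟩ := hF
  have hpos : ∀ A : UpCoef, ∀ p ∈ A.pieces F.ws, 0 < p.1 := fun A p hp =>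
    hw p.1 (List.of_mem_zip (show (p.1, p.2) ∈ F.ws.zip A.incs from hp)).1
  have hk : ∀ (ws : List ℤ) (l l' : List UpInc) (k : ℤ) (j : ℕ), l.length = ws.length →
      l'.length = ws.length → rampKnot (ws.zip l) k j = rampKnot (ws.zip l') k j := by
    intro ws
    induction ws with
    | nil => intros; simp [rampKnot]
    | cons w ws ih =>
      intro l l' k j h h'
      rcases l with _ | ⟨a, l⟩
      · simp at h
      rcases l' with _ | ⟨a', l'⟩
      · simp at h'
      rcases j with _ | j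
      · simp [rampKnot]
      simpa [rampKnot] using ih l l' (k + w) j (by simpa using h) (by simpa using h')
  refine ⟨fun A hA' => ⟨hpos A, ?_⟩, ?_, fun j => ⟨hk _ _ _ 0 j hB hA, hk _ _ _ 0 j hC hA⟩⟩
  · simp only [List.mem_cons, List.not_mem_nil, or_false] at hA'
    rcases hA' with rfl | rfl | rfl
    exacts [rfl, hlB, hlC]
  · simp [UpCoef.pieces, hA]

/-- The inequality of a cell. -/
theorem form_le (hF : D.F.check = true) (h4 : 4 ≤ D.n₀) (ht₁ : 0 < D.t₁.1)
    (ht₁' : 0 < upQ D.t₁.1 + upQ D.t₁.2 / (D.n₀ : ℚ)) (hn : D.Range (m + 1))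
    (hshape : c.shapeOK D = true)
    (hpoly : c.polyOK D = true) {t σ x r R : ℝ}
    (hP : UpPoint m t σ) (hσ : c.Mem σ) (hx : 0 ≤ x)
    (hR0 : 1 / 2 + 1 / ((m : ℝ) + 1) / 8 - (1 / ((m : ℝ) + 1)) ^ 2 / 16 -
      (1 / ((m : ℝ) + 1)) ^ 3 / 24 ≤ R)
    (hR1 : R ≤ 1 / 2 + 1 / ((m : ℝ) + 1) / 8 - (1 / ((m : ℝ) + 1)) ^ 2 / 16)
    (hgap : r * (1 + 1 / ((m : ℝ) + 1) * σ ^ 2 - 2 * (1 / ((m : ℝ) + 1)) * σ *
        (upR c.g.1 + upR c.g.2 * (1 / ((m : ℝ) + 1)))) ≤
      2 * σ - (upR c.g.1 + upR c.g.2 * (1 / ((m : ℝ) + 1))) * (1 + 1 / ((m : ℝ) + 1) * σ ^ 2))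
    (hU : c.noU = true ∨ x ≤ upR c.U.1 + upR c.U.2.1 * σ +
      (upR c.U.2.2.1 + upR c.U.2.2.2 * σ) * (1 / ((m : ℝ) + 1))) :
    upForm (1 / ((m : ℝ) + 1)) σ (1 / ((m : ℝ) + 1) * σ ^ 2)
      (D.F.A.val D.F.ws (1 / ((m : ℝ) + 1)) σ) (D.F.A.der D.F.ws (1 / ((m : ℝ) + 1)) σ)
      (D.F.B.val D.F.ws (1 / ((m : ℝ) + 1)) σ) (D.F.B.der D.F.ws (1 / ((m : ℝ) + 1)) σ)
      (D.F.C.val D.F.ws (1 / ((m : ℝ) + 1)) σ) (D.F.C.der D.F.ws (1 / ((m : ℝ) + 1)) σ)
      R (weightPoly (ballShape t)) (upR D.t₁.1 + upR D.t₁.2 * (1 / ((m : ℝ) + 1)))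
      (upR D.lam.1 + upR D.lam.2 * (1 / ((m : ℝ) + 1))) x r ≤ upR D.eps := by
  obtain ⟨-, he1, he4⟩ := UpData.range_bounds h4 hn
  obtain ⟨hco, hlen, hknot⟩ := coef_pieces hF
  obtain ⟨hwA, -⟩ := hco D.F.A (by simp)
  obtain ⟨hwB, hlB⟩ := hco D.F.B (by simp)
  obtain ⟨hwC, hlC⟩ := hco D.F.C (by simp)
  simp only [shapeOK, Bool.and_eq_true, decide_eq_true_eq] at hshape
  obtain ⟨⟨⟨⟨⟨⟨⟨hW0, hW1, -⟩, hm0⟩, hm1⟩, hn0⟩, hn1⟩, hxt⟩, hplace⟩ := hshape
  have hlo : c.far = true → 0 < c.lo := fun hf => by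
    simp only [hf, if_true, Bool.and_eq_true, decide_eq_true_eq] at hplace
    exact hplace.1.2
  have hbox := box_mem h4 hn hlo hP hσ
  have hw := hP.p_eq
  set e := 1 / ((m : ℝ) + 1) with he
  set u := e * σ ^ 2 with hu
  have he0 : 0 < e := by rw [he]; positivity
  have hu0 : 0 ≤ u := by positivity
  have hσ0 := hP.σ_pos
  set g := upR c.g.1 + upR c.g.2 * e with hg
  -- `t₁` and the weight
  have htpos : 0 < upR D.t₁.1 + upR D.t₁.2 * e := by
    have t0 : (0 : ℝ) < upR D.t₁.1 := div_pos (by exact_mod_cast ht₁) (by norm_num)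
    have t1 := (Rat.cast_lt (K := ℝ)).2 ht₁'
    push_cast at t1
    rw [← upR_cast, ← upR_cast, div_eq_mul_one_div (upR D.t₁.2)] at t1
    rcases le_total 0 (upR D.t₁.2) with hb | hb
    · have := mul_nonneg hb he0.le
      linarith
    · linarith [mul_le_mul_of_nonpos_left he1 hb]
  have hWpos : 0 < upR c.W.1 + upR c.W.2 * u := by
    have w0 : (0 : ℝ) < upR c.W.1 := div_pos (by exact_mod_cast hW0) (by norm_num)
    have w1 : (0 : ℝ) < upR (c.W.1 + c.W.2) := div_pos (by exact_mod_cast hW1) (by norm_num)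
    rw [upR_add] at w1
    rcases le_total 0 (upR c.W.2) with hb | hb
    · have := mul_nonneg hb hu0
      linarith
    · linarith [mul_le_mul_of_nonpos_left hP.u_lt.le hb]
  have hR' : 1 / 2 + e / 8 - e ^ 2 / 16 - e ^ 3 / 24 ≤ R := hR0
  by_cases h3 : (c.far && D.F.cubic) = true
  · obtain ⟨hf, -⟩ := Bool.and_eq_true_iff.1 h3
    simp only [hf, if_true] at hplace hbox
    simp only [Bool.and_eq_true, decide_eq_true_eq] at hplace
    obtain ⟨⟨hlast, -⟩, -⟩ := hplace
    have hσK : upR D.F.last ≤ σ := by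
      have := hσ.1
      rwa [hlast] at this
    simp only [polyOK, h3, if_true] at hpoly
    have eE : u / σ ^ 2 = e := by rw [hu]; field_simp
    have eu : u * (1 / σ * (1 / σ)) = e := by rw [hu]; field_simp
    obtain ⟨a1, a2⟩ := D.F.farNum₃_eq D.F.A hσ0 hu0 hwA rfl (by simpa [UpFlux.last] using hσK)
    obtain ⟨b1, b2⟩ := D.F.farNum₃_eq D.F.B hσ0 hu0 hwB hlB (by rw [hlB]; exact hσK)
    obtain ⟨c1, c2⟩ := D.F.farNum₃_eq D.F.C hσ0 hu0 hwC hlC (by rw [hlC]; exact hσK)
    rw [eE] at a1 a2 b1 b2 c1 c2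
    have key := upFar_sound hpoly hbox (τ := 1 / σ) (s := u) (R := R)
      (w := weightPoly (ballShape t)) (x := x) (y := r * x)
      (by
        simp only [UpFlux.geomFar₃, UE.val_mul, UE.val_X, UE.val_Y, eu]
        linarith)
      (by simp [UpFlux.geomFar₃, UE.val_add, UE.val_const, UE.val_Y])
      (by simp [UpFlux.geomFar₃, UE.val_sub, UE.val_const, UE.val_Y]) hu0 hP.u_lt.le
      (by simp only [UpFlux.geomFar₃, UE.val_mul, UE.val_add, UE.val_X, UE.val_Y, UE.val_const]
          push_cast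
          positivity)
      (by simp only [UpFlux.geomFar₃, UE.val_mul, UE.val_X]; ring)
      (by simp only [UpFlux.geomFar₃, UE.val_mul, UE.val_X]; ring)
      (by simp only [UpFlux.geomFar₃, UE.val_mul, UE.val_X]; ring)
      (by rw [hw]) (by
        simp only [mult₃, mult, hf, if_true, upAff, UE.val_add, UE.val_mul, val_upC, UE.val_X,
          UE.val_Y, eu]
        exact htpos)
      (by
        simp only [mult₃, mult, hf, if_true, UE.val_add, UE.val_mul, val_upC, UE.val_Y]
        exact hWpos)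
      (by simp only [UpFlux.geomFar₃, UE.val_mul, UE.val_X, UE.val_Y, eu]; exact hR')
      (by simp only [UpFlux.geomFar₃, UE.val_mul, UE.val_X, UE.val_Y, eu]; exact hR1) hx
      (by
        simp only [mult₃, mult, hf, if_true, upAff, UE.val_add, UE.val_sub, UE.val_mul,
          UE.val_const, val_upC, UE.val_X, UE.val_Y]
        push_cast
        rw [eu, ← hg]
        have h1 := mul_le_mul_of_nonneg_right hgap (mul_nonneg (one_div_pos.2 hσ0).le hx)
        have e1 : (2 * σ - g * (1 + u)) * (1 / σ * x) = (2 - g * ((1 + u) * (1 / σ))) * x := by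
          field_simp
        have e2 : r * (1 + u - 2 * e * σ * g) * (1 / σ * x) =
            r * x * (1 / σ * (1 + u - 2 * u * (1 / σ) * g)) := by
          rw [hu]
          field_simp
        rw [e1, e2] at h1
        norm_num at h1 ⊢
        linarith)
    simp only [UpFlux.geomFar₃, mult₃, mult, hf, if_true, upAff, UE.val_mul, UE.val_add, UE.val_X,
      UE.val_Y, UE.val_const, val_upC] at key
    push_cast at key
    rw [eu, ← a1, ← a2, ← b1, ← b2, ← c1, ← c2] at key
    norm_num only [zero_add, div_one] at key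
    refine upForm_le (D := (1 + u) ^ 2 / σ ^ 4) (by positivity) hu0 rfl rfl rfl rfl rfl rfl rfl rfl rfl
      rfl (le_trans (le_of_eq ?_) (key.trans (le_of_eq ?_)))
    · field_simp
    · field_simp
  simp only [polyOK, h3, if_false, Bool.false_eq_true] at hpoly
  by_cases hf : c.far = true
  · have hcub : D.F.cubic = false := by simpa [hf] using h3
    simp only [UpFlux.cubic, decide_eq_false_iff_not, not_or, not_not] at hcub
    simp only [hf, if_true] at hplace hbox
    simp only [Bool.and_eq_true, decide_eq_true_eq] at hplace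
    obtain ⟨⟨hlast, -⟩, hnoU⟩ := hplace
    have hσK : upR D.F.last ≤ σ := by
      have := hσ.1
      rwa [hlast] at this
    simp only [geom, hf, if_true] at hpoly
    have m0 := triOK_nonneg hm0 hbox
    have m1 := triOK_nonneg (by simpa [muOK, hf] using hm1) hbox
    have eE : u / σ ^ 2 = e := by rw [hu]; field_simp
    obtain ⟨a1, a2⟩ := D.F.farNum_eq D.F.A hσ0 hu0 hwA rfl (by simpa [UpFlux.last] using hσK)
      hcub.1
    obtain ⟨b1, b2⟩ := D.F.farNum_eq D.F.B hσ0 hu0 hwB hlB (by rw [hlB]; exact hσK) hcub.2.1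
    obtain ⟨c1, c2⟩ := D.F.farNum_eq D.F.C hσ0 hu0 hwC hlC (by rw [hlC]; exact hσK) hcub.2.2
    rw [eE] at a1 a2 b1 b2 c1 c2
    have key := upPoly_sound hpoly hbox (fun _ => by
      have := triOK_nonneg hxt hbox
      have h1 : 0 < upR 1 := by norm_num [upR]
      simp only [mult, UE.val_add, val_upC]
      linarith) (s := u) (R := R) (w := weightPoly (ballShape t)) (x := x)
      (y := r * x) (by
        simp only [UpFlux.geomFar, UE.val_mul, UE.val_X, UE.val_Y]
        rw [show u * (1 / σ * (1 / σ)) = e by rw [hu]; field_simp]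
        linarith)
      (by simp [UpFlux.geomFar, UE.val_add, UE.val_const, UE.val_Y])
      (by simp [UpFlux.geomFar, UE.val_sub, UE.val_const, UE.val_Y]) hu0 hP.u_lt.le
      (by simp only [UpFlux.geomFar, UE.val_mul, UE.val_add, UE.val_X, UE.val_Y, UE.val_const]
          push_cast
          positivity)
      (by rw [hw]) (by
        simp only [mult, hf, if_true, upAff, UE.val_add, UE.val_mul, val_upC, UE.val_X, UE.val_Y]
        rw [show u * (1 / σ * (1 / σ)) = e by rw [hu]; field_simp]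
        exact htpos)
      (by
        simp only [mult, hf, if_true, UE.val_add, UE.val_mul, val_upC, UE.val_Y]
        exact hWpos)
      (by
        simp only [UpFlux.geomFar, UE.val_mul, UE.val_X, UE.val_Y]
        rw [show u * (1 / σ * (1 / σ)) = e by rw [hu]; field_simp]
        exact hR')
      (by
        simp only [UpFlux.geomFar, UE.val_mul, UE.val_X, UE.val_Y]
        rw [show u * (1 / σ * (1 / σ)) = e by rw [hu]; field_simp]
        exact hR1) hx
      (by
        simp only [mult, hf, if_true]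
        refine mul_nonneg (add_nonneg m0 (mul_nonneg m1 hx)) ?_
        simp only [upAff, UE.val_add, UE.val_sub, UE.val_mul, UE.val_const, val_upC, UE.val_X,
          UE.val_Y]
        push_cast
        rw [show u * (1 / σ * (1 / σ)) = e by rw [hu]; field_simp, ← hg]
        have h1 := mul_le_mul_of_nonneg_right hgap (mul_nonneg (one_div_pos.2 hσ0).le hx)
        have e1 : (2 * σ - g * (1 + u)) * (1 / σ * x) = (2 / 1 - g * ((1 + u) * (1 / σ))) * x := by
          field_simp
        have e2 : r * (1 + u - 2 * e * σ * g) * (1 / σ * x) =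
            ((1 + u) * (1 / σ) - 2 * u * (1 / σ * (1 / σ)) * g) * (r * x) := by
          rw [hu]
          field_simp
        rw [e1, e2] at h1
        norm_num at h1 ⊢
        linarith)
      (by
        simp only [noU, Bool.and_eq_true, List.isEmpty_iff] at hnoU
        simp [mult, hf, tri, hnoU.1, hnoU.2, UE.val_const])
    simp only [UpFlux.geomFar, mult, hf, if_true, upAff, UE.val_mul, UE.val_add, UE.val_X, UE.val_Y,
      UE.val_const, val_upC] at key
    push_cast at key
    rw [show u * (1 / σ * (1 / σ)) = e by rw [hu]; field_simp, ← a1, ← a2, ← b1, ← b2, ← c1, ← c2]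
      at key
    norm_num only [zero_add, div_one] at key
    refine upForm_le (D := (1 + u) ^ 2 / σ ^ 3) (by positivity) hu0 rfl rfl rfl rfl rfl rfl rfl rfl rfl
      rfl (le_trans (le_of_eq ?_) (key.trans (le_of_eq ?_)))
    · field_simp
    · field_simp
  · simp only [hf, if_false, Bool.false_eq_true, decide_eq_true_eq] at hplace hbox
    obtain ⟨hj, hlo0, -, hk0, hk1, hk2⟩ := hplace
    simp only [geom, hf, if_false, Bool.false_eq_true] at hpoly
    have m0 := triOK_nonneg hm0 hbox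
    have n0 := triOK_nonneg hn0 hbox
    have n1 := triOK_nonneg hn1 hbox
    have s0 : upR (rampKnot (D.F.A.pieces D.F.ws) 0 c.j) ≤ σ :=
      le_trans (div_le_div_of_nonneg_right (by exact_mod_cast hk0) (by norm_num)) hσ.1
    have s1 : σ < upR (rampKnot (D.F.A.pieces D.F.ws) 0 (c.j + 1)) :=
      lt_of_lt_of_le (hσ.2 (by simpa using hf))
        (div_le_div_of_nonneg_right (by exact_mod_cast hk1) (by norm_num))
    have hX : (c.eVar D).val e σ = e := eVar_val (by simpa using hf) h4 hn e σ he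
    have hY : UE.Y.val e σ = σ := UE.val_Y _ _
    obtain ⟨a1, a2⟩ := D.F.A.piece_eq D.F.ws (c.eVar D) UE.Y (x := e) (y := σ) hwA (by omega)
      (by rw [hY]; exact s0) (by rw [hY]; exact s1) hk2
    obtain ⟨kb, kc⟩ := hknot c.j
    obtain ⟨kb', kc'⟩ := hknot (c.j + 1)
    obtain ⟨b1, b2⟩ := D.F.B.piece_eq D.F.ws (c.eVar D) UE.Y (x := e) (y := σ) hwB
      (by
        simp only [UpFlux.check, Bool.and_eq_true, decide_eq_true_eq] at hF
        simp [UpCoef.pieces, hF.2.2.1]; omega)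
      (by rw [hY, kb]; exact s0) (by rw [hY, kb']; exact s1) (by rw [kb', hlB]; exact hk2)
    obtain ⟨c1, c2⟩ := D.F.C.piece_eq D.F.ws (c.eVar D) UE.Y (x := e) (y := σ) hwC
      (by
        simp only [UpFlux.check, Bool.and_eq_true, decide_eq_true_eq] at hF
        simp [UpCoef.pieces, hF.2.2.2.1]; omega)
      (by rw [hY, kc]; exact s0) (by rw [hY, kc']; exact s1) (by rw [kc', hlC]; exact hk2)
    rw [hX, hY] at a1 a2 b1 b2 c1 c2
    have eu : e * (σ * σ) = u := by rw [hu, sq]
    have hmu : 0 ≤ (c.tri D c.μ₀).val e σ + (c.tri D c.μ₁).val e σ * x := by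
      rcases le_or_gt 0 ((c.tri D c.μ₁).val e σ) with h1 | h1
      · exact add_nonneg m0 (mul_nonneg h1 hx)
      rcases Bool.or_eq_true_iff.1 hm1 with ht | ht
      · exact absurd (triOK_nonneg ht hbox) (not_le.2 h1)
      simp only [hf, Bool.and_eq_true, Bool.not_eq_true'] at ht
      rcases hU with hno | hU
      · rw [hno] at ht
        simp at ht
      have h2 := UE.val_nonneg ht.2 hbox
      simp only [mult, hf, if_false, Bool.false_eq_true, UE.val_add, UE.val_mul, val_upC, hX,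
        UE.val_Y] at h2
      linarith [mul_le_mul_of_nonpos_left hU h1.le]
    have key := upPoly_sound hpoly hbox (fun _ => by
      have := triOK_nonneg hxt hbox
      have h1 : 0 < upR 1 := by norm_num [upR]
      simp only [mult, UE.val_add, val_upC]
      linarith) (s := u) (R := R) (w := weightPoly (ballShape t)) (x := x)
      (y := r * x) (by simp only [UpFlux.geomPiece, hX]; linarith)
      (by simp [UpFlux.geomPiece, UE.val_add, UE.val_mul, UE.val_const, hX, UE.val_Y, eu])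
      (by simp [UpFlux.geomPiece, UE.val_sub, UE.val_mul, UE.val_const, hX, UE.val_Y, eu])
      hu0 hP.u_lt.le (by simp [UpFlux.geomPiece, UE.val_const]) (by rw [hw])
      (by
        simp only [mult, hf, if_false, Bool.false_eq_true, upAff, UE.val_add, UE.val_mul, val_upC,
          hX]
        exact htpos)
      (by
        simp only [mult, hf, if_false, Bool.false_eq_true, UE.val_add, UE.val_mul, val_upC,
          hX, UE.val_Y, eu]
        exact hWpos)
      (by simp only [UpFlux.geomPiece, hX]; exact hR')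
      (by simp only [UpFlux.geomPiece, hX]; exact hR1) hx
      (by
        simp only [mult, hf, if_false, Bool.false_eq_true]
        refine mul_nonneg hmu ?_
        simp only [upAff, UE.val_add, UE.val_sub, UE.val_mul, UE.val_const, val_upC, hX,
          UE.val_Y, eu]
        push_cast
        rw [← hg]
        have h1 := mul_le_mul_of_nonneg_right hgap hx
        norm_num
        linarith)
      (by
        rcases hU with hno | hU
        · simp only [noU, Bool.and_eq_true, List.isEmpty_iff] at hno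
          simp [mult, hf, tri, hno.1, hno.2, UE.val_const]
        · simp only [mult, hf, if_false, Bool.false_eq_true]
          refine mul_nonneg (add_nonneg n0 (mul_nonneg n1 hx)) ?_
          simp only [UE.val_add, UE.val_mul, val_upC, hX, UE.val_Y]
          linarith)
    simp only [UpFlux.geomPiece, mult, hf, if_false, Bool.false_eq_true, upAff, UE.val_mul,
      UE.val_add, hX, UE.val_Y, UE.val_const, val_upC, ← a1, ← a2, ← b1, ← b2, ← c1, ← c2]
      at key
    push_cast at key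
    norm_num only [zero_add, div_one] at key
    exact upForm_le (D := 1) one_pos hu0 (mul_one _).symm (mul_one _).symm (by ring)
      (mul_one _).symm (mul_one _).symm (by ring) (mul_one _).symm (mul_one _).symm (by ring)
      (by ring) key

end UpCell

/-- The half angle increases strictly. -/
theorem halfAngle_lt {a b : ℝ} (ha : 0 ≤ a) (hab : a < b) (hb : b ≤ 1) :
    halfAngle a < halfAngle b := by
  refine div_lt_div₀ hab ?_ (ha.trans hab.le) (one_add_ball_pos b)
  have : ballShape b ≤ ballShape a := Real.sqrt_le_sqrt (by nlinarith)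
  linarith

/-- The right derivative of a function of `σ = √n halfAngle t`. -/
theorem hasDeriv_comp_half {f : ℝ → ℝ} {f' k : ℝ} (hk : 0 < k) {t : ℝ} (ht : t ∈ Ioo (0 : ℝ) 1)
    (hf : HasDerivWithinAt f f' (Ioi (k * halfAngle t)) (k * halfAngle t)) :
    HasDerivWithinAt (fun s => f (k * halfAngle s))
      (f' * (k * (1 / (ballShape t * (1 + ballShape t))))) (Ioi t) t := by
  have hh : HasDerivWithinAt (fun s => k * halfAngle s)
      (k * (1 / (ballShape t * (1 + ballShape t)))) (Ioo t 1) t :=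
    ((hasDerivAt_halfAngle (sub01 ht)).const_mul k).hasDerivWithinAt
  have hmaps : MapsTo (fun s => k * halfAngle s) (Ioo t 1) (Ioi (k * halfAngle t)) :=
    fun s hs => mul_lt_mul_of_pos_left (halfAngle_lt ht.1.le hs.1 hs.2.le) hk
  exact (hf.comp t hh hmaps).mono_of_mem_nhdsWithin (Ioo_mem_nhdsGT ht.2)

/-- Bounds of `n (r - 1)`. -/
theorem ratio_window (hm : 3 ≤ m) :
    1 / 2 + 1 / ((m : ℝ) + 1) / 8 - (1 / ((m : ℝ) + 1)) ^ 2 / 16 -
          (1 / ((m : ℝ) + 1)) ^ 3 / 24 ≤ ((m : ℝ) + 1) * (ballRatio m - 1) ∧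
      ((m : ℝ) + 1) * (ballRatio m - 1) ≤
        1 / 2 + 1 / ((m : ℝ) + 1) / 8 - (1 / ((m : ℝ) + 1)) ^ 2 / 16 := by
  obtain ⟨h0, h1⟩ := ballRatio_bracket hm
  simp only [ratioCubic] at h0 h1
  set n := (m : ℝ) + 1 with hn
  set e := 1 / n with he
  have hn0 : 0 < n := by positivity
  have hne : n * e = 1 := by rw [he]; field_simp
  have he0 : 0 ≤ e := by positivity
  have he1 : e ≤ 1 := by
    rw [he, div_le_one hn0, hn]
    linarith [(Nat.cast_nonneg m : (0 : ℝ) ≤ m)]
  have i0 := mul_le_mul_of_nonneg_left h0 hn0.le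
  have i1 := mul_le_mul_of_nonneg_left h1 hn0.le
  have e0 : n * (1 + e / 2 + e ^ 2 * (1 / 8 - e / 16 - 1 * e ^ 2 / 24)) =
      n + 1 / 2 + e / 8 - e ^ 2 / 16 - e ^ 3 / 24 := by
    linear_combination (1 / 2 + e / 8 - e ^ 2 / 16 - e ^ 3 / 24) * hne
  have e1 : n * (1 + e / 2 + e ^ 2 * (1 / 8 - e / 16 - 0 * e ^ 2 / 24)) =
      n + 1 / 2 + e / 8 - e ^ 2 / 16 := by
    linear_combination (1 / 2 + e / 8 - e ^ 2 / 16) * hne
  constructor <;> linarith

/-- From the form to the inequality of the calibration at a point, `h` the half angle. -/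
theorem upScale {n k h a a' b b' c c' L t₁ x ρ r w ε : ℝ} (hn : 0 < n) (hk0 : 0 < k)
    (hk : k * k = n)
    (hF : upForm (1 / n) (k * h) (h ^ 2) a a' b b' c c' (n * (r - 1)) w t₁ L x (k * ρ) ≤ ε) :
    ((1 - h ^ 2) / 2 * a' / n - n * (2 * h / (1 + h ^ 2)) * (1 / (n * k) * a)) +
        ((1 - h ^ 2) / 2 * b' / n - n * (2 * h / (1 + h ^ 2)) * (1 / (n * k) * b)) * x +
        ((1 - h ^ 2) / 2 * c' / n - n * (2 * h / (1 + h ^ 2)) * (1 / (n * k) * c)) * x ^ 2 +
        (n - 1) / 2 * ρ * x * (1 / (n * k) * b + 2 * (1 / (n * k) * c) * x) +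
      (2 * (r * ((1 - h ^ 2) / (1 + h ^ 2)) - 1) * x + L / n * (x - 1) -
        t₁ * (r * ((1 - h ^ 2) / (1 + h ^ 2)) - 1 + (1 - 1 / n) / 2 * w * (k * ρ) ^ 2 / n) *
          x ^ 2) ≤ ε / n := by
  have hh : (1 : ℝ) + h ^ 2 ≠ 0 := by positivity
  have hkne := hk0.ne'
  subst hk
  rw [le_div_iff₀ hn]
  refine le_trans (le_of_eq ?_) hF
  unfold upForm
  field_simp
  ring

namespace UpData

variable {D : UpData}

/-- The inequality at every point that the profile allows. -/
theorem form_bound (hb : D.baseOK = true) (hp : D.polyOK = true) (he : D.envOK = true)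
    (hφ : IsShape φ) (hx1 : powRatio m φ ≤ 1)
    (hs : mass m φ 1 ≤ 281 / 250 * specM m φ ^ 2 * mass m ballShape 1)
    (hn : D.Range (m + 1)) (hK : D.K.Mem m φ) {t σ : ℝ} (hP : UpPoint m t σ) :
    upForm (1 / ((m : ℝ) + 1)) σ (1 / ((m : ℝ) + 1) * σ ^ 2)
      (D.F.A.val D.F.ws (1 / ((m : ℝ) + 1)) σ) (D.F.A.der D.F.ws (1 / ((m : ℝ) + 1)) σ)
      (D.F.B.val D.F.ws (1 / ((m : ℝ) + 1)) σ) (D.F.B.der D.F.ws (1 / ((m : ℝ) + 1)) σ)
      (D.F.C.val D.F.ws (1 / ((m : ℝ) + 1)) σ) (D.F.C.der D.F.ws (1 / ((m : ℝ) + 1)) σ)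
      (((m : ℝ) + 1) * (ballRatio m - 1)) (weightPoly (ballShape t))
      (upR D.t₁.1 + upR D.t₁.2 * (1 / ((m : ℝ) + 1)))
      (upR D.lam.1 + upR D.lam.2 * (1 / ((m : ℝ) + 1)))
      (specU m φ t / specM m φ) (√((m : ℝ) + 1) * shapeRho φ t) ≤ upR D.eps := by
  simp only [baseOK, Bool.and_eq_true, decide_eq_true_eq] at hb
  obtain ⟨⟨⟨⟨⟨⟨⟨h4, -, hlast, ht1, ht1'⟩, hξ⟩, hF⟩, -⟩, -⟩, hchain⟩, hcells⟩ := hb
  have hm3 : 3 ≤ m := by have := hn.1; omega
  simp only [polyOK, List.all_eq_true] at hp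
  simp only [envOK, Bool.and_eq_true, List.all_eq_true] at he
  obtain ⟨⟨hcover, hitems⟩, henv⟩ := he
  simp only [List.all_eq_true] at hcells
  have hσ2 : 0 < D.n₁ → σ ^ 2 < (D.n₁ : ℝ) := fun hpos => by
    have h := hP.u_lt
    rw [div_mul_eq_mul_div, one_mul, div_lt_one (by positivity)] at h
    refine h.trans_le ?_
    exact_mod_cast hn.2.resolve_left (by omega)
  have hwidth : ∀ c ∈ D.cells, c.far = false → c.lo < c.hi := fun c hc hf => by
    have := hcells c hc
    simp only [UpCell.shapeOK, Bool.and_eq_true, decide_eq_true_eq, hf, if_false,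
      Bool.false_eq_true] at this
    exact this.2.2.2.1
  obtain ⟨c, hc, hσ⟩ := upChain_sound hchain (show upR 0 ≤ σ by simp [upR, hP.σ_pos.le]) hσ2 le_rfl
    hwidth
  obtain ⟨I, hI, hIn⟩ := upCover_sound hcover (m + 1) hn.1 hn.2
  have hIc := hitems I hI
  simp only [UpItem.check, Bool.and_eq_true, List.all_eq_true] at hIc
  obtain ⟨hR, hnodes⟩ := hIc
  have hce := henv c hc
  simp only [UpCell.envOK, List.all_eq_true] at hce
  have hcI := hce I hI
  simp only [Bool.and_eq_true, Bool.or_eq_true, decide_eq_true_eq, List.any_eq_true, List.mem_reverse] at hcI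
  have hM := specM_pos (show 1 ≤ m by omega) hφ
  have hx : 0 ≤ specU m φ t / specM m φ := div_nonneg (Real.sqrt_nonneg _) hM.le
  obtain ⟨hR0, hR1⟩ := ratio_window hm3
  refine UpCell.form_le hF h4 ht1 ht1' hn (hcells c hc) (hp c hc) hP hσ hx hR0 hR1 ?_ ?_
  · rcases hcI.1 with hg | ⟨N, hN, hgap⟩
    · rw [hg]
      simp only [upR, Int.cast_zero, zero_div, zero_mul, add_zero, mul_zero, sub_zero]
      have hsq : 0 < √((m : ℝ) + 1) := Real.sqrt_pos.2 (by positivity)
      have h1 := mul_le_mul_of_nonneg_left (shapeRho_range hφ hP.t_mem).2 hsq.le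
      refine (mul_le_mul_of_nonneg_right h1 (by positivity)).trans (le_of_eq ?_)
      rw [← hP.t_eq]
      ring
    · exact UpCell.gap_sound (by omega) hφ hx1 hR (hnodes N hN) hIn hK hgap hP hσ
  · rcases hcI.2 with hno | hsubs
    · exact Or.inl hno
    have hshape := hcells c hc
    simp only [UpCell.shapeOK, Bool.and_eq_true, decide_eq_true_eq] at hshape
    by_cases hf : c.far = true
    · simp only [hf, if_true, Bool.and_eq_true] at hshape
      exact Or.inl hshape.2.2
    simp only [hf, if_false, Bool.false_eq_true, decide_eq_true_eq] at hshape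
    obtain ⟨p, hp', hpσ, hp0, hpU⟩ := c.subs_sound hσ (by simpa using hf) c.cuts c.lo hσ.1
      hshape.2.2.1 (by tauto)
    simp only [List.all_eq_true, List.any_eq_true, List.mem_reverse] at hsubs
    obtain ⟨N, hN, hbd⟩ := hsubs p hp'
    refine Or.inr ?_
    rw [← hpU]
    refine UpCell.bound_sound (by omega) hφ hx1 hR (hnodes N hN) hIn hK ?_ hs hbd hP hpσ hp0
    have := hK.1.trans hK.2
    have hV : 0 < mass m φ 1 := (power_mass_le (by omega) hφ hx1).1
    have hbt : (D.K.b₀ : ℝ) ≤ D.K.top := le_of_mul_le_mul_right this hV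
    have : (0 : ℝ) ≤ D.K.top :=
      le_trans (by exact_mod_cast le_trans (sq_nonneg D.ξ₀) hξ.2.1) hbt
    exact_mod_cast this

/-- The flux at the centre is nonpositive. -/
theorem start_nonpos {e : ℚ} (h : D.startOK e = true) {x : ℝ}
    (hx : x ∈ Icc (D.ξ₀ : ℝ) (D.ξ₁ : ℝ)) :
    (upR D.F.A.a + upR D.F.A.b * e) + (upR D.F.B.a + upR D.F.B.b * e) * x +
      (upR D.F.C.a + upR D.F.C.b * e) * x ^ 2 ≤ 0 := by
  simp only [startOK, Bool.or_eq_true, decide_eq_true_eq] at h
  simp only [upR_cast]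
  set a : ℚ := upQ D.F.A.a + upQ D.F.A.b * e with ha
  set b : ℚ := upQ D.F.B.a + upQ D.F.B.b * e with hb
  set c : ℚ := upQ D.F.C.a + upQ D.F.C.b * e with hc
  have ea : (a : ℝ) = (upQ D.F.A.a : ℝ) + (upQ D.F.A.b : ℝ) * e := by rw [ha]; push_cast; rfl
  have eb : (b : ℝ) = (upQ D.F.B.a : ℝ) + (upQ D.F.B.b : ℝ) * e := by rw [hb]; push_cast; rfl
  have ec : (c : ℝ) = (upQ D.F.C.a : ℝ) + (upQ D.F.C.b : ℝ) * e := by rw [hc]; push_cast; rfl
  rw [← ea, ← eb, ← ec]
  obtain ⟨hx0, hx1⟩ := hx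
  rcases h with ⟨h0, h1, h2⟩ | ⟨h0, h1⟩
  · have i0 := (Rat.cast_nonpos (K := ℝ)).2 h0
    have i1 := (Rat.cast_nonpos (K := ℝ)).2 h1
    push_cast at i0 i1
    rcases h2 with h2 | h2 | h2
    · have i2 := (Rat.cast_nonneg (K := ℝ)).2 h2
      rcases hx0.eq_or_lt with h' | h'
      · rw [← h']; exact i0
      have k := mul_nonneg i2 (mul_nonneg (sub_nonneg.2 hx0) (sub_nonneg.2 hx1))
      have k' := mul_nonneg k (sub_nonneg.2 (hx0.trans hx1))
      refine nonpos_of_mul_nonpos_right (a := (D.ξ₁ : ℝ) - D.ξ₀) ?_ (by linarith)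
      have := mul_le_mul_of_nonneg_left i0 (sub_nonneg.2 hx1)
      have := mul_le_mul_of_nonneg_left i1 (sub_nonneg.2 hx0)
      linarith
    · have i2 := (Rat.cast_nonpos (K := ℝ)).2 h2
      push_cast at i2
      by_cases hc0 : 0 ≤ (c : ℝ)
      · rcases hx0.eq_or_lt with h' | h'
        · rw [← h']; exact i0
        refine nonpos_of_mul_nonpos_right (a := (D.ξ₁ : ℝ) - D.ξ₀) ?_ (by linarith)
        have := mul_nonneg (mul_nonneg hc0 (mul_nonneg (sub_nonneg.2 hx0) (sub_nonneg.2 hx1)))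
          (sub_nonneg.2 (hx0.trans hx1))
        have := mul_le_mul_of_nonneg_left i0 (sub_nonneg.2 hx1)
        have := mul_le_mul_of_nonneg_left i1 (sub_nonneg.2 hx0)
        linarith
      · have := mul_nonpos_of_nonpos_of_nonneg i2 (sub_nonneg.2 hx0)
        have := mul_nonpos_of_nonpos_of_nonneg (not_le.1 hc0).le (sq_nonneg (x - (D.ξ₀ : ℝ)))
        linarith
    · have i2 := (Rat.cast_nonneg (K := ℝ)).2 h2
      push_cast at i2
      by_cases hc0 : 0 ≤ (c : ℝ)
      · rcases hx0.eq_or_lt with h' | h'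
        · rw [← h']; exact i0
        refine nonpos_of_mul_nonpos_right (a := (D.ξ₁ : ℝ) - D.ξ₀) ?_ (by linarith)
        have := mul_nonneg (mul_nonneg hc0 (mul_nonneg (sub_nonneg.2 hx0) (sub_nonneg.2 hx1)))
          (sub_nonneg.2 (hx0.trans hx1))
        have := mul_le_mul_of_nonneg_left i0 (sub_nonneg.2 hx1)
        have := mul_le_mul_of_nonneg_left i1 (sub_nonneg.2 hx0)
        linarith
      · have := mul_nonneg i2 (sub_nonneg.2 hx1)
        have := mul_nonpos_of_nonpos_of_nonneg (not_le.1 hc0).le (sq_nonneg (x - (D.ξ₁ : ℝ)))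
        linarith
  · have i0 := (Rat.cast_lt (K := ℝ)).2 h0
    have i1 := (Rat.cast_le (K := ℝ)).2 h1
    push_cast at i0 i1
    nlinarith [sq_nonneg (2 * (c : ℝ) * x + b)]

end UpData

/-- A coefficient at zero. -/
theorem UpCoef.val_start {A : UpCoef} {ws : List ℤ} (hw : ∀ p ∈ A.pieces ws, 0 < p.1)
    (hlast : 0 ≤ A.last ws) (e : ℝ) : A.val ws e 0 = upR A.a + upR A.b * e := by
  have h0 : upR 0 = 0 := by simp [upR]
  have hK : 0 ≤ upR (A.last ws) := div_nonneg (by exact_mod_cast hlast) (by norm_num)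
  unfold UpCoef.val
  rw [rampSum_before e _ _ _ hw (by rw [h0]), max_eq_right (by linarith)]
  simp [UpCoef.far]

/-- The upper bound of the linear term from a table. -/
theorem specLin_le_upData {D : UpData} (hb : D.baseOK = true) (hp : D.polyOK = true)
    (he : D.envOK = true) (hφ : IsShape φ) (hV : convexVal m (pureG m) φ ≤ 0)
    (hx1 : powRatio m φ ≤ 1) (hs : mass m φ 1 ≤ 281 / 250 * specM m φ ^ 2 * mass m ballShape 1)
    (hn : D.Range (m + 1)) (hK : D.K.Mem m φ) :
    specLin m (specV m φ) ≤ upR D.eps / ((m : ℝ) + 1) := by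
  have hform := fun t (ht : t ∈ Ioo (0 : ℝ) 1) =>
    UpData.form_bound hb hp he hφ hx1 hs hn hK (upPoint_mk (m := m) ht)
  simp only [UpData.baseOK, Bool.and_eq_true, decide_eq_true_eq] at hb
  obtain ⟨⟨⟨⟨⟨⟨⟨h4, -, hlast, ht1, ht1'⟩, hξ⟩, hF⟩, hst0⟩, hst1⟩, -⟩, -⟩ := hb
  obtain ⟨he0, he1, -⟩ := UpData.range_bounds h4 hn
  have hm3 : 3 ≤ m := by have := hn.1; omega
  have hm : 1 ≤ m := by omega
  obtain ⟨hco, -, -⟩ := UpCell.coef_pieces hF
  obtain ⟨hwA, hlA⟩ := hco D.F.A (by simp)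
  obtain ⟨hwB, hlB⟩ := hco D.F.B (by simp)
  obtain ⟨hwC, hlC⟩ := hco D.F.C (by simp)
  set n := (m : ℝ) + 1 with hn'
  set e := 1 / n with he'
  set k := √n with hk
  have hn0 : 0 < n := by positivity
  have hk0 : 0 < k := Real.sqrt_pos.2 hn0
  have he00 : 0 ≤ e := by positivity
  set co : UpCoef → ℝ → ℝ := fun A t => 1 / (n * k) * A.val D.F.ws e (k * halfAngle t) with hco'
  have hcont : ∀ A : UpCoef, Continuous (co A) := fun A =>
    continuous_const.mul ((A.continuous_val D.F.ws he00).comp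
      (continuous_const.mul continuous_halfAngle))
  set M := specM m φ with hMdef
  have hM : 0 < M := specM_pos hm hφ
  have hmass : 0 < mass m φ 1 := (power_mass_le hm hφ hx1).1
  have hVb := ball_mass_pos m
  have hd : (∫ t in (0 : ℝ)..1, φ t ^ m / ballShape t) ≤
      (1 + max 0 ((∫ t in (0 : ℝ)..1, φ t ^ m / ballShape t) /
        (ballRatio m * mass m φ 1) - 1)) * ballRatio m * mass m φ 1 := by
    have hr := mul_pos (ballRatio_pos m) hmass
    rw [mul_assoc, ← div_le_iff₀ hr]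
    linarith [le_max_right (0 : ℝ) ((∫ t in (0 : ℝ)..1, φ t ^ m / ballShape t) /
        (ballRatio m * mass m φ 1) - 1)]
  set t₁ := upR D.t₁.1 + upR D.t₁.2 * e with ht₁
  set L := upR D.lam.1 + upR D.lam.2 * e with hL
  have htpos : 0 ≤ t₁ := by
    have t0 : (0 : ℝ) < upR D.t₁.1 := div_pos (by exact_mod_cast ht1) (by norm_num)
    have t1 := (Rat.cast_lt (K := ℝ)).2 ht1'
    push_cast at t1
    rw [← upR_cast, ← upR_cast, div_eq_mul_one_div (upR D.t₁.2)] at t1
    rw [ht₁]
    rcases le_total 0 (upR D.t₁.2) with hb | hb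
    · have := mul_nonneg hb he00
      linarith
    · linarith [mul_le_mul_of_nonpos_left he1 hb]
  have main := linear_le_of_flux (m := m) (cL := 1) (cX := 0) (lam := L / n) (t₁ := t₁) (t₂ := 0)
    (t₃ := 0) (e := upR D.eps / n) (by omega) hφ hV hx1 (le_max_left _ _) htpos le_rfl le_rfl hd
    (G := fun s => ballShape s ^ (m + 1) * (co D.F.A s + co D.F.B s * (specU m φ s / M) +
      co D.F.C s * (specU m φ s / M) ^ 2))
    (G' := fun t => ballShape t ^ (m - 1) *
      ((ballShape t ^ 2 * (1 / (n * k) * (D.F.A.der D.F.ws e (k * halfAngle t) *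
          (k * (1 / (ballShape t * (1 + ballShape t)))))) - n * t * co D.F.A t) +
        (ballShape t ^ 2 * (1 / (n * k) * (D.F.B.der D.F.ws e (k * halfAngle t) *
          (k * (1 / (ballShape t * (1 + ballShape t)))))) - n * t * co D.F.B t) *
          (specU m φ t / M) +
        (ballShape t ^ 2 * (1 / (n * k) * (D.F.C.der D.F.ws e (k * halfAngle t) *
          (k * (1 / (ballShape t * (1 + ballShape t)))))) - n * t * co D.F.C t) *
          (specU m φ t / M) ^ 2 +
        (m : ℝ) / 2 * shapeRho φ t * (specU m φ t / M) *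
          (co D.F.B t + 2 * co D.F.C t * (specU m φ t / M))))
    ?_ ?_ ?_ ?_ ?_
  · simpa using main
  · have hcx : ContinuousOn (fun t => specU m φ t / M) (Ico 0 1) :=
      ((continuousOn_specU hφ).mono fun t ht => ⟨by linarith [ht.1], ht.2⟩).div_const _
    exact (cont_pow (m + 1)).continuousOn.mul (((hcont _).continuousOn.add
      ((hcont _).continuousOn.mul hcx)).add ((hcont _).continuousOn.mul (hcx.pow 2)))
  · have hx0 : specU m φ 0 / M ∈ Icc (D.ξ₀ : ℝ) (D.ξ₁ : ℝ) := by
      have h00 : (0 : ℝ) ∈ Ioo (-1 : ℝ) 1 := by norm_num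
      have hsq : (specU m φ 0 / M) ^ 2 = φ 0 ^ m / M ^ 2 := by
        rw [div_pow, specU_sq hφ h00, show ballShape 0 = 1 by simp [ballShape], div_one]
      have hpos : 0 ≤ specU m φ 0 / M := div_nonneg (Real.sqrt_nonneg _) hM.le
      obtain ⟨q0, q1, q2, q3⟩ := hξ
      constructor
      · refine (pow_le_pow_iff_left₀ (by exact_mod_cast q0) hpos two_ne_zero).1 ?_
        rw [hsq, le_div_iff₀ (pow_pos hM 2)]
        have h := specM_sq_le_mass (by omega) hφ hx1
        rw [← hMdef, le_div_iff₀ hVb] at h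
        have h1 : (D.ξ₀ : ℝ) ^ 2 ≤ D.K.b₀ := by exact_mod_cast q1
        refine le_of_mul_le_mul_left ?_ hVb
        refine le_trans (le_trans ?_ hK.1) (le_of_eq rfl)
        have := mul_le_mul_of_nonneg_left h ((sq_nonneg (D.ξ₀ : ℝ)).trans h1)
        have := mul_le_mul_of_nonneg_right h1 (mul_nonneg hVb.le (sq_nonneg M))
        linarith
      · refine (pow_le_pow_iff_left₀ hpos (by exact_mod_cast q2) two_ne_zero).1 ?_
        rw [hsq, div_le_iff₀ (pow_pos hM 2)]
        refine le_of_mul_le_mul_left (hK.2.trans ?_) hVb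
        have h1 : (281 / 250 : ℝ) * D.K.top ≤ (D.ξ₁ : ℝ) ^ 2 := by
          have := (Rat.cast_le (K := ℝ)).2 q3
          push_cast at this
          exact this
        have htop : (0 : ℝ) ≤ D.K.top := by
          have := le_trans (mul_le_mul_of_nonneg_right (show (0 : ℝ) ≤ D.K.b₀ by
            exact_mod_cast le_trans (sq_nonneg D.ξ₀) q1) hmass.le) (hK.1.trans hK.2)
          rw [zero_mul] at this
          exact nonneg_of_mul_nonneg_left this hmass
        have := mul_le_mul_of_nonneg_left hs htop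
        have := mul_le_mul_of_nonneg_right h1 (mul_nonneg hVb.le (sq_nonneg M))
        linarith
    have hq : upR D.F.A.a + upR D.F.A.b * e + (upR D.F.B.a + upR D.F.B.b * e) *
        (specU m φ 0 / M) + (upR D.F.C.a + upR D.F.C.b * e) * (specU m φ 0 / M) ^ 2 ≤ 0 := by
      have f0 := UpData.start_nonpos hst0 hx0
      have f1 := UpData.start_nonpos hst1 hx0
      rw [apply_ite (fun q : ℚ => (q : ℝ))] at f0
      push_cast at f0 f1
      have := aff_nonneg
        (a := -(upR D.F.A.a + upR D.F.B.a * (specU m φ 0 / M) +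
          upR D.F.C.a * (specU m φ 0 / M) ^ 2))
        (b := -(upR D.F.A.b + upR D.F.B.b * (specU m φ 0 / M) +
          upR D.F.C.b * (specU m φ 0 / M) ^ 2))
        (el := if D.n₁ = 0 then (0 : ℝ) else 1 / (D.n₁ : ℝ)) (eh := 1 / (D.n₀ : ℝ))
        (by linarith) (by linarith) ⟨he0, he1⟩
      linarith
    simp only [hco', show halfAngle 0 = 0 by simp [halfAngle], mul_zero,
      UpCoef.val_start hwA (hlA ▸ hlast), UpCoef.val_start hwB (hlB ▸ hlast),
      UpCoef.val_start hwC (hlC ▸ hlast), show ballShape 0 = 1 by simp [ballShape], one_pow, one_mul]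
    have : 0 ≤ 1 / (n * k) := by positivity
    have := mul_nonpos_of_nonneg_of_nonpos this hq
    linarith
  · obtain ⟨KA, hKA⟩ := isCompact_Icc.exists_bound_of_continuousOn
      ((hcont D.F.A).continuousOn (s := Icc (0 : ℝ) 1))
    obtain ⟨KB, hKB⟩ := isCompact_Icc.exists_bound_of_continuousOn
      ((hcont D.F.B).continuousOn (s := Icc (0 : ℝ) 1))
    obtain ⟨KC, hKC⟩ := isCompact_Icc.exists_bound_of_continuousOn
      ((hcont D.F.C).continuousOn (s := Icc (0 : ℝ) 1))
    intro ε hε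
    set K := max KA (max KB KC) with hKdef
    have hK0 : 0 ≤ K :=
      ((norm_nonneg _).trans (hKA 0 (left_mem_Icc.2 zero_le_one))).trans (le_max_left _ _)
    have hlim : Tendsto (fun b => 3 * K * (1 + φ 0 ^ m / M ^ 2) * ballShape b) (𝓝[<] (1 : ℝ))
        (𝓝 0) := by
      have := ((cont_ball.tendsto 1).mono_left
        (nhdsWithin_le_nhds (s := Iio (1 : ℝ)))).const_mul
        (3 * K * (1 + φ 0 ^ m / M ^ 2))
      simpa [ballShape] using this
    filter_upwards [Ioo_mem_nhdsLT (zero_lt_one (α := ℝ)),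
      hlim.eventually (eventually_le_nhds hε)] with b hb hbe
    have hp := ball_pos (sub01 hb)
    have hp1 := ball_le_one b
    have hbI : b ∈ Icc (0 : ℝ) 1 := Ioo_subset_Icc_self hb
    have hA1 : |co D.F.A b| ≤ K := (hKA b hbI).trans (le_max_left _ _)
    have hB1 : |co D.F.B b| ≤ K := (hKB b hbI).trans ((le_max_left _ _).trans (le_max_right _ _))
    have hC1 : |co D.F.C b| ≤ K := (hKC b hbI).trans ((le_max_right _ _).trans (le_max_right _ _))
    set x := specU m φ b / M with hxdef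
    have hx0 : 0 ≤ x := div_nonneg (Real.sqrt_nonneg _) hM.le
    have hu : ballShape b ^ m * x ^ 2 ≤ φ 0 ^ m / M ^ 2 := by
      rw [hxdef, div_pow, specU_sq hφ (sub01 hb), div_pow, mul_div_assoc', mul_div_cancel₀ _
        (pow_ne_zero _ hp.ne')]
      exact div_le_div_of_nonneg_right (pow_le_pow_left₀ (hφ.nonneg b
        (Ioo_subset_Icc_self (sub01 hb))) (shape_le_centre hφ (Ioo_subset_Icc_self (sub01 hb))) m)
        (sq_nonneg _)
    have habs : |co D.F.A b + co D.F.B b * x + co D.F.C b * x ^ 2| ≤ 3 * K * (1 + x ^ 2) := by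
      refine ((abs_add_le _ _).trans (add_le_add (abs_add_le _ _) le_rfl)).trans ?_
      rw [abs_mul (co D.F.B b), abs_mul (co D.F.C b), abs_of_nonneg hx0, abs_of_nonneg (sq_nonneg x)]
      nlinarith [mul_le_mul_of_nonneg_right hB1 hx0,
        mul_le_mul_of_nonneg_right hC1 (sq_nonneg x), mul_nonneg hK0 (sq_nonneg (x - 1))]
    have hpm : ballShape b ^ (m + 1) * (1 + x ^ 2) ≤ ballShape b * (1 + φ 0 ^ m / M ^ 2) := by
      rw [pow_succ]
      nlinarith [mul_le_mul_of_nonneg_right (pow_le_one₀ hp.le hp1 (n := m)) hp.le,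
        mul_le_mul_of_nonneg_right hu hp.le]
    have h1 := (abs_le.1 habs).1
    have h2 := mul_le_mul_of_nonneg_left hpm (show 0 ≤ 3 * K by positivity)
    have h3 := mul_le_mul_of_nonneg_left h1 (pow_nonneg hp.le (m + 1))
    linarith
  · intro t ht
    exact hasDeriv_quadFlux hm hφ ht
      ((hasDeriv_comp_half hk0 ht (D.F.A.hasDeriv_val D.F.ws he00 hwA _)).const_mul _)
      ((hasDeriv_comp_half hk0 ht (D.F.B.hasDeriv_val D.F.ws he00 hwB _)).const_mul _)
      ((hasDeriv_comp_half hk0 ht (D.F.C.hasDeriv_val D.F.ws he00 hwC _)).const_mul _)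
  · intro t ht
    have hP := upPoint_mk (m := m) ht
    have h := hform t ht
    have hp := ball_pos (sub01 ht)
    rw [← mul_add]
    refine mul_le_mul_of_nonneg_left ?_ (pow_nonneg hp.le _)
    have hd := halfAngle_deriv_eq ht
    have hmn : (m : ℝ) = n - 1 := by rw [hn']; ring
    have hk2 : k * k = n := Real.mul_self_sqrt hn0.le
    have hu : e * (k * halfAngle t) ^ 2 = halfAngle t ^ 2 := by
      rw [he', hk, mul_pow, sq_sqrt hn0.le]
      field_simp
    have hbreg : (m : ℝ) * bregPoly m t * shapeRho φ t ^ 2 / ballShape t =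
        (1 - e) / 2 * weightPoly (ballShape t) * (k * shapeRho φ t) ^ 2 / n := by
      rw [bregPoly, ← hn', mul_pow, hk, sq_sqrt hn0.le, he', hmn]
      field_simp
    have ht2 : t = 2 * halfAngle t / (1 + halfAngle t ^ 2) := by
      obtain ⟨-, h1, -⟩ := halfAngle_param (Ioo_subset_Icc_self ht)
      rw [eq_div_iff (by positivity), h1]
    have hpt : ballShape t = (1 - halfAngle t ^ 2) / (1 + halfAngle t ^ 2) := by
      obtain ⟨-, -, h1⟩ := halfAngle_param (Ioo_subset_Icc_self ht)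
      rw [eq_div_iff (by positivity), h1]
    have hder : ∀ v, ballShape t ^ 2 * (1 / (n * k) * (v *
        (k * (1 / (ballShape t * (1 + ballShape t)))))) = (1 - halfAngle t ^ 2) / 2 * v / n := by
      intro v
      rw [← hd]
      field_simp
    rw [hu] at h
    have key := upScale hn0 hk0 hk2 h
    simp only [linLoss, hbreg, hder, hco', one_mul, zero_mul, add_zero]
    rw [hpt, ← ht2] at *
    rw [hmn]
    linarith

end Vale.Agent.P237.Quant
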