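import Vale.Agent.P237.Quant.GeneralAssembly
import Vale.Agent.P237.Quant.LinearUpperSound

/-!
From checked tables of the upper bound of the linear term, one for each range of dimensions and
each bin of the centre, to the bound `e / n` in every dimension from six and to `PosRow.LinUp`.
-/

namespace Vale.Agent.P237.Quant

open MeasureTheory Set

variable {m : ℕ} {φ : ℝ → ℝ}

/-- The three checks of a table hold. -/
def UpData.Valid (D : UpData) : Prop := D.baseOK = true ∧ D.polyOK = true ∧ D.envOK = true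

/-- A table serves a range of dimensions, a bin and the bound `e`. -/
def UpData.serves (D : UpData) (R : DimRange) (P : ℚ × ℚ) (e : ℚ) : Bool :=
  decide (D.n₀ ≤ R.lo ∧ (D.n₁ = 0 ∨ (R.hi ≠ 0 ∧ R.hi ≤ D.n₁))) &&
    decide (D.K.b₀ ≤ P.1 ∧ P.2 ≤ D.K.top ∧ upQ D.eps ≤ e)

/-- The parts, each a range of dimensions with cuts of the centre, cover every dimension from six
and each of their bins has a table. -/
def upPartsOK (e : ℚ) (Ds : List UpData) (parts : List (DimRange × List ℚ)) : Bool :=
  coverDims 6 (parts.map Prod.fst) &&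
    parts.all fun p => coverCuts p.2 && (binsOf p.2).all fun P => Ds.any fun D => D.serves p.1 P e

/-- The bound of a serving table. -/
theorem specLin_le_of_serves {D : UpData} {R : DimRange} {P : ℚ × ℚ} {e : ℚ} (hD : D.Valid)
    (h : D.serves R P e = true) (hn : R.Mem (m + 1)) (hst : BinState m P.1 P.2 φ) :
    specLin m (specV m φ) ≤ (e : ℝ) / ((m : ℝ) + 1) := by
  simp only [UpData.serves, Bool.and_eq_true, decide_eq_true_eq] at h
  obtain ⟨⟨hlo, hhi⟩, hb, ht, he⟩ := h
  obtain ⟨hn0, hn1⟩ := hn
  have hM : 0 ≤ mass m φ 1 := intervalIntegral.integral_nonneg zero_le_one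
    fun s hs => pow_nonneg (hst.shape.nonneg s ⟨by linarith [hs.1], hs.2⟩) _
  have hr : D.Range (m + 1) := by
    refine ⟨hlo.trans hn0, hhi.imp_right fun h' => ?_⟩
    rcases hn1 with h1 | h1
    · exact absurd h1 h'.1
    · exact h1.trans h'.2
  have hK : D.K.Mem m φ :=
    ⟨(mul_le_mul_of_nonneg_right (Rat.cast_le.2 hb) hM).trans hst.relLow,
      hst.relUp.trans (mul_le_mul_of_nonneg_right (Rat.cast_le.2 ht) hM)⟩
  refine (specLin_le_upData hD.1 hD.2.1 hD.2.2 hst.shape hst.value hst.power hst.massUp hr hK).trans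
    (div_le_div_of_nonneg_right ?_ (by positivity))
  have h' := (Rat.cast_le (K := ℝ)).2 he
  simp only [upQ, upR] at h' ⊢
  push_cast at h'
  exact h'

/-- The linear term is at most `e / n` in every dimension from six. -/
theorem specLin_le_of_parts (hE : ExcessLarge) {e : ℚ} {Ds : List UpData}
    {parts : List (DimRange × List ℚ)} (hok : upPartsOK e Ds parts = true)
    (hDs : ∀ D ∈ Ds, D.Valid) (hm : 5 ≤ m) (hφ : IsShape φ) (hx : powRatio m φ ≤ 1)
    (hV : convexVal m (pureG m) φ ≤ 0) : specLin m (specV m φ) ≤ (e : ℝ) / ((m : ℝ) + 1) := by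
  simp only [upPartsOK, Bool.and_eq_true, List.all_eq_true, List.any_eq_true] at hok
  obtain ⟨hcov, hall⟩ := hok
  obtain ⟨R, hR, hn⟩ := coverDims_sound _ _ hcov (m + 1) (by omega)
  obtain ⟨p, hp, rfl⟩ := List.mem_map.1 hR
  obtain ⟨hcut, hbins⟩ := hall p hp
  obtain ⟨hs, -, hc⟩ := general_facts hE hm hφ hx hV
  obtain ⟨P, hP, hst⟩ := binState_exists hm hφ hx hV hs hc hcut
  obtain ⟨D, hD, hserve⟩ := hbins P hP
  exact specLin_le_of_serves (hDs D hD) hserve hn hst

/-- The upper bound of the linear term on any row with `e2` at least the bound of the tables. -/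
theorem PosRow.linUp_of_parts (hE : ExcessLarge) {e : ℚ} {Ds : List UpData}
    {parts : List (DimRange × List ℚ)} (hok : upPartsOK e Ds parts = true)
    (hDs : ∀ D ∈ Ds, D.Valid) {R : PosRow} (he : e ≤ R.e2) : R.LinUp :=
  fun _ hm _ _ hφ hx hV => (specLin_le_of_parts hE hok hDs hm hφ hx hV).trans
    (div_le_div_of_nonneg_right (by exact_mod_cast he) (by positivity))

end Vale.Agent.P237.Quant
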