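import Mathlib
import Vale.Agent.P237.Quant.TailFlux

/-!
The cubic loss of the power constraint at one and its positive part, as the multiplier of the tail
lemma. It satisfies `x F' = q F + q (q - 1) / m * (x - 1) ^ 2`, so the pointwise inequality becomes
linear in `F` and `(x - 1) ^ 2`.
-/

namespace Vale.Agent.P237.Quant

open MeasureTheory Set Filter Topology

variable {m : ℕ} {φ Q W : ℝ → ℝ} {η x : ℝ}

/-- The exponent of the power constraint. -/
noncomputable def tailExp (m : ℕ) : ℝ := 2 - 2 / (m : ℝ)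

/-- The cubic loss at one. -/
noncomputable def tailCubic (m : ℕ) (x : ℝ) : ℝ :=
  tailExp m * (tailExp m - 1) / 2 * (x - 1) ^ 2 - (x ^ tailExp m - 1 - tailExp m * (x - 1))

/-- The derivative of `tailCubic`. -/
noncomputable def tailCubic' (m : ℕ) (x : ℝ) : ℝ :=
  tailExp m * (tailExp m - 1) * (x - 1) - (tailExp m * x ^ (tailExp m - 1) - tailExp m)

/-- The positive part of `tailCubic`. -/
noncomputable def tailCubicPos (m : ℕ) (x : ℝ) : ℝ := if 1 ≤ x then tailCubic m x else 0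

/-- The derivative of `tailCubicPos`. -/
noncomputable def tailCubicPos' (m : ℕ) (x : ℝ) : ℝ := if 1 ≤ x then tailCubic' m x else 0

theorem tailExp_mem (hm : 3 ≤ m) : 1 < tailExp m ∧ tailExp m ≤ 2 := by
  have h : (3 : ℝ) ≤ m := by exact_mod_cast hm
  have h1 : 2 / (m : ℝ) ≤ 2 / 3 := div_le_div_of_nonneg_left (by norm_num) (by norm_num) h
  have h2 : (0 : ℝ) ≤ 2 / (m : ℝ) := by positivity
  constructor <;> simp only [tailExp] <;> linarith

theorem hasDerivAt_tailCubic (hm : 3 ≤ m) (x : ℝ) :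
    HasDerivAt (tailCubic m) (tailCubic' m x) x := by
  obtain ⟨hq, -⟩ := tailExp_mem hm
  refine (((((hasDerivAt_id' x).sub_const 1).pow 2).const_mul
    (tailExp m * (tailExp m - 1) / 2)).sub
    (((Real.hasDerivAt_rpow_const (Or.inr hq.le)).sub_const 1).sub
      (((hasDerivAt_id' x).sub_const 1).const_mul (tailExp m)))).congr_deriv ?_
  simp only [tailCubic']
  push_cast
  ring

theorem tailCubic_one (m : ℕ) : tailCubic m 1 = 0 ∧ tailCubic' m 1 = 0 := by
  constructor <;> simp [tailCubic, tailCubic']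

theorem tailCubic_identity (hm : 1 ≤ m) (hx : 0 < x) :
    x * tailCubic' m x = tailExp m * tailCubic m x +
      tailExp m * (tailExp m - 1) / m * (x - 1) ^ 2 := by
  have hm0 : (m : ℝ) ≠ 0 := Nat.cast_ne_zero.2 (by omega)
  have h := Real.rpow_sub_one hx.ne' (tailExp m)
  simp only [tailCubic, tailCubic', h]
  simp only [tailExp]
  field_simp
  ring

theorem tailLoss_eq (hm : 3 ≤ m) (x : ℝ) :
    tailLoss m x = 2 / (m : ℝ) * (x - 1) ^ 2 + 2 / tailExp m * tailCubic m x := by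
  have h : (3 : ℝ) ≤ m := by exact_mod_cast hm
  have h1 : (m : ℝ) - 1 ≠ 0 := by linarith
  have h2 : 2 / tailExp m = (m : ℝ) / (m - 1) := by
    rw [tailExp]
    field_simp
  rw [h2, tailLoss, tailCubic]
  simp only [tailExp]
  field_simp
  ring

theorem tailCubic'_nonneg (hm : 3 ≤ m) (hx : 0 < x) : 0 ≤ tailCubic' m x := by
  obtain ⟨hq, hq2⟩ := tailExp_mem hm
  have h := rpow_one_add_le_one_add_mul_self (s := x - 1) (by linarith)
    (p := tailExp m - 1) (by linarith) (by linarith)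
  rw [add_sub_cancel] at h
  have := mul_le_mul_of_nonneg_left h (show 0 ≤ tailExp m by linarith)
  simp only [tailCubic']
  linarith

theorem tailCubic_monotoneOn (hm : 3 ≤ m) : MonotoneOn (tailCubic m) (Ioi 0) := by
  refine monotoneOn_of_deriv_nonneg (convex_Ioi _)
    (fun t _ => (hasDerivAt_tailCubic hm t).continuousAt.continuousWithinAt)
    (fun t _ => (hasDerivAt_tailCubic hm t).differentiableAt.differentiableWithinAt) fun t ht => ?_
  rw [interior_Ioi] at ht
  rw [(hasDerivAt_tailCubic hm t).deriv]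
  exact tailCubic'_nonneg hm ht

theorem tailCubic_nonpos (hm : 3 ≤ m) (hx : 0 < x) (h1 : x ≤ 1) : tailCubic m x ≤ 0 :=
  (tailCubic_monotoneOn hm hx (mem_Ioi.2 one_pos) h1).trans_eq (tailCubic_one m).1

theorem tailCubic_nonneg (hm : 3 ≤ m) (h1 : 1 ≤ x) : 0 ≤ tailCubic m x :=
  (tailCubic_one m).1.symm.trans_le
    (tailCubic_monotoneOn hm (mem_Ioi.2 one_pos) (mem_Ioi.2 (by linarith)) h1)

theorem tailCubicPos_nonneg (hm : 3 ≤ m) (x : ℝ) : 0 ≤ tailCubicPos m x := by
  rw [tailCubicPos]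
  split_ifs with h
  · exact tailCubic_nonneg hm h
  · exact le_rfl

theorem hasDerivAt_tailCubicPos (hm : 3 ≤ m) (x : ℝ) :
    HasDerivAt (tailCubicPos m) (tailCubicPos' m x) x := by
  rcases lt_trichotomy x 1 with h | rfl | h
  · rw [tailCubicPos', if_neg h.not_ge]
    exact (hasDerivAt_const x (0 : ℝ)).congr_of_eventuallyEq
      (eventually_of_mem (Iio_mem_nhds h) fun t (ht : t < 1) => if_neg ht.not_ge)
  · rw [tailCubicPos', if_pos le_rfl, (tailCubic_one m).2, ← hasDerivWithinAt_univ, ← Iic_union_Ici]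
    refine ((hasDerivWithinAt_const (1 : ℝ) (Iic 1) (0 : ℝ)).congr (fun t ht => ?_) ?_).union
      (((tailCubic_one m).2 ▸ hasDerivAt_tailCubic hm 1).hasDerivWithinAt.congr (fun t ht => ?_) ?_)
    · rcases (mem_Iic.1 ht).eq_or_lt with rfl | h
      · simp [tailCubicPos, (tailCubic_one m).1]
      · exact if_neg h.not_ge
    · simp [tailCubicPos, (tailCubic_one m).1]
    · exact if_pos ht
    · exact if_pos le_rfl
  · rw [tailCubicPos', if_pos h.le]
    exact (hasDerivAt_tailCubic hm x).congr_of_eventuallyEq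
      (eventually_of_mem (Ioi_mem_nhds h) fun t (ht : 1 < t) => if_pos ht.le)

/-- The tail lemma with the multiplier `σ t * (2 / q) * tailCubicPos`: with `2 / m ≤ W` only `x ≥ 1`
is left, where the inequality is linear in `tailCubic` and `(x - 1) ^ 2`. -/
theorem excess_le_of_sigma (hm : 3 ≤ m) (hφ : IsShape φ)
    (hQ0 : ∀ t ∈ Ioo (0 : ℝ) 1, 0 ≤ Q t) (hQm : Measurable Q)
    (hQ : ∀ t ∈ Ioo (0 : ℝ) 1, ∀ r ∈ Icc (-1 : ℝ) 1, Q t * r ^ 2 ≤ pureBreg m t r)
    (hWm : Measurable W) {C : ℝ} (hWb : ∀ t ∈ Ioo (0 : ℝ) 1, |W t| ≤ C) (hη : 0 ≤ η)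
    (hW : ∀ t ∈ Ioo (0 : ℝ) 1, 2 / (m : ℝ) ≤ W t)
    {σ σ' : ℝ → ℝ} {S : ℝ → ℝ → ℝ → Prop}
    (hσc : ContinuousOn σ (Ico 0 1)) (hσ0 : σ 0 = 0) (hσ : ∀ t ∈ Ico (0 : ℝ) 1, 0 ≤ σ t)
    (hσd : ∀ t ∈ Ioo (0 : ℝ) 1, HasDerivWithinAt σ (σ' t) (Ioi t) t)
    (hS : ∀ t ∈ Ioo (0 : ℝ) 1, S t (specU m φ t / specM m φ) (shapeRho φ t))
    (h : ∀ t ∈ Ioo (0 : ℝ) 1, ∀ x, 1 ≤ x → ∀ ρ ∈ Icc (-1 : ℝ) t, S t x ρ →
      2 / tailExp m * tailCubic m x *
          (1 + ballShape t ^ 2 * σ' t - σ t * (((m : ℝ) + 1) * t - ((m : ℝ) - 1) * ρ)) +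
        (tailExp m - 1) * σ t * ρ * (x - 1) ^ 2 ≤
      (W t - 2 / (m : ℝ)) * (x - 1) ^ 2 + tailGain m Q η t x ρ) :
    specExcess m φ ≤ specQuad m W (specV m φ) + specSurplus m Q φ +
      η * specEnergy m Q (fun t => specU' m φ t / specM m φ) := by
  refine excess_le_of_multiplier (by omega) hφ hQ0 hQm hQ hWm hWb
    (F := fun x => 2 / tailExp m * tailCubicPos m x)
    (F' := fun x => 2 / tailExp m * tailCubicPos' m x) hσc hσ0 hσ hσd (fun x _ => ?_)
    (fun x _ => (hasDerivAt_tailCubicPos hm x).const_mul _) hS fun t ht x hx ρ hρ hSx => ?_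
  · exact mul_nonneg (div_nonneg zero_le_two (by linarith [(tailExp_mem hm).1]))
      (tailCubicPos_nonneg hm x)
  have hq0 : tailExp m ≠ 0 := by linarith [(tailExp_mem hm).1]
  have hm0 : (m : ℝ) ≠ 0 := Nat.cast_ne_zero.2 (by omega)
  rcases le_or_gt 1 x with h1 | h1
  · have e : (m : ℝ) / 2 * x * ρ * (2 / tailExp m * tailCubic' m x) =
        ((m : ℝ) - 1) * ρ * (2 / tailExp m * tailCubic m x) + (tailExp m - 1) * ρ * (x - 1) ^ 2 := by
      have e1 := tailCubic_identity (m := m) (by omega) hx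
      have e2 : tailExp m * (m : ℝ) = 2 * ((m : ℝ) - 1) := by
        rw [tailExp]
        field_simp
      field_simp at e1 ⊢
      linear_combination (ρ * e1) + ρ * tailCubic m x * e2
    simp only [tailCubicPos, tailCubicPos', if_pos h1]
    rw [mul_assoc (σ t), e, tailLoss_eq hm]
    linarith [h t ht x h1 ρ hρ hSx]
  · simp only [tailCubicPos, tailCubicPos', if_neg h1.not_ge]
    rw [tailLoss_eq hm]
    have a1 := mul_nonpos_of_nonneg_of_nonpos
      (div_nonneg zero_le_two (by linarith [(tailExp_mem hm).1] : 0 ≤ tailExp m))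
      (tailCubic_nonpos hm hx h1.le)
    have hgain : 0 ≤ tailGain m Q η t x ρ := by
      refine mul_nonneg (mul_nonneg (div_nonneg (Nat.cast_nonneg _) (Real.sqrt_nonneg _))
        (sq_nonneg _)) ?_
      have hρ' : ρ ∈ Icc (-1 : ℝ) 1 := ⟨hρ.1, hρ.2.trans ht.2.le⟩
      linarith [hQ t ht ρ hρ', mul_nonneg hη (mul_nonneg (hQ0 t ht) (sq_nonneg ρ))]
    linarith [mul_le_mul_of_nonneg_right (hW t ht) (sq_nonneg (x - 1))]

end Vale.Agent.P237.Quant
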