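import Mathlib
import Vale.Agent.P237.Quant.BregLog
import Vale.Agent.P237.Quant.TailCubic

/-!
The pointwise facts behind the cell checker of the tail lemma, in the half angle
`a = t / (1 + √(1 - t²))`: the point, the ball profile and the time derivative are rational in `a`,
the gain is bounded below by tangent parabolas of the logarithmic model, and the cubic loss by a
cubic polynomial.
-/

namespace Vale.Agent.P237.Quant

open MeasureTheory Set Filter Topology

variable {m : ℕ}

/-- The tangent of half the angle. -/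
noncomputable def halfAngle (t : ℝ) : ℝ := t / (1 + ballShape t)

theorem one_add_ball_pos (t : ℝ) : 0 < 1 + ballShape t := by
  have : 0 ≤ ballShape t := Real.sqrt_nonneg _
  linarith

theorem continuous_halfAngle : Continuous halfAngle :=
  continuous_id.div (continuous_const.add cont_ball) fun t => (one_add_ball_pos t).ne'

theorem hasDerivAt_halfAngle {t : ℝ} (ht : t ∈ Ioo (-1 : ℝ) 1) :
    HasDerivAt halfAngle (1 / (ballShape t * (1 + ballShape t))) t := by
  have hp := ball_pos ht
  refine ((hasDerivAt_id' t).div ((hasDerivAt_ball ht).const_add 1)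
    (one_add_ball_pos t).ne').congr_deriv ?_
  have hp2 := ball_sq (Ioo_subset_Icc_self ht)
  field_simp
  linear_combination hp2

/-- The half angle parametrises the ball profile rationally. -/
theorem halfAngle_param {t : ℝ} (ht : t ∈ Icc (0 : ℝ) 1) :
    halfAngle t ∈ Icc (0 : ℝ) 1 ∧ t * (1 + halfAngle t ^ 2) = 2 * halfAngle t ∧
      ballShape t * (1 + halfAngle t ^ 2) = 1 - halfAngle t ^ 2 := by
  have hp2 := ball_sq (show t ∈ Icc (-1 : ℝ) 1 from ⟨by linarith [ht.1], ht.2⟩)
  have hp : 0 ≤ ballShape t := Real.sqrt_nonneg _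
  have h1 := one_add_ball_pos t
  unfold halfAngle
  refine ⟨⟨div_nonneg ht.1 h1.le, (div_le_one h1).2 (by linarith [ht.2])⟩, ?_, ?_⟩
  · field_simp
    linear_combination t * hp2
  · field_simp
    linear_combination (1 + ballShape t) * hp2

/-- The right derivative in `t` of a function of the half angle, cleared of denominators. -/
theorem halfAngle_deriv_eq {t : ℝ} (ht : t ∈ Ioo (0 : ℝ) 1) :
    ballShape t ^ 2 * (1 / (ballShape t * (1 + ballShape t))) = (1 - halfAngle t ^ 2) / 2 := by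
  have hI : t ∈ Ioo (-1 : ℝ) 1 := sub01 ht
  have hp := ball_pos hI
  have hp2 := ball_sq (Ioo_subset_Icc_self hI)
  unfold halfAngle
  field_simp
  linear_combination hp2

theorem halfAngle_monotoneOn : MonotoneOn halfAngle (Icc (0 : ℝ) 1) := by
  intro a ha b hb hab
  refine div_le_div₀ hb.1 hab (one_add_ball_pos b) ?_
  have : ballShape b ≤ ballShape a := Real.sqrt_le_sqrt (by nlinarith [ha.1])
  linarith

/-- The model of the weight, normalised to vanish at zero. -/
noncomputable def logModel (s : ℝ) : ℝ := Real.log (2 / (1 + ballShape s))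

theorem logModel_eq (s : ℝ) : logModel s = Real.log 2 - Real.log (1 + ballShape s) :=
  Real.log_div two_ne_zero (one_add_ball_pos s).ne'

/-- The model at a rational state. -/
theorem logModel_half {b : ℝ} (hb : b ^ 2 < 1) :
    logModel (2 * b / (1 + b ^ 2)) = Real.log (1 + b ^ 2) ∧
      ballShape (2 * b / (1 + b ^ 2)) = (1 - b ^ 2) / (1 + b ^ 2) := by
  have h : (0 : ℝ) < 1 + b ^ 2 := by positivity
  have e : ballShape (2 * b / (1 + b ^ 2)) = (1 - b ^ 2) / (1 + b ^ 2) := by
    rw [ballShape, ← Real.sqrt_sq (div_nonneg (by linarith) h.le :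
      (0 : ℝ) ≤ (1 - b ^ 2) / (1 + b ^ 2))]
    congr 1
    field_simp
    ring
  refine ⟨?_, e⟩
  rw [logModel, e]
  congr 1
  field_simp
  ring

/-- The curvature of the model grows with the distance from zero. -/
theorem curvature_mono {s Y : ℝ} (hs : s ∈ Ioo (-1 : ℝ) 1) (hY : 0 < Y) (hY1 : Y ≤ 1)
    (hsY : 1 - s ^ 2 ≤ Y ^ 2) : weightLim Y / Y ^ 3 ≤ weightLim (ballShape s) / ballShape s ^ 3 := by
  have hp := ball_pos hs
  have hle : ballShape s ≤ Y := by
    rw [ballShape, ← Real.sqrt_sq hY.le]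
    exact Real.sqrt_le_sqrt hsY
  have h0 : 0 ≤ weightLim Y := by
    rw [weightLim, sub_nonneg, div_le_one (by linarith)]
    nlinarith
  exact div_le_div₀ (h0.trans (weightLim_antitone hp.le hle)) (weightLim_antitone hp.le hle)
    (pow_pos hp 3) (pow_le_pow_left₀ hp.le hle 3)

/-- A tangent parabola below the model. -/
theorem logModel_tangent {lo hi Y k s z : ℝ} (hlo : -1 ≤ lo) (hhi : hi ≤ 1)
    (hs : s ∈ Icc lo hi) (hz : z ∈ Icc lo hi) (hz1 : z ∈ Ioo (-1 : ℝ) 1)
    (hY : 0 < Y) (hY1 : Y ≤ 1) (hk : k ≤ weightLim Y / Y ^ 3)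
    (hY2 : ∀ x ∈ Ioo lo hi, 1 - x ^ 2 ≤ Y ^ 2) :
    logModel z + z / (ballShape z * (1 + ballShape z)) * (s - z) + k / 2 * (s - z) ^ 2 ≤
      logModel s := by
  set l : ℝ → ℝ := fun x => x / (ballShape x * (1 + ballShape x)) with hl
  set f : ℝ → ℝ := fun x => logModel x - l z * (x - z) - k / 2 * (x - z) ^ 2 with hf
  have hd : ∀ x ∈ Ioo (-1 : ℝ) 1, HasDerivAt f (l x - l z - k * (x - z)) x := fun x hx => by
    have h1 : HasDerivAt logModel (l x) x :=
      (((hasDerivAt_logModel hx).const_add (Real.log 2)).congr_of_eventuallyEq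
        (Eventually.of_forall fun y => by
          rw [logModel_eq]
          ring)).congr_deriv rfl
    refine ((h1.sub (((hasDerivAt_id' x).sub_const z).const_mul (l z))).sub
      ((((hasDerivAt_id' x).sub_const z).pow 2).const_mul (k / 2))).congr_deriv ?_
    push_cast
    ring
  have hsub : Ioo lo hi ⊆ Ioo (-1 : ℝ) 1 := Ioo_subset_Ioo hlo hhi
  have hdom : ∀ x ∈ Icc lo hi, x ∈ Ioo (-1 : ℝ) 1 ∨ x = lo ∨ x = hi := fun x hx => by
    rcases eq_or_lt_of_le hx.1 with h | h
    · exact .inr (.inl h.symm)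
    rcases eq_or_lt_of_le hx.2 with h' | h'
    · exact .inr (.inr h')
    exact .inl (hsub ⟨h, h'⟩)
  have hc : Continuous f := by
    have hlog : Continuous logModel := by
      unfold logModel
      exact Continuous.log (continuous_const.div (continuous_const.add cont_ball)
        fun x => (one_add_ball_pos x).ne')
        fun x => (div_pos two_pos (one_add_ball_pos x)).ne'
    simp only [hf]
    fun_prop
  have hgd : ∀ x ∈ Ioo (-1 : ℝ) 1, HasDerivAt (fun y => l y - l z - k * (y - z))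
      (weightLim (ballShape x) / ballShape x ^ 3 - k) x := fun x hx => by
    refine (((hasDerivAt_logModel' hx).sub_const (l z)).sub
      (((hasDerivAt_id' x).sub_const z).const_mul k)).congr_deriv ?_
    ring
  have hmono : MonotoneOn (fun y => l y - l z - k * (y - z)) (Icc lo hi ∩ Ioo (-1) 1) := by
    refine monotoneOn_of_deriv_nonneg ((convex_Icc _ _).inter (convex_Ioo _ _))
      (fun x hx => (hgd x hx.2).continuousAt.continuousWithinAt) ?_ ?_
    · exact fun x hx => (hgd x (interior_subset hx).2).differentiableAt.differentiableWithinAt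
    intro x hx
    rw [(hgd x (interior_subset hx).2).deriv, sub_nonneg]
    rw [interior_inter, interior_Icc] at hx
    exact hk.trans (curvature_mono (hsub hx.1) hY hY1 (hY2 x hx.1))
  have key : f z ≤ f s := by
    rcases le_total z s with h | h
    · refine (monotoneOn_of_deriv_nonneg (convex_Icc z s) hc.continuousOn ?_ ?_)
        (left_mem_Icc.2 h) (right_mem_Icc.2 h) h
      · rw [interior_Icc]
        exact fun x hx => (hd x ⟨hz1.1.trans hx.1, hx.2.trans_le (hs.2.trans hhi)⟩).differentiableAt.differentiableWithinAt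
      intro x hx
      rw [interior_Icc] at hx
      have hx1 : x ∈ Ioo (-1 : ℝ) 1 := ⟨hz1.1.trans hx.1, hx.2.trans_le (hs.2.trans hhi)⟩
      rw [(hd x hx1).deriv]
      have := hmono ⟨hz, hz1⟩ ⟨⟨hz.1.trans hx.1.le, hx.2.le.trans hs.2⟩, hx1⟩ hx.1.le
      simp only [sub_self, mul_zero] at this
      exact this
    · refine (antitoneOn_of_deriv_nonpos (convex_Icc s z) hc.continuousOn ?_ ?_)
        (left_mem_Icc.2 h) (right_mem_Icc.2 h) h
      · rw [interior_Icc]
        exact fun x hx => (hd x ⟨(hlo.trans hs.1).trans_lt hx.1, hx.2.trans hz1.2⟩).differentiableAt.differentiableWithinAt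
      intro x hx
      rw [interior_Icc] at hx
      have hx1 : x ∈ Ioo (-1 : ℝ) 1 := ⟨(hlo.trans hs.1).trans_lt hx.1, hx.2.trans hz1.2⟩
      rw [(hd x hx1).deriv]
      have := hmono ⟨⟨hs.1.trans hx.1.le, hx.2.le.trans hz.2⟩, hx1⟩ ⟨hz, hz1⟩ hx.2.le
      simp only [sub_self, mul_zero] at this
      exact this
  simp only [hf, sub_self, mul_zero, sub_zero, ne_eq, OfNat.ofNat_ne_zero, not_false_eq_true,
    zero_pow] at key
  simp only [hl] at key
  linarith

/-- The gain function of a cell at the state `z`, in the variables `t` and `ρ`. -/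
noncomputable def cellGain (t z : ℝ) : ℝ := ballShape t / (1 - t * z) * logBreg t z

/-- The gain as the perspective of the model. -/
theorem cellGain_eq {t z : ℝ} (ht : t ∈ Ioo (0 : ℝ) 1) (hz : z ∈ Icc (-1 : ℝ) 1) :
    cellGain t z = (1 - t * ((t - z) / (1 - t * z))) / ballShape t *
        (logModel z - Real.log (1 + halfAngle t ^ 2)) +
      (t - z) / (1 - t * z) * halfAngle t := by
  have hI : t ∈ Ioo (-1 : ℝ) 1 := sub01 ht
  have hp := ball_pos hI
  have hp2 := ball_sq (Ioo_subset_Icc_self hI)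
  have hden : 0 < 1 - t * z := by nlinarith [mul_le_mul_of_nonneg_left hz.2 ht.1.le, ht.2]
  obtain ⟨-, -, hpa⟩ := halfAngle_param ⟨ht.1.le, ht.2.le⟩
  have h1 := one_add_ball_pos t
  have ha : Real.log (1 + halfAngle t ^ 2) = Real.log 2 - Real.log (1 + ballShape t) := by
    rw [← Real.log_div two_ne_zero h1.ne']
    congr 1
    field_simp
    linear_combination hpa
  have e : 1 - t * ((t - z) / (1 - t * z)) = ballShape t ^ 2 / (1 - t * z) := by
    rw [hp2]
    field_simp
    ring
  rw [cellGain, logBreg, ha, logModel_eq, Real.log_div h1.ne' (one_add_ball_pos z).ne', e,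
    halfAngle]
  field_simp
  ring

/-- The gain of the tail lemma is at least the cell gain less the quadratic part. -/
theorem cellGain_le_tailGain (hm : 1 ≤ m) {Q : ℝ → ℝ} {η t x z u : ℝ} (ht : t ∈ Ioo (0 : ℝ) 1)
    (hz : z ∈ Icc (-1 : ℝ) 1) (hη : η ≤ 1)
    (hu : 2 * ((m : ℝ) + 1) * Q t ≤ ballShape t * u) :
    (m : ℝ) / ((m : ℝ) + 1) * x ^ 2 *
        (cellGain t z - (1 - η) * u / 2 * ((t - z) / (1 - t * z)) ^ 2) ≤
      tailGain m Q η t x ((t - z) / (1 - t * z)) := by
  refine le_trans (le_trans ?_ le_rfl) (logGain_le_tailGain hm ht hz)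
  set ρ := (t - z) / (1 - t * z)
  have hI : t ∈ Ioo (-1 : ℝ) 1 := sub01 ht
  have hp := ball_pos hI
  have hden : 0 < 1 - t * z := by nlinarith [mul_le_mul_of_nonneg_left hz.2 ht.1.le, ht.2]
  have key : (1 - η) * ρ ^ 2 * (2 * ((m : ℝ) + 1) * Q t) ≤ (1 - η) * ρ ^ 2 * (ballShape t * u) :=
    mul_le_mul_of_nonneg_left hu (mul_nonneg (by linarith) (sq_nonneg _))
  have e : (m : ℝ) / ballShape t * x ^ 2 *
      (ballShape t ^ 2 / ((1 - t * z) * ((m : ℝ) + 1)) * logBreg t z -
        (1 - η) * (Q t * ρ ^ 2)) =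
      (m : ℝ) / ((m : ℝ) + 1) * x ^ 2 * (cellGain t z - (1 - η) * u / 2 * ρ ^ 2) +
        (m : ℝ) * x ^ 2 / (2 * ((m : ℝ) + 1) * ballShape t) *
          ((1 - η) * ρ ^ 2 * (ballShape t * u) -
            (1 - η) * ρ ^ 2 * (2 * ((m : ℝ) + 1) * Q t)) := by
    rw [cellGain]
    field_simp
    ring
  rw [e]
  exact le_add_of_nonneg_right (mul_nonneg (by positivity) (sub_nonneg.2 key))

/-- Next to `ρ = 0` the quadratic bound alone. -/
theorem quad_le_tailGain (hm : 1 ≤ m) {η t x ρ l : ℝ} (hη : 0 ≤ η) (ht : t ∈ Ioo (0 : ℝ) 1)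
    (hρ : ρ ∈ Icc (-1 : ℝ) 1) {Q : ℝ → ℝ}
    (hQ : ∀ t ∈ Ioo (0 : ℝ) 1, ∀ r ∈ Icc (-1 : ℝ) 1, Q t * r ^ 2 ≤ pureBreg m t r)
    (hl : ballShape t * l ≤ 2 * ((m : ℝ) + 1) * Q t) :
    (m : ℝ) / ((m : ℝ) + 1) * x ^ 2 * (η * l / 2 * ρ ^ 2) ≤ tailGain m Q η t x ρ := by
  have hp := ball_pos (sub01 ht)
  have key : η * ρ ^ 2 * (ballShape t * l) ≤ η * ρ ^ 2 * (2 * ((m : ℝ) + 1) * Q t) :=
    mul_le_mul_of_nonneg_left hl (mul_nonneg hη (sq_nonneg _))
  rw [tailGain]
  calc (m : ℝ) / ((m : ℝ) + 1) * x ^ 2 * (η * l / 2 * ρ ^ 2)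
      = (m : ℝ) * x ^ 2 / (2 * ((m : ℝ) + 1) * ballShape t) * (η * ρ ^ 2 * (ballShape t * l)) := by
        field_simp
    _ ≤ (m : ℝ) * x ^ 2 / (2 * ((m : ℝ) + 1) * ballShape t) *
          (η * ρ ^ 2 * (2 * ((m : ℝ) + 1) * Q t)) :=
        mul_le_mul_of_nonneg_left key (by positivity)
    _ = (m : ℝ) / ballShape t * x ^ 2 * (η * (Q t * ρ ^ 2)) := by field_simp
    _ ≤ _ := mul_le_mul_of_nonneg_left (by linarith [hQ t ht ρ hρ])
        (mul_nonneg (div_nonneg (Nat.cast_nonneg _) hp.le) (sq_nonneg _))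

/-- The cubic loss is below its cubic term everywhere: the fourth derivative of `x ^ q` is
positive. -/
theorem tailCubic_le_cube (hm : 3 ≤ m) {x : ℝ} (hx : 0 < x) :
    2 / tailExp m * tailCubic m x ≤ 2 * ((m : ℝ) - 2) / (3 * (m : ℝ) ^ 2) * (x - 1) ^ 3 := by
  obtain ⟨hq, hq2⟩ := tailExp_mem hm
  set q := tailExp m with hqd
  set κ := q * (q - 1) * (2 - q) / 6 with hκ
  set f : ℝ → ℝ := fun y => κ * (y - 1) ^ 3 - tailCubic m y with hf
  set f1 : ℝ → ℝ := fun y => 3 * κ * (y - 1) ^ 2 - tailCubic' m y with hf1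
  have d0 : ∀ y, HasDerivAt f (f1 y) y := fun y => by
    refine ((((hasDerivAt_id' y).sub_const 1).pow 3).const_mul κ |>.sub
      (hasDerivAt_tailCubic hm y)).congr_deriv ?_
    simp only [hf1]
    push_cast
    ring
  have d1 : ∀ y, 0 < y → HasDerivAt f1
      (6 * κ * (y - 1) - (q * (q - 1) - q * ((q - 1) * y ^ (q - 2)))) y := fun y hy => by
    have hr : HasDerivAt (fun s : ℝ => s ^ (q - 1)) ((q - 1) * y ^ (q - 1 - 1)) y :=
      Real.hasDerivAt_rpow_const (Or.inl hy.ne')
    refine ((((hasDerivAt_id' y).sub_const 1).pow 2).const_mul (3 * κ) |>.sub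
      (((hasDerivAt_id' y).sub_const 1 |>.const_mul (q * (q - 1))).sub
        ((hr.const_mul q).sub_const q))).congr_deriv ?_
    rw [show q - 1 - 1 = q - 2 by ring]
    push_cast
    ring
  have hneg : ∀ y, 0 < y →
      0 ≤ 6 * κ * (y - 1) - (q * (q - 1) - q * ((q - 1) * y ^ (q - 2))) := fun y hy => by
    have hb := one_add_mul_self_le_rpow_one_add (s := 1 / y - 1) (by
      have : 0 < 1 / y := by positivity
      linarith) (p := 2 - q + 1) (by linarith)
    rw [add_sub_cancel, Real.div_rpow zero_le_one hy.le, Real.one_rpow,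
      show 2 - q + 1 = (2 - q) + 1 by ring, Real.rpow_add hy, Real.rpow_one] at hb
    rw [show q - 2 = -(2 - q) by ring, Real.rpow_neg hy.le]
    set Y := y ^ (2 - q)
    have hY : 0 < Y := Real.rpow_pos_of_pos hy _
    have hb' : 1 + (2 - q) * (1 - y) ≤ 1 / Y := by
      field_simp at hb ⊢
      nlinarith
    have := mul_le_mul_of_nonneg_left hb' (mul_nonneg (by linarith) (by linarith) :
      0 ≤ q * (q - 1))
    rw [one_div] at this
    simp only [hκ]
    linarith
  have hm1 : MonotoneOn f1 (Ioi 0) := by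
    refine monotoneOn_of_deriv_nonneg (convex_Ioi _)
      (fun y hy => (d1 y hy).continuousAt.continuousWithinAt) ?_ ?_
    · exact fun y hy => (d1 y (interior_subset hy)).differentiableAt.differentiableWithinAt
    intro y hy
    rw [(d1 y (interior_subset hy)).deriv]
    exact hneg y (interior_subset hy)
  have h10 : f1 1 = 0 := by simp [hf1, (tailCubic_one m).2]
  have this : f 1 ≤ f x := by
    rcases le_total 1 x with h | h
    · refine (monotoneOn_of_deriv_nonneg (convex_Icc 1 x)
        (fun y _ => (d0 y).continuousAt.continuousWithinAt)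
        (fun y _ => (d0 y).differentiableAt.differentiableWithinAt) fun y hy => ?_)
        (left_mem_Icc.2 h) (right_mem_Icc.2 h) h
      rw [interior_Icc] at hy
      rw [(d0 y).deriv, ← h10]
      exact hm1 (mem_Ioi.2 one_pos) (mem_Ioi.2 (one_pos.trans hy.1)) hy.1.le
    · refine (antitoneOn_of_deriv_nonpos (convex_Icc x 1)
        (fun y _ => (d0 y).continuousAt.continuousWithinAt)
        (fun y _ => (d0 y).differentiableAt.differentiableWithinAt) fun y hy => ?_)
        (left_mem_Icc.2 h) (right_mem_Icc.2 h) h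
      rw [interior_Icc] at hy
      rw [(d0 y).deriv, ← h10]
      exact hm1 (mem_Ioi.2 (hx.trans hy.1)) (mem_Ioi.2 one_pos) hy.2.le
  simp only [hf, sub_self, ne_eq, OfNat.ofNat_ne_zero, not_false_eq_true, zero_pow, mul_zero,
    (tailCubic_one m).1, sub_nonneg] at this
  refine (mul_le_mul_of_nonneg_left this (div_nonneg two_pos.le (by linarith))).trans_eq ?_
  have hm0 : (m : ℝ) ≠ 0 := Nat.cast_ne_zero.2 (by omega)
  simp only [hκ, hqd, tailExp]
  simp only [hqd, tailExp] at hq
  have : (2 : ℝ) - 2 / m ≠ 0 := by linarith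
  have : (m : ℝ) - 1 ≠ 0 := by
    have : (3 : ℝ) ≤ m := by exact_mod_cast hm
    linarith
  have e : (2 : ℝ) / (2 - 2 / m) = m / (m - 1) := by field_simp
  rw [e]
  field_simp
  ring

/-- Globally the cubic loss is at most quadratic. -/
theorem tailCubic_le_sq (hm : 3 ≤ m) {x : ℝ} (hx : 0 ≤ x) :
    2 / tailExp m * tailCubic m x ≤ (tailExp m - 1) * (x - 1) ^ 2 := by
  obtain ⟨hq, -⟩ := tailExp_mem hm
  have h := one_add_mul_self_le_rpow_one_add (s := x - 1) (by linarith) hq.le
  rw [add_sub_cancel] at h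
  calc 2 / tailExp m * tailCubic m x
      ≤ 2 / tailExp m * (tailExp m * (tailExp m - 1) / 2 * (x - 1) ^ 2) :=
        mul_le_mul_of_nonneg_left (by rw [tailCubic]; linarith) (div_nonneg two_pos.le (by linarith))
    _ = _ := by
        have : tailExp m ≠ 0 := by linarith
        field_simp

/-- The cubic Taylor polynomial of `x ^ q` at a power `y ^ m` is a lower bound, with a rational
value. -/
theorem taylor_le_rpow (hm : 3 ≤ m) {x y : ℝ} (hx : 0 < x) (hy : 0 < y) :
    y ^ (2 * m - 2) * (1 + tailExp m * (x / y ^ m - 1) +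
        tailExp m * (tailExp m - 1) / 2 * (x / y ^ m - 1) ^ 2 +
        tailExp m * (tailExp m - 1) * (tailExp m - 2) / 6 * (x / y ^ m - 1) ^ 3) ≤
      x ^ tailExp m := by
  obtain ⟨hq, -⟩ := tailExp_mem hm
  have hc : (0 : ℝ) < y ^ m := pow_pos hy m
  set w := x / y ^ m with hw
  have hw0 : 0 < w := div_pos hx hc
  have hm0 : (m : ℝ) ≠ 0 := Nat.cast_ne_zero.2 (by omega)
  have e : x ^ tailExp m = y ^ (2 * m - 2) * w ^ tailExp m := by
    rw [hw, Real.div_rpow hx.le hc.le, ← Real.rpow_natCast y m, ← Real.rpow_mul hy.le,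
      show (m : ℝ) * tailExp m = ((2 * m - 2 : ℕ) : ℝ) by
        rw [tailExp, Nat.cast_sub (by omega)]
        push_cast
        field_simp, Real.rpow_natCast]
    field_simp
  rw [e]
  refine mul_le_mul_of_nonneg_left ?_ (pow_nonneg hy.le _)
  have h := tailCubic_le_cube hm hw0
  rw [show 2 * ((m : ℝ) - 2) / (3 * (m : ℝ) ^ 2) =
    2 / tailExp m * (tailExp m * (tailExp m - 1) * (2 - tailExp m) / 6) by
      rw [show (2 : ℝ) / tailExp m * (tailExp m * (tailExp m - 1) * (2 - tailExp m) / 6) =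
        (tailExp m - 1) * (2 - tailExp m) / 3 by field_simp [show tailExp m ≠ 0 by linarith]; ring,
        tailExp]
      field_simp
      ring, mul_assoc] at h
  have h' := le_of_mul_le_mul_left h (div_pos two_pos (by linarith))
  rw [tailCubic] at h'
  linarith

end Vale.Agent.P237.Quant
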