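import Vale.Agent.P237.Quant.LinearUpperData
import Vale.Agent.P237.Quant.TailCell

/-!
One checked cell of the upper bound of the linear term: on it the calibration inequality holds at
every point that the profile allows.
-/

namespace Vale.Agent.P237.Quant

open MeasureTheory Set Real

variable {m : ℕ} {φ : ℝ → ℝ}

theorem le_upGrid (q : ℚ) : q ≤ upGrid q := by
  rw [upGrid, le_div_iff₀ (by norm_num)]
  exact (Int.lt_floor_add_one _).le

theorem upR_cast (z : ℤ) : upR z = ((upQ z : ℚ) : ℝ) := by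
  simp only [upR, upQ]
  push_cast
  ring

/-- An affine function is nonnegative between two ends where it is. -/
theorem aff_nonneg {a b el eh e : ℝ} (h₀ : 0 ≤ a + b * el) (h₁ : 0 ≤ a + b * eh)
    (he : e ∈ Icc el eh) : 0 ≤ a + b * e := by
  rcases le_total 0 b with hb | hb
  · linarith [mul_le_mul_of_nonneg_left he.1 hb]
  · linarith [mul_le_mul_of_nonpos_left he.2 hb]

/-- `1 / n` lies between the ends of a range. -/
theorem envRange_bounds {R : EnvRange} (hR : R.check = true) (hm : R.Mem (m + 1)) :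
    (R.e : ℝ) ≤ 1 / ((m : ℝ) + 1) ∧ 0 ≤ (R.e : ℝ) ∧ 1 / ((m : ℝ) + 1) ≤ 1 / (R.lo : ℝ) ∧
      1 / (R.lo : ℝ) ≤ 1 / 4 := by
  simp only [EnvRange.check, decide_eq_true_eq] at hR
  obtain ⟨hmlo, hmhi⟩ := hm
  have hloR : (R.lo : ℝ) ≤ (m : ℝ) + 1 := by exact_mod_cast hmlo
  have hlo4 : (4 : ℝ) ≤ R.lo := by exact_mod_cast hR.1
  refine ⟨?_, ?_, one_div_le_one_div_of_le (by linarith) hloR,
    one_div_le_one_div_of_le (by norm_num) hlo4⟩
  · unfold EnvRange.e
    split_ifs with h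
    · simp; positivity
    · push_cast
      refine one_div_le_one_div_of_le (by positivity) ?_
      exact_mod_cast hmhi.resolve_left h
  · have : 0 ≤ R.e := by unfold EnvRange.e; split <;> positivity
    exact_mod_cast this

/-- The point: the half angle variable with its relations. -/
structure UpPoint (m : ℕ) (t σ : ℝ) : Prop where
  t_mem : t ∈ Ioo (0 : ℝ) 1
  σ_pos : 0 < σ
  u_lt : 1 / ((m : ℝ) + 1) * σ ^ 2 < 1
  t_eq : t * √((m : ℝ) + 1) * (1 + 1 / ((m : ℝ) + 1) * σ ^ 2) = 2 * σ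
  p_eq : ballShape t = (1 - 1 / ((m : ℝ) + 1) * σ ^ 2) / (1 + 1 / ((m : ℝ) + 1) * σ ^ 2)

theorem upPoint_mk {t : ℝ} (ht : t ∈ Ioo (0 : ℝ) 1) :
    UpPoint m t (√((m : ℝ) + 1) * halfAngle t) := by
  have hn : (0 : ℝ) < (m : ℝ) + 1 := by positivity
  obtain ⟨hh, h1, h2⟩ := halfAngle_param (Ioo_subset_Icc_self ht)
  have hu : 1 / ((m : ℝ) + 1) * (√((m : ℝ) + 1) * halfAngle t) ^ 2 = halfAngle t ^ 2 := by
    rw [mul_pow, sq_sqrt hn.le, ← mul_assoc, one_div, inv_mul_cancel₀ hn.ne', one_mul]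
  have hpos : 0 < halfAngle t := div_pos ht.1 (one_add_ball_pos t)
  refine ⟨ht, mul_pos (Real.sqrt_pos.2 hn) hpos, ?_, ?_, ?_⟩
  · rw [hu, sq_lt_one_iff₀ hpos.le, halfAngle, div_lt_one (one_add_ball_pos t)]
    linarith [ht.2, Real.sqrt_nonneg (1 - t ^ 2), show 0 ≤ ballShape t from Real.sqrt_nonneg _]
  · rw [hu]
    linear_combination √((m : ℝ) + 1) * h1
  · rw [hu, eq_div_iff (by positivity)]
    exact h2

/-- The exponent along a cell: the series of the ball against the decay `k z`. -/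
noncomputable def upPhi (el eh w k s : ℝ) : ℝ :=
  (1 - el) * (2 * s ^ 2) * upSeries (eh * s ^ 2) w - k * (2 * s / (1 + eh * s ^ 2))

theorem upPhi_convex {el eh k a b σ : ℝ} (ha : 0 ≤ a) (hab : a < b) (hσ : σ ∈ Icc a b)
    (heh : 0 ≤ eh) (hw : eh * b ^ 2 < 1) (hel : el ≤ 1) (hk : 0 ≤ k) :
    upPhi el eh (eh * b ^ 2) k σ ≤ (b - σ) / (b - a) * upPhi el eh (eh * b ^ 2) k a +
      (σ - a) / (b - a) * upPhi el eh (eh * b ^ 2) k b := by
  have hz := half_angle_concave heh ha hσ hw.le hab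
  set w := eh * b ^ 2 with hwdef
  set p := (b - σ) / (b - a) with hp'
  set q := (σ - a) / (b - a) with hq'
  have hne : b - a ≠ 0 := (sub_pos.2 hab).ne'
  have hpq : p + q = 1 := by rw [hp', hq', ← add_div, div_eq_one_iff_eq hne]; ring
  have hp0 : 0 ≤ p := div_nonneg (sub_nonneg.2 hσ.2) (sub_pos.2 hab).le
  have hq0 : 0 ≤ q := div_nonneg (sub_nonneg.2 hσ.1) (sub_pos.2 hab).le
  have hmid : σ = p * a + q * b := by rw [hp', hq']; field_simp; ring
  have hpw : ∀ j : ℕ, σ ^ j ≤ p * a ^ j + q * b ^ j := fun j => by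
    have := (convexOn_pow j).2 (show a ∈ Ici 0 from ha)
      (show b ∈ Ici 0 from ha.trans hab.le) hp0 hq0 hpq
    simp only [smul_eq_mul] at this
    rwa [← hmid] at this
  have h1el : 0 ≤ 2 * (1 - el) := by linarith
  have hw2 : w ^ 2 < 1 := by
    have : 0 ≤ w := mul_nonneg heh (sq_nonneg b)
    nlinarith
  have hwd : 0 ≤ (7 * (1 - w ^ 2))⁻¹ := inv_nonneg.2 (by linarith)
  have i1 := mul_le_mul_of_nonneg_left (hpw 2) h1el
  have i2 := mul_le_mul_of_nonneg_left (hpw 6)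
    (mul_nonneg h1el (show 0 ≤ eh ^ 2 / 3 by positivity))
  have i3 := mul_le_mul_of_nonneg_left (hpw 10)
    (mul_nonneg h1el (show 0 ≤ eh ^ 4 / 5 by positivity))
  have i4 := mul_le_mul_of_nonneg_left (hpw 14)
    (mul_nonneg h1el (mul_nonneg (show 0 ≤ eh ^ 6 by positivity) hwd))
  have i5 := mul_le_mul_of_nonneg_left hz hk
  have e : ∀ s : ℝ, upPhi el eh w k s = 2 * (1 - el) * s ^ 2 +
      2 * (1 - el) * (eh ^ 2 / 3) * s ^ 6 + 2 * (1 - el) * (eh ^ 4 / 5) * s ^ 10 +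
      2 * (1 - el) * (eh ^ 6 * (7 * (1 - w ^ 2))⁻¹) * s ^ 14 -
      k * (2 * s / (1 + eh * s ^ 2)) := fun s => by
    simp only [upPhi, upSeries, div_eq_mul_inv]
    ring
  rw [e σ, e a, e b]
  linarith

/-- A bound affine in `σ` from the two ends of a cell. -/
theorem upPhi_interp {el eh k a b σ C x U₀ U₁ Ua Ub U : ℝ}
    (hx : x ^ 2 ≤ C * exp (upPhi el eh (eh * b ^ 2) k σ)) (ha : 0 ≤ a) (hab : a < b)
    (hσ : σ ∈ Icc a b) (heh : 0 ≤ eh) (hw : eh * b ^ 2 < 1) (hel : el ≤ 1) (hk : 0 ≤ k)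
    (na : 0 ≤ Ua) (nb : 0 ≤ Ub) (ea : C * exp (upPhi el eh (eh * b ^ 2) k a) ≤ Ua ^ 2)
    (eb : C * exp (upPhi el eh (eh * b ^ 2) k b) ≤ Ub ^ 2)
    (hUa : Ua = U₀ + U₁ * a) (hUb : Ub = U₀ + U₁ * b) (hU : U = U₀ + U₁ * σ) : x ≤ U := by
  have hconv := upPhi_convex ha hab hσ heh hw hel hk
  set A := upPhi el eh (eh * b ^ 2) k a
  set B := upPhi el eh (eh * b ^ 2) k b
  set p := (b - σ) / (b - a) with hp'
  set q := (σ - a) / (b - a) with hq'
  have hne : b - a ≠ 0 := (sub_pos.2 hab).ne'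
  have hpq : p + q = 1 := by rw [hp', hq', ← add_div, div_eq_one_iff_eq hne]; ring
  have hp0 : 0 ≤ p := div_nonneg (sub_nonneg.2 hσ.2) (sub_pos.2 hab).le
  have hq0 : 0 ≤ q := div_nonneg (sub_nonneg.2 hσ.1) (sub_pos.2 hab).le
  have hC0 : 0 ≤ C :=
    nonneg_of_mul_nonneg_left ((sq_nonneg x).trans hx) (exp_pos _)
  have hroot : ∀ A U : ℝ, 0 ≤ U → C * exp A ≤ U ^ 2 → √C * exp (A / 2) ≤ U := by
    intro A U hU' hA'
    refine (pow_le_pow_iff_left₀ (mul_nonneg (Real.sqrt_nonneg _) (exp_pos _).le) hU'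
      two_ne_zero).1 ?_
    rwa [mul_pow, sq_sqrt hC0, ← exp_nat_mul,
      show ((2 : ℕ) : ℝ) * (A / 2) = A by push_cast; ring]
  have hUeq : U = p * Ua + q * Ub := by
    rw [hU, hUa, hUb, hp', hq']
    field_simp
    ring
  have h1 : x ≤ √C * exp ((p * A + q * B) / 2) := by
    refine le_trans (le_abs_self x) ((pow_le_pow_iff_left₀ (abs_nonneg x)
      (mul_nonneg (Real.sqrt_nonneg _) (exp_pos _).le) two_ne_zero).1 ?_)
    rw [sq_abs, mul_pow, sq_sqrt hC0, ← exp_nat_mul,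
      show ((2 : ℕ) : ℝ) * ((p * A + q * B) / 2) = p * A + q * B by push_cast; ring]
    exact hx.trans (mul_le_mul_of_nonneg_left (exp_le_exp.2 hconv) hC0)
  have h2 := convexOn_exp.2 (mem_univ (A / 2)) (mem_univ (B / 2)) hp0 hq0 hpq
  simp only [smul_eq_mul] at h2
  rw [show p * (A / 2) + q * (B / 2) = (p * A + q * B) / 2 by ring] at h2
  have h3 := mul_le_mul_of_nonneg_left h2 (Real.sqrt_nonneg C)
  have h4 := mul_le_mul_of_nonneg_left (hroot _ _ na ea) hp0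
  have h5 := mul_le_mul_of_nonneg_left (hroot _ _ nb eb) hq0
  linarith

namespace UpCell

variable {c : UpCell}

/-- The point lies in the cell. -/
def Mem (c : UpCell) (σ : ℝ) : Prop := upR c.lo ≤ σ ∧ (c.far = false → σ < upR c.hi)

/-- The node lies before the point. -/
theorem before {R : EnvRange} {N : UpNode} (hR : R.check = true) (hm : R.Mem (m + 1))
    (hZ : 0 < N.Z ∧ (N.Z : ℝ) < √((m : ℝ) + 1)) (h : c.beforeOK R N = true) {t σ : ℝ}
    (hP : UpPoint m t σ) (hσ : c.Mem σ) : (N.Z : ℝ) / √((m : ℝ) + 1) ≤ t := by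
  obtain ⟨he, he0, heh, -⟩ := envRange_bounds hR hm
  set n := (m : ℝ) + 1 with hn'
  have hn : 0 < n := by positivity
  have hr : 0 < √n := Real.sqrt_pos.2 hn
  have hZ0 : (0 : ℝ) < N.Z := by exact_mod_cast hZ.1
  simp only [beforeOK, Bool.and_eq_true, Bool.or_eq_true, decide_eq_true_eq] at h
  have key : ∀ s : ℚ, N.Z * (1 + 1 / (R.lo : ℚ) * s ^ 2) ≤ 2 * s →
      (N.Z : ℝ) * (1 + 1 / n * (s : ℝ) ^ 2) ≤ 2 * s := by
    intro s hs
    have hs' := (Rat.cast_le (K := ℝ)).2 hs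
    push_cast at hs'
    refine le_trans ?_ hs'
    gcongr
  have ha := key _ (leftOK_spec h.1)
  rw [← upR_cast] at ha
  have hb : ∃ b, σ ≤ b ∧ (N.Z : ℝ) * (1 + 1 / n * b ^ 2) ≤ 2 * b := by
    rcases h.2 with hfar | hhi
    · refine ⟨√n, ?_, ?_⟩
      · refine Real.le_sqrt_of_sq_le ?_
        have := hP.u_lt
        rw [div_mul_eq_mul_div, one_mul, div_lt_one hn] at this
        exact this.le
      · rw [Real.sq_sqrt hn.le, one_div, inv_mul_cancel₀ hn.ne']
        linarith [hZ.2]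
    · by_cases hf : c.far = true
      · refine ⟨√n, ?_, ?_⟩
        · refine Real.le_sqrt_of_sq_le ?_
          have := hP.u_lt
          rw [div_mul_eq_mul_div, one_mul, div_lt_one hn] at this
          exact this.le
        · rw [Real.sq_sqrt hn.le, one_div, inv_mul_cancel₀ hn.ne']
          linarith [hZ.2]
      · have hb := key _ (leftOK_spec hhi)
        rw [← upR_cast] at hb
        exact ⟨upR c.hi, (hσ.2 (by simpa using hf)).le, hb⟩
  obtain ⟨b, hσb, hb⟩ := hb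
  have hq : (N.Z : ℝ) * (1 + 1 / n * σ ^ 2) ≤ 2 * σ := by
    rcases hσb.eq_or_lt with h' | h'
    · rw [h']; exact hb
    have h1 : 0 ≤ (σ - upR c.lo) * (b - σ) * ((N.Z : ℝ) * (1 / n) * (b - upR c.lo)) :=
      mul_nonneg (mul_nonneg (by linarith [hσ.1]) (by linarith))
        (mul_nonneg (by positivity) (by linarith [hσ.1]))
    refine le_of_mul_le_mul_left ?_ (show 0 < b - upR c.lo by linarith [hσ.1])
    have h2 := mul_le_mul_of_nonneg_left ha (show 0 ≤ b - σ by linarith)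
    have h3 := mul_le_mul_of_nonneg_left hb (show 0 ≤ σ - upR c.lo by linarith [hσ.1])
    linarith
  rw [div_le_iff₀ hr]
  refine le_of_mul_le_mul_right (hq.trans hP.t_eq.ge) ?_
  positivity

theorem node_facts {R : EnvRange} {K : UpCuts} {N : UpNode} (hN : upNodeQ R K N = true)
    (hm : R.Mem (m + 1)) (hR : R.check = true) :
    (0 < N.Z ∧ (N.Z : ℝ) < √((m : ℝ) + 1)) ∧ 0 < N.l := by
  simp only [upNodeQ, envRateOK, Bool.and_eq_true, decide_eq_true_eq] at hN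
  obtain ⟨⟨⟨h1, h2, -⟩, hl, -⟩, -⟩ := hN
  refine ⟨⟨h1, ?_⟩, hl⟩
  simp only [EnvRange.check, decide_eq_true_eq] at hR
  have hlo : (R.lo : ℝ) ≤ (m : ℝ) + 1 := by exact_mod_cast hm.1
  have hlo4 : (4 : ℝ) ≤ R.lo := by exact_mod_cast hR.1
  refine (pow_lt_pow_iff_left₀ (by exact_mod_cast h1.le) (Real.sqrt_nonneg _) two_ne_zero).1 ?_
  rw [sq_sqrt (by positivity)]
  have h' : ((N.Z * N.Z * (1 / (R.lo : ℚ)) : ℚ) : ℝ) < ((1 : ℚ) : ℝ) := Rat.cast_lt.2 h2
  push_cast at h'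
  rw [mul_one_div, div_lt_one (by linarith)] at h'
  simp only [pow_two]
  linarith

/-- The gap of a cell: `√n ρ (H - 2 e σ g) ≤ 2 σ - g H`. -/
theorem gap_sound (hm2 : 2 ≤ m) (hφ : IsShape φ) (hp : powRatio m φ ≤ 1) {R : EnvRange}
    {K : UpCuts} {N : UpNode} (hR : R.check = true) (hN : upNodeQ R K N = true)
    (hm : R.Mem (m + 1)) (hK : K.Mem m φ) (h : c.gapOK R N = true) {t σ : ℝ}
    (hP : UpPoint m t σ) (hσ : c.Mem σ) :
    √((m : ℝ) + 1) * shapeRho φ t * ((1 + 1 / ((m : ℝ) + 1) * σ ^ 2) -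
        2 * (1 / ((m : ℝ) + 1)) * σ * (upR c.g.1 + upR c.g.2 * (1 / ((m : ℝ) + 1)))) ≤
      2 * σ - (upR c.g.1 + upR c.g.2 * (1 / ((m : ℝ) + 1))) *
        (1 + 1 / ((m : ℝ) + 1) * σ ^ 2) := by
  obtain ⟨he, he0, heh, heh4⟩ := envRange_bounds hR hm
  obtain ⟨hZ, hl⟩ := node_facts hN hm hR
  simp only [gapOK, Bool.and_eq_true, decide_eq_true_eq] at h
  obtain ⟨hbefore, g0, g1, g2, g3⟩ := h
  have ht := before hR hm hZ hbefore hP hσ
  have hnode := upNode_sound hφ hp hR hN hm hK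
    (t := (N.Z : ℝ) / √((m : ℝ) + 1)) le_rfl
    (by rw [div_le_one (by positivity)]; exact hZ.2.le)
  set n := (m : ℝ) + 1 with hn'
  set e := 1 / n with he'
  have hn : 0 < n := by positivity
  have hmR : (2 : ℝ) ≤ m := by exact_mod_cast hm2
  have hZ0 : (0 : ℝ) < N.Z := by exact_mod_cast hZ.1
  have hl0 : (0 : ℝ) < N.l := by exact_mod_cast hl
  set g := upR c.g.1 + upR c.g.2 * e with hg
  set eh := 1 / (R.lo : ℝ)
  set top := (N.l : ℝ) / (1 - (R.e : ℝ)) - eh * (N.l : ℝ) ^ 2 / (2 * (1 - eh) ^ 2) with htop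
  have i0 := (Rat.cast_nonneg (K := ℝ)).2 g0
  have i1 := (Rat.cast_nonneg (K := ℝ)).2 g1
  have i2 := (Rat.cast_le (K := ℝ)).2 g2
  have i3 := (Rat.cast_le (K := ℝ)).2 g3
  push_cast at i0 i1 i2 i3
  rw [← upR_cast, ← upR_cast] at i0 i1 i2 i3
  have hg0 : 0 ≤ g := aff_nonneg i0 i1 ⟨he, heh⟩
  have hgZ : g * N.Z ≤ top := by
    have := aff_nonneg (a := top - upR c.g.1 * N.Z) (b := -(upR c.g.2 * N.Z))
      (el := (R.e : ℝ)) (eh := eh) (by rw [htop]; linarith) (by rw [htop]; linarith) ⟨he, heh⟩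
    rw [hg]
    linarith
  have htop' : top ≤ n * ((N.l : ℝ) / m - (N.l : ℝ) ^ 2 / (2 * (m : ℝ) ^ 2)) := by
    have hm0 : (0 : ℝ) < m := by linarith
    have a0 : 1 - e = m / n := by rw [he', hn']; field_simp; ring
    have a1 : n / m = 1 / (1 - e) := by rw [a0, one_div_div]
    have a2 : n / (m : ℝ) ^ 2 = e / (1 - e) ^ 2 := by
      rw [a0, he']
      field_simp
    have e1 : n * ((N.l : ℝ) / m - (N.l : ℝ) ^ 2 / (2 * (m : ℝ) ^ 2)) =
        (N.l : ℝ) * (n / m) - (N.l : ℝ) ^ 2 / 2 * (n / (m : ℝ) ^ 2) := by ring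
    rw [e1, a1, a2, htop]
    have b1 : 1 / (1 - (R.e : ℝ)) ≤ 1 / (1 - e) :=
      one_div_le_one_div_of_le (by linarith) (by linarith)
    have b2 : e / (1 - e) ^ 2 ≤ eh / (1 - eh) ^ 2 :=
      div_le_div₀ (by linarith) heh (pow_pos (by linarith) 2)
        (pow_le_pow_left₀ (by linarith) (by linarith) 2)
    have := mul_le_mul_of_nonneg_left b1 hl0.le
    have := mul_le_mul_of_nonneg_left b2 (show 0 ≤ (N.l : ℝ) ^ 2 / 2 by positivity)
    have c1 : (N.l : ℝ) / (1 - (R.e : ℝ)) = (N.l : ℝ) * (1 / (1 - (R.e : ℝ))) := by ring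
    have c2 : eh * (N.l : ℝ) ^ 2 / (2 * (1 - eh) ^ 2) =
        (N.l : ℝ) ^ 2 / 2 * (eh / (1 - eh) ^ 2) := by rw [div_mul_div_comm, mul_comm eh]
    linarith
  obtain ⟨-, hgap⟩ := upChord hm2 hφ hZ0 hZ.2 hl0 hnode (t := t) ⟨ht, hP.t_mem.2⟩
  have hρ := hgap g hg0 (hgZ.trans htop')
  have hH : 0 ≤ √n * (1 + e * σ ^ 2) := by positivity
  have hsq : √n * √n = n := Real.mul_self_sqrt hn.le
  have h2 := mul_le_mul_of_nonneg_right hρ hH
  have ht2 : t * √n * (1 + e * σ ^ 2) = 2 * σ := hP.t_eq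
  calc √n * shapeRho φ t * (1 + e * σ ^ 2 - 2 * e * σ * g)
      = shapeRho φ t * (1 - g / √n * t) * (√n * (1 + e * σ ^ 2)) := by
        have : 2 * e * σ * g = g / √n * t * (1 + e * σ ^ 2) := by
          rw [he', show g / √n * t * (1 + 1 / n * σ ^ 2) =
            g * (t * √n * (1 + 1 / n * σ ^ 2)) / (√n * √n) by field_simp, ← he', ht2, hsq, he']
          ring
        rw [this]
        field_simp
    _ ≤ (t - g / √n) * (√n * (1 + e * σ ^ 2)) := h2
    _ = 2 * σ - g * (1 + e * σ ^ 2) := by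
        rw [← ht2]
        field_simp

/-- The bound of a cell: `specU / M ≤ U`. -/
theorem bound_sound (hm2 : 2 ≤ m) (hφ : IsShape φ) (hp : powRatio m φ ≤ 1) {R : EnvRange}
    {K : UpCuts} {N : UpNode} (hR : R.check = true) (hN : upNodeQ R K N = true)
    (hm : R.Mem (m + 1)) (hK : K.Mem m φ) (hK0 : 0 ≤ K.top)
    (hs : mass m φ 1 ≤ 281 / 250 * specM m φ ^ 2 * mass m ballShape 1)
    (h : c.boundOK R N K.top = true) {t σ : ℝ} (hP : UpPoint m t σ) (hσ : c.Mem σ)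
    (hlo : 0 ≤ c.lo) :
    specU m φ t / specM m φ ≤ upR c.U.1 + upR c.U.2.1 * σ +
      (upR c.U.2.2.1 + upR c.U.2.2.2 * σ) * (1 / ((m : ℝ) + 1)) := by
  obtain ⟨he, he0, heh, heh4⟩ := envRange_bounds hR hm
  obtain ⟨hZ, hl⟩ := node_facts hN hm hR
  simp only [boundOK, Bool.and_eq_true, decide_eq_true_eq, Bool.not_eq_true'] at h
  obtain ⟨⟨⟨⟨hfar, hbefore⟩, hw⟩, hA⟩, hB⟩ := h
  have ht := before hR hm hZ hbefore hP hσ
  have hnode := upNode_sound hφ hp hR hN hm hK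
    (t := (N.Z : ℝ) / √((m : ℝ) + 1)) le_rfl
    (by rw [div_le_one (by positivity)]; exact hZ.2.le)
  have hmR : (2 : ℝ) ≤ m := by exact_mod_cast hm2
  have hZ0 : (0 : ℝ) < N.Z := by exact_mod_cast hZ.1
  have hl0 : (0 : ℝ) < N.l := by exact_mod_cast hl
  set n := (m : ℝ) + 1 with hn'
  have hn : 0 < n := by positivity
  set e := 1 / n with he'
  set eh := 1 / (R.lo : ℝ) with heh'
  set el := (R.e : ℝ)
  have hσ1 : σ ≤ upR c.hi := (hσ.2 hfar).le
  set a := upR c.lo with ha'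
  set b := upR c.hi with hb'
  have ha0 : 0 ≤ a := by rw [ha', upR]; exact div_nonneg (by exact_mod_cast hlo) (by norm_num)
  have hab : a < b := hσ.1.trans_lt (hσ.2 hfar)
  set w := eh * b ^ 2 with hw'
  have hw1 : w < 1 := by
    have h' := (Rat.cast_lt (K := ℝ)).2 hw
    push_cast at h'
    rw [← upR_cast] at h'
    exact h'
  set k := (N.l : ℝ) / N.Z with hk
  have hbq : 0 ≤ k := div_nonneg hl0.le hZ0.le
  -- the decay and the centre
  obtain ⟨hdec, -⟩ := upChord hm2 hφ hZ0 hZ.2 hl0 hnode (t := t) ⟨ht, hP.t_mem.2⟩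
  have hM := specM_pos (show 1 ≤ m by omega) hφ
  have hpp := ball_pos (sub01 hP.t_mem)
  have hVb := ball_mass_pos m
  set C := (281 / 250 : ℝ) * (K.top : ℝ) with hC
  have hcentre : φ 0 ^ m ≤ C * specM m φ ^ 2 := by
    refine le_of_mul_le_mul_left (hK.2.trans ?_) hVb
    rw [hC]
    refine (mul_le_mul_of_nonneg_left hs (by exact_mod_cast hK0)).trans (le_of_eq ?_)
    ring
  set u := e * σ ^ 2 with hu
  have hu0 : 0 ≤ u := by rw [hu, he']; positivity
  have hσ0 := hP.σ_pos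
  have huh : u ≤ eh * σ ^ 2 := mul_le_mul_of_nonneg_right heh (sq_nonneg σ)
  have hehw : eh * σ ^ 2 ≤ w :=
    mul_le_mul_of_nonneg_left (pow_le_pow_left₀ hσ0.le hσ1 2) (by rw [heh']; positivity)
  set z := t * √n with hz
  have hzl : 2 * σ / (1 + eh * σ ^ 2) ≤ z := by
    have e1 : z = 2 * σ / (1 + u) := by
      rw [eq_div_iff (by linarith)]
      exact hP.t_eq
    rw [e1]
    exact div_le_div_of_nonneg_left (by linarith) (by linarith) (by linarith)
  set Φ := upPhi el eh w k with hΦ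
  have hpow : (1 / ballShape t) ^ m ≤ exp ((1 - el) * (2 * σ ^ 2) * upSeries (eh * σ ^ 2) w) := by
    have e1 : 1 / ballShape t = (1 + u) / (1 - u) := by
      rw [hP.p_eq, one_div_div]
    rw [← exp_log (show 0 < (1 / ballShape t) ^ m by positivity), exp_le_exp, log_pow, e1]
    refine (mul_le_mul_of_nonneg_left
      (log_half_angle_le hu0 (huh.trans hehw) hw1) (Nat.cast_nonneg m)).trans ?_
    have e2 : (m : ℝ) * (2 * u * upSeries u w) = (1 - e) * (2 * σ ^ 2) * upSeries u w := by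
      rw [hu, he', hn']
      field_simp
      ring
    rw [e2]
    have hwpos : 0 < 7 * (1 - w ^ 2) := by
      have : w ^ 2 < 1 := by nlinarith [hu0.trans (huh.trans hehw)]
      linarith
    refine mul_le_mul (mul_le_mul_of_nonneg_right (by linarith) (by positivity)) ?_ ?_
      (mul_nonneg (by linarith) (by positivity))
    · unfold upSeries
      gcongr
    · unfold upSeries
      positivity
  have hx2 : (specU m φ t / specM m φ) ^ 2 ≤ C * exp (Φ σ) := by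
    rw [div_pow, div_le_iff₀ (pow_pos hM 2), specU_sq hφ (sub01 hP.t_mem), div_pow,
      div_eq_mul_one_div, ← one_div_pow]
    have h1 : φ t ^ m ≤ exp (-(k * (2 * σ / (1 + eh * σ ^ 2)))) * (C * specM m φ ^ 2) :=
      hdec.trans (mul_le_mul (exp_le_exp.2 (neg_le_neg (mul_le_mul_of_nonneg_left hzl hbq)))
        hcentre (pow_nonneg hφ.centre.le m) (exp_pos _).le)
    refine (mul_le_mul h1 hpow (by positivity) ((pow_nonneg
      (hφ.nonneg t ⟨by linarith [hP.t_mem.1], hP.t_mem.2.le⟩) m).trans h1)).trans (le_of_eq ?_)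
    rw [hΦ, upPhi, exp_sub, exp_neg]
    ring
  -- the two ends
  have hend : ∀ s : ℚ, c.endOK R N K.top s = true →
      0 ≤ upR c.U.1 + upR c.U.2.1 * s + (upR c.U.2.2.1 + upR c.U.2.2.2 * s) * e ∧
      C * exp (Φ s) ≤
        (upR c.U.1 + upR c.U.2.1 * s + (upR c.U.2.2.1 + upR c.U.2.2.2 * s) * e) ^ 2 := by
    intro s hs'
    simp only [endOK, Bool.and_eq_true, decide_eq_true_eq] at hs'
    obtain ⟨⟨g0, g1, g2, g3⟩, g4, g5⟩ := hs'
    set G := upGrid (c.expo R N s) with hG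
    have hGle : Φ s ≤ (G : ℝ) := by
      refine le_of_eq_of_le ?_ (Rat.cast_le.2 (le_upGrid (c.expo R N s)))
      simp only [expo, hΦ, upPhi, upSeries, hk, hw', heh', hb', upR_cast]
      push_cast
      ring
    have hM' : exp (G : ℝ) ≤
        ((upGrid (expHi ((G + 16) / 32)) ^ 32 * expNegHi 16 : ℚ) : ℝ) := by
      have y0 : 0 ≤ (G + 16) / 32 := div_nonneg g0 (by norm_num)
      have y1 : (G + 16) / 32 ≤ 1 := by rw [div_le_one (by norm_num)]; exact g1
      have h1 := pow_le_pow_left₀ (exp_pos _).le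
        ((exp_le_expHi y0 y1).trans (Rat.cast_le.2 (le_upGrid _))) 32
      rw [← exp_nat_mul] at h1
      obtain ⟨-, -, h2⟩ := expNeg_bounds (l := 16) (by norm_num) (by norm_num)
      rw [show (G : ℝ) = ((32 : ℕ) : ℝ) * (((G + 16) / 32 : ℚ) : ℝ) + -((16 : ℚ) : ℝ) by
        push_cast; ring, exp_add]
      push_cast at h1 h2 ⊢
      exact mul_le_mul h1 h2 (exp_pos _).le (le_trans (exp_pos _).le h1)
    have i2 := (Rat.cast_nonneg (K := ℝ)).2 g2
    have i3 := (Rat.cast_nonneg (K := ℝ)).2 g3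
    push_cast at i2 i3
    simp only [← upR_cast] at i2 i3
    have hnn := aff_nonneg i2 i3 ⟨he, heh⟩
    refine ⟨hnn, ?_⟩
    have i4 := (Rat.cast_le (K := ℝ)).2 g4
    have i5 := (Rat.cast_le (K := ℝ)).2 g5
    push_cast at i4 i5 hM'
    simp only [← upR_cast] at i4 i5
    have hC0 : 0 ≤ C := by rw [hC]; exact mul_nonneg (by norm_num) (by exact_mod_cast hK0)
    refine (mul_le_mul_of_nonneg_left ((exp_le_exp.2 hGle).trans hM') hC0).trans ?_
    rw [hC, ← mul_assoc]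
    rcases le_total 0 (upR c.U.2.2.1 + upR c.U.2.2.2 * (s : ℝ)) with hb0 | hb0
    · exact i4.trans (pow_le_pow_left₀ i2 (by linarith [mul_le_mul_of_nonneg_left he hb0]) 2)
    · exact i5.trans (pow_le_pow_left₀ i3 (by linarith [mul_le_mul_of_nonpos_left heh hb0]) 2)
  obtain ⟨na, ea⟩ := hend _ hA
  obtain ⟨nb, eb⟩ := hend _ hB
  rw [← upR_cast, ← ha'] at na ea
  rw [← upR_cast, ← hb'] at nb eb
  exact upPhi_interp (U₀ := upR c.U.1 + upR c.U.2.2.1 * e) (U₁ := upR c.U.2.1 + upR c.U.2.2.2 * e)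
    hx2 ha0 hab ⟨hσ.1, hσ1⟩ (by rw [heh']; positivity) hw1 (by linarith) hbq na nb ea eb
    (by ring) (by ring) (by ring)

end UpCell

end Vale.Agent.P237.Quant
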