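import Vale.Agent.P237.Quant.EnvelopeCheck
import Vale.Agent.P237.Quant.ChordBound
import Vale.Agent.P237.Quant.Spectral

/-!
The bounds that the cells of the upper bound of the linear term use: on a range of dimensions and a
bin of the relative centre a node `Z` gives the chord gap `g` and, by the decay past the node, the
bound `U` of `specU / M`, affine in the half angle variable `σ`.
-/

namespace Vale.Agent.P237.Quant

open MeasureTheory Set Real

variable {m : ℕ} {φ : ℝ → ℝ}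

/-- A node: `φ t ^ m < e^{-l} φ 0 ^ m` from `t = Z / √n` on, and `G ≤ 1 - Z / √n`. -/
structure UpNode where
  Z : ℚ
  G : ℚ
  l : ℚ

/-- The node as a node of `EnvelopeCheck`. -/
def UpNode.env (N : UpNode) : EnvNode := ⟨N.Z, N.G, [], 0, 0⟩

/-- One sub-bin. -/
def upSubQ (R : EnvRange) (N : UpNode) (b₀ b₁ : ℚ) : Bool :=
  decide (0 < b₀ ∧ b₀ ≤ b₁) && (envMassQ R N.Z N.l b₀ ||
    (decide (R.C ≤ N.Z * b₀) && envTestQ R N.Z N.G N.l ((b₀ + b₁) / 2) b₀ &&
      envTestQ R N.Z N.G N.l ((b₀ + b₁) / 2) b₁))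

/-- The cuts of a bin. -/
def upSubsQ (R : EnvRange) (N : UpNode) : ℚ → List ℚ → Bool
  | _, [] => true
  | b₀, b :: bs => upSubQ R N b₀ b && upSubsQ R N b bs

/-- A bin by its cuts `b₀ :: cuts`. -/
structure UpCuts where
  b₀ : ℚ
  cuts : List ℚ
  top : ℚ

/-- The node holds on the bin. -/
def upNodeQ (R : EnvRange) (K : UpCuts) (N : UpNode) : Bool :=
  decide (0 < N.Z ∧ N.Z * N.Z * (1 / (R.lo : ℚ)) < 1 ∧ 0 ≤ N.G ∧ N.G ≤ 1 ∧
    N.Z * N.Z * (1 / (R.lo : ℚ)) ≤ (1 - N.G) * (1 - N.G) ∧ K.cuts.getLast? = some K.top) &&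
    envRateOK R N.l && upSubsQ R N (max K.b₀ (envStart R)) K.cuts

/-- A range of dimensions with its nodes. -/
structure UpItem where
  R : EnvRange
  nodes : List UpNode

/-- The check of an item. -/
def UpItem.check (I : UpItem) (K : UpCuts) : Bool :=
  I.R.check && I.nodes.all fun N => upNodeQ I.R K N

/-- The items cover `lo ≤ n` up to `hi` (`hi = 0`: no upper end). -/
def upCover (hi : ℕ) : ℕ → List UpItem → Bool
  | lo, [] => decide (hi ≠ 0 ∧ hi < lo)
  | lo, I :: Is => decide (I.R.lo ≤ lo) && (decide (I.R.hi = 0) || upCover hi (I.R.hi + 1) Is)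

theorem upCover_sound {hi : ℕ} : ∀ {lo : ℕ} {Is : List UpItem}, upCover hi lo Is = true →
    ∀ n, lo ≤ n → (hi = 0 ∨ n ≤ hi) → ∃ I ∈ Is, I.R.Mem n
  | lo, [], h, n, h1, h2 => by
      simp only [upCover, decide_eq_true_eq] at h
      omega
  | lo, I :: Is, h, n, h1, h2 => by
      simp only [upCover, Bool.and_eq_true, Bool.or_eq_true, decide_eq_true_eq] at h
      by_cases hn : I.R.hi = 0 ∨ n ≤ I.R.hi
      · exact ⟨I, List.mem_cons_self, by omega, hn⟩
      · have hh : upCover hi (I.R.hi + 1) Is = true := h.2.resolve_left fun e => hn (Or.inl e)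
        obtain ⟨J, hJ, hJn⟩ := upCover_sound hh n (by omega) h2
        exact ⟨J, List.mem_cons_of_mem _ hJ, hJn⟩

theorem upSubs_sound (hφ : IsShape φ) (hp : powRatio m φ ≤ 1) {R : EnvRange} {N : UpNode}
    (hR : R.check = true)
    (hZ : 0 < N.Z ∧ N.Z * N.Z * (1 / (R.lo : ℚ)) < 1 ∧ 0 ≤ N.G ∧ N.G ≤ 1 ∧
      N.Z * N.Z * (1 / (R.lo : ℚ)) ≤ (1 - N.G) * (1 - N.G)) (hl : envRateOK R N.l = true)
    (hm : R.Mem (m + 1)) {t : ℝ} (ht : (N.Z : ℝ) / √((m : ℝ) + 1) ≤ t) (ht1 : t ≤ 1) :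
    ∀ (bs : List ℚ) (b₀ top : ℚ), upSubsQ R N b₀ bs = true → bs.getLast? = some top →
      (b₀ : ℝ) * mass m φ 1 ≤ mass m ballShape 1 * φ 0 ^ m →
      mass m ballShape 1 * φ 0 ^ m ≤ (top : ℝ) * mass m φ 1 →
      φ t ^ m < exp (-(N.l : ℝ)) * φ 0 ^ m
  | [], _, _, _, h, _, _ => by simp at h
  | b :: bs, b₀, top, h, hlast, hlo, hhi => by
      simp only [upSubsQ, Bool.and_eq_true] at h
      by_cases hge : (b : ℝ) * mass m φ 1 < mass m ballShape 1 * φ 0 ^ m
      · rcases bs with _ | ⟨c, cs⟩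
        · simp only [List.getLast?_singleton, Option.some.injEq] at hlast
          subst hlast
          linarith
        · exact upSubs_sound hφ hp hR hZ hl hm ht ht1 (c :: cs) b top h.2
            (by simpa [List.getLast?_cons_cons] using hlast) hge.le hhi
      · have hb := h.1
        simp only [upSubQ, Bool.and_eq_true, Bool.or_eq_true, decide_eq_true_eq] at hb
        obtain ⟨⟨hb0, hb01⟩, hcase⟩ := hb
        have hZ' : 0 < N.env.Z ∧ N.env.Z * N.env.Z * (1 / (R.lo : ℚ)) < 1 ∧ 0 ≤ N.env.G ∧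
            N.env.G ≤ 1 ∧ N.env.Z * N.env.Z * (1 / (R.lo : ℚ)) ≤ (1 - N.env.G) * (1 - N.env.G) ∧
            0 ≤ N.env.K := ⟨hZ.1, hZ.2.1, hZ.2.2.1, hZ.2.2.2.1, hZ.2.2.2.2, le_rfl⟩
        rcases hcase with hmass | ⟨⟨hC, hA⟩, hB⟩
        · obtain ⟨hm3, hD⟩ := EnvRange.data_valid hR hZ' hm hl (β := 1) one_pos
          obtain ⟨hA', hb'⟩ := envMass_sound (N := N.env) (β := 1) hmass
          exact envelope_range_mass hm3 hφ hD (by exact_mod_cast hb0.le) hlo hA' hb' ht ht1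
        · obtain ⟨hm3, hD⟩ := EnvRange.data_valid hR hZ' hm hl (β := (b₀ + b) / 2) (by linarith)
          exact envelope_range hm3 hφ hp hD
            (show (R.C : ℝ) ≤ (N.Z : ℝ) * (b₀ : ℝ) by exact_mod_cast hC)
            hlo (not_lt.1 hge) (envTest_sound (N := N.env) hA) (envTest_sound (N := N.env) hB) ht ht1

/-- A profile in a bin: the relative centre between `b₀` and `top`. -/
def UpCuts.Mem (K : UpCuts) (m : ℕ) (φ : ℝ → ℝ) : Prop :=
  (K.b₀ : ℝ) * mass m φ 1 ≤ mass m ballShape 1 * φ 0 ^ m ∧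
    mass m ballShape 1 * φ 0 ^ m ≤ (K.top : ℝ) * mass m φ 1

/-- Every relative centre is at least `envStart`. -/
theorem upStart_le (hφ : IsShape φ) (hp : powRatio m φ ≤ 1) {R : EnvRange} (hm3 : 3 ≤ m)
    (hm : R.Mem (m + 1)) :
    (envStart R : ℝ) * mass m φ 1 ≤ mass m ballShape 1 * φ 0 ^ m := by
  have hW := mass_le_centre (by omega) hφ hp
  set r := ballRatio m
  have hr := ballRatio_pos m
  have he : (R.e : ℝ) ≤ 1 / ((m : ℝ) + 1) := by
    unfold EnvRange.e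
    split_ifs with h
    · simp; positivity
    · push_cast
      refine one_div_le_one_div_of_le (by positivity) ?_
      exact_mod_cast hm.2.resolve_left h
  have hre : r ≤ exp (1 / ((m : ℝ) + 1) / 2) := by
    refine (ballRatio_bracket hm3).2.trans ?_
    refine le_trans ?_ (Real.sum_le_exp_of_nonneg (by positivity) 3)
    simp only [ratioCubic, Finset.sum_range_succ, Finset.sum_range_zero, Nat.factorial]
    norm_num
    rw [← inv_pow]
    nlinarith [pow_nonneg (inv_nonneg.2 (show (0 : ℝ) ≤ (m : ℝ) + 1 by positivity)) 3]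
  have hrm : r ^ m ≤ exp (1 / 2) * exp (-((R.e : ℝ) / 2)) := by
    refine (pow_le_pow_left₀ hr.le hre m).trans ?_
    rw [← exp_nat_mul, ← exp_add]
    refine exp_le_exp.2 ?_
    have : (m : ℝ) * (1 / ((m : ℝ) + 1) / 2) = 1 / 2 - 1 / ((m : ℝ) + 1) / 2 := by
      field_simp
      ring
    linarith
  have he0 : (0 : ℝ) ≤ R.e := by
    have : 0 ≤ R.e := by unfold EnvRange.e; split <;> positivity
    exact_mod_cast this
  have h0 : (0 : ℝ) ≤ envStart R := by simp only [envStart]; push_cast; positivity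
  have hstart : (envStart R : ℝ) * r ^ m ≤ 1 := by
    refine (mul_le_mul_of_nonneg_left hrm h0).trans ?_
    have h1 : exp (1 / 2 : ℝ) ≤ 10000 / 6065 := by
      refine (Real.exp_bound' (by norm_num) (by norm_num) (n := 8) (by norm_num)).trans ?_
      norm_num [Finset.sum_range_succ, Nat.factorial]
    have h2 : (1 + (R.e : ℝ) / 2) * exp (-((R.e : ℝ) / 2)) ≤ 1 := by
      refine (mul_le_mul_of_nonneg_right
        (show 1 + (R.e : ℝ) / 2 ≤ exp ((R.e : ℝ) / 2) by linarith [add_one_le_exp ((R.e : ℝ) / 2)])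
        (exp_pos _).le).trans ?_
      rw [← exp_add, add_neg_cancel, exp_zero]
    have h3 := mul_le_mul h1 h2 (mul_nonneg (by linarith) (exp_pos _).le) (by norm_num)
    simp only [envStart]
    push_cast
    linarith
  rw [mul_comm]
  calc mass m φ 1 * (envStart R : ℝ)
      ≤ φ 0 ^ m * (r ^ m * mass m ballShape 1) * (envStart R : ℝ) :=
        mul_le_mul_of_nonneg_right hW h0
    _ = mass m ballShape 1 * φ 0 ^ m * ((envStart R : ℝ) * r ^ m) := by ring
    _ ≤ mass m ballShape 1 * φ 0 ^ m :=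
        mul_le_of_le_one_right (mul_nonneg (ball_mass_pos m).le (pow_nonneg hφ.centre.le m)) hstart

theorem upNode_sound (hφ : IsShape φ) (hp : powRatio m φ ≤ 1) {R : EnvRange} {K : UpCuts}
    {N : UpNode} (hR : R.check = true) (hN : upNodeQ R K N = true) (hm : R.Mem (m + 1))
    (hK : K.Mem m φ) {t : ℝ} (ht : (N.Z : ℝ) / √((m : ℝ) + 1) ≤ t) (ht1 : t ≤ 1) :
    φ t ^ m < exp (-(N.l : ℝ)) * φ 0 ^ m := by
  simp only [upNodeQ, Bool.and_eq_true, decide_eq_true_eq] at hN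
  obtain ⟨⟨⟨h1, h2, h3, h4, h5, h6⟩, hl⟩, hs⟩ := hN
  refine upSubs_sound hφ hp hR ⟨h1, h2, h3, h4, h5⟩ hl hm ht ht1 K.cuts _ K.top hs h6 ?_ hK.2
  rcases max_choice K.b₀ (envStart R) with h | h <;> rw [h]
  · exact hK.1
  · refine upStart_le hφ hp ?_ hm
    simp only [EnvRange.check, decide_eq_true_eq] at hR
    have := hm.1
    omega

/-- Bernoulli for the chord: `1 - (1 - e^{-v}) c ≤ e^{-v c}` at `1 ≤ c`. -/
theorem one_sub_mul_le_exp {v c : ℝ} (hc : 1 ≤ c) :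
    1 - (1 - exp (-v)) * c ≤ exp (-(v * c)) := by
  have hc0 : 0 < c := by linarith
  have h := convexOn_exp.2 (mem_univ (-(v * c))) (mem_univ 0)
    (show 0 ≤ 1 / c by positivity) (show 0 ≤ 1 - 1 / c by rw [sub_nonneg, div_le_one hc0]; exact hc)
    (by ring)
  simp only [smul_eq_mul, mul_zero, add_zero, exp_zero, mul_one] at h
  rw [show 1 / c * -(v * c) = -v by field_simp] at h
  have h' := mul_le_mul_of_nonneg_left h hc0.le
  rw [mul_add, ← mul_assoc, mul_one_div_cancel hc0.ne', one_mul, mul_sub, mul_one,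
    mul_one_div_cancel hc0.ne'] at h'
  linarith

/-- Past a node: the decay and every gap `g` in units of `1 / √n` that it allows. -/
theorem upChord (hm : 2 ≤ m) (hφ : IsShape φ) {Z l : ℝ} (hZ : 0 < Z)
    (hZn : Z < √((m : ℝ) + 1)) (hl : 0 < l)
    (hnode : φ (Z / √((m : ℝ) + 1)) ^ m < exp (-l) * φ 0 ^ m) {t : ℝ}
    (ht : t ∈ Ico (Z / √((m : ℝ) + 1)) 1) :
    φ t ^ m ≤ exp (-(l / Z * (t * √((m : ℝ) + 1)))) * φ 0 ^ m ∧
      ∀ g : ℝ, 0 ≤ g → g * Z ≤ ((m : ℝ) + 1) * (l / m - l ^ 2 / (2 * (m : ℝ) ^ 2)) →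
        shapeRho φ t * (1 - g / √((m : ℝ) + 1) * t) ≤ t - g / √((m : ℝ) + 1) := by
  set r := √((m : ℝ) + 1) with hr
  have hr0 : 0 < r := by rw [hr]; positivity
  have hmR : (2 : ℝ) ≤ m := by exact_mod_cast hm
  set tk := Z / r with htk
  have htk0 : tk ∈ Ioo (0 : ℝ) 1 := ⟨div_pos hZ hr0, (div_lt_one hr0).2 hZn⟩
  set x := exp (-(l / m)) with hx
  have hxm : x ^ m = exp (-l) := by
    rw [hx, ← exp_nat_mul, mul_neg, mul_div_cancel₀ _ (by positivity : (m : ℝ) ≠ 0)]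
  have hy := hφ.centre
  have hk0 : 0 ≤ φ tk := hφ.nonneg tk ⟨by linarith [htk0.1], htk0.2.le⟩
  have hphi : φ tk ≤ x * φ 0 := by
    refine le_of_lt (lt_of_pow_lt_pow_left₀ m (mul_nonneg (exp_pos _).le hy.le) ?_)
    rw [mul_pow, hxm]
    exact hnode
  set s := (1 - x) / tk with hs
  have hx1 : x < 1 := exp_lt_one_iff.2 (by have := div_pos hl (show (0:ℝ) < m by linarith); linarith)
  have hs0 : 0 ≤ s := div_nonneg (by linarith) htk0.1.le
  have hc : φ tk ≤ φ 0 * (1 - s * tk) := by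
    rw [hs, div_mul_cancel₀ _ htk0.1.ne', mul_comm]
    simpa using hphi
  have ht' : t ∈ Ico tk 1 := ht
  have ht0 : 0 < t := htk0.1.trans_le ht.1
  have hρ := shapeRho_le_chord hφ htk0 hs0 hc ht'
  obtain ⟨hline, hd⟩ := chord_line_le hφ htk0 hc ht'
  refine ⟨?_, fun g hg0 hg => ?_⟩
  · have hc1 : 1 ≤ t / tk := (one_le_div htk0.1).2 ht.1
    have hb : 1 - s * t ≤ exp (-(l / m * (t / tk))) := by
      refine le_trans (le_of_eq ?_) (one_sub_mul_le_exp hc1)
      rw [hs, hx]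
      ring
    have h1 : φ t ≤ φ 0 * exp (-(l / m * (t / tk))) :=
      hline.trans (mul_le_mul_of_nonneg_left hb hy.le)
    refine (pow_le_pow_left₀ (hφ.nonneg t ⟨by linarith, ht.2.le⟩) h1 m).trans (le_of_eq ?_)
    rw [mul_pow, ← exp_nat_mul, mul_comm]
    congr 1
    rw [htk]
    field_simp
  · have hgs : g / r ≤ s := by
      rw [hs, htk, div_div_eq_mul_div, div_le_div_iff₀ hr0 hZ]
      have h1 : l / m - l ^ 2 / (2 * (m : ℝ) ^ 2) ≤ 1 - x := by
        have h := Real.quadratic_le_exp_of_nonneg (div_pos hl (show (0:ℝ) < m by linarith)).le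
        have h' : x ≤ 1 - l / m + (l / m) ^ 2 / 2 := by
          rw [hx, exp_neg, inv_le_iff_one_le_mul₀ (exp_pos _)]
          have h2 : 0 ≤ 1 - l / m + (l / m) ^ 2 / 2 := by nlinarith [sq_nonneg (l / m - 1)]
          refine le_trans ?_ (mul_le_mul_of_nonneg_left h h2)
          nlinarith [sq_nonneg ((l / m) ^ 2)]
        rw [div_pow] at h'
        rw [show (m : ℝ) ^ 2 = (m : ℝ) ^ 2 from rfl, show l ^ 2 / (2 * (m : ℝ) ^ 2) =
          l ^ 2 / (m : ℝ) ^ 2 / 2 by rw [div_div, mul_comm]]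
        linarith
      have h3 := mul_le_mul_of_nonneg_left h1 (show (0 : ℝ) ≤ (m : ℝ) + 1 by linarith)
      have h4 : r * r = (m : ℝ) + 1 := Real.mul_self_sqrt (by linarith)
      calc g * Z ≤ ((m : ℝ) + 1) * (1 - x) := hg.trans h3
        _ = (1 - x) * r * r := by rw [mul_assoc, h4]; ring
    have hgt : 0 < 1 - g / r * t := by
      have := mul_le_mul_of_nonneg_right hgs ht0.le
      linarith
    refine (le_div_iff₀ hgt).1 (hρ.trans ?_)
    rw [div_le_div_iff₀ hd hgt]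
    nlinarith [mul_nonneg (sub_nonneg.2 hgs) (show 0 ≤ 1 - t ^ 2 by nlinarith [ht.2])]

/-- The truncated series of `log ((1 + u) / (1 - u)) / (2 u)`, with `u ≤ w` in the last term. -/
noncomputable def upSeries (u w : ℝ) : ℝ := 1 + u ^ 2 / 3 + u ^ 4 / 5 + u ^ 6 / (7 * (1 - w ^ 2))

theorem log_half_angle_le {u w : ℝ} (hu : 0 ≤ u) (huw : u ≤ w) (hw : w < 1) :
    log ((1 + u) / (1 - u)) ≤ 2 * u * upSeries u w := by
  have h := Real.hasSum_log_sub_log_of_abs_lt_one (x := u) (abs_lt.2 ⟨by linarith, by linarith⟩)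
  rw [Real.log_div (by linarith) (by linarith)]
  have hq0 : 0 ≤ u ^ 2 := sq_nonneg u
  have hq1 : u ^ 2 < 1 := by nlinarith
  have hgeo := (hasSum_geometric_of_lt_one hq0 hq1).mul_left (2 / 7 * u ^ 7)
  have h1 := (hasSum_nat_add_iff' 3).2 h
  simp only [Finset.sum_range_succ, Finset.sum_range_zero] at h1
  have hle : ∀ k : ℕ, 2 * (1 / (2 * (((k + 3 : ℕ) : ℝ)) + 1)) * u ^ (2 * (k + 3) + 1) ≤
      2 / 7 * u ^ 7 * (u ^ 2) ^ k := by
    intro k
    rw [show u ^ (2 * (k + 3) + 1) = u ^ 7 * (u ^ 2) ^ k by rw [← pow_mul, ← pow_add]; ring_nf,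
      show (2 : ℝ) / 7 * u ^ 7 * (u ^ 2) ^ k = 2 * (1 / 7) * (u ^ 7 * (u ^ 2) ^ k) by ring]
    refine mul_le_mul_of_nonneg_right (mul_le_mul_of_nonneg_left ?_ (by norm_num)) (by positivity)
    refine one_div_le_one_div_of_le (by norm_num) ?_
    push_cast
    linarith [show (0 : ℝ) ≤ k from Nat.cast_nonneg k]
  have h2 := hasSum_le hle h1 hgeo
  have hw2 : (1 : ℝ) - w ^ 2 ≤ 1 - u ^ 2 := by nlinarith
  have h3 : (1 - u ^ 2)⁻¹ ≤ (1 - w ^ 2)⁻¹ := inv_anti₀ (by nlinarith) hw2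
  have h4 := mul_le_mul_of_nonneg_left h3 (show (0 : ℝ) ≤ 2 / 7 * u ^ 7 by positivity)
  have e : 2 * u * upSeries u w = 2 * u + 2 / 3 * u ^ 3 + 2 / 5 * u ^ 5 +
      2 / 7 * u ^ 7 * (1 - w ^ 2)⁻¹ := by
    rw [upSeries, div_eq_mul_inv (u ^ 6), mul_inv]
    ring
  rw [e]
  push_cast at h2
  norm_num at h2
  linarith

/-- `2 σ / (1 + e σ ^ 2)` is above its chord. -/
theorem half_angle_concave {e a b σ : ℝ} (he : 0 ≤ e) (ha : 0 ≤ a) (hσ : σ ∈ Icc a b)
    (hb : e * b ^ 2 ≤ 1) (hab : a < b) :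
    (b - σ) / (b - a) * (2 * a / (1 + e * a ^ 2)) + (σ - a) / (b - a) * (2 * b / (1 + e * b ^ 2)) ≤
      2 * σ / (1 + e * σ ^ 2) := by
  have hb0 : 0 < b - a := sub_pos.2 hab
  have d1 : 0 < 1 + e * a ^ 2 := by positivity
  have d2 : 0 < 1 + e * b ^ 2 := by positivity
  have d3 : 0 < 1 + e * σ ^ 2 := by positivity
  rw [div_mul_div_comm, div_mul_div_comm, div_add_div _ _ (by positivity) (by positivity),
    div_le_div_iff₀ (by positivity) d3, ← sub_nonneg]
  have hfac : 0 ≤ a + b + σ - e * (a * b * σ) := by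
    have h1 : e * (a * b) ≤ 1 := by
      refine le_trans (mul_le_mul_of_nonneg_left ?_ he) hb
      rw [sq]
      exact mul_le_mul_of_nonneg_right hab.le (ha.trans hab.le)
    have := mul_le_mul_of_nonneg_right h1 (ha.trans hσ.1)
    linarith
  have hb' : 0 ≤ b := ha.trans hab.le
  have key : 0 ≤ 2 * (b - a) ^ 2 * (σ - a) * (b - σ) * e * (a + b + σ - e * (a * b * σ)) :=
    mul_nonneg (mul_nonneg (mul_nonneg (mul_nonneg (by positivity) (by linarith [hσ.1]))
      (by linarith [hσ.2])) he) hfac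
  refine key.trans (le_of_eq ?_)
  ring

end Vale.Agent.P237.Quant
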