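import Vale.Agent.P237.Quant.LinearUpperFlux
import Vale.Agent.P237.Quant.LinearUpperEnv

/-!
The tables of the upper bound of the linear term and their checks: the cells in `σ` with the
multipliers, and for every range of dimensions a node that gives the gap and the bound of each cell.
Every number is a multiple of `2 ^ (-16)`.
-/

namespace Vale.Agent.P237.Quant

/-- A cell: `lo ≤ σ < hi` on piece `j`, or past the last knot; the gap `g`, the bound `U`, the weight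
`W`, the multipliers and the trees. A multiplier is a list of
coefficients in `upBasis`, the bound stands for
`u₀ + u₁ σ + (u₂ + u₃ σ) e`, the weight for `w₀ + w₁ e σ ^ 2`, the gap for `g₀ + g₁ e`. -/
structure UpCell where
  far : Bool
  j : ℕ
  lo : ℤ
  hi : ℤ
  cuts : List ℤ
  g : ℤ × ℤ
  U : ℤ × ℤ × ℤ × ℤ
  W : ℤ × ℤ
  μ₀ : List ℤ
  μ₁ : List ℤ
  ν₀ : List ℤ
  ν₁ : List ℤ
  T : UpTrees

/-- A table: dimensions `n₀ ≤ n ≤ n₁` (`n₁ = 0`: no upper end), a bin of the centre with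
`ξ₀ ^ 2 ≤ b₀` and `281 / 250 top ≤ ξ₁ ^ 2`, and the bound `eps / n`. -/
structure UpData where
  n₀ : ℕ
  n₁ : ℕ
  F : UpFlux
  t₁ : ℤ × ℤ
  lam : ℤ × ℤ
  eps : ℤ
  K : UpCuts
  ξ₀ : ℚ
  ξ₁ : ℚ
  cells : List UpCell
  items : List UpItem

/-- A coefficient as a rational. -/
def upQ (z : ℤ) : ℚ := (z : ℚ) / 65536

/-- A number of the grid `2 ^ (-30)` above `q`: keeps the numbers of the kernel short. -/
def upGrid (q : ℚ) : ℚ := (⌊q * 1073741824⌋ + 1) / 1073741824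

/-- An affine pair as a polynomial in `E`. -/
def upAff (p : ℤ × ℤ) (E : UE) : UE := (upC p.1).add ((upC p.2).mul E)

namespace UpCell

variable (c : UpCell)

/-- `1 / n`: a number when the table has one dimension, else the first variable. -/
def eVar (D : UpData) : UE :=
  if c.far then UE.X else if Nat.beq D.n₀ D.n₁ then UE.const 1 (D.n₀ - 1) else UE.X

/-- The monomials of the multipliers. -/
def upBasis (E : UE) : List UE :=
  [UE.const 1 0, UE.Y, E, E.mul UE.Y, UE.Y.mul UE.Y, E.mul E, (E.mul UE.Y).mul UE.Y]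

/-- A multiplier as a polynomial, in `(e, σ)` or `(1 / σ, e σ ^ 2)`. -/
def tri (D : UpData) (p : List ℤ) : UE :=
  (p.zip (upBasis (c.eVar D))).foldr (fun q P => ((upC q.1).mul q.2).add P) (UE.const 0 0)

/-- The least `1 / σ` past the last knot: `σ ^ 2 < n ≤ n₁`. -/
def farX (D : UpData) : ℤ :=
  if 0 < D.n₁ ∧ 0 < c.hi ∧ (D.n₁ : ℤ) * 4294967296 ≤ c.hi * c.hi then 4294967296 / c.hi else 0

/-- The least `e σ ^ 2` past the last knot. -/
def farY (D : UpData) : ℤ := if D.n₁ = 0 then 0 else c.lo * c.lo / ((D.n₁ : ℤ) * 65536)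

/-- The box: `(e, σ)`, or `(1 / σ, e σ ^ 2)` past the last knot. -/
def box (D : UpData) : Four.Checker.Box :=
  if c.far then ⟨65536, c.farX D, 4294967296 / c.lo + 1, c.farY D, 65536⟩
  else ⟨65536, if D.n₁ = 0 then 0 else 65536 / (D.n₁ : ℤ), 65536 / (D.n₀ : ℤ) + 1, c.lo, c.hi⟩

/-- The geometry. -/
def geom (D : UpData) : UpGeom := if c.far then D.F.geomFar else D.F.geomPiece (c.eVar D) c.j

/-- The multipliers and bounds. -/
def mult (D : UpData) : UpMult :=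
  let E := if c.far then UE.Y.mul (UE.X.mul UE.X) else c.eVar D
  let u := if c.far then UE.Y else (c.eVar D).mul (UE.Y.mul UE.Y)
  let H := (UE.const 1 0).add u
  let g := upAff c.g E
  let N := if c.far then (UE.const 2 0).sub (g.mul (H.mul UE.X))
    else ((UE.const 2 0).mul UE.Y).sub (g.mul H)
  let V := if c.far then (H.mul UE.X).sub ((((UE.const 2 0).mul UE.Y).mul (UE.X.mul UE.X)).mul g)
    else H.sub ((((UE.const 2 0).mul (c.eVar D)).mul UE.Y).mul g)
  let U := if c.far then UE.const 0 0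
    else ((upC c.U.1).add ((upC c.U.2.1).mul UE.Y)).add
      (((upC c.U.2.2.1).add ((upC c.U.2.2.2).mul UE.Y)).mul (c.eVar D))
  { t1 := upAff D.t₁ E
    lam := upAff D.lam E
    eps := upC D.eps
    W := (upC c.W.1).add ((upC c.W.2).mul u)
    N := N
    V := V
    U := U
    μ0 := c.tri D c.μ₀
    μ1 := c.tri D c.μ₁
    ν0 := c.tri D c.ν₀
    ν1 := c.tri D c.ν₁
    x0 := (upC 1).add (c.tri D c.T.x0) }

/-- The multipliers with the bound on `y` of a cubic far cell: `V` without the factor `1 / σ`. -/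
def mult₃ (D : UpData) : UpMult :=
  { c.mult D with
    V := ((UE.const 1 0).add UE.Y).sub
      ((((UE.const 2 0).mul UE.Y).mul UE.X).mul (upAff c.g (UE.Y.mul (UE.X.mul UE.X)))) }

/-- The polynomial check of a cell. -/
def polyOK (D : UpData) : Bool :=
  if c.far && D.F.cubic then upFarCheck D.F.geomFar₃ (c.mult₃ D) (c.box D) c.T
  else upPolyCheck (c.geom D) (c.mult D) (c.box D) c.T

/-- A multiplier is nonnegative on the cell. -/
def triOK (D : UpData) (p : List ℤ) : Bool :=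
  p.isEmpty || UE.checkTree (c.tri D p) (c.box D) WeightCert.Tree.leaf

/-- The cell does not use `U`. -/
def noU : Bool := c.ν₀.isEmpty && c.ν₁.isEmpty

/-- The multiplier of `x ≤ N` is nonnegative: both parts, or at both ends of `x ≤ U`. -/
def muOK (D : UpData) : Bool :=
  c.triOK D c.μ₁ || (!c.far && !c.noU &&
    UE.checkTree ((c.tri D c.μ₀).add ((c.tri D c.μ₁).mul (c.mult D).U)) (c.box D)
      WeightCert.Tree.leaf)

/-- The shape of a cell. -/
def shapeOK (D : UpData) : Bool :=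
  decide (0 < c.W.1 ∧ 0 < c.W.1 + c.W.2 ∧ ∀ x ∈ c.cuts, 0 ≤ x) && c.triOK D c.μ₀ && c.muOK D &&
    c.triOK D c.ν₀ && c.triOK D c.ν₁ && c.triOK D c.T.x0 &&
    (if c.far then decide (c.lo = D.F.last ∧ 0 < c.lo) && c.noU
      else decide (c.j < D.F.ws.length ∧ 0 ≤ c.lo ∧ c.lo < c.hi ∧
        rampKnot (D.F.A.pieces D.F.ws) 0 c.j ≤ c.lo ∧
        c.hi ≤ rampKnot (D.F.A.pieces D.F.ws) 0 (c.j + 1) ∧
        rampKnot (D.F.A.pieces D.F.ws) 0 (c.j + 1) ≤ D.F.last))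

/-- `Z (1 + σ ^ 2 / n) ≤ 2 σ` at `σ = s / 65536`, in integers: cheap for the kernel. -/
def leftOK (n : ℕ) (Z : ℚ) (s : ℤ) : Bool :=
  decide (0 < n ∧ Z.num * ((n : ℤ) * 4294967296 + s * s) ≤ 131072 * s * (n : ℤ) * (Z.den : ℤ))

theorem leftOK_spec {n : ℕ} {Z : ℚ} {s : ℤ} (h : leftOK n Z s = true) :
    Z * (1 + 1 / (n : ℚ) * upQ s ^ 2) ≤ 2 * upQ s := by
  simp only [leftOK, decide_eq_true_eq] at h
  obtain ⟨hn, h⟩ := h
  have hn' : (0 : ℚ) < n := by exact_mod_cast hn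
  have hd : (0 : ℚ) < Z.den := by exact_mod_cast Z.den_pos
  have h' : (Z.num : ℚ) * ((n : ℚ) * 4294967296 + (s : ℚ) * s) ≤
      131072 * (s : ℚ) * (n : ℚ) * (Z.den : ℚ) := by exact_mod_cast h
  conv_lhs => rw [← Rat.num_div_den Z]
  rw [upQ]
  field_simp
  linarith

/-- The node lies before the cell. -/
def beforeOK (R : EnvRange) (N : UpNode) : Bool :=
  leftOK R.lo N.Z c.lo && (c.far || leftOK R.lo N.Z c.hi)

/-- A node gives the gap. -/
def gapOK (R : EnvRange) (N : UpNode) : Bool :=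
  let eh := 1 / (R.lo : ℚ)
  let el := R.e
  let top := N.l / (1 - el) - eh * N.l ^ 2 / (2 * (1 - eh) ^ 2)
  c.beforeOK R N && decide (0 ≤ upQ c.g.1 + upQ c.g.2 * el ∧ 0 ≤ upQ c.g.1 + upQ c.g.2 * eh ∧
    (upQ c.g.1 + upQ c.g.2 * el) * N.Z ≤ top ∧ (upQ c.g.1 + upQ c.g.2 * eh) * N.Z ≤ top)

/-- The exponent of `x ^ 2` at an end of the cell. -/
def expo (R : EnvRange) (N : UpNode) (s : ℚ) : ℚ :=
  let eh := 1 / (R.lo : ℚ)
  let u := eh * s ^ 2
  let w := eh * upQ c.hi ^ 2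
  (1 - R.e) * (2 * s ^ 2) * (1 + u ^ 2 / 3 + u ^ 4 / 5 + u ^ 6 / (7 * (1 - w ^ 2))) -
    N.l / N.Z * (2 * s / (1 + eh * s ^ 2))

/-- The bound holds at an end of the cell. -/
def endOK (R : EnvRange) (N : UpNode) (top s : ℚ) : Bool :=
  let G := upGrid (c.expo R N s)
  let a := upQ c.U.1 + upQ c.U.2.1 * s
  let b := upQ c.U.2.2.1 + upQ c.U.2.2.2 * s
  let el := R.e
  let eh := 1 / (R.lo : ℚ)
  let M := 281 / 250 * top * upGrid (expHi ((G + 16) / 32)) ^ 32 * expNegHi 16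
  decide (0 ≤ G + 16 ∧ G + 16 ≤ 32 ∧ 0 ≤ a + b * el ∧ 0 ≤ a + b * eh) &&
    decide (M ≤ (a + b * el) ^ 2 ∧ M ≤ (a + b * eh) ^ 2)

/-- A node gives the bound. -/
def boundOK (R : EnvRange) (N : UpNode) (top : ℚ) : Bool :=
  !c.far && c.beforeOK R N && decide (1 / (R.lo : ℚ) * upQ c.hi ^ 2 < 1) &&
    c.endOK R N top (upQ c.lo) && c.endOK R N top (upQ c.hi)

/-- The cell on `a ≤ σ < b`. -/
def restrict (a b : ℤ) : UpCell := { c with lo := a, hi := b }

/-- The parts of the cell from `a` on. -/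
def subsFrom : ℤ → List ℤ → List UpCell
  | a, [] => [c.restrict a c.hi]
  | a, b :: bs => c.restrict a b :: subsFrom b bs

/-- Some node of every item serves the cell, for the bound part by part. -/
def envOK (D : UpData) : Bool :=
  D.items.all fun I =>
    (decide (c.g = (0, 0)) || I.nodes.reverse.any fun N => c.gapOK I.R N) &&
      (c.noU || (c.subsFrom c.lo c.cuts).all fun s => I.nodes.reverse.any fun N =>
        s.boundOK I.R N D.K.top)

end UpCell

/-- The cells cover every `σ ^ 2 < n`. -/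
def upChain (n₁ : ℕ) : ℤ → List UpCell → Bool
  | s, [] => decide (0 < n₁ ∧ (n₁ : ℤ) * 4294967296 ≤ s * s)
  | s, c :: cs => decide (c.lo = s) && (c.far || upChain n₁ c.hi cs)

namespace UpData

variable (D : UpData)

/-- The value at the centre at one end `e` is nonpositive on `[ξ₀, ξ₁]`. -/
def startOK (e : ℚ) : Bool :=
  let a := upQ D.F.A.a + upQ D.F.A.b * e
  let b := upQ D.F.B.a + upQ D.F.B.b * e
  let c := upQ D.F.C.a + upQ D.F.C.b * e
  decide (a + b * D.ξ₀ + c * D.ξ₀ ^ 2 ≤ 0 ∧ a + b * D.ξ₁ + c * D.ξ₁ ^ 2 ≤ 0 ∧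
      (0 ≤ c ∨ b + 2 * c * D.ξ₀ ≤ 0 ∨ 0 ≤ b + 2 * c * D.ξ₁)) ||
    decide (c < 0 ∧ b ^ 2 ≤ 4 * a * c)

/-- The structural checks. -/
def baseOK : Bool :=
  decide (4 ≤ D.n₀ ∧ (D.n₁ = 0 ∨ D.n₀ ≤ D.n₁) ∧ 0 ≤ D.F.last ∧ 0 < D.t₁.1 ∧
      0 < upQ D.t₁.1 + upQ D.t₁.2 / (D.n₀ : ℚ)) &&
    decide (0 ≤ D.ξ₀ ∧ D.ξ₀ ^ 2 ≤ D.K.b₀ ∧ 0 ≤ D.ξ₁ ∧ 281 / 250 * D.K.top ≤ D.ξ₁ ^ 2) &&
    D.F.check && D.startOK (if D.n₁ = 0 then 0 else 1 / (D.n₁ : ℚ)) &&
    D.startOK (1 / (D.n₀ : ℚ)) && upChain D.n₁ 0 D.cells &&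
    D.cells.all (fun c => c.shapeOK D)

/-- The polynomial checks. -/
def polyOK : Bool := D.cells.all fun c => c.polyOK D

/-- The checks of the envelope. -/
def envOK : Bool :=
  upCover D.n₁ D.n₀ D.items && D.items.all (fun I => I.check D.K) &&
    D.cells.all (fun c => c.envOK D)

end UpData

end Vale.Agent.P237.Quant
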