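import Vale.Agent.P237.Quant.LinearUpperPoly

/-!
The coefficients of the flux of the upper bound of the linear term, as functions of the half angle
variable `σ` for a given `e = 1 / n`: cubic increments on consecutive pieces, past the last knot a
quadratic over `1 + e σ ^ 2`. On a piece the coefficient, its right derivative and `σ` times it are
polynomials in `(e, σ)`, past the last knot in `(1 / σ, e σ ^ 2)` after one common factor.
-/

namespace Vale.Agent.P237.Quant

open Set Filter Topology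

/-- A cubic increment `(c₁ + e₁ e) d + (c₂ + e₂ e) d ^ 2 + (c₃ + e₃ e) d ^ 3`. -/
structure UpInc where
  c₁ : ℤ
  e₁ : ℤ
  c₂ : ℤ
  e₂ : ℤ
  c₃ : ℤ
  e₃ : ℤ

namespace UpInc

variable (I : UpInc)

/-- The increment. -/
noncomputable def val (e d : ℝ) : ℝ :=
  (upR I.c₁ + upR I.e₁ * e) * d + (upR I.c₂ + upR I.e₂ * e) * d ^ 2 +
    (upR I.c₃ + upR I.e₃ * e) * d ^ 3

/-- Its derivative. -/
noncomputable def der (e d : ℝ) : ℝ :=
  (upR I.c₁ + upR I.e₁ * e) + 2 * (upR I.c₂ + upR I.e₂ * e) * d +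
    3 * (upR I.c₃ + upR I.e₃ * e) * d ^ 2

/-- The increment as a polynomial. -/
def poly (E d : UE) : UE :=
  ((((upC I.c₁).add ((upC I.e₁).mul E)).mul d).add
    (((upC I.c₂).add ((upC I.e₂).mul E)).mul (d.mul d))).add
    (((upC I.c₃).add ((upC I.e₃).mul E)).mul ((d.mul d).mul d))

/-- Its derivative as a polynomial. -/
def polyDer (E d : UE) : UE :=
  (((upC I.c₁).add ((upC I.e₁).mul E)).add
    (((UE.const 2 0).mul ((upC I.c₂).add ((upC I.e₂).mul E))).mul d)).add
    (((UE.const 3 0).mul ((upC I.c₃).add ((upC I.e₃).mul E))).mul (d.mul d))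

theorem val_poly (E d : UE) (x y : ℝ) : (I.poly E d).val x y = I.val (E.val x y) (d.val x y) := by
  simp only [poly, val, UE.val_add, UE.val_mul, val_upC]
  ring

theorem val_polyDer (E d : UE) (x y : ℝ) :
    (I.polyDer E d).val x y = I.der (E.val x y) (d.val x y) := by
  simp only [polyDer, der, UE.val_add, UE.val_mul, val_upC, UE.val_const]
  push_cast
  ring

theorem hasDeriv_val (e k σ : ℝ) : HasDerivAt (fun s => I.val e (s - k)) (I.der e (σ - k)) σ := by
  have h := (hasDerivAt_id' σ).sub_const k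
  refine (((h.const_mul (upR I.c₁ + upR I.e₁ * e)).add
    ((h.pow 2).const_mul (upR I.c₂ + upR I.e₂ * e))).add
    ((h.pow 3).const_mul (upR I.c₃ + upR I.e₃ * e))).congr_deriv ?_
  simp only [der]
  push_cast
  ring

theorem val_zero (e : ℝ) : I.val e 0 = 0 := by simp [val]

end UpInc

theorem upR_add (a b : ℤ) : upR (a + b) = upR a + upR b := by
  simp only [upR]
  push_cast
  ring

/-- The increments summed up to `σ`. -/
noncomputable def rampSum (e : ℝ) : List (ℤ × UpInc) → ℝ → ℝ → ℝ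
  | [], _, _ => 0
  | p :: l, k, σ => p.2.val e (min (max (σ - k) 0) (upR p.1)) + rampSum e l (k + upR p.1) σ

/-- Its right derivative. -/
noncomputable def rampDer (e : ℝ) : List (ℤ × UpInc) → ℝ → ℝ → ℝ
  | [], _, _ => 0
  | p :: l, k, σ =>
      if σ < k then 0 else if σ < k + upR p.1 then p.2.der e (σ - k)
      else rampDer e l (k + upR p.1) σ

/-- The knot before piece `j`. -/
def rampKnot : List (ℤ × UpInc) → ℤ → ℕ → ℤ
  | [], k, _ => k
  | _ :: _, k, 0 => k
  | p :: l, k, j + 1 => rampKnot l (k + p.1) j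

/-- The sum on piece `j`. -/
def rampPoly (E S : UE) : List (ℤ × UpInc) → ℤ → ℕ → UE
  | [], _, _ => UE.const 0 0
  | p :: _, k, 0 => p.2.poly E (S.sub (upC k))
  | p :: l, k, j + 1 => (p.2.poly E (upC p.1)).add (rampPoly E S l (k + p.1) j)

/-- Its derivative on piece `j`. -/
def rampPolyDer (E S : UE) : List (ℤ × UpInc) → ℤ → ℕ → UE
  | [], _, _ => UE.const 0 0
  | p :: _, k, 0 => p.2.polyDer E (S.sub (upC k))
  | p :: l, k, j + 1 => rampPolyDer E S l (k + p.1) j

theorem continuous_rampSum (e : ℝ) : ∀ (l : List (ℤ × UpInc)) (k : ℝ), Continuous (rampSum e l k)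
  | [], k => by
      show Continuous fun _ : ℝ => (0 : ℝ)
      exact continuous_const
  | p :: l, k => by
      have := continuous_rampSum e l (k + upR p.1)
      show Continuous fun s : ℝ =>
        p.2.val e (min (max (s - k) 0) (upR p.1)) + rampSum e l (k + upR p.1) s
      unfold UpInc.val
      fun_prop

theorem rampSum_before (e : ℝ) : ∀ (l : List (ℤ × UpInc)) (k σ : ℝ), (∀ p ∈ l, 0 < p.1) →
    σ ≤ k → rampSum e l k σ = 0
  | [], k, σ, _, _ => rfl
  | p :: l, k, σ, hl, h => by
      obtain ⟨h1, h2⟩ := List.forall_mem_cons.1 hl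
      have hp : 0 < upR p.1 := div_pos (by exact_mod_cast h1) (by norm_num)
      rw [rampSum, max_eq_right (by linarith), min_eq_left hp.le, UpInc.val_zero,
        rampSum_before e l _ σ h2 (by linarith), add_zero]

theorem rampDer_before (e : ℝ) : ∀ (l : List (ℤ × UpInc)) (k σ : ℝ), σ < k → rampDer e l k σ = 0
  | [], k, σ, _ => rfl
  | p :: l, k, σ, h => by rw [rampDer, if_pos h]

theorem hasDeriv_rampSum (e : ℝ) : ∀ (l : List (ℤ × UpInc)) (k σ : ℝ), (∀ p ∈ l, 0 < p.1) →
    HasDerivWithinAt (rampSum e l k) (rampDer e l k σ) (Ioi σ) σ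
  | [], k, σ, _ => (hasDerivWithinAt_const σ (Ioi σ) (0 : ℝ)).congr (fun _ _ => rfl) rfl
  | p :: l, k, σ, hl => by
      obtain ⟨h1, h2⟩ := List.forall_mem_cons.1 hl
      have hp : 0 < upR p.1 := div_pos (by exact_mod_cast h1) (by norm_num)
      have ih := hasDeriv_rampSum e l (k + upR p.1) σ h2
      show HasDerivWithinAt (fun s => p.2.val e (min (max (s - k) 0) (upR p.1)) +
        rampSum e l (k + upR p.1) s) _ _ _
      rw [rampDer]
      split_ifs with ha hb
      · rw [rampDer_before e l _ σ (by linarith)] at ih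
        have h0 : (fun s => p.2.val e (min (max (s - k) 0) (upR p.1))) =ᶠ[𝓝 σ] fun _ => 0 := by
          filter_upwards [Iio_mem_nhds ha] with s hs
          rw [max_eq_right (sub_nonpos.2 (le_of_lt hs)), min_eq_left hp.le, UpInc.val_zero]
        exact (((hasDerivAt_const σ (0 : ℝ)).congr_of_eventuallyEq h0).hasDerivWithinAt.add
          ih).congr_deriv (zero_add 0)
      · rw [rampDer_before e l _ σ hb] at ih
        have h0 : (fun s => p.2.val e (min (max (s - k) 0) (upR p.1))) =ᶠ[𝓝[Ioi σ] σ]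
            fun s => p.2.val e (s - k) := by
          filter_upwards [Ioo_mem_nhdsGT hb] with s hs
          rw [max_eq_left (by linarith [hs.1]), min_eq_left (by linarith [hs.2])]
        have h3 := ((p.2.hasDeriv_val e k σ).hasDerivWithinAt (s := Ioi σ)).congr_of_eventuallyEq h0
          (by rw [max_eq_left (by linarith), min_eq_left (by linarith)])
        exact (h3.add ih).congr_deriv (add_zero _)
      · have h3 : HasDerivWithinAt (fun s => p.2.val e (min (max (s - k) 0) (upR p.1))) 0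
            (Ioi σ) σ := by
          refine (hasDerivWithinAt_const σ (Ioi σ) (p.2.val e (upR p.1))).congr (fun s hs => ?_) ?_
          · have : σ < s := hs
            rw [min_eq_right (by rw [max_eq_left (by linarith)]; linarith)]
          · rw [min_eq_right (by rw [max_eq_left (by linarith)]; linarith)]
        exact (h3.add ih).congr_deriv (zero_add _)

theorem upR_knot_le : ∀ (l : List (ℤ × UpInc)) (k : ℤ) (j : ℕ), (∀ p ∈ l, 0 < p.1) →
    k ≤ rampKnot l k j
  | [], _, _, _ => le_rfl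
  | _ :: _, _, 0, _ => le_rfl
  | p :: l, k, j + 1, hl => by
      obtain ⟨h1, h2⟩ := List.forall_mem_cons.1 hl
      have := upR_knot_le l (k + p.1) j h2
      simp only [rampKnot]
      omega

/-- On piece `j` the sum and its derivative are the polynomials. -/
theorem rampSum_eq (E S : UE) {x y : ℝ} : ∀ (l : List (ℤ × UpInc)) (k : ℤ) (j : ℕ),
    (∀ p ∈ l, 0 < p.1) → upR (rampKnot l k j) ≤ S.val x y →
    (j < l.length → S.val x y < upR (rampKnot l k (j + 1))) →
    rampSum (E.val x y) l (upR k) (S.val x y) = (rampPoly E S l k j).val x y ∧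
      rampDer (E.val x y) l (upR k) (S.val x y) = (rampPolyDer E S l k j).val x y
  | [], k, j, _, _, _ => by simp [rampSum, rampDer, rampPoly, rampPolyDer, UE.val_const]
  | p :: l, k, 0, hl, h0, h1 => by
      obtain ⟨hp', h2⟩ := List.forall_mem_cons.1 hl
      simp only [rampKnot] at h0
      have h1' : S.val x y < upR (k + p.1) := by
        have := h1 (by simp)
        cases l <;> simpa [rampKnot] using this
      rw [upR_add] at h1'
      simp only [rampSum, rampDer, rampPoly, rampPolyDer, UpInc.val_poly, UpInc.val_polyDer,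
        UE.val_sub, val_upC]
      rw [rampSum_before _ l _ _ h2 h1'.le, add_zero, if_neg (not_lt.2 h0), if_pos h1',
        max_eq_left (sub_nonneg.2 h0), min_eq_left (by linarith)]
      exact ⟨rfl, rfl⟩
  | p :: l, k, j + 1, hl, h0, h1 => by
      obtain ⟨hp', h2⟩ := List.forall_mem_cons.1 hl
      simp only [rampKnot] at h0
      have hk : upR (k + p.1) ≤ S.val x y := le_trans
        (div_le_div_of_nonneg_right (by exact_mod_cast upR_knot_le l (k + p.1) j h2)
          (by norm_num)) h0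
      have ih := rampSum_eq E S l (k + p.1) j h2 h0
        (fun h => by simpa [rampKnot] using h1 (by simpa using h))
      rw [upR_add] at hk
      have hp : 0 < upR p.1 := div_pos (by exact_mod_cast hp') (by norm_num)
      simp only [rampSum, rampDer, rampPoly, rampPolyDer, UpInc.val_poly, UE.val_add, val_upC]
      rw [if_neg (by linarith), if_neg (by linarith), ← upR_add, ih.1, ih.2,
        min_eq_right (by rw [max_eq_left (by linarith)]; linarith)]
      exact ⟨rfl, rfl⟩

/-- A coefficient: its value at zero `a + b e`, the increments, and past the last knot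
`((f₁ + g₁ e) d + (f₂ + g₂ e) d ^ 2 + f₃ d ^ 3) / (1 + e σ ^ 2)`. -/
structure UpCoef where
  a : ℤ
  b : ℤ
  incs : List UpInc
  f₁ : ℤ
  g₁ : ℤ
  f₂ : ℤ
  g₂ : ℤ
  f₃ : ℤ

namespace UpCoef

variable (A : UpCoef) (ws : List ℤ)

/-- The pieces. -/
def pieces : List (ℤ × UpInc) := ws.zip A.incs

/-- The last knot. -/
def last : ℤ := rampKnot (A.pieces ws) 0 (A.pieces ws).length

/-- The part past the last knot, before dividing. -/
noncomputable def far (e d : ℝ) : ℝ :=
  (upR A.f₁ + upR A.g₁ * e) * d + (upR A.f₂ + upR A.g₂ * e) * d ^ 2 + upR A.f₃ * d ^ 3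

/-- Its derivative in `d`. -/
noncomputable def far' (e d : ℝ) : ℝ :=
  (upR A.f₁ + upR A.g₁ * e) + 2 * (upR A.f₂ + upR A.g₂ * e) * d + 3 * upR A.f₃ * d ^ 2

/-- The coefficient. -/
noncomputable def val (e σ : ℝ) : ℝ :=
  upR A.a + upR A.b * e + rampSum e (A.pieces ws) (upR 0) σ +
    A.far e (max (σ - upR (A.last ws)) 0) / (1 + e * σ ^ 2)

/-- Its right derivative. -/
noncomputable def der (e σ : ℝ) : ℝ :=
  rampDer e (A.pieces ws) (upR 0) σ +
    if σ < upR (A.last ws) then 0
    else (A.far' e (σ - upR (A.last ws)) * (1 + e * σ ^ 2) -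
      A.far e (σ - upR (A.last ws)) * (2 * e * σ)) / (1 + e * σ ^ 2) ^ 2

theorem continuous_val {e : ℝ} (he : 0 ≤ e) : Continuous (A.val ws e) := by
  have := continuous_rampSum e (A.pieces ws) (upR 0)
  unfold val
  refine ((continuous_const.add this).add (Continuous.div ?_ (by fun_prop) fun σ => ?_))
  · unfold far
    fun_prop
  · exact (add_pos_of_pos_of_nonneg one_pos (mul_nonneg he (sq_nonneg σ))).ne'

theorem hasDeriv_val {e : ℝ} (he : 0 ≤ e) (hw : ∀ p ∈ A.pieces ws, 0 < p.1) (σ : ℝ) :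
    HasDerivWithinAt (A.val ws e) (A.der ws e σ) (Ioi σ) σ := by
  unfold val der
  refine ((hasDeriv_rampSum e _ _ σ hw).const_add _).add ?_
  set K := upR (A.last ws)
  have hden : 1 + e * σ ^ 2 ≠ 0 :=
    (add_pos_of_pos_of_nonneg one_pos (mul_nonneg he (sq_nonneg σ))).ne'
  split_ifs with h
  · have h0 : (fun s => A.far e (max (s - K) 0) / (1 + e * s ^ 2)) =ᶠ[𝓝 σ] fun _ => 0 := by
      filter_upwards [Iio_mem_nhds h] with s hs
      rw [max_eq_right (sub_nonpos.2 (le_of_lt hs))]
      simp [far]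
    exact ((hasDerivAt_const σ (0 : ℝ)).congr_of_eventuallyEq h0).hasDerivWithinAt
  · have hd := (hasDerivAt_id' σ).sub_const K
    have hn : HasDerivAt (fun s => A.far e (s - K)) (A.far' e (σ - K)) σ := by
      refine (((hd.const_mul (upR A.f₁ + upR A.g₁ * e)).add
        ((hd.pow 2).const_mul (upR A.f₂ + upR A.g₂ * e))).add
        ((hd.pow 3).const_mul (upR A.f₃))).congr_deriv ?_
      simp only [far']
      push_cast
      ring
    have hq : HasDerivAt (fun s => 1 + e * s ^ 2) (2 * e * σ) σ :=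
      (((hasDerivAt_pow 2 σ).const_mul e).const_add 1).congr_deriv (by push_cast; ring)
    refine ((hn.div hq hden).hasDerivWithinAt (s := Ioi σ)).congr (fun s hs => ?_) ?_
    · have : σ < s := hs
      rw [max_eq_left (by linarith)]
      rfl
    · rw [max_eq_left (by linarith)]
      rfl

/-- The coefficient on piece `j`. -/
def pieceVal (E S : UE) (j : ℕ) : UE :=
  ((upC A.a).add ((upC A.b).mul E)).add (rampPoly E S (A.pieces ws) 0 j)

/-- Its derivative on piece `j`. -/
def pieceDer (E S : UE) (j : ℕ) : UE := rampPolyDer E S (A.pieces ws) 0 j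

theorem piece_eq (E S : UE) {x y : ℝ} {j : ℕ} (hw : ∀ p ∈ A.pieces ws, 0 < p.1)
    (hj : j < (A.pieces ws).length) (h0 : upR (rampKnot (A.pieces ws) 0 j) ≤ S.val x y)
    (h1 : S.val x y < upR (rampKnot (A.pieces ws) 0 (j + 1)))
    (hlast : rampKnot (A.pieces ws) 0 (j + 1) ≤ A.last ws) :
    A.val ws (E.val x y) (S.val x y) = (A.pieceVal ws E S j).val x y ∧
      A.der ws (E.val x y) (S.val x y) = (A.pieceDer ws E S j).val x y := by
  obtain ⟨e1, e2⟩ := rampSum_eq E S (A.pieces ws) 0 j hw h0 fun _ => h1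
  have hl : S.val x y < upR (A.last ws) :=
    h1.trans_le (div_le_div_of_nonneg_right (by exact_mod_cast hlast) (by norm_num))
  unfold val der pieceVal pieceDer
  rw [e1, e2, max_eq_right (sub_nonpos.2 hl.le), if_pos hl]
  simp [far, UE.val_add, UE.val_mul, val_upC]

/-- The value at the last knot. -/
def lastVal (E : UE) : UE :=
  ((upC A.a).add ((upC A.b).mul E)).add
    (rampPoly E (upC (A.last ws)) (A.pieces ws) 0 (A.pieces ws).length)

theorem rampPolyDer_full (E S : UE) : ∀ (l : List (ℤ × UpInc)) (k : ℤ),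
    rampPolyDer E S l k l.length = UE.const 0 0
  | [], _ => rfl
  | p :: l, k => by simp only [List.length_cons, rampPolyDer, rampPolyDer_full E S l]

end UpCoef

/-- The flux: the widths of the pieces and the three coefficients. -/
structure UpFlux where
  ws : List ℤ
  A : UpCoef
  B : UpCoef
  C : UpCoef

namespace UpFlux

variable (F : UpFlux)

/-- The widths are positive and every coefficient has every piece. -/
def check : Bool :=
  decide (∀ w ∈ F.ws, 0 < w) && decide (F.A.incs.length = F.ws.length ∧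
    F.B.incs.length = F.ws.length ∧ F.C.incs.length = F.ws.length ∧
    F.B.last F.ws = F.A.last F.ws ∧ F.C.last F.ws = F.A.last F.ws)

/-- The last knot. -/
def last : ℤ := F.A.last F.ws

/-- The geometry of piece `j`, in `(e, σ)`. -/
def geomPiece (E : UE) (j : ℕ) : UpGeom :=
  let S := UE.Y
  let u := E.mul (S.mul S)
  let a := F.A.pieceVal F.ws E S j
  let b := F.B.pieceVal F.ws E S j
  let c := F.C.pieceVal F.ws E S j
  { e := E
    H := (UE.const 1 0).add u
    pu := (UE.const 1 0).sub u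
    D := UE.const 1 0
    s2 := S.mul S
    A := a
    A' := F.A.pieceDer F.ws E S j
    SA := S.mul a
    B := b
    B' := F.B.pieceDer F.ws E S j
    SB := S.mul b
    C := c
    C' := F.C.pieceDer F.ws E S j
    SC := S.mul c }

/-- A coefficient past the last knot, in `τ = 1 / σ` and `u = e σ ^ 2`: the value times
`(1 + u) τ ^ 2`. -/
def farNum (A : UpCoef) : UE :=
  let T := UE.X
  let E := UE.Y.mul (T.mul T)
  let d := (UE.const 1 0).sub ((upC F.last).mul T)
  (((A.lastVal F.ws E).mul ((UE.const 1 0).add UE.Y)).mul (T.mul T)).add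
    ((((upC A.f₁).add ((upC A.g₁).mul E)).mul (T.mul d)).add
      (((upC A.f₂).add ((upC A.g₂).mul E)).mul (d.mul d)))

/-- The derivative past the last knot, times `(1 + u) ^ 2 τ ^ 3`. -/
def farDer (A : UpCoef) : UE :=
  let T := UE.X
  let E := UE.Y.mul (T.mul T)
  let d := (UE.const 1 0).sub ((upC F.last).mul T)
  ((((((upC A.f₁).add ((upC A.g₁).mul E)).mul T).add
      (((UE.const 2 0).mul ((upC A.f₂).add ((upC A.g₂).mul E))).mul d)).mul (T.mul T)).mul
      ((UE.const 1 0).add UE.Y)).sub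
    ((((((upC A.f₁).add ((upC A.g₁).mul E)).mul (T.mul d)).add
      (((upC A.f₂).add ((upC A.g₂).mul E)).mul (d.mul d))).mul
      ((UE.const 2 0).mul UE.Y)).mul (T.mul T))

/-- The geometry past the last knot, in `(τ, u)`, with the factor `(1 + u) ^ 2 τ ^ 3`. -/
def geomFar : UpGeom :=
  let T := UE.X
  let H := (UE.const 1 0).add UE.Y
  let a := (F.farNum F.A).mul H
  let b := (F.farNum F.B).mul H
  let c := (F.farNum F.C).mul H
  { e := UE.Y.mul (T.mul T)
    H := H
    pu := (UE.const 1 0).sub UE.Y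
    D := (H.mul H).mul ((T.mul T).mul T)
    s2 := (H.mul H).mul T
    A := a.mul T
    A' := F.farDer F.A
    SA := a
    B := b.mul T
    B' := F.farDer F.B
    SB := b
    C := c.mul T
    C' := F.farDer F.C
    SC := c }

/-- A coefficient has a cubic past the last knot. -/
def cubic : Bool := decide (F.A.f₃ ≠ 0 ∨ F.B.f₃ ≠ 0 ∨ F.C.f₃ ≠ 0)

/-- The cubic part in `τ = 1 / σ`, times `(1 + u) τ ^ 3`. -/
def farNum₃ (A : UpCoef) : UE :=
  let d := (UE.const 1 0).sub ((upC F.last).mul UE.X)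
  ((F.farNum A).mul UE.X).add ((upC A.f₃).mul ((d.mul d).mul d))

/-- Its derivative, times `(1 + u) ^ 2 τ ^ 4`. -/
def farDer₃ (A : UpCoef) : UE :=
  let T := UE.X
  let d := (UE.const 1 0).sub ((upC F.last).mul T)
  ((F.farDer A).mul T).add ((upC A.f₃).mul
    ((((UE.const 3 0).mul ((d.mul d).mul (T.mul T))).mul ((UE.const 1 0).add UE.Y)).sub
      (((d.mul d).mul d).mul (((UE.const 2 0).mul UE.Y).mul (T.mul T)))))

/-- The geometry past the last knot with a cubic, with the factor `(1 + u) ^ 2 τ ^ 4`. -/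
def geomFar₃ : UpGeom :=
  let T := UE.X
  let H := (UE.const 1 0).add UE.Y
  let a := (F.farNum₃ F.A).mul H
  let b := (F.farNum₃ F.B).mul H
  let c := (F.farNum₃ F.C).mul H
  { e := UE.Y.mul (T.mul T)
    H := H
    pu := (UE.const 1 0).sub UE.Y
    D := (H.mul H).mul ((T.mul T).mul (T.mul T))
    s2 := (H.mul H).mul (T.mul T)
    A := a.mul T
    A' := F.farDer₃ F.A
    SA := a
    B := b.mul T
    B' := F.farDer₃ F.B
    SB := b
    C := c.mul T
    C' := F.farDer₃ F.C
    SC := c }

theorem farNum_eq (A : UpCoef) {σ u : ℝ} (hσ : 0 < σ) (hu : 0 ≤ u)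
    (hw : ∀ p ∈ A.pieces F.ws, 0 < p.1) (hlast : A.last F.ws = F.last)
    (h0 : upR (A.last F.ws) ≤ σ) (h3 : A.f₃ = 0) :
    A.val F.ws (u / σ ^ 2) σ * ((1 + u) / σ ^ 2) = (F.farNum A).val (1 / σ) u ∧
      A.der F.ws (u / σ ^ 2) σ * ((1 + u) ^ 2 / σ ^ 3) = (F.farDer A).val (1 / σ) u := by
  have hs : σ ≠ 0 := hσ.ne'
  have hu1 : (1 : ℝ) + u ≠ 0 := by linarith
  have hS : (UE.const 0 0).val (1 / σ) u = 0 := by simp [UE.val_const]
  obtain ⟨e1, e2⟩ : A.val F.ws (u / σ ^ 2) σ = (A.lastVal F.ws (UE.Y.mul (UE.X.mul UE.X))).val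
        (1 / σ) u + A.far (u / σ ^ 2) (σ - upR (A.last F.ws)) / (1 + u / σ ^ 2 * σ ^ 2) ∧
      A.der F.ws (u / σ ^ 2) σ =
        (A.far' (u / σ ^ 2) (σ - upR (A.last F.ws)) * (1 + u / σ ^ 2 * σ ^ 2) -
          A.far (u / σ ^ 2) (σ - upR (A.last F.ws)) * (2 * (u / σ ^ 2) * σ)) /
          (1 + u / σ ^ 2 * σ ^ 2) ^ 2 := by
    have eE : (UE.Y.mul (UE.X.mul UE.X)).val (1 / σ) u = u / σ ^ 2 := by
      simp only [UE.val_mul, UE.val_X, UE.val_Y]
      field_simp
    obtain ⟨r1, r2⟩ := rampSum_eq_of_last A F.ws hw (E := UE.Y.mul (UE.X.mul UE.X))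
      (x := 1 / σ) (y := u) h0
    rw [eE] at r1 r2
    exact ⟨r1, r2⟩
  rw [e1, e2, hlast]
  simp only [farNum, farDer, UpCoef.far, h3, UpCoef.far', UE.val_add, UE.val_sub, UE.val_mul,
    UE.val_X, UE.val_Y, UE.val_const, val_upC]
  simp only [show upR 0 = 0 by simp [upR], zero_mul, mul_zero, add_zero]
  push_cast
  constructor <;> field_simp <;> ring
where
  rampSum_eq_of_last (A : UpCoef) (ws : List ℤ) (hw : ∀ p ∈ A.pieces ws, 0 < p.1) {E : UE}
      {x y σ : ℝ} (h0 : upR (A.last ws) ≤ σ) :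
      A.val ws (E.val x y) σ = (A.lastVal ws E).val x y +
          A.far (E.val x y) (σ - upR (A.last ws)) / (1 + E.val x y * σ ^ 2) ∧
        A.der ws (E.val x y) σ =
          (A.far' (E.val x y) (σ - upR (A.last ws)) * (1 + E.val x y * σ ^ 2) -
            A.far (E.val x y) (σ - upR (A.last ws)) * (2 * E.val x y * σ)) /
            (1 + E.val x y * σ ^ 2) ^ 2 := by
    -- evaluate at a point of the constant polynomial `σ`
    obtain ⟨e1, e2⟩ := rampSum_eq (x := E.val x y) (y := σ) UE.X UE.Y (A.pieces ws) 0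
      (A.pieces ws).length hw (by simpa [UpCoef.last, UE.val_Y] using h0)
      fun h => absurd h (lt_irrefl _)
    simp only [UE.val_X, UE.val_Y] at e1 e2
    unfold UpCoef.val UpCoef.der UpCoef.lastVal
    rw [e1, e2, max_eq_left (sub_nonneg.2 h0), if_neg (not_lt.2 h0), UpCoef.rampPolyDer_full,
      UE.val_const, rampPoly_eval E x y (upC (A.last ws)) UE.Y (A.pieces ws) 0 σ]
    simp [UE.val_add, UE.val_mul, val_upC]
  rampPoly_eval (E : UE) (x y : ℝ) (S S' : UE) : ∀ (l : List (ℤ × UpInc)) (k : ℤ) (σ : ℝ),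
      (rampPoly UE.X S' l k l.length).val (E.val x y) σ =
        (rampPoly E S l k l.length).val x y
    | [], _, _ => by simp [rampPoly, UE.val_const]
    | p :: l, k, σ => by
        simp only [List.length_cons, rampPoly, UE.val_add, UpInc.val_poly, UE.val_X, val_upC,
          rampPoly_eval E x y S S' l]


theorem farNum₃_eq (A : UpCoef) {σ u : ℝ} (hσ : 0 < σ) (hu : 0 ≤ u)
    (hw : ∀ p ∈ A.pieces F.ws, 0 < p.1) (hlast : A.last F.ws = F.last)
    (h0 : upR (A.last F.ws) ≤ σ) :
    A.val F.ws (u / σ ^ 2) σ * ((1 + u) / σ ^ 3) = (F.farNum₃ A).val (1 / σ) u ∧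
      A.der F.ws (u / σ ^ 2) σ * ((1 + u) ^ 2 / σ ^ 4) = (F.farDer₃ A).val (1 / σ) u := by
  have hs : σ ≠ 0 := hσ.ne'
  have hu1 : (1 : ℝ) + u ≠ 0 := by linarith
  have hS : (UE.const 0 0).val (1 / σ) u = 0 := by simp [UE.val_const]
  obtain ⟨e1, e2⟩ : A.val F.ws (u / σ ^ 2) σ = (A.lastVal F.ws (UE.Y.mul (UE.X.mul UE.X))).val
        (1 / σ) u + A.far (u / σ ^ 2) (σ - upR (A.last F.ws)) / (1 + u / σ ^ 2 * σ ^ 2) ∧
      A.der F.ws (u / σ ^ 2) σ =
        (A.far' (u / σ ^ 2) (σ - upR (A.last F.ws)) * (1 + u / σ ^ 2 * σ ^ 2) -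
          A.far (u / σ ^ 2) (σ - upR (A.last F.ws)) * (2 * (u / σ ^ 2) * σ)) /
          (1 + u / σ ^ 2 * σ ^ 2) ^ 2 := by
    have eE : (UE.Y.mul (UE.X.mul UE.X)).val (1 / σ) u = u / σ ^ 2 := by
      simp only [UE.val_mul, UE.val_X, UE.val_Y]
      field_simp
    obtain ⟨r1, r2⟩ := farNum_eq.rampSum_eq_of_last A F.ws hw (E := UE.Y.mul (UE.X.mul UE.X))
      (x := 1 / σ) (y := u) h0
    rw [eE] at r1 r2
    exact ⟨r1, r2⟩
  rw [e1, e2, hlast]
  simp only [farNum₃, farDer₃, farNum, farDer, UpCoef.far, UpCoef.far', UE.val_add, UE.val_sub, UE.val_mul,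
    UE.val_X, UE.val_Y, UE.val_const, val_upC]
  push_cast
  constructor <;> field_simp <;> ring

end UpFlux

end Vale.Agent.P237.Quant
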