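import Vale.Agent.P237.Quant.LinearUpperRows
import Vale.Agent.P237.Quant.LinearUpperTables.U100B0
import Vale.Agent.P237.Quant.LinearUpperTables.U100B1
import Vale.Agent.P237.Quant.LinearUpperTables.U100B2
import Vale.Agent.P237.Quant.LinearUpperTables.U100B3

/-!
The upper bound `17 / (200 n)` of the linear term in every dimension `n ≥ 100`, from four checked
tables, for the rows of the positive side.
-/

namespace Vale.Agent.P237.Quant

/-- The tables. -/
def upLargeTabs : List UpData := [upTabU100B0, upTabU100B1, upTabU100B2, upTabU100B3]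

/-- The parts. -/
def upLargeParts : List (DimRange × List ℚ) :=
  [(⟨100, 0⟩, [3 / 5, 10712 / 10000, 121 / 100, 14884 / 10000, 23716 / 10000])]

theorem upLargeTabs_valid : ∀ T ∈ upLargeTabs, T.Valid := by
  simp only [upLargeTabs, List.forall_mem_cons, List.not_mem_nil, false_imp_iff, implies_true,
    and_true, UpData.Valid]
  exact ⟨upTabU100B0_valid, upTabU100B1_valid, upTabU100B2_valid, upTabU100B3_valid⟩

theorem upLarge_rangeOK : upRangeOK (17 / 200) upLargeTabs upLargeParts ⟨100, 0⟩ = true := by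
  decide +kernel

/-- The linear term is at most `17 / (200 n)` for `n ≥ 100`. -/
theorem specLin_le_large (hE : ExcessLarge) {m : ℕ} {φ : ℝ → ℝ} (hm : 99 ≤ m) (hφ : IsShape φ)
    (hx : powRatio m φ ≤ 1) (hV : convexVal m (pureG m) φ ≤ 0) :
    specLin m (specV m φ) ≤ ((17 / 200 : ℚ) : ℝ) / ((m : ℝ) + 1) :=
  specLin_le_of_range hE upLarge_rangeOK upLargeTabs_valid (by omega)
    ⟨by simp; omega, Or.inl rfl⟩ hφ hx hV

/-- A row inside `n ≥ 100` with `e2` at least `17 / 200`. -/
theorem PosRow.linUp_large (hE : ExcessLarge) {R : PosRow} (he : 17 / 200 ≤ R.e2)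
    (hlo : 100 ≤ R.dims.lo) : R.LinUp := by
  intro m hm hn φ hφ hx hV
  obtain ⟨h1, h2⟩ := hn
  exact (specLin_le_large hE (by omega) hφ hx hV).trans
    (div_le_div_of_nonneg_right (by exact_mod_cast he) (by positivity))

end Vale.Agent.P237.Quant
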