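import Vale.Agent.P237.Quant.LinearUpperRows
import Vale.Agent.P237.Quant.PosRowsSmall
import Vale.Agent.P237.Quant.PosRowsMid
import Vale.Agent.P237.Quant.LinearUpperTables.P0
import Vale.Agent.P237.Quant.LinearUpperTables.P1
import Vale.Agent.P237.Quant.LinearUpperTables.P2
import Vale.Agent.P237.Quant.LinearUpperTables.P3
import Vale.Agent.P237.Quant.LinearUpperTables.P4
import Vale.Agent.P237.Quant.LinearUpperTables.P5
import Vale.Agent.P237.Quant.LinearUpperTables.P6
import Vale.Agent.P237.Quant.LinearUpperTables.P7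
import Vale.Agent.P237.Quant.LinearUpperTables.Q0
import Vale.Agent.P237.Quant.LinearUpperTables.Q1
import Vale.Agent.P237.Quant.LinearUpperTables.Q2
import Vale.Agent.P237.Quant.LinearUpperTables.Q3
import Vale.Agent.P237.Quant.LinearUpperTables.Q4
import Vale.Agent.P237.Quant.LinearUpperTables.Q5
import Vale.Agent.P237.Quant.LinearUpperTables.Q6
import Vale.Agent.P237.Quant.LinearUpperTables.Q7
import Vale.Agent.P237.Quant.LinearUpperTables.R0
import Vale.Agent.P237.Quant.LinearUpperTables.R1
import Vale.Agent.P237.Quant.LinearUpperTables.R2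
import Vale.Agent.P237.Quant.LinearUpperTables.R3
import Vale.Agent.P237.Quant.LinearUpperTables.R4
import Vale.Agent.P237.Quant.LinearUpperTables.R5
import Vale.Agent.P237.Quant.LinearUpperTables.V0
import Vale.Agent.P237.Quant.LinearUpperTables.V1
import Vale.Agent.P237.Quant.LinearUpperTables.V2
import Vale.Agent.P237.Quant.LinearUpperTables.V3
import Vale.Agent.P237.Quant.LinearUpperTables.V4
import Vale.Agent.P237.Quant.LinearUpperTables.W0
import Vale.Agent.P237.Quant.LinearUpperTables.W1
import Vale.Agent.P237.Quant.LinearUpperTables.W2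
import Vale.Agent.P237.Quant.LinearUpperTables.W3
import Vale.Agent.P237.Quant.LinearUpperTables.W4

/-!
The upper bound `3 / (40 n)` of the linear term in the dimensions `11 ≤ n ≤ 99`, from the
checked tables.
-/

namespace Vale.Agent.P237.Quant

/-- The tables. -/
def upMidTabs : List UpData :=
  [upTabPB0, upTabPB1, upTabPB2, upTabPB3, upTabPB4, upTabPB5,
    upTabPB6, upTabPB7, upTabQB0, upTabQB1, upTabQB2, upTabQB3,
    upTabQB4, upTabQB5, upTabQB6, upTabQB7, upTabRB0, upTabRB1,
    upTabRB2, upTabRB3, upTabRB4, upTabRB5, upTabVB0, upTabVB1,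
    upTabVB2, upTabVB3, upTabVB4, upTabWB0, upTabWB1, upTabWB2,
    upTabWB3, upTabWB4]

/-- The parts. -/
def upMidParts : List (DimRange × List ℚ) :=
  [(⟨11, 13⟩, [(3 / 5), (2601 / 2500), (11109 / 10000), (5843 / 5000), (1529 / 1250), (643 / 500), (6903 / 5000), (3969 / 2500), (5929 / 2500)]),
    (⟨14, 18⟩, [(3 / 5), (2089 / 2000), (2809 / 2500), (11859 / 10000), (2491 / 2000), (529 / 400), (363 / 250), (169 / 100), (5929 / 2500)]),
    (⟨19, 29⟩, [(3 / 5), (10527 / 10000), (5703 / 5000), (1529 / 1250), (13271 / 10000), (3813 / 2500), (5929 / 2500)]),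
    (⟨30, 54⟩, [(3 / 5), (213 / 200), (2943 / 2500), (3249 / 2500), (7503 / 5000), (5929 / 2500)]),
    (⟨55, 99⟩, [(3 / 5), (213 / 200), (2943 / 2500), (3249 / 2500), (7503 / 5000), (5929 / 2500)])]

theorem upMidTabs_valid : ∀ T ∈ upMidTabs, T.Valid := by
  simp only [upMidTabs, List.forall_mem_cons, List.not_mem_nil, false_imp_iff, implies_true,
    and_true, UpData.Valid]
  exact ⟨upTabPB0_valid, upTabPB1_valid, upTabPB2_valid,
    upTabPB3_valid, upTabPB4_valid, upTabPB5_valid,
    upTabPB6_valid, upTabPB7_valid, upTabQB0_valid,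
    upTabQB1_valid, upTabQB2_valid, upTabQB3_valid,
    upTabQB4_valid, upTabQB5_valid, upTabQB6_valid,
    upTabQB7_valid, upTabRB0_valid, upTabRB1_valid,
    upTabRB2_valid, upTabRB3_valid, upTabRB4_valid,
    upTabRB5_valid, upTabVB0_valid, upTabVB1_valid,
    upTabVB2_valid, upTabVB3_valid, upTabVB4_valid,
    upTabWB0_valid, upTabWB1_valid, upTabWB2_valid,
    upTabWB3_valid, upTabWB4_valid⟩

theorem upMid_rangeOK : upRangeOK (3 / 40) upMidTabs upMidParts ⟨11, 99⟩ = true := by
  decide +kernel

/-- The linear term is at most `3 / (40 n)` for `11 ≤ n ≤ 99`. -/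
theorem specLin_le_mid (hE : ExcessLarge) {m : ℕ} {φ : ℝ → ℝ} (hm : 10 ≤ m) (hm' : m ≤ 98)
    (hφ : IsShape φ) (hx : powRatio m φ ≤ 1) (hV : convexVal m (pureG m) φ ≤ 0) :
    specLin m (specV m φ) ≤ ((3 / 40 : ℚ) : ℝ) / ((m : ℝ) + 1) :=
  specLin_le_of_range hE upMid_rangeOK upMidTabs_valid (by omega) ⟨by simp; omega, by simp; omega⟩ hφ hx hV

/-- A row inside `11 ≤ n ≤ 99` with `e2` at least `3 / 40`. -/
theorem PosRow.linUp_mid (hE : ExcessLarge) {R : PosRow} (he : 3 / 40 ≤ R.e2)
    (hlo : 11 ≤ R.dims.lo) (hhi : R.dims.hi ≠ 0 ∧ R.dims.hi ≤ 99) : R.LinUp := by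
  intro m hm hn φ hφ hx hV
  obtain ⟨h1, h2⟩ := hn
  refine (specLin_le_mid hE (by omega) (by omega) hφ hx hV).trans
    (div_le_div_of_nonneg_right (by exact_mod_cast he) (by positivity))

theorem posRow11_linUp (hE : ExcessLarge) : posRow11.LinUp :=
  PosRow.linUp_mid hE (by norm_num [posRow11]) (by norm_num [posRow11])
    (by norm_num [posRow11])

theorem posRow14_linUp (hE : ExcessLarge) : posRow14.LinUp :=
  PosRow.linUp_mid hE (by norm_num [posRow14]) (by norm_num [posRow14])
    (by norm_num [posRow14])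

theorem posRow16_linUp (hE : ExcessLarge) : posRow16.LinUp :=
  PosRow.linUp_mid hE (by norm_num [posRow16, posRowA, posRowB]) (by norm_num [posRow16, posRowA, posRowB])
    (by norm_num [posRow16, posRowA, posRowB])

theorem posRow20_linUp (hE : ExcessLarge) : posRow20.LinUp :=
  PosRow.linUp_mid hE (by norm_num [posRow20, posRowA, posRowB]) (by norm_num [posRow20, posRowA, posRowB])
    (by norm_num [posRow20, posRowA, posRowB])

theorem posRow25_linUp (hE : ExcessLarge) : posRow25.LinUp :=
  PosRow.linUp_mid hE (by norm_num [posRow25, posRowA, posRowB]) (by norm_num [posRow25, posRowA, posRowB])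
    (by norm_num [posRow25, posRowA, posRowB])

theorem posRow30_linUp (hE : ExcessLarge) : posRow30.LinUp :=
  PosRow.linUp_mid hE (by norm_num [posRow30, posRowA, posRowB]) (by norm_num [posRow30, posRowA, posRowB])
    (by norm_num [posRow30, posRowA, posRowB])

theorem posRow37_linUp (hE : ExcessLarge) : posRow37.LinUp :=
  PosRow.linUp_mid hE (by norm_num [posRow37, posRowA, posRowB]) (by norm_num [posRow37, posRowA, posRowB])
    (by norm_num [posRow37, posRowA, posRowB])

theorem posRow43_linUp (hE : ExcessLarge) : posRow43.LinUp :=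
  PosRow.linUp_mid hE (by norm_num [posRow43, posRowA, posRowB]) (by norm_num [posRow43, posRowA, posRowB])
    (by norm_num [posRow43, posRowA, posRowB])

theorem posRow55_linUp (hE : ExcessLarge) : posRow55.LinUp :=
  PosRow.linUp_mid hE (by norm_num [posRow55, posRowA, posRowB]) (by norm_num [posRow55, posRowA, posRowB])
    (by norm_num [posRow55, posRowA, posRowB])

end Vale.Agent.P237.Quant
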