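import Vale.Agent.P237.Quant.UpperExpr

/-!
The polynomial core of the upper bound of the linear term: one quadratic form in `(x, y)` is
nonpositive where `0 ≤ x`, `y` has an upper bound linear in `x` and `x` may have an upper bound,
as soon as three polynomial inequalities hold. The coefficients are polynomials in two variables
with the denominator `2 ^ 16`, checked by Bernstein forms on boxes.
-/

namespace Vale.Agent.P237.Quant

open Set

/-- A coefficient of the tables. -/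
def upC (z : ℤ) : UE := UE.const z 65535

/-- Its value. -/
noncomputable def upR (z : ℤ) : ℝ := (z : ℝ) / 65536

theorem val_upC (z : ℤ) (x y : ℝ) : (upC z).val x y = upR z := by
  rw [upC, UE.val_const, upR]
  norm_num

/-- The numerator of `weightPoly (pu / H)`. -/
def upKap (pu H : UE) : UE :=
  let H2 := H.mul H
  let p2 := pu.mul pu
  (((H2.mul H2).sub ((UE.const 257 249).mul (p2.mul H2))).add
    ((UE.const 263 499).mul ((p2.mul pu).mul H))).add ((UE.const 1 499).mul (p2.mul p2))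

theorem val_upKap (pu H : UE) (x y : ℝ) (hH : H.val x y ≠ 0) :
    (upKap pu H).val x y = H.val x y ^ 4 * weightPoly (pu.val x y / H.val x y) := by
  simp only [upKap, weightPoly, UE.val_add, UE.val_sub, UE.val_mul, UE.val_const]
  push_cast
  field_simp
  ring

/-- The data of a cell that do not depend on the profile, as polynomials: `1 / n`, `κ = (1 - 1/n) / 2`,
`H = 1 + e σ ^ 2`, `pu = 1 - e σ ^ 2`, a positive factor `D`, `σ ^ 2 D`, and for each coefficient `a`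
of the flux the products `a D`, `a' D`, `σ a D`. -/
structure UpGeom where
  e : UE
  H : UE
  pu : UE
  D : UE
  s2 : UE
  A : UE
  A' : UE
  SA : UE
  B : UE
  B' : UE
  SB : UE
  C : UE
  C' : UE
  SC : UE

/-- The multipliers and bounds of a cell: `y V ≤ x N`, `x ≤ U`, the weight is at least `W`. -/
structure UpMult where
  t1 : UE
  lam : UE
  eps : UE
  W : UE
  N : UE
  V : UE
  U : UE
  μ0 : UE
  μ1 : UE
  ν0 : UE
  ν1 : UE
  x0 : UE

namespace UpGeom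

variable (G : UpGeom) (K : UpMult)

/-- The lower bound of `n (r - 1)`. -/
def ratLo : UE :=
  (((UE.const 1 1).add ((UE.const 1 7).mul G.e)).sub ((UE.const 1 15).mul (G.e.mul G.e))).sub
    ((UE.const 1 23).mul ((G.e.mul G.e).mul G.e))

/-- The upper bound of `n (r - 1)`. -/
def ratHi : UE :=
  ((UE.const 1 1).add ((UE.const 1 7).mul G.e)).sub ((UE.const 1 15).mul (G.e.mul G.e))

/-- `n (r p - 1) H D` at a bound `R` of `n (r - 1)`. -/
def brac (R : UE) : UE := (R.mul (G.pu.mul G.D)).sub ((UE.const 2 0).mul G.s2)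

/-- The operator on one coefficient, times `H D`. -/
def op (A A' SA : UE) : UE :=
  (((UE.const 1 1).mul G.pu).mul (G.H.mul A')).sub ((UE.const 2 0).mul SA)

/-- Half of `1 - 1 / n`, times `H`. -/
def kap : UE := ((UE.const 1 1).mul ((UE.const 1 0).sub G.e)).mul G.H

/-- The coefficient of the square of `y`, times four. -/
def S : UE := ((UE.const 4 0).mul (K.t1.mul K.W)).mul (G.kap.mul G.D)

/-- The free term in `y`. -/
def d0 : UE := (G.kap.mul G.B).sub (K.μ0.mul K.V)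

/-- The term in `x y`. -/
def d1 : UE := (((UE.const 2 0).mul G.kap).mul G.C).sub (K.μ1.mul K.V)

/-- The constant, times `S`. -/
def Q0 : UE :=
  ((G.S K).mul (((G.op G.A G.A' G.SA).sub ((K.lam.add K.eps).mul (G.H.mul G.D))).add
    (K.ν0.mul K.U))).add ((G.d0 K).mul (G.d0 K))

/-- The coefficient of `x`, times `S`. -/
def Q1 : UE :=
  ((G.S K).mul ((((G.op G.B G.B' G.SB).add ((UE.const 2 0).mul (G.brac G.ratHi))).add
    (K.lam.mul (G.H.mul G.D))).add (((K.μ0.mul K.N).add (K.ν1.mul K.U)).sub K.ν0))).add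
    ((UE.const 2 0).mul ((G.d0 K).mul (G.d1 K)))

/-- The coefficient of `x ^ 2`, times `S`. -/
def Q2 : UE :=
  ((G.S K).mul (((G.op G.C G.C' G.SC).sub (K.t1.mul (G.brac G.ratLo))).add
    ((K.μ1.mul K.N).sub K.ν1))).add ((G.d1 K).mul (G.d1 K))

/-- The weight test. -/
def weightQ : UE :=
  (upKap G.pu G.H).sub (K.W.mul ((G.H.mul G.H).mul (G.H.mul G.H)))

end UpGeom

/-- The trees and the slack constants of a cell. -/
structure UpTrees where
  k0 : ℤ
  k1 : ℤ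
  k2 : ℤ
  kW : ℤ
  disc : Bool
  x0 : List ℤ
  T0 : WeightCert.Tree
  T1 : WeightCert.Tree
  T2 : WeightCert.Tree
  TW : WeightCert.Tree

/-- `P - k (1 - e σ ^ 2)` is nonnegative on the box. -/
def upNonneg (G : UpGeom) (P : UE) (k : ℤ) (B : Four.Checker.Box) (T : WeightCert.Tree) : Bool :=
  decide (0 ≤ k) && UE.checkTree (P.sub ((upC k).mul G.pu)) B T

theorem upNonneg_sound {G : UpGeom} {P : UE} {k : ℤ} {B : Four.Checker.Box} {T : WeightCert.Tree}
    (h : upNonneg G P k B T = true) {x y : ℝ} (hm : Packed.memC B x y)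
    (hpu : 0 ≤ G.pu.val x y) : 0 ≤ P.val x y := by
  simp only [upNonneg, Bool.and_eq_true, decide_eq_true_eq] at h
  have h1 := UE.val_nonneg h.2 hm
  rw [UE.val_sub, UE.val_mul, val_upC] at h1
  have : 0 ≤ upR k := div_nonneg (by exact_mod_cast h.1) (by norm_num)
  have := mul_nonneg this hpu
  linarith

/-- The check of one cell. -/
def upPolyCheck (G : UpGeom) (K : UpMult) (B : Four.Checker.Box) (T : UpTrees) : Bool :=
  upNonneg G (G.Q0 K).neg T.k0 B T.T0 &&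
    upNonneg G (if T.disc then
        ((UE.const 4 0).mul ((G.Q0 K).mul (G.Q2 K))).sub ((G.Q1 K).mul (G.Q1 K))
      else if T.x0 = [] then (G.Q1 K).neg
      else ((K.x0.mul (G.Q1 K)).add ((UE.const 2 0).mul (G.Q0 K))).neg) T.k1 B T.T1 &&
    upNonneg G (if T.disc || T.x0 = [] then (G.Q2 K).neg
      else (G.Q0 K).sub ((K.x0.mul K.x0).mul (G.Q2 K))) T.k2 B T.T2 &&
    upNonneg G (G.weightQ K) T.kW B T.TW

/-- Split off the square at `x0`. -/
theorem upSplit {Q0 Q1 Q2 x0 : ℝ} (hx : 0 < x0) (h0 : Q0 ≤ 0) (h1 : x0 * Q1 + 2 * Q0 ≤ 0)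
    (h2 : x0 * x0 * Q2 ≤ Q0) : Q2 ≤ 0 ∧ (Q1 ≤ 0 ∨ Q1 ^ 2 ≤ 4 * Q0 * Q2) := by
  refine ⟨nonpos_of_mul_nonpos_right (h2.trans h0) (mul_pos hx hx), ?_⟩
  rcases le_or_gt Q1 0 with h | h
  · exact Or.inl h
  refine Or.inr (le_of_mul_le_mul_left ?_ (mul_pos hx hx))
  have hp : 0 ≤ x0 * Q1 := (mul_pos hx h).le
  have a : x0 * Q1 * (x0 * Q1) ≤ -(2 * Q0) * -(2 * Q0) :=
    mul_le_mul (by linarith) (by linarith) hp (by linarith)
  have b := mul_le_mul_of_nonpos_left h2 (show 4 * Q0 ≤ 0 by linarith)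
  linarith

/-- A quadratic on the half line. -/
theorem upQuad_nonpos {a b c x : ℝ} (ha : a ≤ 0) (hc : c ≤ 0) (hb : b ≤ 0 ∨ b ^ 2 ≤ 4 * a * c)
    (hx : 0 ≤ x) : a + b * x + c * x ^ 2 ≤ 0 := by
  rcases hb with hb | hb
  · have := mul_nonpos_of_nonpos_of_nonneg hb hx
    have := mul_nonpos_of_nonpos_of_nonneg hc (sq_nonneg x)
    linarith
  · rcases hc.eq_or_lt with h | h
    · subst h
      have : b = 0 := pow_eq_zero_iff two_ne_zero |>.1 (le_antisymm (by simpa using hb) (sq_nonneg b))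
      subst this
      linarith
    · nlinarith [sq_nonneg (2 * c * x + b)]

/-- The completed square in `y`, with the multipliers of `y V ≤ x N` and `x ≤ U`. -/
theorem upCore {S d0 d1 q0 q1 q2 μ0 μ1 ν0 ν1 N V U x y : ℝ} (hS : 0 < S)
    (h0 : S * (q0 + ν0 * U) + d0 ^ 2 ≤ 0)
    (h2 : S * (q2 + (μ1 * N - ν1)) + d1 ^ 2 ≤ 0)
    (h1 : S * (q1 + (μ0 * N + ν1 * U - ν0)) + 2 * (d0 * d1) ≤ 0 ∨
      (S * (q1 + (μ0 * N + ν1 * U - ν0)) + 2 * (d0 * d1)) ^ 2 ≤
        4 * (S * (q0 + ν0 * U) + d0 ^ 2) * (S * (q2 + (μ1 * N - ν1)) + d1 ^ 2))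
    (hx : 0 ≤ x) (hμ : 0 ≤ (μ0 + μ1 * x) * (N * x - V * y))
    (hν : 0 ≤ (ν0 + ν1 * x) * (U - x)) :
    q0 + q1 * x + q2 * x ^ 2 + y * (d0 + d1 * x + (μ0 + μ1 * x) * V) - S / 4 * y ^ 2 ≤ 0 := by
  have h := upQuad_nonpos h0 h2 h1 hx
  have hsq := sq_nonneg (S * y / 2 - (d0 + d1 * x))
  have key : S * (q0 + q1 * x + q2 * x ^ 2 + y * (d0 + d1 * x + (μ0 + μ1 * x) * V) -
      S / 4 * y ^ 2 + ((μ0 + μ1 * x) * (N * x - V * y) + (ν0 + ν1 * x) * (U - x))) ≤ 0 := by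
    linarith
  have h' : q0 + q1 * x + q2 * x ^ 2 + y * (d0 + d1 * x + (μ0 + μ1 * x) * V) - S / 4 * y ^ 2 +
      ((μ0 + μ1 * x) * (N * x - V * y) + (ν0 + ν1 * x) * (U - x)) ≤ 0 := by
    by_contra! hc
    linarith [mul_pos hS hc]
  linarith

/-- The inequality of a cell over the reals. -/
theorem upCell_real {e s R w W D S2 t L ε A' SA Bv B' SB Cv C' SC m0 m1 v0 v1 N V U x y Q0 Q1 Q2 : ℝ}
    (hQ0 : Q0 = 4 * (t * W) * ((1 - e) / 2 * (1 + s) * D) *
        ((1 - s) / 2 * ((1 + s) * A') - 2 * SA - (L + ε) * ((1 + s) * D) + v0 * U) +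
      ((1 - e) / 2 * (1 + s) * Bv - m0 * V) ^ 2)
    (hQ1 : Q1 = 4 * (t * W) * ((1 - e) / 2 * (1 + s) * D) *
        ((1 - s) / 2 * ((1 + s) * B') - 2 * SB +
          2 * ((1 / 2 + e / 8 - e ^ 2 / 16) * ((1 - s) * D) - 2 * S2) + L * ((1 + s) * D) +
          (m0 * N + v1 * U - v0)) +
      2 * (((1 - e) / 2 * (1 + s) * Bv - m0 * V) * (2 * ((1 - e) / 2 * (1 + s)) * Cv - m1 * V)))
    (hQ2 : Q2 = 4 * (t * W) * ((1 - e) / 2 * (1 + s) * D) *
        ((1 - s) / 2 * ((1 + s) * C') - 2 * SC -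
          t * ((1 / 2 + e / 8 - e ^ 2 / 16 - e ^ 3 / 24) * ((1 - s) * D) - 2 * S2) + (m1 * N - v1)) +
      (2 * ((1 - e) / 2 * (1 + s)) * Cv - m1 * V) ^ 2)
    (h0 : Q0 ≤ 0) (h2 : Q2 ≤ 0) (h1 : Q1 ≤ 0 ∨ Q1 ^ 2 ≤ 4 * Q0 * Q2)
    (he : e < 1) (hs : 0 ≤ s) (hs1 : s ≤ 1) (hD : 0 < D) (ht : 0 < t) (hW0 : 0 < W) (hW : W ≤ w)
    (hR0 : 1 / 2 + e / 8 - e ^ 2 / 16 - e ^ 3 / 24 ≤ R) (hR1 : R ≤ 1 / 2 + e / 8 - e ^ 2 / 16)
    (hx : 0 ≤ x)
    (hμ : 0 ≤ (m0 + m1 * x) * (N * x - V * y)) (hν : 0 ≤ (v0 + v1 * x) * (U - x)) :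
    ((1 - s) / 2 * ((1 + s) * A') - 2 * SA) + ((1 - s) / 2 * ((1 + s) * B') - 2 * SB) * x +
      ((1 - s) / 2 * ((1 + s) * C') - 2 * SC) * x ^ 2 +
      (1 - e) / 2 * (1 + s) * y * (Bv + 2 * Cv * x) +
      2 * (R * ((1 - s) * D) - 2 * S2) * x + L * ((1 + s) * D) * (x - 1) -
      t * (R * ((1 - s) * D) - 2 * S2) * x ^ 2 -
      t * ((1 - e) / 2 * (1 + s) * w * D) * y ^ 2 ≤ ε * ((1 + s) * D) := by
  subst hQ0 hQ1 hQ2
  have hκ : 0 < (1 - e) / 2 * (1 + s) := mul_pos (by linarith) (by linarith)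
  have hs' : 0 ≤ 1 - s := sub_nonneg.2 hs1
  have key := upCore (y := y) (show 0 < 4 * (t * W) * ((1 - e) / 2 * (1 + s) * D) by positivity)
    h0 h2 h1 hx hμ hν
  have k1 := mul_nonneg (mul_nonneg (sub_nonneg.2 hR1) (mul_nonneg hs' hD.le)) hx
  have k2 := mul_nonneg ht.le (mul_nonneg (mul_nonneg (sub_nonneg.2 hR0) (mul_nonneg hs' hD.le))
    (sq_nonneg x))
  have k3 := mul_nonneg ht.le (mul_nonneg (mul_nonneg (mul_nonneg hκ.le hD.le) (sub_nonneg.2 hW))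
    (sq_nonneg y))
  linear_combination key + 2 * k1 + k2 + k3

/-- The inequality of a cell at a point of its box. Here `R` is `n (r - 1)`, `w` the weight and
`y` is `√n ρ x`. -/
theorem upPoly_sound {G : UpGeom} {K : UpMult} {B : Four.Checker.Box} {T : UpTrees}
    (hB : upPolyCheck G K B T = true) {a b : ℝ} (hm : Packed.memC B a b)
    (hx0 : T.x0 ≠ [] → 0 < K.x0.val a b)
    {s R w x y : ℝ} (he : G.e.val a b < 1) (hH : G.H.val a b = 1 + s)
    (hpu : G.pu.val a b = 1 - s) (hs : 0 ≤ s) (hs1 : s ≤ 1) (hD : 0 < G.D.val a b)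
    (hw : w = weightPoly ((1 - s) / (1 + s)))
    (ht : 0 < K.t1.val a b) (hW : 0 < K.W.val a b)
    (hR0 : 1 / 2 + G.e.val a b / 8 - G.e.val a b ^ 2 / 16 - G.e.val a b ^ 3 / 24 ≤ R)
    (hR1 : R ≤ 1 / 2 + G.e.val a b / 8 - G.e.val a b ^ 2 / 16) (hx : 0 ≤ x)
    (hμ : 0 ≤ (K.μ0.val a b + K.μ1.val a b * x) * (K.N.val a b * x - K.V.val a b * y))
    (hν : 0 ≤ (K.ν0.val a b + K.ν1.val a b * x) * (K.U.val a b - x)) :
    ((1 - s) / 2 * ((1 + s) * G.A'.val a b) - 2 * G.SA.val a b) +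
      ((1 - s) / 2 * ((1 + s) * G.B'.val a b) - 2 * G.SB.val a b) * x +
      ((1 - s) / 2 * ((1 + s) * G.C'.val a b) - 2 * G.SC.val a b) * x ^ 2 +
      (1 - G.e.val a b) / 2 * (1 + s) * y * (G.B.val a b + 2 * G.C.val a b * x) +
      2 * (R * ((1 - s) * G.D.val a b) - 2 * G.s2.val a b) * x +
      K.lam.val a b * ((1 + s) * G.D.val a b) * (x - 1) -
      K.t1.val a b * (R * ((1 - s) * G.D.val a b) - 2 * G.s2.val a b) * x ^ 2 -
      K.t1.val a b * ((1 - G.e.val a b) / 2 * (1 + s) * w * G.D.val a b) * y ^ 2 ≤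
    K.eps.val a b * ((1 + s) * G.D.val a b) := by
  simp only [upPolyCheck, Bool.and_eq_true] at hB
  obtain ⟨⟨⟨c0, c1⟩, c2⟩, cW⟩ := hB
  have hp : 0 ≤ G.pu.val a b := by rw [hpu]; exact sub_nonneg.2 hs1
  have hH0 : 0 < G.H.val a b := by rw [hH]; exact add_pos_of_pos_of_nonneg one_pos hs
  have n0 := upNonneg_sound c0 hm hp
  have n1 := upNonneg_sound c1 hm hp
  have n2 := upNonneg_sound c2 hm hp
  have nW := upNonneg_sound cW hm hp
  rw [UpGeom.weightQ, UE.val_sub, val_upKap _ _ _ _ hH0.ne', UE.val_mul, UE.val_mul, UE.val_mul,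
    hH, hpu, ← hw, show (1 + s) * (1 + s) * ((1 + s) * (1 + s)) = (1 + s) ^ 4 by ring, sub_nonneg,
    mul_comm (K.W.val a b)] at nW
  have hWw : K.W.val a b ≤ w :=
    le_of_mul_le_mul_left nW (pow_pos (add_pos_of_pos_of_nonneg one_pos hs) 4)
  rw [UE.val_neg, neg_nonneg] at n0
  have h12 : (G.Q2 K).val a b ≤ 0 ∧ ((G.Q1 K).val a b ≤ 0 ∨
      (G.Q1 K).val a b ^ 2 ≤ 4 * (G.Q0 K).val a b * (G.Q2 K).val a b) := by
    by_cases hd : T.disc = true
    · rw [if_pos hd, UE.val_sub, UE.val_mul, UE.val_mul, UE.val_mul, UE.val_const, sub_nonneg]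
        at n1
      rw [if_pos (by simp [hd]), UE.val_neg, neg_nonneg] at n2
      refine ⟨n2, Or.inr ?_⟩
      rw [sq, mul_assoc]
      refine n1.trans (le_of_eq ?_)
      norm_num
    rw [if_neg hd] at n1
    rcases eq_or_ne T.x0 [] with hz | hz
    · rw [if_pos hz, UE.val_neg, neg_nonneg] at n1
      rw [if_pos (by simp [hz]), UE.val_neg, neg_nonneg] at n2
      exact ⟨n2, Or.inl n1⟩
    · rw [if_neg hz, UE.val_neg, neg_nonneg, UE.val_add, UE.val_mul, UE.val_mul,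
        UE.val_const] at n1
      rw [if_neg (by simp [hd, hz]), UE.val_sub, UE.val_mul, UE.val_mul, sub_nonneg] at n2
      norm_num at n1
      exact upSplit (hx0 hz) n0 n1 n2
  refine upCell_real (Q0 := (G.Q0 K).val a b) (Q1 := (G.Q1 K).val a b) (Q2 := (G.Q2 K).val a b)
    ?_ ?_ ?_ n0 h12.1 h12.2 he hs hs1 hD ht hW hWw hR0 hR1 hx hμ hν
  · simp only [UpGeom.Q0, UpGeom.S, UpGeom.d0, UpGeom.kap, UpGeom.op, UE.val_mul, UE.val_const,
      UE.val_sub, UE.val_add, hH, hpu]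
    push_cast
    ring
  · simp only [UpGeom.Q1, UpGeom.S, UpGeom.d0, UpGeom.d1, UpGeom.kap, UpGeom.op, UpGeom.brac,
      UpGeom.ratHi, UE.val_mul, UE.val_const, UE.val_sub, UE.val_add, hH, hpu]
    push_cast
    ring
  · simp only [UpGeom.Q2, UpGeom.S, UpGeom.d1, UpGeom.kap, UpGeom.op, UpGeom.brac,
      UpGeom.ratLo, UE.val_mul, UE.val_const, UE.val_sub, UE.val_add, hH, hpu]
    push_cast
    ring

/-- The check past the last knot: the bound on `y` is substituted, so there are no multipliers and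
no square. Here `V` has the factor `1 / σ` taken out, as `B = SB / σ`, `C = SC / σ`,
`D = s2 / σ ^ 2`. -/
def upFarCheck (G : UpGeom) (K : UpMult) (B : Four.Checker.Box) (T : UpTrees) : Bool :=
  upNonneg G ((G.op G.A G.A' G.SA).sub ((K.lam.add K.eps).mul (G.H.mul G.D))).neg T.k0 B T.T0 &&
    upNonneg G (((((G.op G.B G.B' G.SB).add ((UE.const 2 0).mul (G.brac G.ratHi))).add
      (K.lam.mul (G.H.mul G.D))).mul K.V).add (G.kap.mul (K.N.mul G.SB))).neg T.k1 B T.T1 &&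
    upNonneg G (((((G.op G.C G.C' G.SC).sub (K.t1.mul (G.brac G.ratLo))).mul (K.V.mul K.V)).add
      ((UE.const 2 0).mul ((G.kap.mul K.N).mul (K.V.mul G.SC)))).sub
      ((K.t1.mul K.W).mul (((G.kap.mul K.N).mul K.N).mul G.s2))).neg T.k2 B T.T2 &&
    UE.checkTree G.SB B T.T1 &&
    UE.checkTree ((G.SC.mul K.V).sub ((K.t1.mul K.W).mul (K.N.mul G.s2))) B T.T2 &&
    UE.checkTree (K.V.sub (upC 1)) B WeightCert.Tree.leaf &&
    upNonneg G (G.weightQ K) T.kW B T.TW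

/-- A quadratic in `x` and `z ≤ x N / V`, decreasing in `x` at the greatest `z`. -/
theorem upFarCore {κ σS sb sc q0 q1 q2 N V x z : ℝ} (hκ : 0 ≤ κ) (hσS : 0 ≤ σS) (hV : 0 < V)
    (hb : 0 ≤ sb) (hc : σS * N ≤ sc * V) (h0 : q0 ≤ 0) (h1 : q1 * V + κ * (N * sb) ≤ 0)
    (h2 : q2 * (V * V) + 2 * (κ * N * (V * sc)) - κ * σS * (N * N) ≤ 0)
    (hx : 0 ≤ x) (hz : z * V ≤ x * N) :
    q0 + q1 * x + q2 * x ^ 2 + κ * z * (sb + 2 * sc * x) - κ * σS * z ^ 2 ≤ 0 := by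
  refine le_of_mul_le_mul_left (le_of_le_of_eq ?_ (mul_zero (V * V)).symm) (mul_pos hV hV)
  have hd : 0 ≤ x * N - z * V := sub_nonneg.2 hz
  have hs : 0 ≤ sb * V + 2 * x * (sc * V - σS * N) + σS * (x * N - z * V) :=
    add_nonneg (add_nonneg (mul_nonneg hb hV.le)
      (mul_nonneg (mul_nonneg two_pos.le hx) (sub_nonneg.2 hc))) (mul_nonneg hσS hd)
  have a := mul_nonneg (mul_nonneg hκ hd) hs
  have b := mul_nonpos_of_nonneg_of_nonpos (mul_nonneg hV.le hV.le) h0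
  have c := mul_nonpos_of_nonneg_of_nonpos (mul_nonneg hV.le hx) h1
  have d := mul_nonpos_of_nonneg_of_nonpos (sq_nonneg x) h2
  linarith

/-- The inequality of the cell past the last knot. Here `τ = 1 / σ`. -/
theorem upFar_sound {G : UpGeom} {K : UpMult} {B : Four.Checker.Box} {T : UpTrees}
    (hB : upFarCheck G K B T = true) {a b : ℝ} (hm : Packed.memC B a b)
    {τ s R w x y : ℝ} (he : G.e.val a b < 1) (hH : G.H.val a b = 1 + s)
    (hpu : G.pu.val a b = 1 - s) (hs : 0 ≤ s) (hs1 : s ≤ 1)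
    (hD : 0 < G.D.val a b) (hBv : G.B.val a b = τ * G.SB.val a b)
    (hCv : G.C.val a b = τ * G.SC.val a b) (hDv : G.D.val a b = τ ^ 2 * G.s2.val a b)
    (hw : w = weightPoly ((1 - s) / (1 + s)))
    (ht : 0 < K.t1.val a b) (hW : 0 < K.W.val a b)
    (hR0 : 1 / 2 + G.e.val a b / 8 - G.e.val a b ^ 2 / 16 - G.e.val a b ^ 3 / 24 ≤ R)
    (hR1 : R ≤ 1 / 2 + G.e.val a b / 8 - G.e.val a b ^ 2 / 16) (hx : 0 ≤ x)
    (hy : y * (τ * K.V.val a b) ≤ x * K.N.val a b) :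
    ((1 - s) / 2 * ((1 + s) * G.A'.val a b) - 2 * G.SA.val a b) +
      ((1 - s) / 2 * ((1 + s) * G.B'.val a b) - 2 * G.SB.val a b) * x +
      ((1 - s) / 2 * ((1 + s) * G.C'.val a b) - 2 * G.SC.val a b) * x ^ 2 +
      (1 - G.e.val a b) / 2 * (1 + s) * y * (G.B.val a b + 2 * G.C.val a b * x) +
      2 * (R * ((1 - s) * G.D.val a b) - 2 * G.s2.val a b) * x +
      K.lam.val a b * ((1 + s) * G.D.val a b) * (x - 1) -
      K.t1.val a b * (R * ((1 - s) * G.D.val a b) - 2 * G.s2.val a b) * x ^ 2 -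
      K.t1.val a b * ((1 - G.e.val a b) / 2 * (1 + s) * w * G.D.val a b) * y ^ 2 ≤
    K.eps.val a b * ((1 + s) * G.D.val a b) := by
  simp only [upFarCheck, Bool.and_eq_true] at hB
  obtain ⟨⟨⟨⟨⟨⟨c0, c1⟩, c2⟩, cb⟩, cc⟩, cv⟩, cW⟩ := hB
  have hs' : 0 ≤ 1 - s := sub_nonneg.2 hs1
  have hp : 0 ≤ G.pu.val a b := by rwa [hpu]
  have hH0 : 0 < G.H.val a b := by rw [hH]; exact add_pos_of_pos_of_nonneg one_pos hs
  have n0 := upNonneg_sound c0 hm hp
  have n1 := upNonneg_sound c1 hm hp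
  have n2 := upNonneg_sound c2 hm hp
  have nb := UE.val_nonneg cb hm
  have nc := UE.val_nonneg cc hm
  have nv := UE.val_nonneg cv hm
  have nW := upNonneg_sound cW hm hp
  rw [UpGeom.weightQ, UE.val_sub, val_upKap _ _ _ _ hH0.ne', UE.val_mul, UE.val_mul, UE.val_mul,
    hH, hpu, ← hw, show (1 + s) * (1 + s) * ((1 + s) * (1 + s)) = (1 + s) ^ 4 by ring, sub_nonneg,
    mul_comm (K.W.val a b)] at nW
  have hWw : K.W.val a b ≤ w :=
    le_of_mul_le_mul_left nW (pow_pos (add_pos_of_pos_of_nonneg one_pos hs) 4)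
  simp only [UpGeom.op, UpGeom.brac, UpGeom.ratHi, UpGeom.ratLo, UpGeom.kap, UE.val_neg, neg_nonneg,
    UE.val_sub, UE.val_add, UE.val_mul, UE.val_const, val_upC, hH, hpu] at n0 n1 n2 nc nv
  have hV : 0 < K.V.val a b := lt_of_lt_of_le (by norm_num [upR]) (sub_nonneg.1 nv)
  have hs2 : 0 ≤ G.s2.val a b := by
    rw [hDv] at hD
    exact (pos_of_mul_pos_right hD (sq_nonneg τ)).le
  have hκ : 0 < (1 - G.e.val a b) / 2 * (1 + s) := mul_pos (by linarith) (by linarith)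
  push_cast at n0 n1 n2 nc
  have key := upFarCore (z := y * τ) (σS := K.t1.val a b * K.W.val a b * G.s2.val a b)
    (q0 := (1 - s) / 2 * ((1 + s) * G.A'.val a b) - 2 * G.SA.val a b -
      (K.lam.val a b + K.eps.val a b) * ((1 + s) * G.D.val a b))
    (q1 := (1 - s) / 2 * ((1 + s) * G.B'.val a b) - 2 * G.SB.val a b +
      2 * ((1 / 2 + G.e.val a b / 8 - G.e.val a b ^ 2 / 16) * ((1 - s) * G.D.val a b) -
        2 * G.s2.val a b) + K.lam.val a b * ((1 + s) * G.D.val a b))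
    (q2 := (1 - s) / 2 * ((1 + s) * G.C'.val a b) - 2 * G.SC.val a b -
      K.t1.val a b * ((1 / 2 + G.e.val a b / 8 - G.e.val a b ^ 2 / 16 - G.e.val a b ^ 3 / 24) *
        ((1 - s) * G.D.val a b) - 2 * G.s2.val a b))
    (N := K.N.val a b) (x := x) (sc := G.SC.val a b) hκ.le
    (by positivity) hV nb (by linarith) (by linarith) (by linarith) (by linarith) hx (by linarith)
  have k1 := mul_nonneg (mul_nonneg (sub_nonneg.2 hR1) (mul_nonneg hs' hD.le)) hx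
  have k2 := mul_nonneg ht.le (mul_nonneg (mul_nonneg (sub_nonneg.2 hR0) (mul_nonneg hs' hD.le))
    (sq_nonneg x))
  have k3 := mul_nonneg ht.le (mul_nonneg (mul_nonneg (mul_nonneg hκ.le hD.le) (sub_nonneg.2 hWw))
    (sq_nonneg y))
  rw [hBv, hCv]
  rw [hDv] at k1 k2 k3 key ⊢
  linear_combination key + 2 * k1 + k2 + k3

end Vale.Agent.P237.Quant
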