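import Vale.Agent.P237.Quant.LinearUpperAssembly

/-!
The upper bound of the linear term on a row from tables that cover only the dimensions of that
row, so that the bound `e / n` may differ from one group of rows to the next.
-/

namespace Vale.Agent.P237.Quant

open MeasureTheory Set

variable {m : ℕ} {φ : ℝ → ℝ}

/-- The ranges cover the dimensions `lo ≤ n`, up to `hi` if `hi ≠ 0`. -/
def coverBetween (hi : ℕ) : ℕ → List DimRange → Bool
  | lo, [] => decide (hi ≠ 0 ∧ hi < lo)
  | lo, R :: rest =>
    decide (R.lo ≤ lo) && (decide (R.hi = 0) || coverBetween hi (R.hi + 1) rest)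

theorem coverBetween_sound {hi : ℕ} : ∀ (L : List DimRange) (lo : ℕ),
    coverBetween hi lo L = true → ∀ n, lo ≤ n → (hi = 0 ∨ n ≤ hi) → ∃ R ∈ L, R.Mem n
  | [], _, h, n, h₁, h₂ => by
    simp only [coverBetween, decide_eq_true_eq] at h
    omega
  | R :: rest, lo, h, n, h₁, h₂ => by
    simp only [coverBetween, Bool.and_eq_true, Bool.or_eq_true, decide_eq_true_eq] at h
    obtain ⟨hlo, h | h⟩ := h
    · exact ⟨R, List.mem_cons_self .., hlo.trans h₁, Or.inl h⟩
    · by_cases hh : n ≤ R.hi
      · exact ⟨R, List.mem_cons_self .., hlo.trans h₁, Or.inr hh⟩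
      · obtain ⟨S, hS, hS'⟩ := coverBetween_sound rest _ h n (by omega) h₂
        exact ⟨S, List.mem_cons_of_mem _ hS, hS'⟩

/-- The parts cover the dimensions of a range and each of their bins has a table. -/
def upRangeOK (e : ℚ) (Ds : List UpData) (parts : List (DimRange × List ℚ)) (D : DimRange) : Bool :=
  coverBetween D.hi D.lo (parts.map Prod.fst) &&
    parts.all fun p => coverCuts p.2 && (binsOf p.2).all fun P => Ds.any fun T => T.serves p.1 P e

/-- The linear term is at most `e / n` in every dimension of the range. -/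
theorem specLin_le_of_range (hE : ExcessLarge) {e : ℚ} {Ds : List UpData}
    {parts : List (DimRange × List ℚ)} {D : DimRange} (hok : upRangeOK e Ds parts D = true)
    (hDs : ∀ T ∈ Ds, T.Valid) (hm : 5 ≤ m) (hn : D.Mem (m + 1)) (hφ : IsShape φ)
    (hx : powRatio m φ ≤ 1) (hV : convexVal m (pureG m) φ ≤ 0) :
    specLin m (specV m φ) ≤ (e : ℝ) / ((m : ℝ) + 1) := by
  simp only [upRangeOK, Bool.and_eq_true, List.all_eq_true, List.any_eq_true] at hok
  obtain ⟨hcov, hall⟩ := hok
  obtain ⟨R, hR, hmem⟩ := coverBetween_sound _ _ hcov (m + 1) hn.1 hn.2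
  obtain ⟨p, hp, rfl⟩ := List.mem_map.1 hR
  obtain ⟨hcut, hbins⟩ := hall p hp
  obtain ⟨hs, -, hc⟩ := general_facts hE hm hφ hx hV
  obtain ⟨P, hP, hst⟩ := binState_exists hm hφ hx hV hs hc hcut
  obtain ⟨T, hT, hserve⟩ := hbins P hP
  exact specLin_le_of_serves (hDs T hT) hserve hmem hst

/-- The upper bound of the linear term on a row from tables for its dimensions. -/
theorem PosRow.linUp_of_range (hE : ExcessLarge) {Ds : List UpData}
    {parts : List (DimRange × List ℚ)} {R : PosRow} (hok : upRangeOK R.e2 Ds parts R.dims = true)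
    (hDs : ∀ T ∈ Ds, T.Valid) : R.LinUp :=
  fun _ hm hn _ hφ hx hV => specLin_le_of_range hE hok hDs hm hn hφ hx hV

end Vale.Agent.P237.Quant
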