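import Vale.Agent.P237.Quant.LinearUpperRows
import Vale.Agent.P237.Quant.PosRowsSmall
import Vale.Agent.P237.Quant.LinearUpperTables.N6L
import Vale.Agent.P237.Quant.LinearUpperTables.N6H
import Vale.Agent.P237.Quant.LinearUpperTables.N7L
import Vale.Agent.P237.Quant.LinearUpperTables.N7H
import Vale.Agent.P237.Quant.LinearUpperTables.N8L
import Vale.Agent.P237.Quant.LinearUpperTables.N8H
import Vale.Agent.P237.Quant.LinearUpperTables.N9L
import Vale.Agent.P237.Quant.LinearUpperTables.N9H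
import Vale.Agent.P237.Quant.LinearUpperTables.N10L
import Vale.Agent.P237.Quant.LinearUpperTables.N10H

/-!
The upper bound `17 / (200 n)` of the linear term in the dimensions `6 ≤ n ≤ 10`, from the
checked tables, for the rows of the positive side.
-/

namespace Vale.Agent.P237.Quant

/-- The tables. -/
def upSmallTabs : List UpData :=
  [upTabN6B0, upTabN6B1, upTabN6B2, upTabN6B3,
    upTabN7B0, upTabN7B1, upTabN7B2, upTabN7B3,
    upTabN8B0, upTabN8B1, upTabN8B2, upTabN8B3,
    upTabN9B0, upTabN9B1, upTabN9B2, upTabN9B3,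
    upTabN10B0, upTabN10B1, upTabN10B2, upTabN10B3]

/-- The parts. -/
def upSmallParts : List (DimRange × List ℚ) :=
  [(⟨6, 6⟩, [(3 / 5), (441 / 400), (784 / 625), (3721 / 2500), (5929 / 2500)]),
    (⟨7, 7⟩, [(3 / 5), (441 / 400), (784 / 625), (3721 / 2500), (5929 / 2500)]),
    (⟨8, 8⟩, [(3 / 5), (441 / 400), (784 / 625), (3721 / 2500), (5929 / 2500)]),
    (⟨9, 9⟩, [(3 / 5), (441 / 400), (784 / 625), (3721 / 2500), (5929 / 2500)]),
    (⟨10, 10⟩, [(3 / 5), (441 / 400), (784 / 625), (3721 / 2500), (5929 / 2500)])]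

theorem upSmallTabs_valid : ∀ T ∈ upSmallTabs, T.Valid := by
  simp only [upSmallTabs, List.forall_mem_cons, List.not_mem_nil, false_imp_iff, implies_true,
    and_true, UpData.Valid]
  exact ⟨upTabN6B0_valid, upTabN6B1_valid,
    upTabN6B2_valid, upTabN6B3_valid,
    upTabN7B0_valid, upTabN7B1_valid,
    upTabN7B2_valid, upTabN7B3_valid,
    upTabN8B0_valid, upTabN8B1_valid,
    upTabN8B2_valid, upTabN8B3_valid,
    upTabN9B0_valid, upTabN9B1_valid,
    upTabN9B2_valid, upTabN9B3_valid,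
    upTabN10B0_valid, upTabN10B1_valid,
    upTabN10B2_valid, upTabN10B3_valid⟩

theorem upSmall_rangeOK : upRangeOK (17 / 200) upSmallTabs upSmallParts ⟨6, 10⟩ = true := by
  decide +kernel

/-- The linear term is at most `17 / (200 n)` for `6 ≤ n ≤ 10`. -/
theorem specLin_le_small (hE : ExcessLarge) {m : ℕ} {φ : ℝ → ℝ} (hm : 5 ≤ m) (hm' : m ≤ 9)
    (hφ : IsShape φ) (hx : powRatio m φ ≤ 1) (hV : convexVal m (pureG m) φ ≤ 0) :
    specLin m (specV m φ) ≤ ((17 / 200 : ℚ) : ℝ) / ((m : ℝ) + 1) :=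
  specLin_le_of_range hE upSmall_rangeOK upSmallTabs_valid hm ⟨by simp; omega, by simp; omega⟩ hφ hx hV

/-- A row inside `6 ≤ n ≤ 10` with `e2` at least `17 / 200`. -/
theorem PosRow.linUp_small (hE : ExcessLarge) {R : PosRow} (he : 17 / 200 ≤ R.e2)
    (hhi : R.dims.hi ≠ 0 ∧ R.dims.hi ≤ 10) : R.LinUp := by
  intro m hm hn φ hφ hx hV
  obtain ⟨h1, h2⟩ := hn
  refine (specLin_le_small hE hm (by omega) hφ hx hV).trans
    (div_le_div_of_nonneg_right (by exact_mod_cast he) (by positivity))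

theorem posRow6_linUp (hE : ExcessLarge) : posRow6.LinUp :=
  PosRow.linUp_small hE (by norm_num [posRow6]) (by norm_num [posRow6])

theorem posRow7_linUp (hE : ExcessLarge) : posRow7.LinUp :=
  PosRow.linUp_small hE (by norm_num [posRow7]) (by norm_num [posRow7])

theorem posRow8_linUp (hE : ExcessLarge) : posRow8.LinUp :=
  PosRow.linUp_small hE (by norm_num [posRow8]) (by norm_num [posRow8])

theorem posRow9_linUp (hE : ExcessLarge) : posRow9.LinUp :=
  PosRow.linUp_small hE (by norm_num [posRow9]) (by norm_num [posRow9])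

end Vale.Agent.P237.Quant
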