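import Mathlib
import Vale.Agent.P237.Quant.Centroid
import Vale.Agent.P237.Quant.Good

/-!
Averaging: the one-variable lemma, the tangent datum and the centroid datum give every symmetric
body a normal whose power ratio is at least one, and above one unless the body is an ellipsoid.
-/

namespace Vale.Agent.P237.Quant

open MeasureTheory Set Filter Topology Full
open scoped RealInnerProductSpace ENNReal

variable {m g : ℕ} {K : Set (EuclideanSpace ℝ (Fin (m + 1)))}

theorem dataWeight_nonneg (hm : 1 ≤ m) : 0 ≤ dataWeight m :=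
  div_nonneg (mul_nonneg (sub_nonneg.2 (Nat.one_le_cast.2 hm)) (mass_pos isShape_ball).le)
    (mass_pos isShape_ball).le

theorem measurable_pairing (hK : IsSymBody K) :
    Measurable (Function.uncurry fun x y : EuclideanSpace ℝ (Fin (m + 1)) =>
      ballShape ⟪normalAt K x, bdPoint K y⟫) :=
  continuous_ballShape.measurable.comp ((measurable_normalAt.comp measurable_fst).inner
    ((measurable_bdPoint hK).comp measurable_snd))

/-- The slack has mean zero. -/
theorem integral_slack (hK : IsSymBody K) :
    IntegrableOn (fun x => slack K (normalAt K x) (bdPoint K x)) K ∧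
      ∫ x in K, slack K (normalAt K x) (bdPoint K x) = 0 := by
  set μ : Measure (EuclideanSpace ℝ (Fin (m + 1))) := volume.restrict K with hμ
  have : IsFiniteMeasure μ := isFiniteMeasure_restrict.2 hK.body.2.1.measure_lt_top.ne
  have hi : Integrable (Function.uncurry fun x y : EuclideanSpace ℝ (Fin (m + 1)) =>
      ballShape ⟪normalAt K x, bdPoint K y⟫) (μ.prod μ) :=
    Integrable.of_bound (measurable_pairing hK).aestronglyMeasurable 1 (Eventually.of_forall fun p => by
      simp only [Function.uncurry, Real.norm_eq_abs, abs_of_nonneg (ballShape_nonneg _)]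
      exact ballShape_le_one _)
  have i1 : Integrable (fun x => ∫ y, ballShape ⟪normalAt K x, bdPoint K y⟫ ∂μ) μ :=
    hi.integral_prod_left
  have i2 : Integrable (fun x => ∫ y, ballShape ⟪normalAt K y, bdPoint K x⟫ ∂μ) μ :=
    hi.integral_prod_right
  refine ⟨(i1.sub i2).const_mul _, ?_⟩
  show (∫ x, ((m + 1 : ℕ) : ℝ) * ((∫ y, ballShape ⟪normalAt K x, bdPoint K y⟫ ∂μ) -
    ∫ y, ballShape ⟪normalAt K y, bdPoint K x⟫ ∂μ) ∂μ) = 0
  rw [integral_const_mul, integral_sub i1 i2,
    integral_integral_swap (f := fun x y => ballShape ⟪normalAt K x, bdPoint K y⟫) hi, sub_self,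
    mul_zero]

/-- If no normal has power ratio above one, almost every profile is that of the ball. -/
theorem ball_profiles (hm : 3 ≤ m) (hL : QuantLemma m g) (hK : IsSymBody K)
    (hle : ∀ w v, IsTop K w v → powRatio m (profile K w) ≤ 1) :
    ∀ᵐ x ∂volume.restrict K, IsTop K (normalAt K x) (bdPoint K x) ∧
      ∀ t ∈ Ioo (0 : ℝ) 1, profile K (normalAt K x) t =
        profile K (normalAt K x) 0 * ballShape t := by
  set V := (volume K).toReal with hVdef
  have hV : 0 < V := volume_pos hK
  set cT := dataWeight m / (2 * m + 3) with hcT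
  set cQ := dataWeight m * ((m : ℝ) + 2) / (2 * m + 3) with hcQ
  have hcT0 : 0 ≤ cT := div_nonneg (dataWeight_nonneg (by omega)) (by positivity)
  have hcQ0 : 0 ≤ cQ :=
    div_nonneg (mul_nonneg (dataWeight_nonneg (by omega)) (by positivity)) (by positivity)
  choose C hCc hCmean hCle using fun k : ℕ =>
    exists_centroid hm hK (ε := 1 / ((k : ℝ) + 1)) (by positivity)
  obtain ⟨hsi, hs0⟩ := integral_slack hK
  set R : ℕ → EuclideanSpace ℝ (Fin (m + 1)) → ℝ := fun k x =>
    cT / V * slack K (normalAt K x) (bdPoint K x) -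
      cQ * (C k (normalAt K x) - quantileVal m ballShape) with hR
  have hpt : ∀ k, ∀ᵐ x ∂volume.restrict K,
      0 ≤ deficit m g (profile K (normalAt K x)) ∧
        deficit m g (profile K (normalAt K x)) ≤ R k x := by
    intro k
    refine ae_restrict_of_ae ((isTop_ae hK).mono fun x hx => ?_)
    obtain ⟨-, hT⟩ := hx
    have hφ := isShape_profile (by omega) hK hT
    have hx1 := hle _ _ hT
    refine ⟨(hL _ hφ hx1).1, ?_⟩
    have hx0 : 0 ≤ powRatio m (profile K (normalAt K x)) := by
      have hnn : ∀ ψ : ℝ → ℝ, IsShape ψ → 0 ≤ powVal m ψ := fun ψ hψ =>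
        div_nonneg (pow_nonneg (intervalIntegral.integral_nonneg zero_le_one fun t ht =>
          pow_nonneg (hψ.nonneg t ⟨by linarith [ht.1], ht.2⟩) _) _) (pow_nonneg (mass_pos hψ).le _)
      exact div_nonneg (hnn _ hφ) (hnn _ isShape_ball)
    have h1 : (powRatio m (profile K (normalAt K x)) ^ g - 1) / g ≤ 0 :=
      div_nonpos_of_nonpos_of_nonneg (sub_nonpos.2 (pow_le_one₀ hx0 hx1)) (Nat.cast_nonneg g)
    have h2 : tangentVal m (profile K (normalAt K x)) ≤
        slack K (normalAt K x) (bdPoint K x) / V := by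
      rw [le_div_iff₀ hV, mul_comm]
      exact slack_ge (by omega) hK hT
    have h3 := mul_le_mul_of_nonneg_left h2 hcT0
    have h4 := mul_le_mul_of_nonneg_left (hCle k _ _ hT) hcQ0
    simp only [deficit, hR]
    rw [← hcT, ← hcQ]
    rw [mul_div_assoc', ← div_mul_eq_mul_div] at h3
    linarith
  have hCi : ∀ k, IntegrableOn (fun x => C k (normalAt K x)) K := fun k => by
    obtain ⟨Cw, hCw⟩ := exists_bound_normalAt hK.body.1 hK.zero_nhds
    obtain ⟨B, hB⟩ := (isCompact_closedBall (0 : EuclideanSpace ℝ (Fin (m + 1))) Cw)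
      |>.exists_bound_of_continuousOn (hCc k).continuousOn
    exact IntegrableOn.of_bound hK.body.2.1.measure_lt_top
      ((hCc k).measurable.comp measurable_normalAt).aestronglyMeasurable B
      (Eventually.of_forall fun x => hB _ (mem_closedBall_zero_iff.2 (hCw x)))
  have hKf : volume K ≠ ⊤ := hK.body.2.1.measure_lt_top.ne
  have hd : ∀ k, IntegrableOn (fun x => C k (normalAt K x) - quantileVal m ballShape) K := fun k =>
    (hCi k).sub (integrableOn_const (C := quantileVal m ballShape) hKf)
  have hRi : ∀ k, IntegrableOn (R k) K := fun k => (hsi.const_mul _).sub ((hd k).const_mul cQ)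
  have hRint : ∀ k, ∫ x in K, R k x ≤ cQ * V * (1 / ((k : ℝ) + 1)) := by
    intro k
    simp only [hR]
    rw [integral_sub (hsi.const_mul _) ((hd k).const_mul cQ), integral_const_mul, hs0, mul_zero,
      integral_const_mul, integral_sub (hCi k) (integrableOn_const (C := quantileVal m ballShape) hKf), setIntegral_const,
      measureReal_def, smul_eq_mul, ← hVdef]
    have := mul_le_mul_of_nonneg_left (hCmean k) hcQ0
    linarith
  set G : EuclideanSpace ℝ (Fin (m + 1)) → ℝ≥0∞ := fun x => ⨅ k, ENNReal.ofReal (R k x) with hG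
  have hGm : AEMeasurable G (volume.restrict K) :=
    AEMeasurable.iInf fun k => (hRi k).aemeasurable.ennreal_ofReal
  have hG0 : ∫⁻ x in K, G x = 0 := by
    refine le_antisymm (ge_of_tendsto (x := atTop)
      (f := fun k : ℕ => ENNReal.ofReal (cQ * V * (1 / ((k : ℝ) + 1)))) ?_
      (Eventually.of_forall fun k => ?_)) bot_le
    · have := (ENNReal.continuous_ofReal.tendsto _).comp
        ((tendsto_one_div_add_atTop_nhds_zero_nat (𝕜 := ℝ)).const_mul (cQ * V))
      simpa [Function.comp_def] using this
    · refine (lintegral_mono fun x => iInf_le _ k).trans ?_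
      rw [← ofReal_integral_eq_lintegral_ofReal (hRi k)
        ((hpt k).mono fun x hx => hx.1.trans hx.2)]
      exact ENNReal.ofReal_le_ofReal (hRint k)
  have hGz : G =ᵐ[volume.restrict K] 0 := (lintegral_eq_zero_iff' hGm).1 hG0
  filter_upwards [hGz, ae_all_iff.2 hpt, ae_restrict_of_ae (isTop_ae hK)] with x hx hall hT
  refine ⟨hT.2, (hL _ (isShape_profile (by omega) hK hT.2) (hle _ _ hT.2)).2
    (le_antisymm ?_ (hall 0).1)⟩
  have h : ENNReal.ofReal (deficit m g (profile K (normalAt K x))) ≤ G x :=
    le_iInf fun k => ENNReal.ofReal_le_ofReal (hall k).2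
  rw [hx, Pi.zero_apply] at h
  exact ENNReal.ofReal_eq_zero.1 (le_antisymm h bot_le)

theorem goodNormal_of_quantLemma (hm : 3 ≤ m) (hL : QuantLemma m g) : GoodNormal m :=
  goodNormal_of_ball_profiles (by omega) fun _ hK h => ball_profiles hm hL hK h

end Vale.Agent.P237.Quant
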