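import Vale.Agent.P237.Quant.Moments
import Vale.Agent.P237.Quant.CertPoly

/-!
Integrals against the ball profile of polynomials in `p` and `X = (m + 1) t ^ 2`: a computable
numerator, polynomial in `s = 1 / (m + 1)` and a parameter of the ratio of consecutive masses.
-/

namespace Vale.Agent.P237.Quant

open MeasureTheory Set

namespace QP

theorem val_lin (i : ℤ) (x y : ℝ) : (lin i).val x y = 1 + i * x := by
  simp [lin, val_add, val_mul, val_const, val_X]

end QP

open QP

/-- The moment `∫₀¹ p ^ (m - 5 + k) X ^ j`. -/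
noncomputable def momX (m k j : ℕ) : ℝ := ((m : ℝ) + 1) ^ j * ballMom (m - 5 + k) j

theorem momX_pos {m k j : ℕ} : 0 < momX m k j :=
  mul_pos (by positivity) (intervalIntegral.intervalIntegral_pos_of_pos_on
    (ballMom_intervalIntegrable _ _)
    (fun _ ht => mul_pos (pow_pos (ball_pos ⟨by linarith [ht.1], ht.2⟩) _)
      (pow_pos ht.1 _)) zero_lt_one)

theorem momX_up {m : ℕ} (hm : 5 ≤ m) (k j : ℕ) :
    (1 + ((k : ℝ) + 2 * j - 3) * (1 / ((m : ℝ) + 1))) * momX m (k + 2) j =
      (1 + ((k : ℝ) - 4) * (1 / ((m : ℝ) + 1))) * momX m k j := by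
  have h := ballMom_add_two j (m - 5 + k)
  push_cast [Nat.cast_sub hm] at h
  simp only [momX, show m - 5 + (k + 2) = m - 5 + k + 2 by omega]
  field_simp
  linear_combination h

theorem momX_right {m : ℕ} (hm : 5 ≤ m) (k j : ℕ) :
    (1 + ((k : ℝ) + 2 * j - 3) * (1 / ((m : ℝ) + 1))) * momX m k (j + 1) =
      (2 * (j : ℝ) + 1) * momX m k j := by
  have h := ballMom_succ (m - 5 + k) j
  push_cast [Nat.cast_sub hm] at h
  simp only [momX, pow_succ]
  field_simp
  linear_combination h

theorem momA_pos {x y : ℝ} (hx : 0 ≤ x) (hx' : x ≤ 1 / 6) (b : ℕ) :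
    ∀ i, 0 < (momA b i).val x y
  | 0 => by simp [momA, val_const]
  | i + 1 => by
      simp only [momA, val_mul, val_lin]
      refine mul_pos (momA_pos hx hx' b i) ?_
      push_cast
      nlinarith [(Nat.cast_nonneg b : (0 : ℝ) ≤ b), (Nat.cast_nonneg i : (0 : ℝ) ≤ i)]

theorem momB_pos {x y : ℝ} (hx : 0 ≤ x) (hx' : x ≤ 1 / 6) (J : ℕ) :
    ∀ f k, 0 < (momB J f k).val x y
  | 0, k => by simp [momB, val_const]
  | f + 1, k => by
      simp only [momB, val_mul, val_lin]
      refine mul_pos ?_ (momB_pos hx hx' J f (k + 2))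
      push_cast
      nlinarith [(Nat.cast_nonneg k : (0 : ℝ) ≤ k), (Nat.cast_nonneg J : (0 : ℝ) ≤ J)]

theorem momD_pos {x y : ℝ} (hx : 0 ≤ x) (hx' : x ≤ 1 / 6) (k : ℕ) :
    ∀ g j, 0 < (momD k g j).val x y
  | 0, j => by simp [momD, val_const]
  | g + 1, j => by
      simp only [momD, val_mul, val_lin]
      refine mul_pos ?_ (momD_pos hx hx' k g (j + 1))
      push_cast
      nlinarith [(Nat.cast_nonneg k : (0 : ℝ) ≤ k), (Nat.cast_nonneg j : (0 : ℝ) ≤ j)]

theorem oddFac_pos : ∀ j, 0 < oddFac j
  | 0 => Nat.one_pos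
  | j + 1 => Nat.mul_pos (oddFac_pos j) (by omega)

theorem momNum_pos {x y : ℝ} (hx : 0 ≤ x) (hx' : x ≤ 1 / 6) (I J b i j : ℕ) :
    0 < (momNum I J b i j).val x y := by
  simp only [momNum, val_mul, val_const]
  refine mul_pos (mul_pos ?_ (momA_pos hx hx' _ _)) (mul_pos (momB_pos hx hx' _ _ _)
    (momD_pos hx hx' _ _ _))
  have : (0 : ℝ) < oddFac j := by exact_mod_cast oddFac_pos j
  push_cast
  positivity

theorem sixth_bound {m : ℕ} (hm : 5 ≤ m) :
    0 ≤ 1 / ((m : ℝ) + 1) ∧ 1 / ((m : ℝ) + 1) ≤ 1 / 6 := by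
  have : (5 : ℝ) ≤ m := by exact_mod_cast hm
  exact ⟨by positivity, one_div_le_one_div_of_le (by norm_num) (by linarith)⟩

/-- All moments of one parity are proportional to their numerators. -/
theorem momX_proportional {m : ℕ} (hm : 5 ≤ m) (y : ℝ) (I J b : ℕ) {i j : ℕ} (hi : i ≤ I)
    (hj : j ≤ J) :
    momX m (b + 2 * i) j * (momNum I J b 0 J).val (1 / ((m : ℝ) + 1)) y =
      momX m b J * (momNum I J b i j).val (1 / ((m : ℝ) + 1)) y := by
  obtain ⟨hx, hx'⟩ := sixth_bound hm
  set x := 1 / ((m : ℝ) + 1) with hxdef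
  have top : ∀ i, i ≤ I → momX m (b + 2 * i) J * (momNum I J b 0 J).val x y =
      momX m b J * (momNum I J b i J).val x y := by
    intro i
    induction i with
    | zero => intro _; simp
    | succ i ih =>
      intro hi
      have h := momX_up hm (b + 2 * i) J
      rw [← hxdef] at h
      have hne : (0 : ℝ) < 1 + (((b + 2 * i : ℕ) : ℝ) + 2 * J - 3) * x := by
        nlinarith [(Nat.cast_nonneg (b + 2 * i) : (0 : ℝ) ≤ _), (Nat.cast_nonneg J : (0 : ℝ) ≤ J)]
      refine mul_left_cancel₀ hne.ne' ?_
      rw [← mul_assoc, show b + 2 * (i + 1) = b + 2 * i + 2 by ring, h, mul_assoc, ih (by omega)]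
      simp only [momNum, val_mul, val_const, Nat.sub_self, momD, momA,
        show I - i = (I - (i + 1)) + 1 by omega, momB, val_lin,
        show b + 2 * (i + 1) = b + 2 * i + 2 by ring]
      push_cast
      ring
  have down : ∀ g j, j + g = J → ∀ i, i ≤ I →
      momX m (b + 2 * i) j * (momNum I J b 0 J).val x y =
        momX m b J * (momNum I J b i j).val x y := by
    intro g
    induction g with
    | zero =>
      intro j hj i hi
      obtain rfl : j = J := by omega
      exact top i hi
    | succ g ih =>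
      intro j hj i hi
      have h := momX_right hm (b + 2 * i) j
      rw [← hxdef] at h
      have hne : (0 : ℝ) < 2 * (j : ℝ) + 1 := by positivity
      refine mul_left_cancel₀ hne.ne' ?_
      rw [← mul_assoc, ← h, mul_assoc, ih (j + 1) (by omega) i hi]
      simp only [momNum, val_mul, val_const, oddFac, show J - j = (J - (j + 1)) + 1 by omega, momD,
        val_lin]
      push_cast
      ring
  exact down (J - j) j (by omega) i hi

namespace MP

/-- Evaluation. -/
noncomputable def eval : MP → ℝ → ℝ → ℝ → ℝ → ℝ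
  | [], _, _, _, _ => 0
  | a :: l, x, y, p, X => a.c.val x y * (p ^ a.k * X ^ a.j) + eval l x y p X

theorem eval_mergeWith (a : Mono) (l : MP) (f : MP → MP) (x y p X : ℝ)
    (hf : ∀ q, eval (f q) x y p X = eval l x y p X + eval q x y p X) :
    ∀ q : MP, eval (mergeWith a (a :: l) f q) x y p X =
      eval (a :: l) x y p X + eval q x y p X
  | [] => by simp [mergeWith, eval]
  | b :: q => by
      simp only [mergeWith]
      rcases Bool.eq_false_or_eq_true (Nat.blt (key a) (key b)) with h | h
      · simp only [h, cond_true, eval, hf]; ring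
      · simp only [h, cond_false]
        rcases Bool.eq_false_or_eq_true (Nat.beq a.k b.k && Nat.beq a.j b.j) with h' | h'
        · simp only [h', cond_true]
          simp only [Bool.and_eq_true] at h'
          simp only [eval, hf, val_add, Nat.eq_of_beq_eq_true h'.1, Nat.eq_of_beq_eq_true h'.2]
          ring
        · simp only [h', cond_false, eval]
          rw [eval_mergeWith a l f x y p X hf q]
          simp only [eval]
          ring

theorem eval_add : ∀ (l q : MP) (x y p X : ℝ),
    eval (add l q) x y p X = eval l x y p X + eval q x y p X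
  | [], q, x, y, p, X => by simp [add, eval]
  | a :: l, q, x, y, p, X => by
      rw [add]
      exact eval_mergeWith a l _ x y p X (fun q' => eval_add l q' x y p X) q

theorem eval_smul (a : Mono) : ∀ (l : MP) (x y p X : ℝ),
    eval (smul a l) x y p X = a.c.val x y * (p ^ a.k * X ^ a.j) * eval l x y p X
  | [], x, y, p, X => by simp [smul, eval]
  | b :: l, x, y, p, X => by
      simp only [smul, eval, val_mul, eval_smul a l x y p X, pow_add]
      ring

theorem eval_mul : ∀ (l q : MP) (x y p X : ℝ),
    eval (mul l q) x y p X = eval l x y p X * eval q x y p X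
  | [], q, x, y, p, X => by simp [mul, eval]
  | a :: l, q, x, y, p, X => by
      simp only [mul, eval_add, eval_smul, eval, eval_mul l q x y p X]
      ring

theorem integrand_intervalIntegrable (l : MP) (m : ℕ) (x y : ℝ) :
    IntervalIntegrable (fun t => ballShape t ^ (m - 5) *
      eval l x y (ballShape t) (((m : ℝ) + 1) * t ^ 2)) volume 0 1 := by
  refine Continuous.intervalIntegrable ?_ _ _
  have hp : Continuous ballShape := cont_ball
  induction l with
  | nil => simp only [eval, mul_zero]; exact continuous_const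
  | cons a l ih =>
    simp only [eval, mul_add]
    exact ((hp.pow _).mul (continuous_const.mul ((hp.pow _).mul
      ((continuous_const.mul (continuous_id.pow 2)).pow _)))).add ih

theorem integral_eval {m : ℕ} (hm : 5 ≤ m) (x y : ℝ) : ∀ l : MP,
    ∫ t in (0 : ℝ)..1, ballShape t ^ (m - 5) * eval l x y (ballShape t) (((m : ℝ) + 1) * t ^ 2) =
      l.foldr (fun a s => a.c.val x y * momX m a.k a.j + s) 0
  | [] => by simp [eval]
  | a :: l => by
      simp only [eval, mul_add, List.foldr_cons]
      have hc : Continuous fun t => ballShape t ^ (m - 5) *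
          (a.c.val x y * (ballShape t ^ a.k * (((m : ℝ) + 1) * t ^ 2) ^ a.j)) := by
        have := cont_ball
        fun_prop
      rw [intervalIntegral.integral_add (hc.intervalIntegrable _ _)
        (integrand_intervalIntegrable l m x y), integral_eval hm x y l]
      congr 1
      rw [momX, ballMom, ← intervalIntegral.integral_const_mul,
        ← intervalIntegral.integral_const_mul]
      refine intervalIntegral.integral_congr fun t _ => ?_
      rw [pow_add, mul_pow, ← pow_mul]
      ring

/-- The value of the integral of a polynomial in `p` and `X`. -/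
theorem integral_eq {m : ℕ} (hm : 5 ≤ m) {I J : ℕ} (hI : 2 ≤ I) {r : QP} {y : ℝ}
    (hr : r.val (1 / ((m : ℝ) + 1)) y = ballRatio m) {l : MP} (hl : inRange I J l = true) :
    (∫ t in (0 : ℝ)..1, ballShape t ^ (m - 5) *
        eval l (1 / ((m : ℝ) + 1)) y (ballShape t) (((m : ℝ) + 1) * t ^ 2)) *
        (totalDen I J r).val (1 / ((m : ℝ) + 1)) y =
      mass (m - 1) ballShape 1 * (total I J r l).val (1 / ((m : ℝ) + 1)) y := by
  obtain ⟨hx, hx'⟩ := sixth_bound hm
  set x := 1 / ((m : ℝ) + 1) with hxdef
  rw [integral_eval hm]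
  have e0 := momX_proportional hm y I J 0 (i := 2) hI (Nat.zero_le J)
  have e1 := momX_proportional hm y I J 1 (i := 2) hI (Nat.zero_le J)
  have m4 : momX m (0 + 2 * 2) 0 = mass (m - 1) ballShape 1 := by
    rw [momX, pow_zero, one_mul, ballMom_zero, show m - 5 + (0 + 2 * 2) = m - 1 by omega]
  have m5 : ballRatio m * momX m (1 + 2 * 2) 0 = mass (m - 1) ballShape 1 := by
    rw [momX, pow_zero, one_mul, ballMom_zero, show m - 5 + (1 + 2 * 2) = m by omega, ballMom_pred]
  rw [← hxdef, m4] at e0
  rw [← hxdef] at e1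
  have p0 := momNum_pos (y := y) hx hx' I J 0 0 J
  have p1 := momNum_pos (y := y) hx hx' I J 1 0 J
  induction l with
  | nil => simp [total, side, val_add, val_mul, val_const]
  | cons a l ih =>
    simp only [inRange, Bool.and_eq_true, decide_eq_true_eq] at hl
    obtain ⟨⟨hk, hj⟩, hl⟩ := hl
    have ih := ih hl
    have ek := momX_proportional hm y I J (a.k % 2) hk hj
    rw [Nat.mod_add_div a.k 2, ← hxdef] at ek
    rw [List.foldr_cons, add_mul, ih]
    have hk2 : a.k % 2 = 0 ∨ a.k % 2 = 1 := by omega
    rcases hk2 with h | h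
    · rw [h] at ek
      simp only [total, side, h, if_true, if_false, val_add, val_mul, totalDen,
        hr, show ((0 : ℕ) = 1) = False by simp]
      refine mul_left_cancel₀ p0.ne' ?_
      linear_combination (ballRatio m * (momNum I J 1 2 0).val x y * a.c.val x y) *
        ((momNum I J 0 2 0).val x y * ek - (momNum I J 0 (a.k / 2) a.j).val x y * e0)
    · rw [h] at ek
      simp only [total, side, h, if_true, if_false, val_add, val_mul, totalDen, hr,
        show ((1 : ℕ) = 0) = False by simp]
      refine mul_left_cancel₀ p1.ne' ?_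
      linear_combination ((momNum I J 0 2 0).val x y * a.c.val x y) *
        (ballRatio m * (momNum I J 1 2 0).val x y * ek -
          ballRatio m * (momNum I J 1 (a.k / 2) a.j).val x y * e1 +
          (momNum I J 1 0 J).val x y * (momNum I J 1 (a.k / 2) a.j).val x y * m5)

theorem totalDen_pos {m : ℕ} (hm : 5 ≤ m) {I J : ℕ} {r : QP} {y : ℝ}
    (hr : r.val (1 / ((m : ℝ) + 1)) y = ballRatio m) :
    0 < (totalDen I J r).val (1 / ((m : ℝ) + 1)) y := by
  obtain ⟨hx, hx'⟩ := sixth_bound hm
  simp only [totalDen, val_mul, hr]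
  exact mul_pos (mul_pos (zero_lt_one.trans_le (one_le_ballRatio m))
    (momNum_pos hx hx' I J 1 2 0)) (momNum_pos hx hx' I J 0 2 0)

end MP

end Vale.Agent.P237.Quant
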