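import Vale.Agent.P237.Quant.CertNeg
import Vale.Agent.P237.Quant.ExcessInstance
import Vale.Agent.P237.Quant.FourTail
import Vale.Agent.P237.Quant.LinearUpperSmall
import Vale.Agent.P237.Quant.NegRowsSmall
import Vale.Agent.P237.Quant.PosSpectralSmall

/-!
The pure lemma and Petty's inequality up to dimension ten from the tail inequalities of the small
rows.
-/

namespace Vale.Agent.P237.Quant

open MeasureTheory Metric

variable {m : ℕ}

/-- The tail inequalities of the rows for `6 ≤ n ≤ 10`. -/
structure SmallTails : Prop where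
  n6 : negRow6.Tail
  n9 : negRow9.Tail
  p6 : posRow6.Tail
  p7 : posRow7.Tail
  p8 : posRow8.Tail
  p9 : posRow9.Tail

/-- The pure lemma for `6 ≤ n ≤ 10`. -/
theorem pureLemma_small (T : SmallTails) (h5 : 5 ≤ m) (h9 : m ≤ 9) : PureLemma m := by
  rcases (show m = 5 ∨ m = 6 ∨ m = 7 ∨ m = 8 ∨ m = 9 by omega) with rfl | rfl | rfl | rfl | rfl
  · exact pureLemma_rows excessLarge (by decide +kernel) (by decide +kernel) (by decide +kernel)
      T.n6 (posRow6_linUp excessLarge) posRow6_spectral T.p6
      (by norm_num [DimRange.Mem, negRow6]) (by norm_num [DimRange.Mem, posRow6]) h5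
  · exact pureLemma_rows excessLarge (by decide +kernel) (by decide +kernel) (by decide +kernel)
      T.n6 (posRow7_linUp excessLarge) posRow7_spectral T.p7
      (by norm_num [DimRange.Mem, negRow6]) (by norm_num [DimRange.Mem, posRow7]) h5
  · exact pureLemma_rows excessLarge (by decide +kernel) (by decide +kernel) (by decide +kernel)
      T.n6 (posRow8_linUp excessLarge) posRow8_spectral T.p8
      (by norm_num [DimRange.Mem, negRow6]) (by norm_num [DimRange.Mem, posRow8]) h5
  · exact pureLemma_rows excessLarge (by decide +kernel) (by decide +kernel) (by decide +kernel)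
      T.n9 (posRow9_linUp excessLarge) posRow9_spectral T.p9
      (by norm_num [DimRange.Mem, negRow9]) (by norm_num [DimRange.Mem, posRow9]) h5
  · exact pureLemma_rows excessLarge (by decide +kernel) (by decide +kernel) (by decide +kernel)
      T.n9 (posRow9_linUp excessLarge) posRow9_spectral T.p9
      (by norm_num [DimRange.Mem, negRow9]) (by norm_num [DimRange.Mem, posRow9]) h5

/-- Petty's inequality with its equality case for `3 ≤ n ≤ 10`. -/
theorem petty_small (T : SmallTails) {n : ℕ} (h3 : 3 ≤ n) (h10 : n ≤ 10)
    (K : Set (EuclideanSpace ℝ (Fin n))) (hK : Convex ℝ K) (cK : IsCompact K)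
    (iK : (interior K).Nonempty) :
    unitBallVolume (n - 1) ^ n * volume K ^ (n - 1) ≤
        unitBallVolume n ^ (n - 2) * volume (projBody K) ∧
      (unitBallVolume (n - 1) ^ n * volume K ^ (n - 1) =
          unitBallVolume n ^ (n - 2) * volume (projBody K) ↔
        ∃ (a : EuclideanSpace ℝ (Fin n))
          (T : EuclideanSpace ℝ (Fin n) ≃L[ℝ] EuclideanSpace ℝ (Fin n)),
          K = (fun x => x + a) '' (T '' closedBall 0 1)) :=
  petty_of_pureLemma h3 (fun m h4 hmn => by
    rcases h4.eq_or_lt with rfl | h
    · exact pureLemma_four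
    · exact pureLemma_small T h (by omega)) K hK cK iK

end Vale.Agent.P237.Quant
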