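import Mathlib
import Vale.Agent.P237.Quant.TailConcave

/-!
The tail lemma by cases on the state `shapeZ` at one node: monotonicity of the state bounds it
from below after the node and from above before it, and the chord from the centre bounds it at
every point. In each case a flux in `(t, x)` is enough.
-/

namespace Vale.Agent.P237.Quant

open MeasureTheory Set Filter Topology

variable {m : ℕ} {φ Q W : ℝ → ℝ} {η : ℝ}

theorem shift_anti {t z z' : ℝ} (ht : t ∈ Ioo (0 : ℝ) 1) (hz : z ∈ Icc (0 : ℝ) 1)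
    (hz' : z' ∈ Icc (0 : ℝ) 1) (h : z ≤ z') :
    (t - z') / (1 - t * z') ≤ (t - z) / (1 - t * z) := by
  have h1 : 0 < 1 - t * z := by nlinarith [ht.1, ht.2, hz.2]
  have h2 : 0 < 1 - t * z' := by nlinarith [ht.1, ht.2, hz'.2]
  rw [div_le_div_iff₀ h2 h1]
  nlinarith [mul_nonneg (sub_nonneg.2 h) (show (0 : ℝ) ≤ 1 - t * t by nlinarith [ht.1, ht.2])]

/-- After a node the slope is at most the shift by the state there. -/
theorem shapeRho_le_shift (hφ : IsShape φ) {t₀ t lo : ℝ} (ht₀ : t₀ ∈ Ioo (0 : ℝ) 1)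
    (ht : t ∈ Ioo (0 : ℝ) 1) (hlo : 0 ≤ lo) (h : lo ≤ shapeZ φ t₀) (hle : t₀ ≤ t) :
    shapeRho φ t ≤ (t - lo) / (1 - t * lo) := by
  have hz := shapeZ_mem hφ ht
  have := h.trans (shapeZ_monotoneOn hφ ht₀ ht hle)
  rw [shapeRho_eq_shapeZ hφ ht]
  exact shift_anti ht ⟨hlo, this.trans hz.2⟩ hz this

/-- Before a node the slope is at least the shift by the state there. -/
theorem shift_le_shapeRho (hφ : IsShape φ) {t₀ t hi : ℝ} (ht₀ : t₀ ∈ Ioo (0 : ℝ) 1)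
    (ht : t ∈ Ioo (0 : ℝ) 1) (hhi : hi ≤ 1) (h : shapeZ φ t₀ ≤ hi) (hle : t ≤ t₀) :
    (t - hi) / (1 - t * hi) ≤ shapeRho φ t := by
  have hz := shapeZ_mem hφ ht
  have := (shapeZ_monotoneOn hφ ht ht₀ hle).trans h
  rw [shapeRho_eq_shapeZ hφ ht]
  exact shift_anti ht hz ⟨hz.1.trans this, hhi⟩ this

/-- The tangent line is above the profile at the centre. -/
theorem centre_chord (hφ : IsShape φ) {t : ℝ} (ht : t ∈ Ioo (0 : ℝ) 1) :
    φ 0 * (1 - t * shapeZ φ t) ≤ φ t := by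
  have hd := hasDerivWithinAt_dright hφ (sub01 ht)
  have hden := shapeZ_denom_pos hφ ht
  have h := hφ.concave.neg.slope_le_leftDeriv (x := 0) (y := t) (by norm_num)
    (Ioo_subset_Icc_self (sub01 ht)) ht.1
    (hφ.concave.neg.differentiableWithinAt_Iio_of_mem_interior (by
      rw [interior_Icc]; exact sub01 ht))
  have h' := hφ.concave.neg.leftDeriv_le_rightDeriv_of_mem_interior (x := t) (by
    rw [interior_Icc]; exact sub01 ht)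
  rw [hd.neg.derivWithin (uniqueDiffWithinAt_Ioi t)] at h'
  rw [slope_def_field, div_le_iff₀ (by linarith [ht.1] : 0 < t - 0)] at h
  simp only [Pi.neg_apply] at h
  have key : φ 0 ≤ φ t - t * dright φ t := by nlinarith [ht.1]
  rw [show 1 - t * shapeZ φ t = φ t / (φ t - t * dright φ t) by
    rw [shapeZ]; field_simp; ring, mul_div_assoc', div_le_iff₀ hden]
  nlinarith [shape_pos hφ (sub01 ht)]

/-- The states allowed by an envelope `U`, a case `[lo, hi]` at the node `t₀` and a lower bound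
`b₀` of `(specU 0 / M) ^ 2`. -/
def CaseState (m : ℕ) (U : ℝ → ℝ) (t₀ lo hi b₀ : ℝ) (t x z : ℝ) : Prop :=
  x ≤ U t ∧ (t₀ ≤ t → lo ≤ z) ∧ (t ≤ t₀ → z ≤ hi) ∧
    (1 - t * z) ^ m * b₀ ≤ ballShape t ^ m * x ^ 2

theorem caseState_of_shape (hm : 1 ≤ m) (hφ : IsShape φ) {U : ℝ → ℝ} {t₀ lo hi b₀ : ℝ}
    (ht₀ : t₀ ∈ Ioo (0 : ℝ) 1) (hcase : shapeZ φ t₀ ∈ Icc lo hi)
    (hb : b₀ * specM m φ ^ 2 ≤ φ 0 ^ m) {t : ℝ} (ht : t ∈ Ioo (0 : ℝ) 1)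
    (hU : specU m φ t ≤ U t * specM m φ) :
    CaseState m U t₀ lo hi b₀ t (specU m φ t / specM m φ) (shapeZ φ t) := by
  have hM := specM_pos hm hφ
  have hz := shapeZ_mem hφ ht
  have h1 : 0 ≤ 1 - t * shapeZ φ t := by nlinarith [ht.1, ht.2, hz.2]
  refine ⟨(div_le_iff₀ hM).2 hU, fun h => hcase.1.trans (shapeZ_monotoneOn hφ ht₀ ht h),
    fun h => (shapeZ_monotoneOn hφ ht ht₀ h).trans hcase.2, ?_⟩
  rw [div_pow, specU_sq hφ (sub01 ht), div_pow, ← mul_div_assoc,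
    mul_div_cancel₀ _ (pow_ne_zero _ (ball_pos (sub01 ht)).ne'), le_div_iff₀ (pow_pos hM 2)]
  calc (1 - t * shapeZ φ t) ^ m * b₀ * specM m φ ^ 2
      = (1 - t * shapeZ φ t) ^ m * (b₀ * specM m φ ^ 2) := by ring
    _ ≤ (1 - t * shapeZ φ t) ^ m * φ 0 ^ m := mul_le_mul_of_nonneg_left hb (pow_nonneg h1 m)
    _ = (φ 0 * (1 - t * shapeZ φ t)) ^ m := by rw [mul_pow]; ring
    _ ≤ φ t ^ m := pow_le_pow_left₀ (mul_nonneg hφ.centre.le h1) (centre_chord hφ ht) m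

/-- The tail lemma from finitely many cases, each with its own flux in `(t, x)`. -/
theorem excess_le_of_cases (hm : 2 ≤ m) (hφ : IsShape φ) (hQ0 : ∀ t ∈ Ioo (0 : ℝ) 1, 0 ≤ Q t)
    (hQm : Measurable Q)
    (hQ : ∀ t ∈ Ioo (0 : ℝ) 1, ∀ r ∈ Icc (-1 : ℝ) 1, Q t * r ^ 2 ≤ pureBreg m t r)
    (hWm : Measurable W) {C : ℝ} (hWb : ∀ t ∈ Ioo (0 : ℝ) 1, |W t| ≤ C)
    {ι : Type*} {lo hi : ι → ℝ} {t₀ b₀ U₀ : ℝ} (ht₀ : t₀ ∈ Ioo (0 : ℝ) 1)
    (hcov : ∀ z ∈ Icc (0 : ℝ) 1, ∃ i, z ∈ Icc (lo i) (hi i))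
    {U : ℝ → ℝ} (hU : ∀ t ∈ Ioo (0 : ℝ) 1, specU m φ t ≤ U t * specM m φ)
    (hb : b₀ * specM m φ ^ 2 ≤ φ 0 ^ m) (hU₀ : specU m φ 0 ≤ U₀ * specM m φ)
    {D Dt Dx : ι → ℝ → ℝ → ℝ}
    (hDc : ∀ i, ContinuousOn (fun p : ℝ × ℝ => D i p.1 p.2) (Ico 0 1 ×ˢ Ioi 0))
    (hDm : ∀ i, Measurable (fun p : ℝ × ℝ => Dt i p.1 p.2) ∧
      Measurable (fun p : ℝ × ℝ => Dx i p.1 p.2))
    (hDB : ∀ i, ∀ b < (1 : ℝ), ∀ a c, 0 < a → ∃ B, ∀ t ∈ Ioo 0 b, ∀ x ∈ Icc a c,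
      |Dt i t x| ≤ B ∧ |Dx i t x| ≤ B)
    (hDd : ∀ i, ∀ t ∈ Ioo (0 : ℝ) 1, ∀ (u : ℝ → ℝ) (u' : ℝ), 0 < u t →
      HasDerivWithinAt u u' (Ioi t) t →
      HasDerivWithinAt (fun s => D i s (u s)) (Dt i t (u t) + Dx i t (u t) * u') (Ioi t) t)
    (hD0 : ∀ i, ∀ x, 0 < x → x ≤ U₀ → D i 0 x ≤ 0)
    (hD1 : ∀ i, ∃ K : ℝ, ∀ᶠ b in 𝓝[<] (1 : ℝ), ∀ x, 0 < x → -K * (1 + x ^ 2) ≤ D i b x)
    (h : ∀ i, ∀ t ∈ Ioo (0 : ℝ) 1, ∀ x, 0 < x → ∀ z ∈ Icc (0 : ℝ) 1,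
      CaseState m U t₀ (lo i) (hi i) b₀ t x z →
      ballShape t ^ 2 * Dt i t x + (m : ℝ) / 2 * x * ((t - z) / (1 - t * z)) * Dx i t x -
        ((m : ℝ) + 1) * t * D i t x + tailLoss m x ≤
      W t * (x - 1) ^ 2 + tailGain m Q η t x ((t - z) / (1 - t * z))) :
    specExcess m φ ≤ specQuad m W (specV m φ) + specSurplus m Q φ +
      η * specEnergy m Q (fun t => specU' m φ t / specM m φ) := by
  have hm1 : 1 ≤ m := by omega
  have hM := specM_pos hm1 hφ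
  obtain ⟨i, hi'⟩ := hcov _ (shapeZ_mem hφ ht₀)
  refine excess_le_of_concave hm hφ hQ0 hQm hQ hWm hWb
    (D := fun t x _ => D i t x) (Dt := fun t x _ => Dt i t x) (Dx := fun t x _ => Dx i t x)
    ((hDc i).comp (continuous_fst.prodMk (continuous_fst.comp continuous_snd)).continuousOn
      fun p hp => ⟨hp.1, hp.2.1⟩)
    (fun t _ x _ => ⟨continuousOn_const, continuousOn_const⟩) (fun z _ => hDm i)
    (fun b hb' a c ha => (hDB i b hb' a c ha).imp fun B hB t ht x hx z _ => hB t ht x hx)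
    (fun z _ => hDd i) (fun t _ x _ _ => fun _ _ _ _ _ => le_rfl)
    (hD0 i _ (div_pos (specU_pos hφ ⟨by norm_num, by norm_num⟩) hM) ((div_le_iff₀ hM).2 hU₀))
    ((hD1 i).imp fun K hK => hK.mono fun b hb' x hx z _ => hb' x hx)
    (S := CaseState m U t₀ (lo i) (hi i) b₀)
    (fun t ht => caseState_of_shape hm1 hφ ht₀ hi' hb ht (hU t ht)) (h i)

end Vale.Agent.P237.Quant
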