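import Vale.Agent.P237.Quant.TailPacked
import Vale.Agent.P237.Quant.EnvelopeExactDefs

/-!
The Boolean check of a tail calibration. The half angle axis is cut into intervals, each interval
into segments of `v = x - 1` and pieces of the slope; on a cell the cleared inequality is a binary
form of degree seven whose coefficients are Bernstein controls in `v` and in the slope.
-/

namespace Vale.Agent.P237.Quant.TailCert

open TailTuple Four.Checker

/-- A piecewise quadratic function of `A = Da * halfAngle`, over the common denominator `Dc`: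
`e0 + e1 A + e2 A ^ 2` plus `d (A - c)⁺ + q ((A - c)⁺) ^ 2` for the kinks `(c, d, q)`. -/
structure Spline where
  e0 : ℤ
  e1 : ℤ
  e2 : ℤ
  kinks : List (ℤ × ℤ × ℤ)

/-- The four coefficient functions. -/
structure Flux where
  al : Spline
  be : Spline
  ga : Spline
  si : Spline
  k5 : Spline := ⟨0, 0, 0, []⟩

/-- The sum with an integer multiple of a spline. -/
noncomputable def Spline.addSmul (s : Spline) (k : ℤ) (r : Spline) : Spline :=
  ⟨iadd s.e0 (imul k r.e0), iadd s.e1 (imul k r.e1), iadd s.e2 (imul k r.e2),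
    s.kinks ++ r.kinks.map fun c => (c.1, imul k c.2.1, imul k c.2.2)⟩

/-- The four-term flux that equals the flux from `v = 2` on. -/
noncomputable def Flux.high (D : Flux) : Flux where
  al := D.al.addSmul 4 D.k5
  be := D.be.addSmul (-4) D.k5
  ga := D.ga.addSmul 1 D.k5
  si := D.si

/-- A polynomial of degree two in `A`. -/
structure Quad where
  e0 : ℤ
  e1 : ℤ
  e2 : ℤ

/-- Whether no kink lies inside an interval. -/
def kinkFree (A₀ A₁ : ℤ) : List (ℤ × ℤ × ℤ) → Bool
  | [] => true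
  | (c, _) :: l => (decide (c ≤ A₀) || decide (A₁ ≤ c)) && kinkFree A₀ A₁ l

/-- The polynomial that equals the kink part on an interval, added to `r`. -/
noncomputable def kinkLine (A₀ : ℤ) : List (ℤ × ℤ × ℤ) → Quad → Quad
  | [], r => r
  | (c, d, q) :: l, r =>
    if c ≤ A₀ then
      kinkLine A₀ l ⟨iadd r.e0 (imul c (isub (imul q c) d)),
        iadd r.e1 (isub d (imul 2 (imul q c))), iadd r.e2 q⟩
    else kinkLine A₀ l r

/-- The sum of the polynomials of all kinks of a list. -/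
noncomputable def kinkSum (l : List (ℤ × ℤ × ℤ)) : Quad :=
  List.rec ⟨0, 0, 0⟩ (fun h _ r => ⟨iadd r.e0 (imul h.1 (isub (imul h.2.2 h.1) h.2.1)),
    iadd r.e1 (isub h.2.1 (imul 2 (imul h.2.2 h.1))), iadd r.e2 h.2.2⟩) l

/-- The kinks of a list increase from `v` on. -/
noncomputable def kinkSorted (l : List (ℤ × ℤ × ℤ)) : ℤ → Bool :=
  List.rec (fun _ => true) (fun h _ ih v => ile v h.1 && ih h.1) l

/-- The sum over the kinks above `A₀`; a sorted rest is taken whole. -/
noncomputable def kinkAbove (A₀ : ℤ) (l : List (ℤ × ℤ × ℤ)) : Quad :=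
  List.rec ⟨0, 0, 0⟩ (fun h t ih => bif ile h.1 A₀ then ih else
    bif kinkSorted t h.1 then kinkSum (h :: t) else
      ⟨iadd ih.e0 (imul h.1 (isub (imul h.2.2 h.1) h.2.1)),
        iadd ih.e1 (isub h.2.1 (imul 2 (imul h.2.2 h.1))), iadd ih.e2 h.2.2⟩) l

/-- `kinkFree`, read only up to `A₁` on sorted lists. -/
noncomputable def kinkOutside (A₀ A₁ : ℤ) (l : List (ℤ × ℤ × ℤ)) : Bool :=
  List.rec true (fun h t ih => bif ile h.1 A₀ then ih else
    ile A₁ h.1 && (kinkSorted t h.1 || ih)) l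

/-- The polynomial of a spline on an interval: all kinks less those above its start. -/
noncomputable def Spline.line (s : Spline) (A₀ : ℤ) : Quad :=
  (fun a b => ⟨iadd s.e0 (isub a.e0 b.e0), iadd s.e1 (isub a.e1 b.e1), iadd s.e2 (isub a.e2 b.e2)⟩ :
    Quad → Quad → Quad) (kinkSum s.kinks) (kinkAbove A₀ s.kinks)

/-- A slope piece: a tangent of the model at the state `B / Db` with curvature `kn / kd`, or the
quadratic bound alone. -/
structure Piece where
  R0 : ℤ
  R1 : ℤ
  tan : Bool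
  B : ℤ
  Db : ℤ
  c : ℤ
  g : ℤ
  kn : ℤ
  kd : ℤ
  Yn : ℤ
  Yd : ℤ

/-- The position of a segment: below one, above one, or unbounded. -/
inductive Kind
  | below
  | mid
  | tail

/-- Three nonnegative multipliers of a cell: of the bound of the slope by the centre, of the chord
of the envelope and of a square. -/
structure Mult where
  mu : ℕ
  nu : ℕ
  sq : ℕ

/-- A segment of `v` with a cubic majorant of the cubic loss and a bound of the slope. A contact
segment is tested as a quadratic form in `(v, ρ)` along the ratios `ρ / v`, cut at `taus`. -/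
structure Seg where
  V0 : ℤ
  V1 : ℤ
  kind : Kind
  r0 : ℤ
  r1 : ℤ
  r2 : ℤ
  r3 : ℤ
  yn : ℤ
  yd : ℤ
  R : ℤ
  contact : Bool := false
  taus : List ℤ := []
  w0 : ℤ := 0
  w1 : ℤ := 0
  cn : ℤ := 1
  cd : ℤ := 1
  sg : ℤ := 0
  tau : ℤ := 0
  m0 : List Mult := []
  m1 : List Mult := []
  l0 : ℤ := 0
  l1 : ℤ := 0
  l2 : ℤ := 0

/-- An envelope node: `K / p ^ m` bounds the square of `x` after the time `T`, with `X` the bound of
the value at `T` against the centre, by which the bound falls along the chord after `T`. -/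
structure Node where
  Tn : ℤ
  Td : ℤ
  Kn : ℤ
  Kd : ℤ
  Xn : ℤ := 1
  Xd : ℤ := 1

/-- An interval of the scaled half angle. -/
structure Ival where
  A0 : ℤ
  A1 : ℤ
  wb : Bool
  w0 : ℤ
  w1 : ℤ
  u0 : ℤ
  u1 : ℤ
  l0 : ℤ
  l1 : ℤ
  h0 : ℤ
  h1 : ℤ
  node : Node
  pieces : List Piece
  segs : List Seg
  env : Bool := false
  e0 : ℤ := 0
  e1 : ℤ := 0
  /-- Zero for the chord `e0`, `e1` of `Dv (x - 1)`, else the denominator of `e0`, `e1` as fourth
  roots of `x`. -/
  er : ℤ := 0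

/-- The parameters of a calibration. -/
structure Cfg where
  m : ℕ
  th : ℤ
  Dth : ℤ
  et : ℤ
  Det : ℤ
  Da : ℤ
  Dc : ℤ
  Dr : ℤ
  Dv : ℤ
  cA : ℤ
  cB : ℤ
  cC : ℤ
  cD : ℤ
  cE : ℤ
  Dw : ℤ
  b0n : ℤ
  b0d : ℤ
  centre : Node
  flux : Flux
  ivals : List Ival
  csegs : List Seg
  cb : ℤ := 0
  /-- The multiplier of the mean over `Dc`. -/
  kap : ℤ := 0
  /-- The multiplier of the value over `Dth`; `th`, `et` hold the combined weight and share. -/
  t1 : ℤ := 0
  /-- The multiplier of the power ratio over `Dth`. -/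
  t3 : ℤ := 0
  /-- The bracket of the ratio for `x ≥ 1` over `Dc`. -/
  rA : ℤ := 0
  /-- The bracket of the ratio for `x ≤ 1` over `Dc`. -/
  rB : ℤ := 0

namespace Cfg

variable (C : Cfg)

/-- `n = m + 1` as an integer. -/
noncomputable def n : ℤ := iadd (Int.ofNat C.m) 1

/-- The common denominator of `θ` and `η`. -/
noncomputable def th' : ℤ := imul C.Dth C.Det

/-- The brackets of the ratio on the two sides of one. -/
noncomputable def ratioOK : Bool :=
  decide (C.t3 = C.t1) ||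
    decide (if C.t1 ≤ C.t3 then
        exactRatioHi C.m ≤ (C.rA : ℚ) / C.Dc ∧ (C.rB : ℚ) / C.Dc ≤ exactRatioLo C.m
      else (C.rA : ℚ) / C.Dc ≤ exactRatioLo C.m ∧ exactRatioHi C.m ≤ (C.rB : ℚ) / C.Dc)

end Cfg

/-- Lower sum of `log ((1 + x) / (1 - x)) / 2`. -/
def logSum (x : ℚ) : ℕ → ℚ
  | 0 => 0
  | i + 1 => logSum x i + x ^ (2 * i + 1) / (2 * (i : ℚ) + 1)

/-- A lower bound of `log (1 + y)`. -/
def logLo (y : ℚ) : ℚ := 2 * logSum (y / (2 + y)) 6

/-- An upper bound of `log (1 + y)`. -/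
def logUp (y : ℚ) : ℚ :=
  2 * (logSum (y / (2 + y)) 12 + (y / (2 + y)) ^ 25 / (1 - (y / (2 + y)) ^ 2))

/-- The point `t = 2 a / (1 + a ^ 2)` at `a = A / Da`. -/
def timeQ (Da A : ℤ) : ℚ := ((2 * A * Da : ℤ) : ℚ) / ((Da * Da + A * A : ℤ) : ℚ)

/-- The profile `p = (1 - a ^ 2) / (1 + a ^ 2)`. -/
def ballQ (Da A : ℤ) : ℚ := ((Da * Da - A * A : ℤ) : ℚ) / ((Da * Da + A * A : ℤ) : ℚ)

/-! ### One-variable side conditions -/

/-- `S = Da ^ 2 + A ^ 2`. -/
noncomputable def polS (Da : ℤ) : P1 := [imul Da Da, 0, 1]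

/-- `P = Da ^ 2 - A ^ 2`. -/
noncomputable def polP (Da : ℤ) : P1 := [imul Da Da, 0, -1]

/-- `1000 S ^ 4` times the weight polynomial at `p = P / S`. -/
noncomputable def polK (Da : ℤ) : P1 :=
  let S := polS Da; let P := polP Da; let S2 := mul1 S S; let P2 := mul1 P P
  add1 (smul1 1000 (mul1 S2 S2)) (add1 (smul1 (-1028) (mul1 P2 S2))
    (add1 (smul1 526 (mul1 P2 (mul1 P S))) (smul1 2 (mul1 P2 P2))))

/-- The affine interpolation of `x₀`, `x₁` times the length of the interval. -/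
noncomputable def polAff (A0 A1 x0 x1 : ℤ) : P1 :=
  [isub (imul x0 A1) (imul x1 A0), isub x1 x0]

/-- The affine majorant of the weight polynomial. -/
noncomputable def upperOK (C : Cfg) (I : Ival) : Bool :=
  let S := polS C.Da; let S2 := mul1 S S
  posOn I.A0 I.A1 1 (add1 (smul1 1000 (mul1 (polAff I.A0 I.A1 I.u0 I.u1) (mul1 S2 S2)))
    (smul1 (ineg (imul (isub I.A1 I.A0) C.Dc)) (polK C.Da)))

/-- The affine minorant of the weight polynomial. -/
noncomputable def lowerOK (C : Cfg) (I : Ival) : Bool :=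
  let S := polS C.Da; let S2 := mul1 S S
  posOn I.A0 I.A1 1 (add1 (smul1 (imul (isub I.A1 I.A0) C.Dc) (polK C.Da))
    (smul1 (-1000) (mul1 (polAff I.A0 I.A1 I.l0 I.l1) (mul1 S2 S2))))

/-- The bound `K · ratio ^ m` of a node at the time `t`. -/
def Node.boundQ (N : Node) (m : ℕ) (t : ℚ) : ℚ :=
  let K : ℚ := (N.Kn : ℚ) / N.Kd
  if N.Xn = N.Xd then K
  else
    let r := t / ((N.Tn : ℚ) / N.Td)
    K * max (r - (r - 1) / ((N.Xn : ℚ) / N.Xd)) 0 ^ m

/-- The side conditions of a node. -/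
def Node.ok (N : Node) : Bool :=
  decide (0 < N.Kd) && (decide (N.Xn = N.Xd) ||
    decide (0 ≤ N.Kn ∧ 0 < N.Tn ∧ 0 < N.Td ∧ 0 < N.Xn ∧ N.Xn ≤ N.Xd))

/-- The affine minorant of the potential, on one branch of the maximum. -/
noncomputable def potOK (C : Cfg) (I : Ival) : Bool :=
  let S := polS C.Da; let P := polP C.Da; let S2 := mul1 S S
  let rest := add1 (smul1 C.cC S2) (add1 (smul1 C.cD (mul1 P S)) (smul1 C.cE (mul1 P P)))
  let L := imul (isub I.A1 I.A0) C.Dc
  let aff := polAff I.A0 I.A1 I.w0 I.w1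
  if I.wb then
    posOn I.A0 I.A1 1 (add1 (smul1 L (add1
      (smul1 (imul C.cB (imul 4 (imul C.Da C.Da))) (0 :: 0 :: polK C.Da))
      (smul1 1000 (mul1 (mul1 S2 S2) rest))))
      (smul1 (imul (-1000) C.Dw) (mul1 aff (mul1 S2 (mul1 S2 S2)))))
  else
    posOn I.A0 I.A1 1 (add1 (smul1 L (add1 (smul1 C.cA S2) rest))
      (smul1 (ineg C.Dw) (mul1 aff S2)))

/-- An upper bound `h0 + h1 A ^ 2` of `log (1 + a ^ 2)`, a tangent in `a ^ 2`. -/
def logOK (C : Cfg) (I : Ival) : Bool :=
  let u : ℚ := ((I.h1 * C.Da * C.Da : ℤ) : ℚ) / C.Dc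
  decide (0 < u ∧ u ≤ 1 ∧ logUp (1 / u - 1) + u - 1 ≤ (I.h0 : ℚ) / C.Dc)

/-- The bound of the node over the profile has its chord above it on the interval: it is a
combination of `1 / (1 - a)` and `1 / (1 + a)`, and the coefficient that can be negative is the
one of the first. -/
noncomputable def envBend (C : Cfg) (I : Ival) : Bool :=
  let b := imul I.node.Xd I.node.Tn
  let a := imul (isub I.node.Xn I.node.Xd) I.node.Td
  decide (I.node.Xn = I.node.Xd) ||
    ile 0 (iadd
      (imul (iadd b a) (imul (iadd C.Da I.A0) (imul (iadd C.Da I.A1) (iadd C.Da I.A1))))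
      (imul (isub b a) (imul (isub C.Da I.A0) (imul (isub C.Da I.A1) (isub C.Da I.A1)))))

/-- The fourth power of the chord of `e0 / er`, `e1 / er` is above the envelope of `x`. -/
noncomputable def rootOK (C : Cfg) (I : Ival) : Bool :=
  let p0 := ballQ C.Da I.A0; let p1 := ballQ C.Da I.A1
  let r0 : ℚ := (I.e0 : ℚ) / I.er; let r1 : ℚ := (I.e1 : ℚ) / I.er
  decide (8 ≤ C.m) && decide (0 < I.er ∧ 0 < I.e0 ∧ 0 < I.e1) && decide (0 < p1) && envBend C I &&
    decide (I.node.boundQ C.m (timeQ C.Da I.A0) ≤ r0 ^ 8 * p0 ^ C.m) &&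
    decide (I.node.boundQ C.m (timeQ C.Da I.A1) ≤ r1 ^ 8 * p1 ^ C.m)

/-- The chord above the envelope of `x`, from the bounds of the node at the two ends of the
interval, or from the one at the left end. -/
noncomputable def envOK (C : Cfg) (I : Ival) : Bool :=
  !I.env || if I.er ≠ 0 then rootOK C I else
    (let p0 := ballQ C.Da I.A0; let p1 := ballQ C.Da I.A1
     let y0 : ℚ := 1 + (I.e0 : ℚ) / C.Dv; let y1 : ℚ := 1 + (I.e1 : ℚ) / C.Dv
     let K : ℚ := I.node.boundQ C.m (timeQ C.Da I.A0)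
     let L : ℚ := I.node.boundQ C.m (timeQ C.Da I.A1)
     decide (0 < p0 ∧ 0 < p1 ∧ 0 ≤ y0 ∧ 0 ≤ y1) && decide (K ≤ y0 ^ 2 * p0 ^ C.m) &&
       ((envBend C I && decide (L ≤ y1 ^ 2 * p1 ^ C.m)) || decide (K ≤ y1 ^ 2 * p1 ^ C.m)))

/-- An edge piece, for the times near one: not a tangent, with `B ≠ 0`. -/
def Piece.edgeOK (C : Cfg) (I : Ival) (q : Piece) : Bool :=
  decide (0 < q.Yn ∧ 0 < q.Yd ∧ (q.c : ℚ) / C.Dc ≤ 1 - ballQ C.Da I.A0 / 2)

/-- The side conditions of a piece on an interval. -/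
def Piece.ok (C : Cfg) (I : Ival) (q : Piece) : Bool :=
  decide (-C.Dr ≤ q.R0 ∧ q.R0 < q.R1 ∧ q.R1 ≤ C.Dr) &&
    (q.tan || decide (q.B = 0) || q.edgeOK C I) && (!q.tan ||
    (let b : ℚ := (q.B : ℚ) / q.Db
     let zj := 2 * b / (1 + b ^ 2)
     let l := b * (1 + b ^ 2) / (1 - b ^ 2)
     let c := (q.c : ℚ) / C.Dc
     let g := (q.g : ℚ) / C.Dc
     let Y : ℚ := (q.Yn : ℚ) / q.Yd
     let r0 : ℚ := (q.R0 : ℚ) / C.Dr
     let r1 : ℚ := (q.R1 : ℚ) / C.Dr
     let t0 := timeQ C.Da I.A0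
     let t1 := timeQ C.Da I.A1
     let k := 2 * ((q.kn : ℚ) / q.kd)
     let K := (1 - Y ^ 2 / (1 + Y)) / Y ^ 3
     let zlo := (t0 - r1) / (1 - t0 * r1)
     let zhi := (t1 - r0) / (1 - t1 * r0)
     decide (0 < q.Db ∧ b ^ 2 < 1 ∧ 0 < q.kd ∧ 0 ≤ q.kn ∧ 0 < q.Yn ∧ q.Yn ≤ q.Yd) &&
     decide (c + g * zj + 2 * |l - g| ≤ logLo (b ^ 2)) &&
     decide (0 < 1 - t0 * r1 ∧ 0 < 1 - t1 * r0) &&
     decide (k * (1 - t0 * r0) ≤ K ∧ k * (1 - t0 * r1) ≤ K ∧ k * (1 - t1 * r0) ≤ K ∧
       k * (1 - t1 * r1) ≤ K) &&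
     decide (q.Yn = q.Yd ∨
       (0 ≤ zj ∧ 0 ≤ zlo ∧ 1 - zj ^ 2 ≤ Y ^ 2 ∧ 1 - zlo ^ 2 ≤ Y ^ 2) ∨
       (zj ≤ 0 ∧ zhi ≤ 0 ∧ 1 - zj ^ 2 ≤ Y ^ 2 ∧ 1 - zhi ^ 2 ≤ Y ^ 2))))

/-- The majorant of the cubic loss on a segment. -/
def Seg.majTop (C : Cfg) (s : Seg) : Bool :=
  match s.kind with
  | .below => decide (s.V1 ≤ 0)
  | .tail =>
    let q : ℚ := 2 - 2 / (C.m : ℚ)
    decide (0 ≤ s.V0) && decide (0 ≤ s.r0 ∧ 0 ≤ s.r1 ∧ q - 1 ≤ (s.r2 : ℚ) / C.Dc ∧ 0 ≤ s.r3)
  | .mid =>
    let q : ℚ := 2 - 2 / (C.m : ℚ)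
    let y : ℚ := (s.yn : ℚ) / s.yd
    let c := y ^ C.m
    let K := y ^ (2 * C.m - 2)
    let d := 1 / c - 1
    let k2 := q * (q - 1) / 2
    let k3 := q * (q - 1) * (q - 2) / 6
    decide (0 ≤ s.V0 ∧ 0 < y) &&
    decide (2 / q * (1 - K * (1 + q * d + k2 * d ^ 2 + k3 * d ^ 3)) ≤ (s.r0 : ℚ) / C.Dc ∧
      2 / q * (q - K / c * (q + 2 * k2 * d + 3 * k3 * d ^ 2)) ≤ (s.r1 : ℚ) / C.Dc ∧
      2 / q * (k2 - K / c ^ 2 * (k2 + 3 * k3 * d)) ≤ (s.r2 : ℚ) / C.Dc ∧
      2 / q * (-(K / c ^ 3 * k3)) ≤ (s.r3 : ℚ) / C.Dc)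

/-- The segment with its minorant of the cubic loss in the place of the majorant. -/
def Seg.minor (s : Seg) : Seg := { s with r0 := s.l0, r1 := s.l1, r2 := s.l2, r3 := 0 }

/-- The coefficients are below those of the quadratic minorant of the cubic loss from `y ^ m` on,
where `x ^ (2 - 2 / m) ≤ x ^ 2 / y ^ 2`. -/
def Seg.minQuadOK (C : Cfg) (s : Seg) : Bool :=
  let q : ℚ := 2 - 2 / (C.m : ℚ)
  let y : ℚ := (s.yn : ℚ) / s.yd
  let k : ℚ := 2 / (q * y ^ 2)
  decide (1 ≤ y ∧ y ^ C.m ≤ 1 + (s.V0 : ℚ) / C.Dv ∧ (s.l0 : ℚ) / C.Dc ≤ 2 / q - k ∧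
    (s.l1 : ℚ) / C.Dc ≤ 2 - 2 * k ∧ (s.l2 : ℚ) / C.Dc ≤ q - 1 - k)

/-- The minorant `l0 + l1 v + l2 v ^ 2`: a line below the tangent of the cubic loss at `y ^ m`, or
the quadratic one. -/
def Seg.minOK (C : Cfg) (s : Seg) : Bool :=
  if s.l2 ≠ 0 then s.minQuadOK C else
  decide (s.l0 = 0 ∧ s.l1 = 0) ||
    (let q : ℚ := 2 - 2 / (C.m : ℚ)
     let y : ℚ := (s.yn : ℚ) / s.yd
     let c := y ^ C.m
     let K := y ^ (2 * C.m - 2)
     let F0 := 2 / q * (q * (q - 1) / 2 * (c - 1) ^ 2 - (K - 1 - q * (c - 1)))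
     let F1 := 2 / q * (q * (q - 1) * (c - 1) - (q * (K / c) - q))
     let f : ℚ → ℚ := fun v => F0 + F1 * (v - (c - 1)) - ((s.l0 : ℚ) + s.l1 * v) / C.Dc
     decide (1 ≤ y ∧ 0 ≤ s.V0 ∧ 0 ≤ f ((s.V0 : ℚ) / C.Dv)) &&
       match s.kind with
       | .tail => decide ((s.l1 : ℚ) / C.Dc ≤ F1)
       | _ => decide (0 ≤ f ((s.V1 : ℚ) / C.Dv)))

/-- The majorant and the minorant of the cubic loss on a segment. -/
def Seg.majOK (C : Cfg) (s : Seg) : Bool := s.majTop C && s.minOK C

/-- The line `w0 + w1 v` is below the bound of `(1 - t ρ) / p` by the centre. -/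
def Seg.lineOK (C : Cfg) (s : Seg) : Bool :=
  decide (s.w0 = 0 ∧ s.w1 = 0) ||
    (let y : ℚ := (s.cn : ℚ) / s.cd
     let c := y ^ C.m
     let f : ℚ → ℚ := fun v => (C.cb : ℚ) / y ^ 2 * (1 - 2 / (C.m : ℚ) * ((1 + v - c) / c))
     let v0 : ℚ := (s.V0 : ℚ) / C.Dv
     decide (0 < y ∧ (s.w0 : ℚ) + s.w1 * v0 ≤ f v0) &&
       match s.kind with
       | .tail => decide ((s.w1 : ℚ) ≤ -((C.cb : ℚ) / y ^ 2 * (2 / (C.m : ℚ)) / c))
       | _ => decide ((s.w0 : ℚ) + s.w1 * ((s.V1 : ℚ) / C.Dv) ≤ f ((s.V1 : ℚ) / C.Dv)))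

/-- Whether a segment is unbounded. -/
def Seg.isTail (s : Seg) : Bool :=
  match s.kind with
  | .tail => true
  | _ => false

/-- The bound of the slope on a segment. -/
def Seg.slopeOK (C : Cfg) (I : Ival) (s : Seg) : Bool :=
  let t1 := timeQ C.Da I.A1
  let p1 := ballQ C.Da I.A1
  let r : ℚ := (s.R : ℚ) / C.Dr
  decide (t1 ≤ r) ||
    (!s.isTail && decide (0 < p1 ∧ 0 ≤ 1 - t1 * r ∧ 0 ≤ 1 + (s.V1 : ℚ) / C.Dv) &&
      decide (((1 - t1 * r) / p1) ^ C.m * (1 + (s.V1 : ℚ) / C.Dv) ^ 2 ≤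
        (C.b0n : ℚ) / C.b0d))

/-- A spline that vanishes. -/
def Spline.isZero (s : Spline) : Bool :=
  decide (s.e0 = 0 ∧ s.e1 = 0 ∧ s.e2 = 0) && s.kinks.isEmpty

/-- The side conditions of a contact segment. -/
def Seg.contactOK (C : Cfg) (s : Seg) : Bool :=
  !s.contact ||
    (C.flux.al.isZero && C.flux.be.isZero &&
      decide (s.r0 = 0 ∧ s.r1 = 0 ∧ C.kap = 0 ∧ C.t3 = C.t1) && !s.taus.isEmpty)

/-- A chain of segments from `v` on. -/
noncomputable def segChain (v : ℤ) : List Seg → Bool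
  | [] => false
  | [s] => ile s.V0 v && (s.isTail || !ile s.V1 s.V0)
  | s :: l => ile s.V0 v && !ile s.V1 s.V0 && !s.isTail && segChain s.V1 l

/-- The right end of the last segment reaches the envelope `k / p₁ ^ m` of `x ^ 2`. -/
def segEnd (C : Cfg) (k p1 : ℚ) : List Seg → Bool
  | [] => false
  | [s] => s.isTail || decide (0 ≤ 1 + (s.V1 : ℚ) / C.Dv ∧
      k ≤ (1 + (s.V1 : ℚ) / C.Dv) ^ 2 * p1 ^ C.m)
  | _ :: l => segEnd C k p1 l

/-- A chain of pieces from `r` on, whose end covers every bound of the slope. -/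
noncomputable def pieceChain (segs : List Seg) (r : ℤ) : List Piece → Bool
  | [] => segs.all fun s => s.contact || ile s.R r
  | q :: l => ile q.R0 r && pieceChain segs q.R1 l

/-- A polynomial of degree two in `A` as a form. -/
noncomputable def quadForm (I : Ival) (e : Quad) : Pk :=
  (((Pk.unit.lin 1 1).lin 1 1).smul e.e0).add
    (((Pk.unit.lin 1 1).lin I.A0 I.A1).smul e.e1 |>.add
      (((Pk.unit.lin I.A0 I.A1).lin I.A0 I.A1).smul e.e2))

/-- The values of the slope of a polynomial at the two ends of an interval. -/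
noncomputable def slopeEnds (A0 A1 : ℤ) (e : Quad) : ℤ × ℤ :=
  (iadd e.e1 (imul (imul 2 e.e2) A0), iadd e.e1 (imul (imul 2 e.e2) A1))

/-- Product with `Da ^ 2 + A ^ 2`. -/
noncomputable def mulS (C : Cfg) (I : Ival) (p : Pk) : Pk :=
  ((p.lin C.Da C.Da).lin C.Da C.Da).add ((p.lin I.A0 I.A1).lin I.A0 I.A1)

/-- Product with `Da ^ 2 - A ^ 2`. -/
noncomputable def mulP (C : Cfg) (I : Ival) (p : Pk) : Pk :=
  ((p.lin C.Da C.Da).lin C.Da C.Da).add (((p.lin I.A0 I.A1).lin I.A0 I.A1).smul (-1))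

/-- Product with `2 Da A`. -/
noncomputable def mulT (C : Cfg) (I : Ival) (p : Pk) : Pk :=
  ((p.lin I.A0 I.A1).lin 1 1).smul (imul 2 C.Da)

/-! ### The side conditions on fractions and packed forms -/

/-- `S ^ 4` times a form. -/
noncomputable def mulS4 (C : Cfg) (I : Ival) (p : Pk) : Pk :=
  mulS C I (mulS C I (mulS C I (mulS C I p)))

/-- `polK` as a form of degree eight. -/
noncomputable def formK (C : Cfg) (I : Ival) : Pk :=
  let S2 := mulS C I (mulS C I Pk.unit); let P2 := mulP C I (mulP C I S2)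
  let P3 := mulP C I (mulP C I (mulP C I (mulS C I Pk.unit)))
  let P4 := mulP C I (mulP C I (mulP C I (mulP C I Pk.unit)))
  (((mulS4 C I Pk.unit).smul 1000).add (P2.smul (-1028))).add ((P3.smul 526).add (P4.smul 2))

/-- The majorant form of the weight. -/
noncomputable def upperForm (C : Cfg) (I : Ival) : Pk :=
  ((mulS4 C I (Pk.unit.lin I.u0 I.u1)).smul 1000).add
    (((formK C I).lin 1 1).smul (ineg C.Dc))

/-- The minorant form of the weight. -/
noncomputable def lowerForm (C : Cfg) (I : Ival) : Pk :=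
  (((formK C I).lin 1 1).smul C.Dc).add ((mulS4 C I (Pk.unit.lin I.l0 I.l1)).smul (-1000))

/-- The form of degree four of the lower order part of the potential. -/
noncomputable def restForm (C : Cfg) (I : Ival) : Pk :=
  (((mulS C I (mulS C I Pk.unit)).smul C.cC).add ((mulP C I (mulS C I Pk.unit)).smul C.cD)).add
    ((mulP C I (mulP C I Pk.unit)).smul C.cE)

/-- The minorant form of the potential on the branch of the weight. -/
noncomputable def potFormW (C : Cfg) (I : Ival) : Pk :=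
  (((((mulT C I (mulT C I (formK C I))).smul C.cB).add
      ((mulS4 C I (restForm C I)).smul 1000)).lin 1 1).smul C.Dc).add
    ((mulS C I (mulS C I (mulS4 C I (Pk.unit.lin I.w0 I.w1)))).smul (imul (-1000) C.Dw))

/-- The minorant form of the potential on the branch of the constant. -/
noncomputable def potFormA (C : Cfg) (I : Ival) : Pk :=
  (((((mulS C I (mulS C I Pk.unit)).smul C.cA).add (restForm C I)).lin 1 1).smul C.Dc).add
    ((mulS C I (mulS C I (Pk.unit.lin I.w0 I.w1))).smul (ineg C.Dw))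

/-- `upperOK` with the packed test first. -/
noncomputable def upperFast (C : Cfg) (I : Ival) : Bool :=
  (upperForm C I).nn 10 || upperOK C I

/-- `lowerOK` with the packed test first. -/
noncomputable def lowerFast (C : Cfg) (I : Ival) : Bool :=
  (lowerForm C I).nn 10 || lowerOK C I

/-- `potOK` with the packed test first. -/
noncomputable def potFast (C : Cfg) (I : Ival) : Bool :=
  (if I.wb then (potFormW C I).nn 14 else (potFormA C I).nn 6) || potOK C I

/-- `timeQ` as a fraction. -/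
noncomputable def timeN (Da A : ℤ) : QN :=
  QN.frac (imul (imul 2 A) Da) (iadd (imul Da Da) (imul A A))

/-- `ballQ` as a fraction. -/
noncomputable def ballN (Da A : ℤ) : QN :=
  QN.frac (isub (imul Da Da) (imul A A)) (iadd (imul Da Da) (imul A A))

/-- `logSum` on fractions. -/
noncomputable def logSumN (x : QN) (k : ℕ) : QN :=
  Nat.rec (QN.z 0) (fun i r => r + x ^ (2 * i + 1) / QN.z (Int.ofNat (2 * i + 1))) k

/-- `logLo` on fractions. -/
noncomputable def logLoN (y : QN) : QN := QN.z 2 * logSumN (y / (QN.z 2 + y)) 6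

/-- `logUp` on fractions. -/
noncomputable def logUpN (y : QN) : QN :=
  let x := y / (QN.z 2 + y)
  QN.z 2 * (logSumN x 12 + x ^ 25 / (QN.z 1 - x ^ 2))

/-- `logOK` on fractions. -/
noncomputable def logFast (C : Cfg) (I : Ival) : Bool :=
  let u := QN.frac (imul (imul I.h1 C.Da) C.Da) C.Dc
  (QN.z 0).lt u && u.le (QN.z 1) &&
    (logUpN (QN.z 1 / u - QN.z 1) + u - QN.z 1).le (QN.frac I.h0 C.Dc)

/-- `Node.boundQ` on fractions. -/
noncomputable def Node.boundN (N : Node) (m : ℕ) (t : QN) : QN :=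
  let K := QN.frac N.Kn N.Kd
  if N.Xn = N.Xd then K
  else
    let r := t / QN.frac N.Tn N.Td
    let b := r - (r - QN.z 1) / QN.frac N.Xn N.Xd
    bif (QN.z 0).le b then K * b ^ m else K * QN.z 0 ^ m

/-- `rootOK` on fractions. -/
noncomputable def rootFast (C : Cfg) (I : Ival) : Bool :=
  decide (8 ≤ C.m) && !ile I.er 0 && !ile I.e0 0 && !ile I.e1 0 &&
    (let p1 := ballN C.Da I.A1
     (QN.z 0).lt p1 && envBend C I &&
      (I.node.boundN C.m (timeN C.Da I.A0)).le
        (QN.frac I.e0 I.er ^ 8 * ballN C.Da I.A0 ^ C.m) &&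
      (I.node.boundN C.m (timeN C.Da I.A1)).le (QN.frac I.e1 I.er ^ 8 * p1 ^ C.m))

/-- `envOK` on fractions. -/
noncomputable def envFast (C : Cfg) (I : Ival) : Bool :=
  !I.env || if I.er ≠ 0 then rootFast C I else
    (let p0 := ballN C.Da I.A0; let p1 := ballN C.Da I.A1
     let y0 := QN.z 1 + QN.frac I.e0 C.Dv; let y1 := QN.z 1 + QN.frac I.e1 C.Dv
     let K := I.node.boundN C.m (timeN C.Da I.A0)
     let R := y1 ^ 2 * p1 ^ C.m
     (QN.z 0).lt p0 && (QN.z 0).lt p1 && (QN.z 0).le y0 && (QN.z 0).le y1 &&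
       K.le (y0 ^ 2 * p0 ^ C.m) &&
       ((envBend C I && (I.node.boundN C.m (timeN C.Da I.A1)).le R) || K.le R))

/-- The test `a = 0`. -/
noncomputable def isZ (a : ℤ) : Bool := ile a 0 && ile 0 a

/-- The Horner form of six terms of the logarithmic series, `P`, `Q` the squares of the numerator and
the denominator of the argument, `Q2`, `Q4` the powers of `Q`. -/
noncomputable def logHorner (P Q Q2 Q4 : ℤ) : ℤ :=
  iadd (imul (iadd (imul (iadd (imul (iadd (imul (iadd (imul 315 P) (imul 385 Q)) P)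
    (imul 495 Q2)) P) (imul 693 (imul Q2 Q))) P) (imul 1155 Q4)) P) (imul 3465 (imul Q4 Q))

/-- The tangent bound of a piece at its state, cleared of denominators. -/
noncomputable def Piece.tanTop (Dc : ℤ) (q : Piece) : Bool :=
  let BB := imul q.B q.B
  let DD := imul q.Db q.Db
  let S := iadd DD BB
  let M := imul q.Db (isub DD BB)
  let W := iadd (imul 2 DD) BB
  let Q := imul W W
  let Q2 := imul Q Q
  let Q4 := imul Q2 Q2
  ile (imul (iadd (imul q.c (imul S M)) (iadd (imul (imul q.g M) (imul 2 (imul q.B q.Db)))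
      (imul (imul 2 (Int.ofNat (iabs (isub (imul (imul q.B S) Dc) (imul q.g M))))) S)))
      (imul 3465 (imul W (imul Q4 Q))))
    (imul (imul (imul 2 BB) (logHorner (imul BB BB) Q Q2 Q4)) (imul Dc (imul S M)))

/-- The denominator of `timeQ`. -/
noncomputable def timeDen (Da A : ℤ) : ℤ := iadd (imul Da Da) (imul A A)

/-- The numerator of `timeQ`. -/
noncomputable def timeNum (Da A : ℤ) : ℤ := imul (imul 2 A) Da

/-- `1 - t R / Dr` times the two denominators. -/
noncomputable def timeGap (Da Dr A R : ℤ) : ℤ :=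
  isub (imul (timeDen Da A) Dr) (imul (timeNum Da A) R)

/-- The curvature bound of a piece at one corner. -/
noncomputable def Piece.bendAt (Dr D u : ℤ) (q : Piece) : Bool :=
  ile (imul (imul (imul 2 q.kn) (imul (iadd q.Yd q.Yn) (imul (imul q.Yn q.Yn) q.Yn))) u)
    (imul (imul (imul (isub (iadd (imul q.Yd q.Yd) (imul q.Yn q.Yd)) (imul q.Yn q.Yn))
      (imul q.Yd q.Yd)) q.kd) (imul D Dr))

/-- `1 - (N / u) ^ 2 ≤ (a / b) ^ 2`. -/
noncomputable def slopeWithin (a b N u : ℤ) : Bool :=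
  ile (imul (isub (imul u u) (imul N N)) (imul b b)) (imul (imul a a) (imul u u))

/-- The conditions of a tangent piece, cleared of denominators. -/
noncomputable def Piece.tanFast (C : Cfg) (I : Ival) (q : Piece) : Bool :=
  let d0 := timeDen C.Da I.A0
  let d1 := timeDen C.Da I.A1
  let u00 := timeGap C.Da C.Dr I.A0 q.R0
  let u01 := timeGap C.Da C.Dr I.A0 q.R1
  let u10 := timeGap C.Da C.Dr I.A1 q.R0
  let u11 := timeGap C.Da C.Dr I.A1 q.R1
  let Z := imul 2 (imul q.B q.Db)
  let S := iadd (imul q.Db q.Db) (imul q.B q.B)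
  !ile C.Da 0 && !ile C.Dc 0 && !ile C.Dr 0 && !ile q.Db 0 &&
    !ile (imul q.Db q.Db) (imul q.B q.B) && !ile q.kd 0 && ile 0 q.kn && !ile q.Yn 0 &&
    ile q.Yn q.Yd && q.tanTop C.Dc && !ile u01 0 && !ile u10 0 &&
    q.bendAt C.Dr d0 u00 && q.bendAt C.Dr d0 u01 && q.bendAt C.Dr d1 u10 && q.bendAt C.Dr d1 u11 &&
    (ile q.Yd q.Yn ||
      (ile 0 Z && slopeWithin q.Yn q.Yd Z S &&
        ile 0 (isub (imul (timeNum C.Da I.A0) C.Dr) (imul q.R1 d0)) &&
        slopeWithin q.Yn q.Yd (isub (imul (timeNum C.Da I.A0) C.Dr) (imul q.R1 d0)) u01) ||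
      (ile Z 0 && slopeWithin q.Yn q.Yd Z S &&
        ile (isub (imul (timeNum C.Da I.A1) C.Dr) (imul q.R0 d1)) 0 &&
        slopeWithin q.Yn q.Yd (isub (imul (timeNum C.Da I.A1) C.Dr) (imul q.R0 d1)) u10))

/-- `Piece.ok` on fractions. -/
noncomputable def Piece.okFast (C : Cfg) (I : Ival) (q : Piece) : Bool :=
  ile (ineg C.Dr) q.R0 && !ile q.R1 q.R0 && ile q.R1 C.Dr &&
    (q.tan || isZ q.B || (!ile q.Yn 0 && !ile q.Yd 0 &&
      (QN.frac q.c C.Dc).le (QN.z 1 - ballN C.Da I.A0 / QN.z 2))) && (!q.tan || q.tanFast C I)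

/-- The power `a ^ k` of a positive integer. -/
noncomputable def ipw (a : ℤ) (k : ℕ) : ℤ := Int.ofNat (Nat.pow (itoN a) k)

/-- The majorant of a middle segment, cleared of denominators. -/
noncomputable def Seg.midTop (C : Cfg) (s : Seg) : Bool :=
  let m := Int.ofNat C.m
  let A := ipw s.yn C.m
  let B := ipw s.yd C.m
  let e := Nat.sub (Nat.mul 2 C.m) 2
  let G := ipw s.yn e
  let H := ipw s.yd e
  let m1 := isub m 1
  let k0 := imul 3 (imul m (imul m m))
  let u1 := imul 6 (imul m1 (imul m m))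
  let u2 := imul 3 (imul m (imul m1 (isub m 2)))
  let u3 := imul (-2) (imul m1 (isub m 2))
  let D := isub B A
  let AA := imul A A
  let A3 := imul AA A
  let DD := imul D D
  let GB := imul G B
  let mD := imul m C.Dc
  let HA := imul H A3
  let R := imul m1 (imul k0 HA)
  ile 0 s.V0 && !ile s.yn 0 && !ile s.yd 0 && !ile C.Dc 0 && ile 2 m &&
    ile (imul mD (isub (imul k0 HA) (imul G (iadd (imul k0 A3) (iadd (imul u1 (imul D AA))
      (iadd (imul u2 (imul DD A)) (imul u3 (imul DD D))))))))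
      (imul s.r0 R) &&
    ile (imul mD (isub (imul u1 HA) (imul GB (iadd (imul u1 AA) (iadd (imul 2 (imul u2 (imul D A)))
      (imul 3 (imul u3 DD)))))))
      (imul s.r1 R) &&
    ile (imul mD (isub (imul u2 HA) (imul (imul GB B) (iadd (imul u2 A) (imul 3 (imul u3 D))))))
      (imul s.r2 R) &&
    ile (imul mD (ineg (imul (imul GB (imul B B)) u3))) (imul s.r3 R)

/-- A line below the tangent of the cubic loss at `y ^ m`, cleared of denominators. -/
noncomputable def Seg.minLine (C : Cfg) (s : Seg) : Bool :=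
  let m := Int.ofNat C.m
  let A := ipw s.yn C.m
  let B := ipw s.yd C.m
  let e := Nat.sub (Nat.mul 2 C.m) 2
  let G := ipw s.yn e
  let H := ipw s.yd e
  let m1 := isub m 1
  let k0 := imul 3 (imul m (imul m m))
  let u1 := imul 6 (imul m1 (imul m m))
  let u2 := imul 3 (imul m (imul m1 (isub m 2)))
  let E := isub A B
  let HA := imul H A
  let BB := imul B B
  let N0 := imul (imul m A) (iadd (isub (imul u2 (imul (imul E E) H))
    (imul k0 (imul (isub G H) BB))) (imul u1 (imul E (imul B H))))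
  let N1 := imul m (isub (imul (imul 2 u2) (imul E (imul B HA)))
    (imul u1 (imul BB (isub (imul G B) HA))))
  let δ := imul m1 (imul k0 (imul HA BB))
  let test := fun v => ile (imul (imul δ B) (iadd (imul s.l0 C.Dv) (imul s.l1 v)))
    (imul C.Dc (iadd (imul (imul N0 B) C.Dv) (imul N1 (isub (imul v B) (imul E C.Dv)))))
  !ile s.yd 0 && ile s.yd s.yn && ile 0 s.V0 && !ile C.Dc 0 && !ile C.Dv 0 && ile 2 m &&
    test s.V0 &&
    match s.kind with
    | .tail => ile (imul s.l1 δ) (imul C.Dc N1)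
    | _ => test s.V1

/-- `Seg.majTop` on fractions. -/
noncomputable def Seg.topFast (C : Cfg) (s : Seg) : Bool :=
  match s.kind with
  | .below => ile s.V1 0
  | .tail =>
    let q := QN.z 2 - QN.frac 2 (Int.ofNat C.m)
    ile 0 s.V0 && ile 0 s.r0 && ile 0 s.r1 && (q - QN.z 1).le (QN.frac s.r2 C.Dc) && ile 0 s.r3
  | .mid => s.midTop C

/-- `Seg.minOK` on fractions. -/
noncomputable def Seg.minFast (C : Cfg) (s : Seg) : Bool :=
  bif !isZ s.l2 then
    (let q := QN.z 2 - QN.frac 2 (Int.ofNat C.m)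
     let y := QN.frac s.yn s.yd
     let k := QN.z 2 / (q * y ^ 2)
     let one := QN.z 1
     one.le y && (y ^ C.m).le (one + QN.frac s.V0 C.Dv) &&
       (QN.frac s.l0 C.Dc).le (QN.z 2 / q - k) &&
       (QN.frac s.l1 C.Dc).le (QN.z 2 - QN.z 2 * k) && (QN.frac s.l2 C.Dc).le (q - one - k)) else
  (isZ s.l0 && isZ s.l1) || s.minLine C

/-- `Seg.majOK` on fractions. -/
noncomputable def Seg.majFast (C : Cfg) (s : Seg) : Bool := s.topFast C && s.minFast C

/-- `Seg.lineOK` on fractions. -/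
noncomputable def Seg.lineFast (C : Cfg) (s : Seg) : Bool :=
  (isZ s.w0 && isZ s.w1) ||
    (let A := ipw s.cn C.m
     let B := ipw s.cd C.m
     let m := Int.ofNat C.m
     let L := imul (imul (imul s.cn s.cn) m) A
     let R := imul C.cb (imul s.cd s.cd)
     let test := fun v => ile (imul (iadd (imul s.w0 C.Dv) (imul s.w1 v)) L)
       (imul R (isub (imul (imul m A) C.Dv)
         (imul 2 (isub (imul (iadd C.Dv v) B) (imul A C.Dv)))))
     !ile s.cn 0 && !ile s.cd 0 && !ile C.Dv 0 && !ile m 0 && test s.V0 &&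
       match s.kind with
       | .tail => ile (imul s.w1 L) (ineg (imul R (imul 2 B)))
       | _ => test s.V1)

/-- `Seg.slopeOK` on fractions. -/
noncomputable def Seg.slopeFast (C : Cfg) (I : Ival) (s : Seg) : Bool :=
  let t1 := timeN C.Da I.A1
  let p1 := ballN C.Da I.A1
  let r := QN.frac s.R C.Dr
  let one := QN.z 1
  t1.le r ||
    (!s.isTail && (QN.z 0).lt p1 && (QN.z 0).le (one - t1 * r) &&
      (QN.z 0).le (one + QN.frac s.V1 C.Dv) &&
      (((one - t1 * r) / p1) ^ C.m * (one + QN.frac s.V1 C.Dv) ^ 2).le (QN.frac C.b0n C.b0d))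

/-- `segEnd` on fractions. -/
noncomputable def segEndN (C : Cfg) (k p1 : QN) : List Seg → Bool
  | [] => false
  | [s] => s.isTail || ((QN.z 0).le (QN.z 1 + QN.frac s.V1 C.Dv) &&
      k.le ((QN.z 1 + QN.frac s.V1 C.Dv) ^ 2 * p1 ^ C.m))
  | _ :: l => segEndN C k p1 l

/-- The right end of the last segment reaches the chord of the envelope. -/
noncomputable def segChord (e0 e1 : ℤ) : List Seg → Bool
  | [] => false
  | [s] => ile e0 s.V1 && ile e1 s.V1
  | _ :: l => segChord e0 e1 l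

/-- The right end of the last segment reaches both fourth powers `(e / r) ^ 4` of `x`. -/
noncomputable def segRoot (Dv r e0 e1 : ℤ) : List Seg → Bool
  | [] => false
  | [s] =>
    let b := imul (imul (imul r r) (imul r r)) (iadd Dv s.V1)
    ile (imul Dv (imul (imul e0 e0) (imul e0 e0))) b &&
      ile (imul Dv (imul (imul e1 e1) (imul e1 e1))) b
  | _ :: l => segRoot Dv r e0 e1 l

/-- The side conditions of an interval. -/
noncomputable def Ival.sideOK (C : Cfg) (I : Ival) : Bool :=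
  decide (0 ≤ I.A0 ∧ I.A0 < I.A1 ∧ I.A1 ≤ C.Da) &&
  kinkOutside I.A0 I.A1 C.flux.al.kinks && kinkOutside I.A0 I.A1 C.flux.be.kinks &&
  kinkOutside I.A0 I.A1 C.flux.ga.kinks && kinkOutside I.A0 I.A1 C.flux.si.kinks &&
  kinkOutside I.A0 I.A1 C.flux.k5.kinks &&
  logFast C I && envFast C I && I.segs.all (fun s => s.lineFast C) &&
  upperFast C I && lowerFast C I && potFast C I &&
  (I.node.ok && (QN.frac I.node.Tn I.node.Td).le (timeN C.Da I.A0)) &&
  segChain (-C.Dv) I.segs &&
  ((I.env && if I.er ≠ 0 then segRoot C.Dv I.er I.e0 I.e1 I.segs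
      else segChord I.e0 I.e1 I.segs) ||
    segEndN C (I.node.boundN C.m (timeN C.Da I.A0)) (ballN C.Da I.A1) I.segs) &&
  pieceChain I.segs (-C.Dr) I.pieces && !I.pieces.isEmpty &&
  (I.pieces.all fun q => q.okFast C I) &&
  (I.segs.all fun s => s.majFast C && (s.contact || s.slopeFast C I) && s.contactOK C)

/-! ### The cells -/

/-- The forms of degree seven of an interval. -/
structure Forms where
  SSLL : Pk
  STLL : Pk
  TTLL : Pk
  SSLH : Pk
  STLH : Pk
  SPAL : Pk
  SPLu : Pk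
  SPLl : Pk
  SPLL : Pk
  TPLL : Pk

/-- The forms of the gain on an interval. -/
noncomputable def Ival.forms (C : Cfg) (I : Ival) : Forms :=
  let LL := (Pk.unit.lin 1 1).lin 1 1
  let LH := quadForm I ⟨I.h0, 0, I.h1⟩
  let L := Pk.unit.lin 1 1
  { SSLL := (mulS C I (mulS C I LL)).lin 1 1, STLL := (mulS C I (mulT C I LL)).lin 1 1,
    TTLL := (mulT C I (mulT C I LL)).lin 1 1, SSLH := (mulS C I (mulS C I LH)).lin 1 1,
    STLH := (mulS C I (mulT C I LH)).lin 1 1,
    SPAL := (mulS C I (mulP C I (L.lin I.A0 I.A1))).lin 1 1,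
    SPLu := (mulS C I (mulP C I (L.lin I.u0 I.u1))).lin 1 1,
    SPLl := (mulS C I (mulP C I (L.lin I.l0 I.l1))).lin 1 1
    SPLL := (mulS C I (mulP C I LL)).lin 1 1, TPLL := (mulT C I (mulP C I LL)).lin 1 1 }

/-- The rows of an interval: constant and slope coefficients, and the coefficients of the cubic
loss. -/
structure Rows where
  a0 : Pk
  a1 : Pk
  a2 : Pk
  b0 : Pk
  b1 : Pk
  b2 : Pk
  b2σ : Pk
  V0 : Pk
  V1 : Pk
  C3 : Pk
  dB : Pk

/-- The coefficient row of one spline. -/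
noncomputable def Ival.acoef (C : Cfg) (I : Ival) (k1 k2 : ℤ) (e : Quad) : Pk :=
  let f := slopeEnds I.A0 I.A1 e
  ((mulS C I (mulP C I (mulP C I (Pk.unit.lin f.1 f.2)))).smul k1).add
    (((mulP C I (mulT C I (quadForm I e))).lin 1 1).smul k2)

/-- `S P` times a quadratic form, raised to degree seven. -/
noncomputable def Ival.spRow (C : Cfg) (I : Ival) (f : Pk) : Pk :=
  (mulS C I (mulP C I f)).lin 1 1

/-- The rows of an interval. -/
noncomputable def Ival.rows (C : Cfg) (I : Ival) : Rows :=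
  let m : ℤ := Int.ofNat C.m
  let k1 := imul (imul m C.n) C.th'
  let k2 := imul (-2) (imul (imul k1 C.n) C.Da)
  let ea := C.flux.al.line I.A0; let eb := C.flux.be.line I.A0
  let eg := C.flux.ga.line I.A0; let es := C.flux.si.line I.A0
  let nTa := imul (imul C.n C.th') C.Da
  let SPb := I.spRow C (quadForm I eb)
  let SPg := I.spRow C (quadForm I eg)
  let SPs := I.spRow C (quadForm I es)
  let SPLL := I.spRow C ((Pk.unit.lin 1 1).lin 1 1)
  let mm := imul (imul m m) nTa
  let nT3 := imul (imul (imul C.n C.Det) (iadd C.Dth C.t3)) C.Da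
  let m2 := imul 2 (imul (imul m C.n) (imul C.Det C.Da))
  let kK := imul (imul m2 C.Dth) C.kap
  let d := imul m2 (isub C.t3 C.t1)
  let PP := (mulP C I (mulP C I ((Pk.unit.lin 1 1).lin 1 1))).lin 1 1
  let bA := (PP.smul (imul d C.rA)).add (SPLL.smul (ineg (imul d C.Dc)))
  { a0 := I.acoef C k1 k2 ea
    a1 := (I.acoef C k1 k2 eb).add ((bA.smul 2).add (SPLL.smul (ineg kK)))
    a2 := ((I.acoef C k1 k2 eg).add ((SPLL.smul (imul 4 (imul nT3 C.Dc))).add
      ((I.spRow C ((Pk.unit.lin 1 1).lin I.w0 I.w1)).smul (imul (-2) (imul m nTa))))).add bA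
    b0 := SPb.smul mm
    b1 := (SPb.add (SPg.smul 2)).smul mm
    b2 := SPg.smul (imul 2 mm)
    b2σ := SPs.smul (imul 2 (imul nTa (isub m 2)))
    V0 := (I.acoef C k1 k2 es).add (SPLL.smul (imul 2 (imul (imul m nT3) C.Dc)))
    V1 := SPs.smul (imul 2 (imul (imul m nTa) (isub m 1)))
    C3 := SPLL.smul (imul 4 (imul (imul nT3 (isub m 2)) C.Dc))
    dB := PP.smul (imul d (isub C.rB C.rA)) }

/-- The rows with the four-term flux from `v = 2` on, from those of the flux: the fifth spline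
enters `al`, `be`, `ga` with the factors `4`, `-4`, `1`. -/
noncomputable def Ival.rowsHigh (C : Cfg) (I : Ival) (R : Rows) : Rows :=
  let m : ℤ := Int.ofNat C.m
  let k1 := imul (imul m C.n) C.th'
  let k2 := imul (-2) (imul (imul k1 C.n) C.Da)
  let e := C.flux.k5.line I.A0
  let A5 := I.acoef C k1 k2 e
  let B5 := (I.spRow C (quadForm I e)).smul (imul (imul m m) (imul (imul C.n C.th') C.Da))
  { R with
    a0 := R.a0.add (A5.smul 4), a1 := R.a1.add (A5.smul (-4)), a2 := R.a2.add A5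
    b0 := R.b0.add (B5.smul (-4)), b1 := R.b1.add (B5.smul (-2)), b2 := R.b2.add (B5.smul 2) }

/-- A vector of four integers. -/
structure V4 where
  a : ℤ
  b : ℤ
  c : ℤ
  d : ℤ

/-- Four forms, one for each power of `v`. -/
structure R4 where
  c0 : Pk
  c1 : Pk
  c2 : Pk
  c3 : Pk

/-- The combination of `1, 2, 1, 0`, the coefficients of `(1 + v) ^ 2`. -/
noncomputable def V4.sq (M : V4) : ℤ := iadd (iadd M.a (imul 2 M.b)) M.c

/-- The four control functionals of a segment. -/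
noncomputable def Seg.ctrl (C : Cfg) (s : Seg) : V4 × V4 × V4 × V4 :=
  let a := s.V0; let b := s.V1; let D := C.Dv
  let DD := imul D D; let D3 := imul DD D; let aa := imul a a; let bb := imul b b
  let ab := imul a b
  let first : V4 := ⟨D3, imul DD a, imul D aa, imul aa a⟩
  match s.kind with
  | .tail => (first, ⟨0, DD, imul 2 (imul D a), imul 3 aa⟩,
      ⟨0, 0, D, imul 3 a⟩, ⟨0, 0, 0, 1⟩)
  | _ => (first,
      ⟨imul 3 D3, imul DD (iadd (imul 2 a) b),
        imul D (iadd aa (imul 2 ab)), imul 3 (imul aa b)⟩,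
      ⟨imul 3 D3, imul DD (iadd a (imul 2 b)),
        imul D (iadd (imul 2 ab) bb), imul 3 (imul a bb)⟩,
      ⟨D3, imul DD b, imul D bb, imul bb b⟩)

/-- Four integers spread over the blocks, with their absolute sum. -/
noncomputable def spreadW (w : V4) : Pk :=
  let S := packBase ^ 8
  ⟨Nat.add (iposP w.a) (Nat.mul S (Nat.add (iposP w.b)
      (Nat.mul S (Nat.add (iposP w.c) (Nat.mul S (iposP w.d)))))),
    Nat.add (inegP w.a) (Nat.mul S (Nat.add (inegP w.b)
      (Nat.mul S (Nat.add (inegP w.c) (Nat.mul S (inegP w.d)))))),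
    Nat.add (Nat.add (iabs w.a) (iabs w.b)) (Nat.add (iabs w.c) (iabs w.d))⟩

/-- A form times spread integers. -/
noncomputable def spread (W g : Pk) : Pk :=
  ⟨Nat.add (Nat.mul W.P g.P) (Nat.mul W.Q g.Q), Nat.add (Nat.mul W.P g.Q) (Nat.mul W.Q g.P),
    Nat.mul W.n g.n⟩

/-- The first column of the functionals. -/
noncomputable def colA (M : V4 × V4 × V4 × V4) : Pk :=
  spreadW ⟨M.1.a, M.2.1.a, M.2.2.1.a, M.2.2.2.a⟩

/-- The second column of the functionals. -/
noncomputable def colB (M : V4 × V4 × V4 × V4) : Pk :=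
  spreadW ⟨M.1.b, M.2.1.b, M.2.2.1.b, M.2.2.2.b⟩

/-- The third column of the functionals. -/
noncomputable def colC (M : V4 × V4 × V4 × V4) : Pk :=
  spreadW ⟨M.1.c, M.2.1.c, M.2.2.1.c, M.2.2.2.c⟩

/-- The fourth column of the functionals. -/
noncomputable def colD (M : V4 × V4 × V4 × V4) : Pk :=
  spreadW ⟨M.1.d, M.2.1.d, M.2.2.1.d, M.2.2.2.d⟩

/-- The value of a functional on integer coefficients. -/
noncomputable def V4.dot (M r : V4) : ℤ :=
  iadd (iadd (imul M.a r.a) (imul M.b r.b)) (iadd (imul M.c r.c) (imul M.d r.d))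

/-- The controls of an integer polynomial, spread. -/
noncomputable def polyW (M : V4 × V4 × V4 × V4) (r : V4) : Pk :=
  spreadW ⟨M.1.dot r, M.2.1.dot r, M.2.2.1.dot r, M.2.2.2.dot r⟩

/-- The controls of a row with three forms. -/
noncomputable def ctrl3 (M : V4 × V4 × V4 × V4) (c0 c1 c2 : Pk) : Pk :=
  ((spread (colA M) c0).add (spread (colB M) c1)).add (spread (colC M) c2)

/-- The four controls of a row, packed: the columns of the functionals spread over the blocks. -/
noncomputable def R4.ctrl (r : R4) (M : V4 × V4 × V4 × V4) : Pk :=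
  (((spread (colA M) r.c0).add (spread (colB M) r.c1)).add (spread (colC M) r.c2)).add
    (spread (colD M) r.c3)

/-- The rows below one. -/
noncomputable def Rows.below (R : Rows) (m : ℤ) : R4 × R4 :=
  (⟨R.a0.smul (imul 3 m), (R.a1.add (R.dB.smul 2)).smul (imul 3 m),
      (R.a2.add R.dB).smul (imul 3 m), R.C3⟩,
    ⟨R.b0.smul (imul 3 m), R.b1.smul (imul 3 m), R.b2.smul (imul 3 m), Pk.zero⟩)

/-- The rows above one without the cubic loss. -/
noncomputable def Rows.zero (R : Rows) : R4 × R4 :=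
  (⟨R.a0, R.a1, R.a2, Pk.zero⟩, ⟨R.b0, R.b1, R.b2.add R.b2σ, Pk.zero⟩)

/-- The rows above one with the majorant of the cubic loss. -/
noncomputable def Rows.full (R : Rows) (Dc : ℤ) (s : Seg) : R4 × R4 :=
  (⟨(R.a0.smul Dc).add (R.V0.smul s.r0), (R.a1.smul Dc).add (R.V0.smul s.r1),
      (R.a2.smul Dc).add (R.V0.smul s.r2), R.V0.smul s.r3⟩,
    ⟨(R.b0.smul Dc).add (R.V1.smul s.r0), (R.b1.smul Dc).add (R.V1.smul s.r1),
      ((R.b2.add R.b2σ).smul Dc).add (R.V1.smul s.r2), R.V1.smul s.r3⟩)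

/-- The gain controls of a piece, with the sign of the loss coefficient at its ends. -/
structure Gain where
  R0 : ℤ
  R1 : ℤ
  z : ℤ
  g0 : Pk
  g1 : Pk
  g2 : Pk
  pos : Bool
  neg : Bool

/-- The three coefficients of a tangent gain in the slope. -/
noncomputable def Piece.tanCoef (C : Cfg) (F : Forms) (q : Piece) : Pk × Pk × Pk :=
  let zn := imul 2 (imul q.B q.Db)
  let zd := iadd (imul q.Db q.Db) (imul q.B q.B)
  let zdk := imul (imul zd zd) q.kd
  let kA := imul (imul 2 (imul C.Det C.Da)) zdk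
  let kB := imul (imul 2 (imul C.Det C.Dc)) zdk
  let kC := imul (imul 2 (imul (imul C.Det C.Da) C.Dc)) q.kn
  let kU := imul (imul (isub C.Det C.et) C.Da) zdk
  let dd := imul zd zd; let nn := imul zn zn
  let kdn := imul 2 (imul kC (imul zd zn))
  (((F.SSLL.smul (iadd (imul kA q.c) (imul kC nn))).add
      (F.STLL.smul (isub (imul kA q.g) kdn))).add
      ((F.TTLL.smul (imul kC dd)).add (F.SSLH.smul (ineg kA))),
    (((F.SSLL.smul (isub kdn (imul kA q.g))).add
      (F.STLL.smul (ineg (iadd (imul kA q.c) (imul (imul 2 kC) (iadd dd nn)))))).add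
      ((F.TTLL.smul kdn).add (F.STLH.smul kA))).add (F.SPAL.smul kB),
    ((F.SSLL.smul (imul kC dd)).add (F.STLL.smul (ineg kdn))).add
      ((F.TTLL.smul (imul kC nn)).add (F.SPLu.smul (ineg kU))))

/-- The three coefficients of the gain of an edge piece in the slope: the bound
`(1 - t ρ) c - ((1 - ρ ^ 2) / (2 u) + u / 2) + ρ a` less the weight term, with `u = Yn / Yd`. -/
noncomputable def Piece.edgeCoef (C : Cfg) (F : Forms) (q : Piece) : Pk × Pk × Pk :=
  let z := imul 2 (imul q.Yn q.Yd)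
  let kA := imul (imul (imul 2 (imul C.Det C.Da)) z) q.c
  let kB := imul (imul 2 (imul C.Det C.Dc)) z
  let kU := imul (imul (isub C.Det C.et) C.Da) z
  let kR := imul 2 (imul (imul C.Det C.Da) C.Dc)
  let dd := imul q.Yd q.Yd
  (F.SPLL.smul (isub kA (imul kR (iadd dd (imul q.Yn q.Yn)))),
    (F.TPLL.smul (ineg kA)).add (F.SPAL.smul kB),
    (F.SPLL.smul (imul kR dd)).add (F.SPLu.smul (ineg kU)))

/-- The controls of a quadratic in the slope on a piece. -/
noncomputable def slopeCtrl (D a b : ℤ) (e : Pk × Pk × Pk) : Pk × Pk × Pk :=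
  let DD := imul D D
  (((e.1.smul DD).add (e.2.1.smul (imul D a))).add (e.2.2.smul (imul a a)),
    ((e.1.smul (imul 2 DD)).add (e.2.1.smul (imul D (iadd a b)))).add
      (e.2.2.smul (imul 2 (imul a b))),
    ((e.1.smul DD).add (e.2.1.smul (imul D b))).add (e.2.2.smul (imul b b)))

/-- The gain controls of a piece. -/
noncomputable def Piece.gain (C : Cfg) (F : Forms) (R : Rows) (q : Piece) : Gain :=
  let mth := imul (imul (Int.ofNat C.m) (Int.ofNat C.m)) C.th
  let v0 := (R.V0.smul C.Dr).add (R.V1.smul q.R0)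
  let v1 := (R.V0.smul C.Dr).add (R.V1.smul q.R1)
  let pos := v0.nn 8 && v1.nn 8
  let e := if q.tan then q.tanCoef C F
    else if q.B = 0 then (Pk.zero, Pk.zero, F.SPLl.smul (imul C.et C.Da))
    else q.edgeCoef C F
  let g := slopeCtrl C.Dr q.R0 q.R1 e
  { R0 := q.R0, R1 := q.R1
    z := if q.tan then
        imul (imul (iadd (imul q.Db q.Db) (imul q.B q.B))
          (iadd (imul q.Db q.Db) (imul q.B q.B))) q.kd
      else if q.B = 0 then 1 else imul 2 (imul q.Yn q.Yd)
    g0 := g.1.smul mth, g1 := g.2.1.smul mth, g2 := g.2.2.smul mth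
    pos := pos
    neg := !pos && (v0.smul (-1)).nn 8 && (v1.smul (-1)).nn 8 }

/-- A variant of the rows on a segment, in control coordinates, with its spread weights. -/
structure Side where
  p : Pk
  q : Pk
  W : Pk

/-- The weights of `(1 + v) ^ 2` in control coordinates, scaled. -/
noncomputable def sideW (M : V4 × V4 × V4 × V4) (s : ℤ) : Pk :=
  spreadW ⟨imul s M.1.sq, imul s M.2.1.sq, imul s M.2.2.1.sq, imul s M.2.2.2.sq⟩

/-- The control coordinates of two rows. -/
noncomputable def mkSide (M : V4 × V4 × V4 × V4) (r : R4 × R4) (s : ℤ) : Side :=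
  { p := r.1.ctrl M, q := r.2.ctrl M, W := sideW M s }

/-- The three packed tests of a cell. -/
noncomputable def cellOK (D : ℤ) (S : Side) (G : Gain) : Bool :=
  let DD := ineg (imul G.z (imul D D)); let zD := ineg (imul G.z D)
  ((spread S.W G.g0).add ((S.p.smul DD).add (S.q.smul (imul zD G.R0)))).nn 32 &&
  ((spread S.W G.g1).add ((S.p.smul (imul 2 DD)).add
    (S.q.smul (imul zD (iadd G.R0 G.R1))))).nn 32 &&
  ((spread S.W G.g2).add ((S.p.smul DD).add (S.q.smul (imul zD G.R1)))).nn 32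

/-- One test of a contact segment: a functional of the quadratic in the ratio. -/
noncomputable def ratioTest (S : Side) (g : Pk) (k0 k1 k2 : ℤ) : Bool :=
  ((spread S.W (g.smul k2)).add ((S.p.smul (ineg k0)).add (S.q.smul (ineg k1)))).nn 32

/-- The tests from the first ratio on, with the tail to the right at the end. -/
noncomputable def ratioChain (D : ℤ) (S : Side) (g : Pk) (a : ℤ) : List ℤ → Bool
  | [] =>
    ratioTest S g (imul D D) (imul D a) (imul a a) && ratioTest S g 0 D (imul 2 a) &&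
      ratioTest S g 0 0 1
  | b :: l =>
    decide (a < b) && ratioTest S g (imul D D) (imul D a) (imul a a) &&
      ratioTest S g (imul 2 (imul D D)) (imul D (iadd a b)) (imul 2 (imul a b)) &&
      ratioTest S g (imul D D) (imul D b) (imul b b) && ratioChain D S g b l

/-- All ratios: the tail to the left, then the chain. -/
noncomputable def ratioOK (D : ℤ) (S : Side) (g : Pk) : List ℤ → Bool
  | [] => false
  | a :: l =>
    ratioTest S g (imul D D) (imul D a) (imul a a) &&
      ratioTest S g 0 (ineg D) (imul (-2) a) && ratioTest S g 0 0 1 &&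
      ratioChain D S g a l

/-- The rows of a contact segment, divided by `v ^ 2` in the ratio. -/
noncomputable def R4.contact (r : R4 × R4) : R4 × R4 :=
  (⟨r.1.c2, r.1.c3, Pk.zero, Pk.zero⟩, ⟨r.2.c1, r.2.c2, r.2.c3, Pk.zero⟩)

/-- The forms of the constraints of an interval, of degree seven. -/
structure Pads where
  S : Pk
  P : Pk
  T : Pk
  L : Pk
  one : Pk
  SP : Pk

/-- The weight `(e1 U + e0 X) ^ 3`, which falls as the slope of the envelope rises. -/
noncomputable def Ival.rootW (I : Ival) : Pk :=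
  ((Pk.unit.lin I.e1 I.e0).lin I.e1 I.e0).lin I.e1 I.e0

/-- The weight times `er ^ 4`. -/
noncomputable def Ival.rootOne (I : Ival) : Pk :=
  ((((I.rootW.lin 1 1).lin 1 1).lin 1 1).lin 1 1).smul (imul (imul I.er I.er) (imul I.er I.er))

/-- The weight times `Dv ((e0 U + e1 X) ^ 4 - er ^ 4)`. -/
noncomputable def Ival.rootL (C : Cfg) (I : Ival) : Pk :=
  (((((I.rootW.lin I.e0 I.e1).lin I.e0 I.e1).lin I.e0 I.e1).lin I.e0 I.e1).smul C.Dv).add
    (I.rootOne.smul (ineg C.Dv))

/-- The forms of the constraints. -/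
noncomputable def Ival.pads (C : Cfg) (I : Ival) : Pads :=
  let five := ((((Pk.unit.lin 1 1).lin 1 1).lin 1 1).lin 1 1).lin 1 1
  { S := mulS C I five, P := mulP C I five, T := mulT C I five
    L := if I.env then (if I.er ≠ 0 then I.rootL C else (five.lin 1 1).lin I.e0 I.e1) else Pk.zero
    one := if I.env then (if I.er ≠ 0 then I.rootOne else (five.lin 1 1).lin 1 1) else Pk.zero
    SP := I.spRow C ((Pk.unit.lin 1 1).lin 1 1) }

/-- The bound of the slope by the centre: `Dc S - w0 P - v w1 P - ρ Dc T`. -/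
noncomputable def Pads.muRows (E : Pads) (C : Cfg) (s : Seg) : R4 × R4 :=
  (⟨(E.S.smul C.Dc).add (E.P.smul (ineg s.w0)), E.P.smul (ineg s.w1), Pk.zero, Pk.zero⟩,
    ⟨E.T.smul (ineg C.Dc), Pk.zero, Pk.zero, Pk.zero⟩)

/-- The packed constraints of one variant of a segment. -/
structure Cons where
  muP : Pk
  muQ : Pk
  nuP : Pk
  sqP : Pk
  sqQ : Pk
  SP : Pk

/-- The constraints in control coordinates: the bound of the slope by the centre, the chord of the
envelope less `Dv v`, and the parts of `σ S P (Dr x ρ - sg - tau v) ^ 2` free and linear in the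
slope. -/
noncomputable def Pads.cons (E : Pads) (C : Cfg) (s : Seg) (M : V4 × V4 × V4 × V4) (σ : ℤ) : Cons :=
  let F := E.SP.smul σ
  let k := imul (-2) C.Dr
  { muP := (spread (colA M) (E.S.smul C.Dc)).add
      (spread (polyW M ⟨ineg s.w0, ineg s.w1, 0, 0⟩) E.P)
    muQ := spread (colA M) (E.T.smul (ineg C.Dc))
    nuP := (spread (colA M) E.L).add (spread (colB M) (E.one.smul (ineg C.Dv)))
    sqP := spread (polyW M ⟨imul s.sg s.sg, imul 2 (imul s.sg s.tau), imul s.tau s.tau, 0⟩) F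
    sqQ := spread (polyW M ⟨imul k s.sg, imul k (iadd s.sg s.tau), imul k s.tau, 0⟩) F
    SP := E.SP.smul (imul C.Dr C.Dr) }

/-- The sum with a multiple by a natural number, skipped at zero. -/
noncomputable def addMul (p q : Pk) (k : ℕ) : Pk :=
  bif Nat.beq k 0 then p else p.add (q.smul (Int.ofNat k))

/-- A side plus the constraints with their multipliers. -/
noncomputable def Side.adj (S : Side) (K : Cons) (M : Mult) : Side :=
  { p := addMul (addMul (addMul S.p K.muP M.mu) K.nuP M.nu) K.sqP M.sq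
    q := addMul (addMul S.q K.muQ M.mu) K.sqQ M.sq
    W := S.W }

/-- The gain less the square in the slope. -/
noncomputable def Gain.adj (g : Gain) (K : Cons) (M : Mult) : Gain :=
  bif Nat.beq M.sq 0 then g else
  let c := ineg (imul g.z (Int.ofNat M.sq))
  { g with
    g0 := g.g0.add (K.SP.smul (imul c (imul g.R0 g.R0)))
    g1 := g.g1.add (K.SP.smul (imul c (imul 2 (imul g.R0 g.R1))))
    g2 := g.g2.add (K.SP.smul (imul c (imul g.R1 g.R1))) }

/-- The side of the rows above one with the cubic `r0 + r1 v + r2 v ^ 2 + r3 v ^ 3` for the loss: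
`base` is the part without it. -/
noncomputable def Side.loss (base : Side) (R : Rows) (M : V4 × V4 × V4 × V4) (r : V4) : Side :=
  let w := polyW M r
  { p := base.p.add (spread w R.V0), q := base.q.add (spread w R.V1), W := base.W }

/-- The side of the rows above one without the loss, times `Dc`. -/
noncomputable def Rows.baseSide (R : Rows) (M : V4 × V4 × V4 × V4) (Dc : ℤ) : Side :=
  { p := (ctrl3 M R.a0 R.a1 R.a2).smul Dc
    q := (ctrl3 M R.b0 R.b1 (R.b2.add R.b2σ)).smul Dc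
    W := sideW M Dc }

/-- The side of the rows below one. -/
noncomputable def Rows.belowSide (R : Rows) (M : V4 × V4 × V4 × V4) (m : ℤ) : Side :=
  let k := imul 3 m
  { p := ((ctrl3 M R.a0 (R.a1.add (R.dB.smul 2)) (R.a2.add R.dB)).smul k).add
      (spread (colD M) R.C3)
    q := (ctrl3 M R.b0 R.b1 R.b2).smul k
    W := sideW M k }

/-- A cell with multipliers. -/
noncomputable def cellMult (D : ℤ) (S : Side) (K : Cons) (M : Mult) (g : Gain) : Bool :=
  bif Nat.beq (Nat.add M.mu (Nat.add M.nu M.sq)) 0 then cellOK D S g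
  else cellOK D (S.adj K M) (g.adj K M)

/-- A test over the pieces with their multipliers; missing multipliers are zero. -/
noncomputable def cellsWith (f : Gain → Mult → Mult → Bool) : List Gain → List Mult → List Mult → Bool
  | [], _, _ => true
  | g :: G, a, b => f g (a.headD ⟨0, 0, 0⟩) (b.headD ⟨0, 0, 0⟩) && cellsWith f G a.tail b.tail

/-- The cells of a segment on an interval. -/
noncomputable def segCells (C : Cfg) (R : Rows) (G : List Gain) (Q : Pk) (E : Pads) (s : Seg) : Bool :=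
  let M := s.ctrl C
  if s.contact then
    match s.kind with
    | .below =>
      ratioOK C.Dr (mkSide M (R4.contact (R.below (Int.ofNat C.m))) (imul 3 (Int.ofNat C.m)))
        Q s.taus
    | _ =>
      ratioOK C.Dr (mkSide M (R4.contact R.zero) 1) Q s.taus &&
        ratioOK C.Dr (mkSide M (R4.contact (R.full C.Dc s)) C.Dc) Q s.taus
  else
  match s.kind with
  | .below =>
    let σ := imul 3 (Int.ofNat C.m)
    let S := R.belowSide M (Int.ofNat C.m)
    let K := E.cons C s M σ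
    cellsWith (fun g a _ => (!ile g.R0 s.R) || cellMult C.Dr S K a g) G s.m0 s.m1
  | _ =>
    let B := R.baseSide M C.Dc
    let S0 := B.loss R M ⟨s.l0, s.l1, s.l2, 0⟩
    let Sf := B.loss R M ⟨s.r0, s.r1, s.r2, s.r3⟩
    let K := E.cons C s M C.Dc
    cellsWith (fun g a b => (!ile g.R0 s.R) ||
      ((g.pos || cellMult C.Dr S0 K a g) && (g.neg || cellMult C.Dr Sf K b g))) G s.m0 s.m1

/-- Whether a segment starts at `v = 2` or above. -/
noncomputable def Seg.high (C : Cfg) (s : Seg) : Bool := ile (imul 2 C.Dv) s.V0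

/-- Whether a segment stays up to `v = 2`. -/
noncomputable def Seg.low (C : Cfg) (s : Seg) : Bool := !s.isTail && ile s.V1 (imul 2 C.Dv)

/-- The calibration with the four-term flux of the segments from `v = 2` on. -/
noncomputable def Cfg.far (C : Cfg) : Cfg := { C with flux := C.flux.high }

/-- All cells of an interval. -/
noncomputable def Ival.cellsOK (C : Cfg) (I : Ival) : Bool :=
  let R := I.rows C
  let F := I.forms C
  let G := I.pieces.map fun q => q.gain C F R
  let Q := (F.SPLl.smul (imul C.et C.Da)).smul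
    (imul (imul (Int.ofNat C.m) (Int.ofNat C.m)) C.th)
  let R5 := I.rowsHigh C R
  let E := I.pads C
  I.segs.all fun s =>
    if s.high C then !s.contact && segCells C.far R5 G Q E s
    else s.low C && segCells C R G Q E s

/-- The flux is nonpositive at the centre on a segment. -/
noncomputable def centreSegFlux (C : Cfg) (s : Seg) : Bool :=
  let M := s.ctrl C
  let a := C.flux.al.e0; let b := C.flux.be.e0; let g := C.flux.ga.e0
  let k : V4 :=
    match s.kind with
    | .below => ⟨a, b, g, 0⟩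
    | _ =>
      let σ := max C.flux.si.e0 0
      ⟨C.Dc * a + σ * s.r0, C.Dc * b + σ * s.r1, C.Dc * g + σ * s.r2, σ * s.r3⟩
  let t := fun v : V4 => decide (v.a * k.a + v.b * k.b + v.c * k.c + v.d * k.d ≤ 0)
  s.majFast C && t M.1 && t M.2.1 && t M.2.2.1 && t M.2.2.2

/-- The flux is nonpositive at the centre on a segment, on its side of `v = 2`. -/
noncomputable def centreSeg (C : Cfg) (s : Seg) : Bool :=
  if s.high C then centreSegFlux C.far s else s.low C && centreSegFlux C s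

/-- The start of the segments at the centre is below every `x` with `b₀ ≤ x ^ 2`. -/
noncomputable def centreStart (C : Cfg) : List Seg → Bool
  | [] => false
  | s :: l => (decide (s.V0 ≤ -C.Dv) ||
      decide ((1 + (s.V0 : ℚ) / C.Dv) ^ 2 ≤ (C.b0n : ℚ) / C.b0d)) && segChain s.V0 (s :: l)

/-- The check at the centre. -/
noncomputable def Cfg.centreOK (C : Cfg) : Bool :=
  (C.flux.al.kinks.all fun c => decide (0 ≤ c.1)) &&
  (C.flux.be.kinks.all fun c => decide (0 ≤ c.1)) &&
  (C.flux.ga.kinks.all fun c => decide (0 ≤ c.1)) &&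
  (C.flux.si.kinks.all fun c => decide (0 ≤ c.1)) &&
  (C.flux.k5.kinks.all fun c => decide (0 ≤ c.1)) &&
  centreStart C C.csegs && segEnd C ((C.centre.Kn : ℚ) / C.centre.Kd) 1 C.csegs &&
  C.csegs.all (centreSeg C)

/-- A chain of intervals up to `Da`. -/
noncomputable def ivalChain (Da a : ℤ) : List Ival → Bool
  | [] => decide (Da ≤ a)
  | I :: l => decide (I.A0 ≤ a) && ivalChain Da I.A1 l

/-- The signs of the parameters and the chain of intervals. -/
noncomputable def Cfg.headOK (C : Cfg) : Bool :=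
  decide (3 ≤ C.m) && decide (0 ≤ C.th ∧ 0 < C.Dth ∧ 0 ≤ C.et ∧ C.et ≤ C.Det ∧ 0 < C.Det) &&
  decide (0 < C.Da ∧ 0 < C.Dc ∧ 0 < C.Dr ∧ 0 < C.Dv ∧ 0 < C.Dw) &&
  decide (0 < C.b0d ∧ 0 < C.centre.Kd) &&
  decide (0 ≤ C.cb ∧ ((C.cb : ℚ) / C.Dc) ^ C.m ≤ (C.b0n : ℚ) / C.b0d) &&
  decide (0 ≤ C.t1 ∧ 0 ≤ C.t3) && C.ratioOK &&
  ivalChain C.Da 0 C.ivals

/-- The whole check. -/
noncomputable def Cfg.check (C : Cfg) : Bool :=
  C.headOK && C.centreOK && C.ivals.all fun I => I.sideOK C && I.cellsOK C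

end Vale.Agent.P237.Quant.TailCert
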