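import Vale.Agent.P237.Quant.TailCheck

/-!
Packed data for tail calibrations: an interval, a flux or a list of segments is stored in one
natural. The lowest 64 bits of every stream are arbitrary (they keep the numerals apart); integers
are stored with the sign as lowest bit. An interval is a row of fields, each a length of ten bits
followed by the payload; pieces, segments and splines are nested streams (length of twenty bits)
with fixed widths of their slots in a header.
-/

namespace Vale.Agent.P237.Quant.TailCert.Decode

/-- Applies `k` to `x`; the kernel evaluates `x` to a numeral first. -/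
noncomputable def force {α : Type} (x : ℕ) (k : ℕ → α) : α :=
  Nat.rec (k 0) (fun n _ => k (Nat.succ n)) x

/-- Reads a field whose length takes `w` bits at the position `p` of `N`. -/
noncomputable def field {α : Type} (w : ℕ) (N p : ℕ) (k : ℕ → ℕ → α) : α :=
  force (Nat.land (Nat.shiftRight N p) (Nat.sub (Nat.shiftLeft 1 w) 1)) fun len =>
    force (Nat.land (Nat.shiftRight N (Nat.add p w)) (Nat.sub (Nat.shiftLeft 1 len) 1)) fun z =>
      force (Nat.add (Nat.add p w) len) fun q => k z q

/-- Reads a natural. -/
noncomputable def rdN {α : Type} (N p : ℕ) (k : ℕ → ℕ → α) : α := field 10 N p k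

/-- Reads an integer. -/
noncomputable def rdZ {α : Type} (N p : ℕ) (k : ℤ → ℕ → α) : α :=
  rdN N p fun z q =>
    Bool.rec (k (Int.ofNat (Nat.div z 2)) q) (k (Int.negSucc (Nat.div z 2)) q)
      (Nat.beq (Nat.mod z 2) 1)

/-- Reads a Boolean. -/
noncomputable def rdB {α : Type} (N p : ℕ) (k : Bool → ℕ → α) : α :=
  rdN N p fun z q => k (Nat.beq z 1) q

/-- Reads a kind of segment. -/
noncomputable def rdKind {α : Type} (N p : ℕ) (k : Kind → ℕ → α) : α :=
  rdN N p fun z q =>
    Bool.rec (Bool.rec (k Kind.tail q) (k Kind.mid q) (Nat.beq z 1)) (k Kind.below q)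
      (Nat.beq z 0)

/-- Reads a list with its length in front. -/
noncomputable def rdList {α β : Type} (rd : ℕ → ℕ → (β → ℕ → α) → α) (N p : ℕ)
    (k : List β → ℕ → α) : α :=
  rdN N p fun c q =>
    Nat.rec (motive := fun _ => ℕ → (List β → ℕ → α) → α) (fun r f => f [] r)
      (fun _ ih r f => rd N r fun x r' => ih r' fun l r'' => f (x :: l) r'') c q k

/-- Reads a nested stream and decodes it by `g`. -/
noncomputable def rdSub {α β : Type} (g : ℕ → β) (N p : ℕ) (k : β → ℕ → α) : α :=
  field 20 N p fun z q => k (g z) q

/-- The natural in `w` bits at the position `p`. -/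
noncomputable def natAt (N p w : ℕ) : ℕ :=
  Nat.land (Nat.shiftRight N p) (Nat.sub (Nat.shiftLeft 1 w) 1)

/-- The integer with natural code `z`. -/
noncomputable def intOf (z : ℕ) : ℤ :=
  Bool.rec (Int.ofNat (Nat.div z 2)) (Int.negSucc (Nat.div z 2)) (Nat.beq (Nat.mod z 2) 1)

/-- The integer in slot `i` of width `w` after `p`. -/
noncomputable def intAt (N p w i : ℕ) : ℤ := intOf (natAt N (Nat.add p (Nat.mul i w)) w)

/-- The list of `c` items, the `i`th made by `f`. -/
noncomputable def table {β : Type} (c : ℕ) (f : ℕ → β) : List β :=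
  Nat.rec (motive := fun _ => List β → List β) (fun l => l)
    (fun i ih l => ih (f i :: l)) c []

/-- A spline from its stream. -/
noncomputable def spline (N : ℕ) : Spline :=
  force (natAt N 64 10) fun w => force (natAt N 74 10) fun c =>
    ⟨intAt N 84 w 0, intAt N 84 w 1, intAt N 84 w 2, table c fun i =>
      (intAt N 84 w (Nat.add (Nat.mul 3 i) 3), intAt N 84 w (Nat.add (Nat.mul 3 i) 4),
        intAt N 84 w (Nat.add (Nat.mul 3 i) 5))⟩

/-- A node from its stream. -/
noncomputable def rdNode {α : Type} (N p : ℕ) (k : Node → ℕ → α) : α :=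
  rdZ N p fun Tn p => rdZ N p fun Td p => rdZ N p fun Kn p => rdZ N p fun Kd p =>
    rdZ N p fun Xn p => rdZ N p fun Xd p => k ⟨Tn, Td, Kn, Kd, Xn, Xd⟩ p

/-- A piece from its stream. -/
noncomputable def piece (N : ℕ) : Piece :=
  force (natAt N 64 10) fun w => force (natAt N 74 10) fun v =>
    force (Nat.add 85 (Nat.mul 2 v)) fun p =>
      ⟨intAt N p w 0, intAt N p w 1, Nat.beq (natAt N 84 1) 1, intAt N p w 2, intAt N p w 3,
        intAt N 85 v 0, intAt N 85 v 1, intAt N p w 4, intAt N p w 5, intAt N p w 6,
        intAt N p w 7⟩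

/-- A multiplier triple in slot `i`, with three widths. -/
noncomputable def multAt (N p u t o i : ℕ) : Mult :=
  (fun q => ⟨natAt N q u, natAt N (Nat.add q u) t, natAt N (Nat.add (Nat.add q u) t) o⟩ : ℕ → Mult)
    (Nat.add p (Nat.mul i (Nat.add u (Nat.add t o))))

/-- A segment from its stream. -/
noncomputable def seg (N : ℕ) : Seg :=
  force (natAt N 64 10) fun w => force (natAt N 74 10) fun v => force (natAt N 84 10) fun u =>
    force (natAt N 94 10) fun c => force (natAt N 104 10) fun c0 => force (natAt N 114 10) fun c1 =>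
      force (natAt N 127 10) fun t => force (natAt N 137 10) fun o =>
      force (Nat.add 147 (Nat.mul 9 v)) fun p =>
        force (Nat.add p (Nat.mul (Nat.add 9 c) w)) fun q =>
          ⟨intAt N p w 0, intAt N p w 1,
            Bool.rec (Bool.rec Kind.tail Kind.mid (Nat.beq (natAt N 124 2) 1)) Kind.below
              (Nat.beq (natAt N 124 2) 0),
            intAt N 147 v 0, intAt N 147 v 1, intAt N 147 v 2, intAt N 147 v 3,
            intAt N p w 2, intAt N p w 3, intAt N p w 4, Nat.beq (natAt N 126 1) 1,
            table c fun i => intAt N p w (Nat.add 9 i),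
            intAt N 147 v 4, intAt N 147 v 5, intAt N p w 5, intAt N p w 6, intAt N p w 7,
            intAt N p w 8, table c0 fun i => multAt N q u t o i,
            table c1 fun i => multAt N q u t o (Nat.add c0 i),
            intAt N 147 v 6, intAt N 147 v 7, intAt N 147 v 8⟩

/-- An interval from its packed form. -/
noncomputable def ival (N : ℕ) : Ival :=
  rdZ N 64 fun A0 p => rdZ N p fun A1 p => rdB N p fun wb p => rdZ N p fun w0 p =>
    rdZ N p fun w1 p => rdZ N p fun u0 p => rdZ N p fun u1 p => rdZ N p fun l0 p =>
      rdZ N p fun l1 p => rdZ N p fun h0 p => rdZ N p fun h1 p => rdNode N p fun node p =>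
        rdList (rdSub piece) N p fun ps p => rdList (rdSub seg) N p fun ss p =>
          rdB N p fun env p => rdZ N p fun e0 p => rdZ N p fun e1 p =>
            rdZ N p fun er _ =>
              ⟨A0, A1, wb, w0, w1, u0, u1, l0, l1, h0, h1, node, ps, ss, env, e0, e1, er⟩

/-- A flux from its packed form. -/
noncomputable def flux (N : ℕ) : Flux :=
  rdSub spline N 64 fun al p => rdSub spline N p fun be p => rdSub spline N p fun ga p =>
    rdSub spline N p fun si p => rdSub spline N p fun k5 _ => ⟨al, be, ga, si, k5⟩

/-- A list of segments from its packed form. -/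
noncomputable def segs (N : ℕ) : List Seg :=
  rdList (rdSub seg) N 64 fun l _ => l

end Vale.Agent.P237.Quant.TailCert.Decode
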