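import Mathlib
import Vale.Agent.P237.Quant.TailCell
import Vale.Agent.P237.Quant.FluxSum
import Vale.Agent.P237.Quant.TailCheck

/-!
The four-term flux of the tail checker: piecewise quadratic coefficients in the half angle against
`1`, `v`, `v ^ 2` and the positive part of the cubic loss, `v = x - 1`.
-/

namespace Vale.Agent.P237.Quant.TailCert

open MeasureTheory Set Filter Topology

variable {m : ℕ}

/-- The kink part of a spline. -/
noncomputable def kinkVal : List (ℤ × ℤ × ℤ) → ℝ → ℝ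
  | [], _ => 0
  | (c, d, q) :: l, A => (d : ℝ) * max (A - c) 0 + (q : ℝ) * max (A - c) 0 ^ 2 + kinkVal l A

/-- Its right slope. -/
noncomputable def kinkSlope : List (ℤ × ℤ × ℤ) → ℝ → ℝ
  | [], _ => 0
  | (c, d, q) :: l, A => (if (c : ℝ) ≤ A then (d : ℝ) + 2 * q * (A - c) else 0) + kinkSlope l A

theorem kink_on {A₀ A₁ : ℤ} : ∀ (l : List (ℤ × ℤ × ℤ)) (r : Quad), kinkFree A₀ A₁ l = true →
    ∀ {A : ℝ}, (A₀ : ℝ) ≤ A → A < A₁ →
    (r.e0 : ℝ) + r.e1 * A + r.e2 * A ^ 2 + kinkVal l A =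
        (kinkLine A₀ l r).e0 + (kinkLine A₀ l r).e1 * A + (kinkLine A₀ l r).e2 * A ^ 2 ∧
      (r.e1 : ℝ) + 2 * r.e2 * A + kinkSlope l A =
        (kinkLine A₀ l r).e1 + 2 * (kinkLine A₀ l r).e2 * A
  | [], r, _, A, _, _ => by simp [kinkVal, kinkSlope, kinkLine]
  | (c, d, q) :: l, r, h, A, h0, h1 => by
      simp only [kinkFree, Bool.and_eq_true, Bool.or_eq_true, decide_eq_true_eq] at h
      simp only [kinkVal, kinkSlope, kinkLine]
      by_cases hc : c ≤ A₀
      · have hc' : (c : ℝ) ≤ A := le_trans (Int.cast_le.2 hc) h0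
        rw [if_pos hc, if_pos hc', max_eq_left (by linarith)]
        obtain ⟨e1, e2⟩ := kink_on l ⟨r.e0 + c * (q * c - d), r.e1 + (d - 2 * (q * c)), r.e2 + q⟩
          h.2 h0 h1
        simp only [iadd_eq, imul_eq, isub_eq]
        rw [← e1, ← e2]
        push_cast
        constructor <;> ring
      · have hc' : A < c := h1.trans_le (Int.cast_le.2 (h.1.resolve_left hc))
        obtain ⟨e1, e2⟩ := kink_on l r h.2 h0 h1
        rw [if_neg hc, if_neg hc'.not_ge, max_eq_right (by linarith), ← e1, ← e2]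
        constructor <;> ring

theorem kinkSorted_le : ∀ (l : List (ℤ × ℤ × ℤ)) (v : ℤ), kinkSorted l v = true →
    ∀ c ∈ l, v ≤ c.1
  | [], _, _, c, hc => by simp at hc
  | h :: t, v, hs, c, hc => by
      have e : ile v h.1 = true ∧ kinkSorted t h.1 = true := Bool.and_eq_true_iff.1 hs
      rw [ile_eq, decide_eq_true_eq] at e
      rcases List.mem_cons.1 hc with rfl | hc
      · exact e.1
      · exact e.1.trans (kinkSorted_le t h.1 e.2 c hc)

theorem kinkFree_high {A₀ A₁ : ℤ} : ∀ l : List (ℤ × ℤ × ℤ), (∀ c ∈ l, A₁ ≤ c.1) →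
    kinkFree A₀ A₁ l = true
  | [], _ => rfl
  | (c, d, q) :: l, h => by
      simp [kinkFree, h (c, d, q) (by simp), kinkFree_high l fun x hx => h x (by simp [hx])]

/-- The short test of the kinks implies the full one. -/
theorem kinkFree_of_outside {A₀ A₁ : ℤ} : ∀ l : List (ℤ × ℤ × ℤ),
    kinkOutside A₀ A₁ l = true → kinkFree A₀ A₁ l = true
  | [], _ => rfl
  | (c, d, q) :: t, hs => by
      have e : (bif ile c A₀ then kinkOutside A₀ A₁ t
        else ile A₁ c && (kinkSorted t c || kinkOutside A₀ A₁ t)) = true := hs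
      simp only [kinkFree, Bool.and_eq_true, Bool.or_eq_true, decide_eq_true_eq]
      by_cases hc : c ≤ A₀
      · rw [ile_eq, decide_eq_true hc] at e
        exact ⟨.inl hc, kinkFree_of_outside t e⟩
      · rw [ile_eq, decide_eq_false hc] at e
        simp only [cond_false, Bool.and_eq_true, Bool.or_eq_true, ile_eq, decide_eq_true_eq] at e
        refine ⟨.inr e.1, ?_⟩
        rcases e.2 with h | h
        · exact kinkFree_high t fun x hx => e.1.trans (kinkSorted_le t c h x hx)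
        · exact kinkFree_of_outside t h

theorem kinkSum_cons (h : ℤ × ℤ × ℤ) (t : List (ℤ × ℤ × ℤ)) : kinkSum (h :: t) =
    ⟨(kinkSum t).e0 + h.1 * (h.2.2 * h.1 - h.2.1), (kinkSum t).e1 + (h.2.1 - 2 * (h.2.2 * h.1)),
      (kinkSum t).e2 + h.2.2⟩ := by
  have e : kinkSum (h :: t) = ⟨iadd (kinkSum t).e0 (imul h.1 (isub (imul h.2.2 h.1) h.2.1)),
    iadd (kinkSum t).e1 (isub h.2.1 (imul 2 (imul h.2.2 h.1))),
    iadd (kinkSum t).e2 h.2.2⟩ := rfl
  simp only [e, iadd_eq, imul_eq, isub_eq]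

theorem kinkLine_high {A₀ : ℤ} : ∀ (l : List (ℤ × ℤ × ℤ)) (r : Quad), (∀ c ∈ l, A₀ < c.1) →
    kinkLine A₀ l r = r
  | [], r, _ => rfl
  | (c, d, q) :: l, r, h => by
      rw [kinkLine, if_neg (not_le.2 (h (c, d, q) (by simp)))]
      exact kinkLine_high l r fun x hx => h x (by simp [hx])

/-- The kinks up to `A₀` are all kinks less those above it. -/
theorem kinkLine_sum (A₀ : ℤ) : ∀ (l : List (ℤ × ℤ × ℤ)) (r : Quad), kinkLine A₀ l r =
    ⟨r.e0 + ((kinkSum l).e0 - (kinkAbove A₀ l).e0), r.e1 + ((kinkSum l).e1 - (kinkAbove A₀ l).e1),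
      r.e2 + ((kinkSum l).e2 - (kinkAbove A₀ l).e2)⟩
  | [], r => by simp [kinkLine, kinkSum, kinkAbove]
  | (c, d, q) :: t, r => by
      have e : kinkAbove A₀ ((c, d, q) :: t) = bif ile c A₀ then kinkAbove A₀ t else
          bif kinkSorted t c then kinkSum ((c, d, q) :: t) else
            ⟨iadd (kinkAbove A₀ t).e0 (imul c (isub (imul q c) d)),
              iadd (kinkAbove A₀ t).e1 (isub d (imul 2 (imul q c))),
              iadd (kinkAbove A₀ t).e2 q⟩ := rfl
      rw [kinkLine, e, kinkSum_cons, ile_eq]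
      by_cases hc : c ≤ A₀
      · rw [if_pos hc, decide_eq_true hc, cond_true, kinkLine_sum A₀ t]
        simp only [iadd_eq, imul_eq, isub_eq, Quad.mk.injEq]
        refine ⟨?_, ?_, ?_⟩ <;> ring
      · rw [if_neg hc, decide_eq_false hc, cond_false]
        cases hs : kinkSorted t c
        · rw [cond_false, kinkLine_sum A₀ t]
          simp only [iadd_eq, imul_eq, isub_eq, Quad.mk.injEq]
          refine ⟨?_, ?_, ?_⟩ <;> ring
        · rw [cond_true, kinkLine_high t r fun x hx =>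
            (not_le.1 hc).trans_le (kinkSorted_le t c hs x hx)]
          simp only [sub_self, add_zero]

theorem kinkLine_append (A₀ : ℤ) : ∀ (l l' : List (ℤ × ℤ × ℤ)) (r : Quad),
    kinkLine A₀ (l ++ l') r = kinkLine A₀ l' (kinkLine A₀ l r)
  | [], _, _ => rfl
  | (c, d, q) :: l, l', r => by
      simp only [List.cons_append, kinkLine]
      split <;> exact kinkLine_append A₀ l l' _

theorem kinkLine_smul (A₀ k : ℤ) : ∀ (l : List (ℤ × ℤ × ℤ)) (r r' : Quad),
    kinkLine A₀ (l.map fun c => (c.1, k * c.2.1, k * c.2.2))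
        ⟨r'.e0 + k * r.e0, r'.e1 + k * r.e1, r'.e2 + k * r.e2⟩ =
      ⟨r'.e0 + k * (kinkLine A₀ l r).e0, r'.e1 + k * (kinkLine A₀ l r).e1,
        r'.e2 + k * (kinkLine A₀ l r).e2⟩
  | [], _, _ => rfl
  | (c, d, q) :: l, r, r' => by
      simp only [List.map_cons, kinkLine]
      split
      · rw [← kinkLine_smul A₀ k l _ r']
        congr 1
        simp only [iadd_eq, imul_eq, isub_eq, Quad.mk.injEq]
        refine ⟨?_, ?_, ?_⟩ <;> ring
      · exact kinkLine_smul A₀ k l r r'

theorem Spline.line_eq (s : Spline) (A₀ : ℤ) :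
    s.line A₀ = kinkLine A₀ s.kinks ⟨s.e0, s.e1, s.e2⟩ := by
  simp only [kinkLine_sum, Spline.line, iadd_eq, isub_eq]

theorem Spline.line_addSmul (s : Spline) (k : ℤ) (r : Spline) (A₀ : ℤ) :
    (s.addSmul k r).line A₀ = ⟨(s.line A₀).e0 + k * (r.line A₀).e0,
      (s.line A₀).e1 + k * (r.line A₀).e1, (s.line A₀).e2 + k * (r.line A₀).e2⟩ := by
  rw [Spline.line_eq, Spline.line_eq, Spline.line_eq, Spline.addSmul, kinkLine_append]
  have hr : ∀ (l : List (ℤ × ℤ × ℤ)) (a b : Quad),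
      kinkLine A₀ l ⟨a.e0 + b.e0, a.e1 + b.e1, a.e2 + b.e2⟩ = ⟨(kinkLine A₀ l a).e0 + b.e0,
        (kinkLine A₀ l a).e1 + b.e1, (kinkLine A₀ l a).e2 + b.e2⟩ := fun l a b => by
    simp only [kinkLine_sum A₀ l, Quad.mk.injEq]
    refine ⟨?_, ?_, ?_⟩ <;> ring
  simp only [iadd_eq, imul_eq]
  have h := hr s.kinks ⟨s.e0, s.e1, s.e2⟩ ⟨k * r.e0, k * r.e1, k * r.e2⟩
  simp only at h
  rw [h]
  exact kinkLine_smul A₀ k r.kinks ⟨r.e0, r.e1, r.e2⟩ _

theorem kink_zero : ∀ (l : List (ℤ × ℤ × ℤ)), (l.all fun c => decide (0 ≤ c.1)) = true →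
    kinkVal l 0 = 0
  | [], _ => by simp [kinkVal]
  | (c, d, q) :: l, h => by
      simp only [List.all_cons, Bool.and_eq_true, decide_eq_true_eq] at h
      have : (0 : ℝ) ≤ c := Int.cast_nonneg h.1
      simp only [kinkVal, kink_zero l h.2]
      rw [max_eq_right (by linarith)]
      ring

theorem continuous_kinkVal : ∀ l : List (ℤ × ℤ × ℤ), Continuous (kinkVal l)
  | [] => continuous_const
  | (c, d, q) :: l => by
      have := continuous_kinkVal l
      simp only [kinkVal]
      fun_prop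

theorem measurable_kinkSlope : ∀ l : List (ℤ × ℤ × ℤ), Measurable (kinkSlope l)
  | [] => measurable_const
  | (c, d, q) :: l => by
      simp only [kinkSlope]
      exact (Measurable.ite measurableSet_Ici (by fun_prop) measurable_const).add
        (measurable_kinkSlope l)

theorem abs_kinkSlope_le (R : ℝ) : ∀ l : List (ℤ × ℤ × ℤ),
    ∃ B : ℝ, ∀ A : ℝ, |A| ≤ R → |kinkSlope l A| ≤ B
  | [] => ⟨0, fun A _ => by simp [kinkSlope]⟩
  | (c, d, q) :: l => by
      obtain ⟨B, hB⟩ := abs_kinkSlope_le R l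
      refine ⟨|(d : ℝ)| + 2 * |(q : ℝ)| * (|R| + |(c : ℝ)|) + B, fun A hA => ?_⟩
      simp only [kinkSlope]
      refine (abs_add_le _ _).trans (add_le_add ?_ (hB A hA))
      split_ifs
      · refine (abs_add_le _ _).trans (add_le_add le_rfl ?_)
        rw [abs_mul, abs_mul, abs_two]
        exact mul_le_mul_of_nonneg_left ((abs_sub _ _).trans
          (add_le_add (hA.trans (le_abs_self _)) le_rfl)) (by positivity)
      · rw [abs_zero]
        positivity

theorem hasDeriv_kink {u : ℝ → ℝ} {u' t : ℝ} (hd : HasDerivWithinAt u u' (Ioi t) t)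
    (hmono : ∀ᶠ s in 𝓝[>] t, u t ≤ u s) : ∀ l : List (ℤ × ℤ × ℤ),
    HasDerivWithinAt (fun s => kinkVal l (u s)) (kinkSlope l (u t) * u') (Ioi t) t
  | [] => by simpa [kinkVal, kinkSlope] using hasDerivWithinAt_const t (Ioi t) (0 : ℝ)
  | (c, d, q) :: l => by
      have ih := hasDeriv_kink hd hmono l
      have h1 : HasDerivWithinAt
          (fun s => (d : ℝ) * max (u s - c) 0 + (q : ℝ) * max (u s - c) 0 ^ 2)
          ((if (c : ℝ) ≤ u t then (d : ℝ) + 2 * q * (u t - c) else 0) * u') (Ioi t) t := by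
        by_cases hc : (c : ℝ) ≤ u t
        · rw [if_pos hc]
          refine ((((hd.sub_const (c : ℝ)).const_mul (d : ℝ)).fun_add
            (((hd.sub_const (c : ℝ)).pow 2).const_mul (q : ℝ))).congr_deriv
              (by push_cast; ring)).congr_of_eventuallyEq ?_ ?_
          · filter_upwards [hmono] with s hs
            rw [max_eq_left (by linarith)]
            rfl
          · rw [max_eq_left (by linarith)]
            rfl
        · rw [if_neg hc, zero_mul]
          refine (hasDerivWithinAt_const t (Ioi t) (0 : ℝ)).congr_of_eventuallyEq ?_ ?_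
          · filter_upwards [hd.continuousWithinAt.eventually_lt continuousWithinAt_const
              (not_le.1 hc)] with s hs
            rw [max_eq_right (by linarith)]
            ring
          · rw [max_eq_right (by linarith [not_le.1 hc])]
            ring
      simp only [kinkVal, kinkSlope, add_mul]
      exact h1.fun_add ih

namespace Spline

variable (s : Spline) (Da Dc : ℤ)

/-- The value in `A`. -/
noncomputable def at_ (A : ℝ) : ℝ :=
  ((s.e0 : ℝ) + s.e1 * A + s.e2 * A ^ 2 + kinkVal s.kinks A) / Dc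

/-- The value in `t`. -/
noncomputable def val (t : ℝ) : ℝ := s.at_ Dc (Da * halfAngle t)

/-- The right derivative in `t`. -/
noncomputable def val' (t : ℝ) : ℝ :=
  ((s.e1 : ℝ) + 2 * s.e2 * (Da * halfAngle t) + kinkSlope s.kinks (Da * halfAngle t)) / Dc *
    (Da * (1 / (ballShape t * (1 + ballShape t))))

theorem continuous_val : Continuous (s.val Da Dc) := by
  have := continuous_kinkVal s.kinks
  have := continuous_halfAngle
  unfold val at_
  fun_prop

theorem measurable_val' : Measurable (s.val' Da Dc) := by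
  have h0 := continuous_halfAngle.measurable
  have h1 := (measurable_kinkSlope s.kinks).comp (h0.const_mul (Da : ℝ))
  have h2 := cont_ball.measurable
  unfold val'
  exact (((((h0.const_mul (Da : ℝ)).const_mul (2 * (s.e2 : ℝ))).const_add (s.e1 : ℝ)).add
    h1).div_const _).mul ((measurable_const.div (h2.mul (h2.const_add _))).const_mul _)

theorem hasDeriv_val (hDa : 0 ≤ Da) {t : ℝ} (ht : t ∈ Ioo (0 : ℝ) 1) :
    HasDerivWithinAt (s.val Da Dc) (s.val' Da Dc t) (Ioi t) t := by
  have hD : (0 : ℝ) ≤ Da := Int.cast_nonneg hDa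
  have hu := ((hasDerivAt_halfAngle (sub01 ht)).hasDerivWithinAt (s := Ioi t)).const_mul (Da : ℝ)
  have hm : ∀ᶠ u in 𝓝[>] t, (Da : ℝ) * halfAngle t ≤ Da * halfAngle u := by
    filter_upwards [Ioo_mem_nhdsGT ht.2] with u hu
    exact mul_le_mul_of_nonneg_left (halfAngle_monotoneOn (Ioo_subset_Icc_self ht)
      ⟨by linarith [ht.1, hu.1], hu.2.le⟩ hu.1.le) hD
  refine (((((hu.const_mul (s.e1 : ℝ)).const_add (s.e0 : ℝ)).fun_add
    ((hu.pow 2).const_mul (s.e2 : ℝ))).fun_add
    (hasDeriv_kink hu hm s.kinks)).div_const (Dc : ℝ)).congr_deriv ?_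
  rw [val']
  push_cast
  ring

theorem bound_val' {b : ℝ} (hb : b < 1) : ∃ B, ∀ t ∈ Ioo 0 b, |s.val' Da Dc t| ≤ B := by
  obtain ⟨K, hK⟩ := abs_kinkSlope_le |(Da : ℝ)| s.kinks
  set K' := |K| + |(s.e1 : ℝ)| + 2 * |(s.e2 : ℝ)| * |(Da : ℝ)| with hK'
  refine ⟨K' / |(Dc : ℝ)| * (|(Da : ℝ)| * (1 / ballShape b)), fun t ht => ?_⟩
  have hbI : b ∈ Ioo (-1 : ℝ) 1 := ⟨by linarith [ht.1, ht.2], hb⟩
  have hpb := ball_pos hbI
  have hle : ballShape b ≤ ballShape t := Real.sqrt_le_sqrt (by nlinarith [ht.1, ht.2])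
  have hpt : 0 < ballShape t := hpb.trans_le hle
  rw [val', abs_mul, abs_mul, abs_div,
    abs_of_nonneg (by positivity : (0 : ℝ) ≤ 1 / (ballShape t * (1 + ballShape t)))]
  refine mul_le_mul (div_le_div_of_nonneg_right ?_ (abs_nonneg _)) (mul_le_mul_of_nonneg_left
    (one_div_le_one_div_of_le hpb (hle.trans (by nlinarith))) (abs_nonneg _)) (by positivity)
    (by positivity)
  have hA : |(Da : ℝ) * halfAngle t| ≤ |(Da : ℝ)| := by
    have hI := (halfAngle_param (t := t) ⟨ht.1.le, (ht.2.trans hb).le⟩).1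
    rw [abs_mul, abs_of_nonneg hI.1]
    exact mul_le_of_le_one_right (abs_nonneg _) hI.2
  refine (abs_add_le _ _).trans ?_
  refine (add_le_add ((abs_add_le _ _).trans (add_le_add le_rfl ?_))
    ((hK _ hA).trans (le_abs_self K))).trans_eq (show |(s.e1 : ℝ)| + 2 * |(s.e2 : ℝ)| * |(Da : ℝ)| +
      |K| = K' by rw [hK']; ring)
  rw [abs_mul, abs_mul, abs_two]
  exact mul_le_mul_of_nonneg_left hA (by positivity)

variable {s Da Dc}

theorem at_line {A₀ A₁ : ℤ} (h : kinkFree A₀ A₁ s.kinks = true) {t : ℝ}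
    (h0 : (A₀ : ℝ) ≤ Da * halfAngle t) (h1 : Da * halfAngle t < A₁) :
    s.val Da Dc t = ((s.line A₀).e0 + (s.line A₀).e1 * (Da * halfAngle t) +
        (s.line A₀).e2 * (Da * halfAngle t) ^ 2) / Dc ∧
      s.val' Da Dc t = ((s.line A₀).e1 + 2 * (s.line A₀).e2 * (Da * halfAngle t)) / Dc *
        (Da * (1 / (ballShape t * (1 + ballShape t)))) := by
  obtain ⟨e1, e2⟩ := kink_on s.kinks ⟨s.e0, s.e1, s.e2⟩ h h0 h1
  simp only [val, val', at_, line_eq]
  rw [← e1, ← e2]
  exact ⟨rfl, rfl⟩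

theorem val_zero (h : (s.kinks.all fun c => decide (0 ≤ c.1)) = true) :
    s.val Da Dc 0 = s.e0 / Dc := by
  simp [val, at_, halfAngle, kink_zero _ h]

theorem kinkVal_append : ∀ (l l' : List (ℤ × ℤ × ℤ)) (A : ℝ),
    kinkVal (l ++ l') A = kinkVal l A + kinkVal l' A
  | [], _, A => by simp [kinkVal]
  | _ :: l, l', A => by simp only [List.cons_append, kinkVal, kinkVal_append l l' A]; ring

theorem kinkSlope_append : ∀ (l l' : List (ℤ × ℤ × ℤ)) (A : ℝ),
    kinkSlope (l ++ l') A = kinkSlope l A + kinkSlope l' A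
  | [], _, A => by simp [kinkSlope]
  | _ :: l, l', A => by simp only [List.cons_append, kinkSlope, kinkSlope_append l l' A]; ring

theorem kinkVal_smul (k : ℤ) : ∀ (l : List (ℤ × ℤ × ℤ)) (A : ℝ),
    kinkVal (l.map fun c => (c.1, imul k c.2.1, imul k c.2.2)) A = k * kinkVal l A
  | [], A => by simp [kinkVal]
  | _ :: l, A => by
      simp only [List.map_cons, kinkVal]
      rw [kinkVal_smul k l A]
      simp only [imul_eq]
      push_cast
      ring

theorem kinkSlope_smul (k : ℤ) : ∀ (l : List (ℤ × ℤ × ℤ)) (A : ℝ),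
    kinkSlope (l.map fun c => (c.1, imul k c.2.1, imul k c.2.2)) A = k * kinkSlope l A
  | [], A => by simp [kinkSlope]
  | (c, d, q) :: l, A => by
      simp only [List.map_cons, kinkSlope]
      rw [kinkSlope_smul k l A]
      simp only [imul_eq]
      split_ifs <;> push_cast <;> ring

theorem kinkFree_append (A₀ A₁ : ℤ) : ∀ l l' : List (ℤ × ℤ × ℤ),
    kinkFree A₀ A₁ (l ++ l') = (kinkFree A₀ A₁ l && kinkFree A₀ A₁ l')
  | [], _ => by simp [kinkFree]
  | (_, _) :: l, l' => by simp [kinkFree, kinkFree_append A₀ A₁ l l', Bool.and_assoc]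

theorem kinkFree_smul (A₀ A₁ k : ℤ) : ∀ l : List (ℤ × ℤ × ℤ),
    kinkFree A₀ A₁ (l.map fun c => (c.1, imul k c.2.1, imul k c.2.2)) = kinkFree A₀ A₁ l
  | [] => rfl
  | (_, _, _) :: l => by simp only [List.map_cons, kinkFree, kinkFree_smul A₀ A₁ k l]

variable (s Da Dc)

theorem val_addSmul (k : ℤ) (r : Spline) (t : ℝ) :
    (s.addSmul k r).val Da Dc t = s.val Da Dc t + k * r.val Da Dc t := by
  simp only [val, at_, addSmul, kinkVal_append, kinkVal_smul]
  simp only [iadd_eq, imul_eq]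
  push_cast
  ring

theorem val'_addSmul (k : ℤ) (r : Spline) (t : ℝ) :
    (s.addSmul k r).val' Da Dc t = s.val' Da Dc t + k * r.val' Da Dc t := by
  simp only [val', addSmul, kinkSlope_append, kinkSlope_smul]
  simp only [iadd_eq, imul_eq]
  push_cast
  ring

theorem addSmul_free {A₀ A₁ : ℤ} (k : ℤ) (r : Spline) (hs : kinkFree A₀ A₁ s.kinks = true)
    (hr : kinkFree A₀ A₁ r.kinks = true) : kinkFree A₀ A₁ (s.addSmul k r).kinks = true := by
  simp only [addSmul, kinkFree_append, kinkFree_smul, hs, hr, Bool.and_self]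

theorem addSmul_zero (k : ℤ) (r : Spline) (hs : (s.kinks.all fun c => decide (0 ≤ c.1)) = true)
    (hr : (r.kinks.all fun c => decide (0 ≤ c.1)) = true) :
    ((s.addSmul k r).kinks.all fun c => decide (0 ≤ c.1)) = true := by
  simp only [addSmul, List.all_append, List.all_map, Function.comp_def, hs, hr, Bool.and_self]

end Spline

/-- The square of the positive part of `x - 3`. -/
noncomputable def farSq (x : ℝ) : ℝ := max (x - 3) 0 * max (x - 3) 0

/-- Its derivative. -/
noncomputable def farSq' (x : ℝ) : ℝ := 2 * max (x - 3) 0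

theorem farSq_low {x : ℝ} (h : x ≤ 3) : farSq x = 0 ∧ farSq' x = 0 := by
  simp [farSq, farSq', max_eq_right (show x - 3 ≤ 0 by linarith)]

theorem farSq_high {x : ℝ} (h : 3 ≤ x) : farSq x = (x - 3) ^ 2 ∧ farSq' x = 2 * (x - 3) := by
  simp [farSq, farSq', max_eq_left (show 0 ≤ x - 3 by linarith), sq]

theorem hasDerivAt_farSq (x : ℝ) : HasDerivAt farSq (farSq' x) x := by
  rcases lt_trichotomy x 3 with h | h | h
  · rw [(farSq_low h.le).2]
    refine (hasDerivAt_const x (0 : ℝ)).congr_of_eventuallyEq ?_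
    filter_upwards [Iio_mem_nhds h] with y hy using (farSq_low (le_of_lt hy)).1
  · subst h
    rw [(farSq_low le_rfl).2, hasDerivAt_iff_isLittleO]
    have hb : ∀ y : ℝ, ‖farSq y‖ ≤ 1 * ‖(y - 3) * (y - 3)‖ := fun y => by
      rw [one_mul, Real.norm_eq_abs, Real.norm_eq_abs, farSq, abs_mul, abs_mul]
      have : |max (y - 3) 0| ≤ |y - 3| := by
        rcases le_total (y - 3) 0 with h | h <;> simp [h]
      exact mul_le_mul this this (abs_nonneg _) (abs_nonneg _)
    have h1 : (fun y : ℝ => y - 3) =o[𝓝 (3 : ℝ)] fun _ => (1 : ℝ) :=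
      (Asymptotics.isLittleO_one_iff ℝ).2 (by
        have h : Tendsto (fun y : ℝ => y - 3) (𝓝 3) (𝓝 ((3 : ℝ) - 3)) :=
          (continuous_id'.sub continuous_const).tendsto 3
        rwa [sub_self] at h)
    have h2 : (fun y : ℝ => (y - 3) * (y - 3)) =o[𝓝 (3 : ℝ)] fun y => y - 3 := by
      simpa using h1.mul_isBigO (Asymptotics.isBigO_refl (fun y : ℝ => y - 3) (𝓝 3))
    refine ((Asymptotics.isBigO_of_le' (𝓝 (3 : ℝ)) hb).trans_isLittleO h2).congr_left fun y => ?_
    simp [(farSq_low (le_refl (3 : ℝ))).1]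
  · rw [(farSq_high h.le).2]
    refine ((((hasDerivAt_id' x).sub_const 3).pow 2).congr_deriv (by simp)).congr_of_eventuallyEq ?_
    filter_upwards [Ioi_mem_nhds h] with y hy using (farSq_high (le_of_lt hy)).1

theorem farSq_le {x : ℝ} (hx : 0 ≤ x) : 0 ≤ farSq x ∧ farSq x ≤ 2 * (1 + x ^ 2) := by
  refine ⟨mul_nonneg (le_max_right _ _) (le_max_right _ _), ?_⟩
  rcases le_total x 3 with h | h
  · rw [(farSq_low h).1]; positivity
  · rw [(farSq_high h).1]; nlinarith

/-- The factor in `x` of the cubic term. -/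
noncomputable def cubicF (m : ℕ) (x : ℝ) : ℝ := 2 / tailExp m * tailCubicPos m x

/-- Its derivative. -/
noncomputable def cubicF' (m : ℕ) (x : ℝ) : ℝ := 2 / tailExp m * tailCubicPos' m x

theorem hasDerivAt_cubicF (hm : 3 ≤ m) (x : ℝ) : HasDerivAt (cubicF m) (cubicF' m x) x :=
  (hasDerivAt_tailCubicPos hm x).const_mul _

theorem continuous_tailCubicPos' (hm : 3 ≤ m) : Continuous (tailCubicPos' m) := by
  obtain ⟨hq, -⟩ := tailExp_mem hm
  have h : Continuous (tailCubic' m) := by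
    have hr : Continuous fun x : ℝ => x ^ (tailExp m - 1) :=
      Real.continuous_rpow_const (by linarith)
    unfold tailCubic'
    fun_prop
  unfold tailCubicPos'
  exact continuous_if_le continuous_const continuous_id h.continuousOn continuousOn_const
    fun x hx => hx ▸ (tailCubic_one m).2

theorem cubicF_bounds (hm : 3 ≤ m) {x : ℝ} (hx : 0 ≤ x) :
    0 ≤ cubicF m x ∧ cubicF m x ≤ (x - 1) ^ 2 := by
  obtain ⟨hq, hq2⟩ := tailExp_mem hm
  refine ⟨mul_nonneg (div_nonneg two_pos.le (by linarith)) (tailCubicPos_nonneg hm x), ?_⟩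
  rw [cubicF, tailCubicPos]
  split_ifs
  · exact (tailCubic_le_sq hm hx).trans (mul_le_of_le_one_left (sq_nonneg _) (by linarith))
  · rw [mul_zero]; positivity

/-- The flux as a separated flux. -/
noncomputable def Flux.sep (D : Flux) (Da Dc : ℤ) (m : ℕ) : SepFlux (Fin 5) where
  σ := ![D.al.val Da Dc, D.be.val Da Dc, D.ga.val Da Dc, D.si.val Da Dc, D.k5.val Da Dc]
  σ' := ![D.al.val' Da Dc, D.be.val' Da Dc, D.ga.val' Da Dc, D.si.val' Da Dc, D.k5.val' Da Dc]
  F := ![fun _ => 1, fun x => x - 1, fun x => (x - 1) ^ 2, cubicF m, farSq]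
  F' := ![fun _ => 0, fun _ => 1, fun x => 2 * (x - 1), cubicF' m, farSq']
  g := fun _ _ => 1

namespace Flux

variable (D : Flux) {Da Dc : ℤ}

theorem regular (hm : 3 ≤ m) (hDa : 0 ≤ Da) : (D.sep Da Dc m).Regular where
  σc i := by fin_cases i <;> exact Spline.continuous_val _ _ _
  σd i t ht := by fin_cases i <;> exact Spline.hasDeriv_val _ _ _ hDa ht
  σm i := by fin_cases i <;> exact Spline.measurable_val' _ _ _
  σb i b hb := by fin_cases i <;> exact Spline.bound_val' _ _ _ hb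
  Fd i x _ := by
    fin_cases i
    · exact hasDerivAt_const x 1
    · exact (hasDerivAt_id' x).sub_const 1
    · refine (((hasDerivAt_id' x).sub_const 1).pow 2).congr_deriv ?_
      simp [Flux.sep]
    · exact hasDerivAt_cubicF hm x
    · exact hasDerivAt_farSq x
  Fc i := by
    fin_cases i
    · exact continuousOn_const
    · exact continuousOn_const
    · exact (continuous_const.mul (continuous_id.sub continuous_const)).continuousOn
    · exact ((continuous_tailCubicPos' hm).const_mul _).continuousOn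
    · exact (show Continuous farSq' by unfold farSq'; fun_prop).continuousOn
  Fm i := by
    have h := fun x => hasDerivAt_cubicF hm x
    have hc : Continuous (cubicF m) := continuous_iff_continuousAt.2 fun x => (h x).continuousAt
    fin_cases i
    · exact ⟨measurable_const, measurable_const⟩
    · exact ⟨measurable_id.sub_const 1, measurable_const⟩
    · exact ⟨(measurable_id.sub_const 1).pow_const 2, (measurable_id.sub_const 1).const_mul 2⟩
    · exact ⟨hc.measurable, ((continuous_tailCubicPos' hm).const_mul _).measurable⟩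
    · exact ⟨(show Continuous farSq by unfold farSq; fun_prop).measurable,
        (show Continuous farSq' by unfold farSq'; fun_prop).measurable⟩
  gc _ := continuousOn_const

theorem D_eq (t x z : ℝ) : (D.sep Da Dc m).D t x z = D.al.val Da Dc t + D.be.val Da Dc t * (x - 1) +
    D.ga.val Da Dc t * (x - 1) ^ 2 + D.si.val Da Dc t * cubicF m x +
    D.k5.val Da Dc t * farSq x := by
  simp [SepFlux.D, Flux.sep, Fin.sum_univ_five]

theorem Dt_eq (t x z : ℝ) : (D.sep Da Dc m).Dt t x z = D.al.val' Da Dc t +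
    D.be.val' Da Dc t * (x - 1) + D.ga.val' Da Dc t * (x - 1) ^ 2 +
      D.si.val' Da Dc t * cubicF m x + D.k5.val' Da Dc t * farSq x := by
  simp [SepFlux.Dt, Flux.sep, Fin.sum_univ_five]

theorem Dx_eq (t x z : ℝ) : (D.sep Da Dc m).Dx t x z = D.be.val Da Dc t +
    D.ga.val Da Dc t * (2 * (x - 1)) + D.si.val Da Dc t * cubicF' m x +
    D.k5.val Da Dc t * farSq' x := by
  simp [SepFlux.Dx, Flux.sep, Fin.sum_univ_five]

theorem high_eq {t x z : ℝ} (hx : 3 ≤ x) :
    (D.high.sep Da Dc m).D t x z = (D.sep Da Dc m).D t x z ∧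
    (D.high.sep Da Dc m).Dt t x z = (D.sep Da Dc m).Dt t x z ∧
    (D.high.sep Da Dc m).Dx t x z = (D.sep Da Dc m).Dx t x z := by
  obtain ⟨e, e'⟩ := farSq_high hx
  have z0 : ∀ u : ℝ, (⟨0, 0, 0, []⟩ : Spline).val Da Dc u = 0 ∧
      (⟨0, 0, 0, []⟩ : Spline).val' Da Dc u = 0 := fun u => by
    simp [Spline.val, Spline.at_, Spline.val', kinkVal, kinkSlope]
  simp only [D_eq, Dt_eq, Dx_eq, Flux.high, Spline.val_addSmul, Spline.val'_addSmul, e, e',
    (z0 t).1, (z0 t).2]
  push_cast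
  refine ⟨?_, ?_, ?_⟩ <;> ring

theorem antitone (t x : ℝ) : AntitoneOn ((D.sep Da Dc m).D t x) (Icc 0 1) :=
  fun _ _ _ _ _ => le_of_eq rfl

theorem lower (hm : 3 ≤ m) : ∃ K : ℝ, ∀ᶠ b in 𝓝[<] (1 : ℝ), ∀ x, 0 < x → ∀ z ∈ Icc (0 : ℝ) 1,
    -K * (1 + x ^ 2) ≤ (D.sep Da Dc m).D b x z := by
  choose B hB using fun s : Spline => (isCompact_Icc (a := (0 : ℝ)) (b := 1)).exists_bound_of_continuousOn
    (s.continuous_val Da Dc).continuousOn
  refine ⟨2 * (|B D.al| + |B D.be| + |B D.ga| + |B D.si| + |B D.k5|), ?_⟩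
  filter_upwards [Ioo_mem_nhdsLT (zero_lt_one (α := ℝ))] with b hb x hx z _
  rw [D_eq]
  have hf := cubicF_bounds hm hx.le
  have h : ∀ (s : Spline) (F : ℝ), |F| ≤ 2 * (1 + x ^ 2) →
      -(2 * |B s| * (1 + x ^ 2)) ≤ s.val Da Dc b * F := fun s F hF => by
    have h1 : |s.val Da Dc b| ≤ |B s| := (hB s b (Ioo_subset_Icc_self hb)).trans (le_abs_self _)
    have h2 := mul_le_mul h1 hF (abs_nonneg _) (abs_nonneg _)
    rw [← abs_mul] at h2
    linarith [neg_abs_le (s.val Da Dc b * F)]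
  have hv : |(x - 1) ^ 2| ≤ 2 * (1 + x ^ 2) := by
    rw [abs_of_nonneg (sq_nonneg _)]; nlinarith
  have hF : |cubicF m x| ≤ 2 * (1 + x ^ 2) := by
    rw [abs_of_nonneg hf.1]; nlinarith
  have := h D.al 1 (by rw [abs_one]; nlinarith)
  have := h D.be (x - 1) (abs_le.2 ⟨by nlinarith, by nlinarith⟩)
  have := h D.ga _ hv
  have := h D.si _ hF
  have := h D.k5 _ (show |farSq x| ≤ 2 * (1 + x ^ 2) by
    rw [abs_of_nonneg (farSq_le hx.le).1]; exact (farSq_le hx.le).2)
  linarith

end Flux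

end Vale.Agent.P237.Quant.TailCert
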