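import Mathlib
import Vale.Agent.P237.Quant.TailSpline
import Vale.Agent.P237.Quant.PureAssembly

/-!
Soundness of the side conditions of the tail checker: the rational bounds of logarithms, the affine
bounds of the weight and of the potential, the tangent of the model on a piece, the majorant of the
cubic loss and the bound of the slope.
-/

namespace Vale.Agent.P237.Quant.TailCert

open TailTuple Four.Checker Set

/-- The potential that a calibration pays. -/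
noncomputable def Cfg.W (C : Cfg) (t : ℝ) : ℝ :=
  (max (C.cA : ℝ) (C.cB * (weightPoly (ballShape t) * t ^ 2)) + C.cC + C.cD * ballShape t +
    C.cE * ballShape t ^ 2) / C.Dw

theorem cast_add' (a b : ℤ) : ((iadd a b : ℤ) : ℝ) = a + b := by rw [iadd_eq, Int.cast_add]

theorem cast_sub' (a b : ℤ) : ((isub a b : ℤ) : ℝ) = a - b := by rw [isub_eq, Int.cast_sub]

theorem cast_mul' (a b : ℤ) : ((imul a b : ℤ) : ℝ) = a * b := by rw [imul_eq, Int.cast_mul]

theorem cast_neg' (a : ℤ) : ((ineg a : ℤ) : ℝ) = -a := by rw [ineg_eq, Int.cast_neg]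

theorem cast_ofNat' (a : ℕ) : ((Int.ofNat a : ℤ) : ℝ) = a := Int.cast_natCast a

theorem logSum_eq (x : ℚ) : ∀ N : ℕ, ((logSum x N : ℚ) : ℝ) =
    ∑ i ∈ Finset.range N, (x : ℝ) ^ (2 * i + 1) / (2 * (i : ℝ) + 1)
  | 0 => by simp [logSum]
  | N + 1 => by
      rw [logSum, Finset.sum_range_succ, ← logSum_eq x N]
      push_cast
      ring

theorem log_ratio {y : ℝ} (hy : 0 ≤ y) :
    (1 + y / (2 + y)) / (1 - y / (2 + y)) = 1 + y ∧ 0 ≤ y / (2 + y) ∧ y / (2 + y) < 1 := by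
  have h2 : 0 < 2 + y := by linarith
  refine ⟨?_, div_nonneg hy h2.le, (div_lt_one h2).2 (by linarith)⟩
  have : 1 - y / (2 + y) = 2 / (2 + y) := by field_simp; ring
  rw [this]
  field_simp
  ring

theorem logLo_sound {y : ℚ} (hy : 0 ≤ y) : (logLo y : ℝ) ≤ Real.log (1 + (y : ℝ)) := by
  have hy' : (0 : ℝ) ≤ y := Rat.cast_nonneg.2 hy
  obtain ⟨e, h0, h1⟩ := log_ratio hy'
  have h := Real.sum_range_le_log_div h0 h1 6
  rw [e] at h
  rw [logLo]
  push_cast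
  rw [logSum_eq]
  push_cast
  linarith

theorem logUp_sound {y : ℚ} (hy : 0 ≤ y) : Real.log (1 + (y : ℝ)) ≤ (logUp y : ℝ) := by
  have hy' : (0 : ℝ) ≤ y := Rat.cast_nonneg.2 hy
  obtain ⟨e, h0, h1⟩ := log_ratio hy'
  have h := Real.log_div_le_sum_range_add h0 h1 12
  rw [e] at h
  rw [logUp]
  push_cast
  rw [logSum_eq]
  push_cast
  linarith

/-- The time at a scaled half angle, in the reals. -/
noncomputable def timeR (a : ℝ) : ℝ := 2 * a / (1 + a ^ 2)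

theorem timeR_mono {a b : ℝ} (ha : 0 ≤ a) (hab : a ≤ b) (hb : b ≤ 1) : timeR a ≤ timeR b := by
  rw [timeR, timeR, div_le_div_iff₀ (by positivity) (by positivity)]
  nlinarith [mul_nonneg (sub_nonneg.2 hab) (show (0 : ℝ) ≤ 1 - a * b by nlinarith)]

theorem timeQ_cast {Da : ℤ} (hDa : 0 < Da) (A : ℤ) :
    (timeQ Da A : ℝ) = timeR ((A : ℝ) / Da) ∧
      (ballQ Da A : ℝ) = (1 - ((A : ℝ) / Da) ^ 2) / (1 + ((A : ℝ) / Da) ^ 2) := by
  have h : (0 : ℝ) < Da := Int.cast_pos.2 hDa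
  have h' : (0 : ℝ) < (Da : ℝ) * Da + (A : ℝ) * A :=
    add_pos_of_pos_of_nonneg (mul_pos h h) (mul_self_nonneg _)
  constructor
  · rw [timeQ, timeR]
    push_cast
    field_simp
  · rw [ballQ]
    push_cast
    field_simp

/-- The facts about a time in an interval of the half angle. -/
structure AtIval (C : Cfg) (I : Ival) (t A : ℝ) : Prop where
  ht : t ∈ Ioo (0 : ℝ) 1
  hA : A = C.Da * halfAngle t
  lo : (I.A0 : ℝ) ≤ A
  hi : A < I.A1

namespace AtIval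

variable {C : Cfg} {I : Ival} {t A : ℝ}

theorem point (h : AtIval C I t A) (hDa : 0 < C.Da) :
    0 ≤ A ∧ A < C.Da ∧ halfAngle t = A / C.Da ∧
      t = 2 * C.Da * A / ((C.Da : ℝ) ^ 2 + A ^ 2) ∧
      ballShape t = ((C.Da : ℝ) ^ 2 - A ^ 2) / ((C.Da : ℝ) ^ 2 + A ^ 2) := by
  have hD : (0 : ℝ) < C.Da := Int.cast_pos.2 hDa
  obtain ⟨hm, e1, e2⟩ := halfAngle_param (t := t) (Ioo_subset_Icc_self h.ht)
  have hlt : halfAngle t < 1 := lt_of_le_of_ne hm.2 fun e => by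
    rw [e] at e2
    have := ball_pos (sub01 h.ht)
    linarith
  have e : halfAngle t = A / C.Da := by rw [h.hA]; field_simp
  have hA0 : 0 ≤ A := by rw [h.hA]; exact mul_nonneg hD.le hm.1
  have hS : (0 : ℝ) < (C.Da : ℝ) ^ 2 + A ^ 2 := by positivity
  refine ⟨hA0, by rw [h.hA]; nlinarith, e, ?_, ?_⟩
  · rw [eq_div_iff hS.ne']
    rw [e] at e1
    field_simp at e1
    linarith
  · rw [eq_div_iff hS.ne']
    rw [e] at e2
    field_simp at e2
    linarith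

theorem weights (h : AtIval C I t A) :
    ∃ U X : ℝ, 0 ≤ U ∧ 0 ≤ X ∧ U + X = 1 ∧ A = I.A0 * U + I.A1 * X := by
  obtain ⟨U, X, hU, hX, hs, e⟩ := exists_weights (D := 1)
    (Int.cast_lt.1 (h.lo.trans_lt h.hi) : I.A0 < I.A1)
    (show (I.A0 : ℝ) ≤ A * ((1 : ℤ) : ℝ) by rw [Int.cast_one, mul_one]; exact h.lo)
    (show A * ((1 : ℤ) : ℝ) ≤ I.A1 by rw [Int.cast_one, mul_one]; exact h.hi.le)
  exact ⟨U, X, hU, hX, hs, by rw [← e, Int.cast_one, mul_one]⟩

theorem time_mem (h : AtIval C I t A) (hDa : 0 < C.Da) (h0 : 0 ≤ I.A0) (h1 : I.A1 ≤ C.Da) :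
    (timeQ C.Da I.A0 : ℝ) ∈ Icc (0 : ℝ) t ∧ t ≤ (timeQ C.Da I.A1 : ℝ) ∧
      (timeQ C.Da I.A1 : ℝ) ≤ 1 := by
  have hD : (0 : ℝ) < C.Da := Int.cast_pos.2 hDa
  obtain ⟨hA, hA1, -, et, -⟩ := h.point hDa
  have et' : t = timeR (A / C.Da) := by rw [et, timeR]; field_simp
  have a0 : (0 : ℝ) ≤ (I.A0 : ℝ) / C.Da := div_nonneg (Int.cast_nonneg h0) hD.le
  have b1 : (I.A1 : ℝ) / C.Da ≤ 1 := (div_le_one hD).2 (Int.cast_le.2 h1)
  rw [(timeQ_cast hDa _).1, (timeQ_cast hDa _).1, et']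
  refine ⟨⟨div_nonneg (by linarith) (by positivity), timeR_mono a0 (by gcongr; exact h.lo)
    ((div_le_one hD).2 hA1.le)⟩, timeR_mono (div_nonneg hA hD.le) (by gcongr; exact h.hi.le) b1, ?_⟩
  rw [timeR, div_le_one (by positivity)]
  nlinarith [sq_nonneg ((I.A1 : ℝ) / C.Da - 1)]

/-- The profile is below its value at the left end. -/
theorem ball_le (h : AtIval C I t A) (hDa : 0 < C.Da) (h0 : 0 ≤ I.A0) (h1 : I.A1 ≤ C.Da) :
    ballShape t ≤ (ballQ C.Da I.A0 : ℝ) := by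
  have hD : (0 : ℝ) < C.Da := Int.cast_pos.2 hDa
  obtain ⟨hA, hA1, -, -, ep⟩ := h.point hDa
  have a0 : (0 : ℝ) ≤ I.A0 := Int.cast_nonneg h0
  have hlo := h.lo
  rw [ep, ballQ]
  push_cast
  rw [div_le_div_iff₀ (by positivity) (by nlinarith)]
  nlinarith [mul_le_mul hlo hlo a0 hA, sq_nonneg (C.Da : ℝ)]

end AtIval

/-- A point of an interval with its two weights. -/
structure Wt (C : Cfg) (I : Ival) (U X A : ℝ) : Prop where
  hU : 0 ≤ U
  hX : 0 ≤ X
  hs : U + X = 1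
  hA : A = I.A0 * U + I.A1 * X

/-- `Da ^ 2 + A ^ 2`. -/
noncomputable def fS (C : Cfg) (A : ℝ) : ℝ := (C.Da : ℝ) ^ 2 + A ^ 2

/-- `Da ^ 2 - A ^ 2`. -/
noncomputable def fP (C : Cfg) (A : ℝ) : ℝ := (C.Da : ℝ) ^ 2 - A ^ 2

/-- `2 Da A`. -/
noncomputable def fT (C : Cfg) (A : ℝ) : ℝ := 2 * C.Da * A

namespace Wt

variable {C : Cfg} {I : Ival} {U X A : ℝ} {d : ℕ} {p : Pk} {v : ℝ}

theorem lin_one (h : Wt C I U X A) (hp : Rep U X d p v) : Rep U X (d + 1) (p.lin 1 1) v :=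
  (hp.lin 1 1).congr (by push_cast; rw [one_mul, one_mul, h.hs, one_mul])

theorem lin_A (h : Wt C I U X A) (hp : Rep U X d p v) :
    Rep U X (d + 1) (p.lin I.A0 I.A1) (A * v) :=
  (hp.lin I.A0 I.A1).congr (by rw [h.hA])

theorem lin_Da (h : Wt C I U X A) (hp : Rep U X d p v) :
    Rep U X (d + 1) (p.lin C.Da C.Da) (C.Da * v) :=
  (hp.lin C.Da C.Da).congr (by rw [← mul_add, h.hs, mul_one])

theorem mulS (h : Wt C I U X A) (hp : Rep U X d p v) :
    Rep U X (d + 2) (mulS C I p) (fS C A * v) :=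
  ((h.lin_Da (h.lin_Da hp)).add (h.lin_A (h.lin_A hp))).congr (by rw [fS]; ring)

theorem mulP (h : Wt C I U X A) (hp : Rep U X d p v) :
    Rep U X (d + 2) (mulP C I p) (fP C A * v) :=
  ((h.lin_Da (h.lin_Da hp)).add ((h.lin_A (h.lin_A hp)).smul (-1))).congr
    (by rw [fP]; push_cast; ring)

theorem mulT (h : Wt C I U X A) (hp : Rep U X d p v) :
    Rep U X (d + 2) (mulT C I p) (fT C A * v) :=
  ((h.lin_one (h.lin_A hp)).smul (imul 2 C.Da)).congr
    (by rw [fT, cast_mul']; push_cast; ring)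

end Wt

/-! ### The fraction forms of the side conditions -/

/-- The simplification rules of the fractions. -/
theorem val_timeN (Da A : ℤ) : (timeN Da A).val = timeQ Da A := by
  simp only [timeN, timeQ, QN.val_frac, imul_eq, iadd_eq]

theorem val_ballN (Da A : ℤ) : (ballN Da A).val = ballQ Da A := by
  simp only [ballN, ballQ, QN.val_frac, imul_eq, iadd_eq, isub_eq]

theorem val_logSumN (x : QN) : ∀ k : ℕ, (logSumN x k).val = logSum x.val k
  | 0 => by simp [logSumN, logSum, QN.val_z]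
  | k + 1 => by
      show (logSumN x k + x ^ (2 * k + 1) / QN.z (Int.ofNat (2 * k + 1))).val = _
      simp only [QN.val_add, QN.val_div, QN.val_pow, QN.val_z, val_logSumN x k, logSum]
      simp only [Int.ofNat_eq_natCast]
      push_cast
      rfl

theorem val_logLoN (y : QN) : (logLoN y).val = logLo y.val := by
  simp only [logLoN, logLo, QN.val_mul, QN.val_z, val_logSumN, QN.val_div, QN.val_add]
  push_cast
  rfl

theorem val_logUpN (y : QN) : (logUpN y).val = logUp y.val := by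
  simp only [logUpN, logUp, QN.val_mul, QN.val_z, val_logSumN, QN.val_div, QN.val_add, QN.val_sub,
    QN.val_pow]
  push_cast
  rfl

theorem logOK_of_fast {C : Cfg} {I : Ival} (h : logFast C I = true) : logOK C I = true := by
  simp only [logFast, QN.lt_eq, QN.le_eq, Bool.and_eq_true, decide_eq_true_eq, val_logUpN,
    QN.val_sub, QN.val_add, QN.val_div, QN.val_z, QN.val_frac, imul_eq] at h
  simp only [logOK, decide_eq_true_eq]
  push_cast at h ⊢
  exact ⟨h.1.1, h.1.2, h.2⟩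

theorem val_boundN (N : Node) (m : ℕ) (t : QN) : (N.boundN m t).val = N.boundQ m t.val := by
  unfold Node.boundN Node.boundQ
  by_cases e : N.Xn = N.Xd
  · simp only [if_pos e, QN.val_frac]
  simp only [if_neg e, QN.le_eq, QN.val_sub, QN.val_div, QN.val_frac, QN.val_z, Int.cast_zero,
    Int.cast_one]
  set b := t.val / ((N.Tn : ℚ) / N.Td) -
    (t.val / ((N.Tn : ℚ) / N.Td) - 1) / ((N.Xn : ℚ) / N.Xd) with hb
  rcases le_or_gt 0 b with h | h
  · simp only [decide_eq_true h, cond_true, QN.val_mul, QN.val_pow, QN.val_frac, QN.val_sub,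
      QN.val_div, QN.val_z, Int.cast_one, max_eq_left h, ← hb]
  · simp only [decide_eq_false h.not_ge, cond_false, QN.val_mul, QN.val_pow, QN.val_frac,
      QN.val_z, Int.cast_zero, max_eq_right h.le]

theorem envOK_of_fast {C : Cfg} {I : Ival} (h : envFast C I = true) : envOK C I = true := by
  by_cases he : I.er = 0
  · simp only [envFast, he, ne_eq, not_true_eq_false, if_false, QN.lt_eq, QN.le_eq, Bool.or_eq_true,
      Bool.and_eq_true, decide_eq_true_eq, val_ballN, val_boundN, val_timeN, QN.val_mul, QN.val_pow,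
      QN.val_add, QN.val_z, QN.val_frac] at h
    simp only [envOK, he, ne_eq, not_true_eq_false, if_false, Bool.or_eq_true, Bool.and_eq_true,
      decide_eq_true_eq]
    push_cast at h ⊢
    exact h.imp_right fun h => ⟨⟨⟨h.1.1.1.1.1, h.1.1.1.1.2, h.1.1.1.2, h.1.1.2⟩, h.1.2⟩, h.2⟩
  · simp only [envFast, rootFast, he, ne_eq, not_false_eq_true, if_true, QN.lt_eq, QN.le_eq,
      Bool.or_eq_true, Bool.and_eq_true, Bool.not_eq_true', ile_eq, decide_eq_true_eq,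
      decide_eq_false_iff_not, not_le, val_ballN, val_boundN, val_timeN, QN.val_mul, QN.val_pow,
      QN.val_z, QN.val_frac] at h
    simp only [envOK, rootOK, he, ne_eq, not_false_eq_true, if_true, Bool.or_eq_true,
      Bool.and_eq_true, Bool.not_eq_true', decide_eq_true_eq]
    push_cast at h ⊢
    refine h.imp_right fun h => ?_
    obtain ⟨⟨⟨⟨m8, r0⟩, a0⟩, a1⟩, ⟨⟨p1, hb⟩, k0⟩, k1⟩ := h
    exact ⟨⟨⟨⟨⟨m8, r0, a0, a1⟩, p1⟩, hb⟩, k0⟩, k1⟩

theorem zero_iff (a : ℤ) : isZ a = decide (a = 0) := by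
  rw [isZ, ile_eq, ile_eq, ← Bool.decide_and, decide_eq_decide, le_antisymm_iff]

theorem logLo_horner {p d : ℚ} (hd : 0 < d) (hp : 0 ≤ p) :
    let q := 2 * d + p
    let P := p ^ 2
    let Q := q ^ 2
    logLo (p / d) = 2 * p * (((((315 * P + 385 * Q) * P + 495 * Q ^ 2) * P +
      693 * (Q ^ 2 * Q)) * P + 1155 * Q ^ 4) * P + 3465 * (Q ^ 4 * Q)) /
      (3465 * (q * (Q ^ 4 * Q))) := by
  intro q P Q
  have hq : (2 * d + p) ≠ 0 := by positivity
  have hd' := hd.ne'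
  have hx : p / d / (2 + p / d) = p / (2 * d + p) := by field_simp
  simp only [logLo, logSum, hx, q, P, Q]
  push_cast
  field_simp
  ring

theorem Piece.tanTop_sound {Dc : ℤ} {q : Piece} (hDc : 0 < Dc) (hDb : 0 < q.Db)
    (hE : q.B * q.B < q.Db * q.Db) (h : q.tanTop Dc = true) :
    (q.c : ℚ) / Dc + (q.g : ℚ) / Dc * (2 * ((q.B : ℚ) / q.Db) / (1 + ((q.B : ℚ) / q.Db) ^ 2)) +
      2 * |(q.B : ℚ) / q.Db * (1 + ((q.B : ℚ) / q.Db) ^ 2) / (1 - ((q.B : ℚ) / q.Db) ^ 2) -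
        (q.g : ℚ) / Dc| ≤ logLo (((q.B : ℚ) / q.Db) ^ 2) := by
  simp only [Piece.tanTop, logHorner, ile_eq, decide_eq_true_eq, imul_eq, iadd_eq, isub_eq,
    iabs_eq, Int.ofNat_eq_natCast, Int.natCast_natAbs] at h
  have hc : (0 : ℚ) < Dc := by exact_mod_cast hDc
  have hb : (0 : ℚ) < q.Db := by exact_mod_cast hDb
  have he : (q.B : ℚ) * q.B < q.Db * q.Db := by exact_mod_cast hE
  replace h := Int.cast_le (R := ℚ).2 h
  push_cast at h
  rw [div_pow, logLo_horner (pow_pos hb 2) (sq_nonneg _)]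
  set B : ℚ := (q.B : ℚ)
  set D : ℚ := (q.Db : ℚ)
  set c : ℚ := (q.c : ℚ)
  set g : ℚ := (q.g : ℚ)
  set K : ℚ := (Dc : ℚ)
  have hD2 : D ^ 2 ≠ 0 := by positivity
  have hs : D * D + B * B ≠ 0 := by nlinarith [mul_self_nonneg B]
  have hM : 0 < D * (D * D - B * B) := mul_pos hb (sub_pos.2 he)
  have hsm : (0 : ℚ) < (D * D + B * B) * (D * (D * D - B * B)) :=
    mul_pos (by nlinarith [mul_self_nonneg B]) hM
  have h1 : 1 - B ^ 2 / D ^ 2 = (D * D - B * B) / D ^ 2 := by field_simp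
  have e1 : c / K + g / K * (2 * (B / D) / (1 + B ^ 2 / D ^ 2)) =
      (c * ((D * D + B * B) * (D * (D * D - B * B))) + g * (D * (D * D - B * B)) * (2 * (B * D))) /
        (K * ((D * D + B * B) * (D * (D * D - B * B)))) := by
    have : D * D - B * B ≠ 0 := (sub_pos.2 he).ne'
    have : D ^ 2 - B ^ 2 ≠ 0 := by rwa [sq, sq]
    field_simp
  have e2 : B / D * (1 + B ^ 2 / D ^ 2) / (1 - B ^ 2 / D ^ 2) - g / K =
      (B * (D * D + B * B) * K - g * (D * (D * D - B * B))) / (K * (D * (D * D - B * B))) := by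
    have : D * D - B * B ≠ 0 := (sub_pos.2 he).ne'
    have : D ^ 2 - B ^ 2 ≠ 0 := by rwa [sq, sq]
    rw [h1]
    field_simp
  rw [e1, e2, abs_div, abs_of_pos (mul_pos hc hM)]
  have hden : (0 : ℚ) < 3465 * ((2 * D ^ 2 + B ^ 2) * ((((2 * D ^ 2 + B ^ 2) ^ 2) ^ 4) *
      (2 * D ^ 2 + B ^ 2) ^ 2)) := by positivity
  have e3 : 2 * (|B * (D * D + B * B) * K - g * (D * (D * D - B * B))| /
      (K * (D * (D * D - B * B)))) =
      2 * |B * (D * D + B * B) * K - g * (D * (D * D - B * B))| * (D * D + B * B) /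
        (K * ((D * D + B * B) * (D * (D * D - B * B)))) := by
    field_simp
  rw [e3, ← add_div, div_le_div_iff₀ (mul_pos hc hsm) hden]
  linear_combination h

theorem timeGap_eq {Da Dr A R : ℤ} (hDa : 0 < Da) (hDr : 0 < Dr) :
    1 - timeQ Da A * ((R : ℚ) / Dr) =
      ((timeGap Da Dr A R : ℤ) : ℚ) / (((timeDen Da A : ℤ) : ℚ) * Dr) ∧
    timeQ Da A - (R : ℚ) / Dr = ((isub (imul (timeNum Da A) Dr) (imul R (timeDen Da A)) : ℤ) : ℚ) /
      (((timeDen Da A : ℤ) : ℚ) * Dr) ∧ (0 : ℚ) < ((timeDen Da A : ℤ) : ℚ) * Dr := by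
  have ha : (0 : ℚ) < Da := by exact_mod_cast hDa
  have hr : (0 : ℚ) < Dr := by exact_mod_cast hDr
  have hd : (0 : ℚ) < (Da : ℚ) * Da + (A : ℚ) * A := by nlinarith
  simp only [timeQ, timeGap, timeDen, timeNum, isub_eq, imul_eq, iadd_eq]
  push_cast
  refine ⟨?_, ?_, mul_pos hd hr⟩ <;> field_simp

theorem Piece.bendAt_sound {Da Dr A R : ℤ} {q : Piece} (hDa : 0 < Da) (hDr : 0 < Dr)
    (hk : 0 < q.kd) (ha : 0 < q.Yn) (hab : q.Yn ≤ q.Yd)
    (h : q.bendAt Dr (timeDen Da A) (timeGap Da Dr A R) = true) :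
    2 * ((q.kn : ℚ) / q.kd) * (1 - timeQ Da A * ((R : ℚ) / Dr)) ≤
      (1 - ((q.Yn : ℚ) / q.Yd) ^ 2 / (1 + (q.Yn : ℚ) / q.Yd)) / ((q.Yn : ℚ) / q.Yd) ^ 3 := by
  simp only [Piece.bendAt, ile_eq, decide_eq_true_eq, imul_eq, iadd_eq, isub_eq] at h
  replace h := Int.cast_le (R := ℚ).2 h
  push_cast at h
  obtain ⟨e, -, hpos⟩ := timeGap_eq (A := A) (R := R) hDa hDr
  have hk' : (0 : ℚ) < q.kd := by exact_mod_cast hk
  have ha' : (0 : ℚ) < q.Yn := by exact_mod_cast ha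
  have hb' : (0 : ℚ) < q.Yd := by exact_mod_cast (lt_of_lt_of_le ha hab)
  rw [e]
  set a : ℚ := (q.Yn : ℚ)
  set b : ℚ := (q.Yd : ℚ)
  set T : ℚ := ((timeGap Da Dr A R : ℤ) : ℚ)
  set d : ℚ := ((timeDen Da A : ℤ) : ℚ) * (Dr : ℚ)
  have hab' : b + a ≠ 0 := (add_pos hb' ha').ne'
  have e2 : (1 - (a / b) ^ 2 / (1 + a / b)) / (a / b) ^ 3 =
      (b * b + a * b - a * a) * (b * b) / ((b + a) * (a * a * a)) := by
    field_simp
  have e3 : 2 * ((q.kn : ℚ) / q.kd) * (T / d) = 2 * q.kn * T / (q.kd * d) := by field_simp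
  rw [e2, e3, div_le_div_iff₀ (mul_pos hk' hpos) (by positivity)]
  linear_combination h

theorem slopeWithin_sound {a b N u : ℤ} (hb : 0 < b) (hu : u ≠ 0)
    (h : slopeWithin a b N u = true) :
    1 - ((N : ℚ) / u) ^ 2 ≤ ((a : ℚ) / b) ^ 2 := by
  simp only [slopeWithin, ile_eq, decide_eq_true_eq, imul_eq, isub_eq] at h
  replace h := Int.cast_le (R := ℚ).2 h
  push_cast at h
  have hb' : (0 : ℚ) < b := by exact_mod_cast hb
  have hu' : (u : ℚ) ≠ 0 := by exact_mod_cast hu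
  have e : 1 - ((N : ℚ) / u) ^ 2 = ((u : ℚ) ^ 2 - (N : ℚ) ^ 2) / (u : ℚ) ^ 2 := by field_simp
  rw [e, div_pow, div_le_div_iff₀ (by positivity) (by positivity)]
  linear_combination h

/-- The rational conditions of a tangent piece. -/
theorem Piece.tan_of_fast {C : Cfg} {I : Ival} {q : Piece} (h : q.tanFast C I = true) :
    let b : ℚ := (q.B : ℚ) / q.Db
    let zj := 2 * b / (1 + b ^ 2)
    let l := b * (1 + b ^ 2) / (1 - b ^ 2)
    let c := (q.c : ℚ) / C.Dc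
    let g := (q.g : ℚ) / C.Dc
    let Y : ℚ := (q.Yn : ℚ) / q.Yd
    let r0 : ℚ := (q.R0 : ℚ) / C.Dr
    let r1 : ℚ := (q.R1 : ℚ) / C.Dr
    let t0 := timeQ C.Da I.A0
    let t1 := timeQ C.Da I.A1
    let k := 2 * ((q.kn : ℚ) / q.kd)
    let K := (1 - Y ^ 2 / (1 + Y)) / Y ^ 3
    let zlo := (t0 - r1) / (1 - t0 * r1)
    let zhi := (t1 - r0) / (1 - t1 * r0)
    (0 < q.Db ∧ b ^ 2 < 1 ∧ 0 < q.kd ∧ 0 ≤ q.kn ∧ 0 < q.Yn ∧ q.Yn ≤ q.Yd) ∧
      c + g * zj + 2 * |l - g| ≤ logLo (b ^ 2) ∧ (0 < 1 - t0 * r1 ∧ 0 < 1 - t1 * r0) ∧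
      (k * (1 - t0 * r0) ≤ K ∧ k * (1 - t0 * r1) ≤ K ∧ k * (1 - t1 * r0) ≤ K ∧
        k * (1 - t1 * r1) ≤ K) ∧
      (q.Yn = q.Yd ∨ (0 ≤ zj ∧ 0 ≤ zlo ∧ 1 - zj ^ 2 ≤ Y ^ 2 ∧ 1 - zlo ^ 2 ≤ Y ^ 2) ∨
        (zj ≤ 0 ∧ zhi ≤ 0 ∧ 1 - zj ^ 2 ≤ Y ^ 2 ∧ 1 - zhi ^ 2 ≤ Y ^ 2)) := by
  intro b zj l c g Y r0 r1 t0 t1 k K zlo zhi
  simp only [Piece.tanFast, Bool.and_eq_true, Bool.or_eq_true, Bool.not_eq_true', ile_eq,
    decide_eq_false_iff_not, not_le, decide_eq_true_eq] at h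
  obtain ⟨⟨⟨⟨⟨⟨⟨⟨⟨⟨⟨⟨⟨⟨⟨⟨hDa, hDc⟩, hDr⟩, hDb⟩, hE⟩, hk⟩, hn⟩, ha⟩, hab⟩, ht⟩, hu0⟩, hu1⟩, k0⟩,
    k1⟩, k2⟩, k3⟩, hy⟩ := h
  simp only [imul_eq] at hE
  have hbd : (0 : ℚ) < q.Db := by exact_mod_cast hDb
  have hb2 : b ^ 2 < 1 := by
    simp only [b, div_pow]
    rw [div_lt_one (pow_pos hbd 2), sq, sq]
    exact_mod_cast hE
  obtain ⟨g0, n0, p0⟩ := timeGap_eq (A := I.A0) (R := q.R1) hDa hDr
  obtain ⟨g1, n1, p1⟩ := timeGap_eq (A := I.A1) (R := q.R0) hDa hDr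
  have hu0' : (0 : ℚ) < ((timeGap C.Da C.Dr I.A0 q.R1 : ℤ) : ℚ) := by exact_mod_cast hu0
  have hu1' : (0 : ℚ) < ((timeGap C.Da C.Dr I.A1 q.R0 : ℤ) : ℚ) := by exact_mod_cast hu1
  have elo : zlo = ((isub (imul (timeNum C.Da I.A0) C.Dr) (imul q.R1 (timeDen C.Da I.A0)) : ℤ) :
      ℚ) / ((timeGap C.Da C.Dr I.A0 q.R1 : ℤ) : ℚ) := by
    simp only [zlo, t0, r1, g0, n0]
    exact div_div_div_cancel_right₀ p0.ne' _ _
  have ehi : zhi = ((isub (imul (timeNum C.Da I.A1) C.Dr) (imul q.R0 (timeDen C.Da I.A1)) : ℤ) :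
      ℚ) / ((timeGap C.Da C.Dr I.A1 q.R0 : ℤ) : ℚ) := by
    simp only [zhi, t1, r0, g1, n1]
    exact div_div_div_cancel_right₀ p1.ne' _ _
  have hS : (0 : ℚ) < ((iadd (imul q.Db q.Db) (imul q.B q.B) : ℤ) : ℚ) := by
    simp only [iadd_eq, imul_eq]
    push_cast
    nlinarith [mul_self_nonneg (q.B : ℚ)]
  have ez : zj = ((imul 2 (imul q.B q.Db) : ℤ) : ℚ) /
      ((iadd (imul q.Db q.Db) (imul q.B q.B) : ℤ) : ℚ) := by
    simp only [zj, b, iadd_eq, imul_eq]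
    push_cast
    field_simp
  have hb : 0 < q.Yd := lt_of_lt_of_le ha hab
  refine ⟨⟨hDb, hb2, hk, hn, ha, hab⟩, Piece.tanTop_sound hDc hDb hE ht,
    ⟨?_, ?_⟩, ⟨Piece.bendAt_sound hDa hDr hk ha hab k0, Piece.bendAt_sound hDa hDr hk ha hab k1,
      Piece.bendAt_sound hDa hDr hk ha hab k2, Piece.bendAt_sound hDa hDr hk ha hab k3⟩, ?_⟩
  · simp only [t0, r1, g0]
    exact div_pos hu0' p0
  · simp only [t1, r0, g1]
    exact div_pos hu1' p1
  rcases hy with (f | ⟨⟨⟨f1, f2⟩, f3⟩, f4⟩) | ⟨⟨⟨f1, f2⟩, f3⟩, f4⟩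
  · exact .inl (le_antisymm hab f)
  · refine .inr (.inl ⟨?_, ?_, ?_, ?_⟩)
    · rw [ez]; exact div_nonneg (by exact_mod_cast f1) hS.le
    · rw [elo]; exact div_nonneg (by exact_mod_cast f3) hu0'.le
    · rw [ez]; exact slopeWithin_sound hb (by exact_mod_cast hS.ne') f2
    · rw [elo]; exact slopeWithin_sound hb hu0.ne' f4
  · refine .inr (.inr ⟨?_, ?_, ?_, ?_⟩)
    · rw [ez]; exact div_nonpos_of_nonpos_of_nonneg (by exact_mod_cast f1) hS.le
    · rw [ehi]; exact div_nonpos_of_nonpos_of_nonneg (by exact_mod_cast f3) hu1'.le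
    · rw [ez]; exact slopeWithin_sound hb (by exact_mod_cast hS.ne') f2
    · rw [ehi]; exact slopeWithin_sound hb hu1.ne' f4

theorem Piece.ok_of_fast {C : Cfg} {I : Ival} {q : Piece} (h : q.okFast C I = true) :
    q.ok C I = true := by
  simp only [Piece.okFast, QN.le_eq, ile_eq, ineg_eq, Bool.or_eq_true, Bool.and_eq_true,
    Bool.not_eq_true', decide_eq_true_eq, decide_eq_false_iff_not, not_le, QN.val_sub,
    QN.val_div, QN.val_z, QN.val_frac, zero_iff, val_ballN] at h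
  simp only [Piece.ok, Piece.edgeOK, Bool.or_eq_true, Bool.and_eq_true, Bool.not_eq_true',
    decide_eq_true_eq]
  push_cast at h ⊢
  obtain ⟨⟨⟨⟨a1, a2⟩, a3⟩, he⟩, h⟩ := h
  refine ⟨⟨⟨a1, a2, a3⟩, he.imp_right fun e => ⟨e.1.1, e.1.2, e.2⟩⟩, h.imp_right fun h => ?_⟩
  obtain ⟨t1, t2, t3, t4, t5⟩ := Piece.tan_of_fast h
  exact ⟨⟨⟨⟨t1, t2⟩, t3⟩, t4⟩, t5⟩

theorem ipw_cast {a : ℤ} (ha : 0 < a) (k : ℕ) : ((ipw a k : ℤ) : ℚ) = (a : ℚ) ^ k := by
  have e : ((itoN a : ℕ) : ℤ) = a := by rw [itoN_eq]; exact Int.toNat_of_nonneg ha.le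
  simp only [ipw, Nat.pow_eq, Int.ofNat_eq_natCast, Nat.cast_pow, e, Int.cast_pow]

theorem Seg.majTop_of_fast {C : Cfg} {s : Seg} (h : s.topFast C = true) : s.majTop C = true := by
  unfold Seg.topFast at h
  unfold Seg.majTop
  match hk : s.kind with
  | .below =>
    simp only [hk, ile_eq, decide_eq_true_eq] at h
    simpa using h
  | .tail =>
    simp only [hk, ile_eq, QN.le_eq, Bool.and_eq_true, decide_eq_true_eq, QN.val_sub, QN.val_z,
      QN.val_frac, Int.ofNat_eq_natCast] at h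
    simp only [Bool.and_eq_true, decide_eq_true_eq]
    push_cast at h ⊢
    exact ⟨h.1.1.1.1, h.1.1.1.2, h.1.1.2, h.1.2, h.2⟩
  | .mid =>
    simp only [hk, Seg.midTop, ile_eq, Bool.and_eq_true, Bool.not_eq_true',
      decide_eq_false_iff_not, not_le, decide_eq_true_eq, Int.ofNat_eq_natCast] at h
    obtain ⟨⟨⟨⟨⟨⟨⟨⟨hV, ha⟩, hb⟩, hDc⟩, hm⟩, h0⟩, h1⟩, h2⟩, h3⟩ := h
    simp only [Bool.and_eq_true, decide_eq_true_eq]
    have hm2 : (2 : ℚ) ≤ (C.m : ℚ) := by exact_mod_cast hm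
    have hc : (0 : ℚ) < C.Dc := by exact_mod_cast hDc
    have ha' : (0 : ℚ) < s.yn := by exact_mod_cast ha
    have hb' : (0 : ℚ) < s.yd := by exact_mod_cast hb
    simp only [imul_eq, iadd_eq, isub_eq, ineg_eq] at h0 h1 h2 h3
    replace h0 := Int.cast_le (R := ℚ).2 h0
    replace h1 := Int.cast_le (R := ℚ).2 h1
    replace h2 := Int.cast_le (R := ℚ).2 h2
    replace h3 := Int.cast_le (R := ℚ).2 h3
    push_cast [ipw_cast ha, ipw_cast hb, Nat.mul_eq, Nat.sub_eq] at h0 h1 h2 h3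
    simp only [div_pow (s.yn : ℚ) (s.yd : ℚ)]
    set a : ℚ := (s.yn : ℚ)
    set b : ℚ := (s.yd : ℚ)
    set A : ℚ := a ^ C.m with hA
    set B : ℚ := b ^ C.m with hB
    set G : ℚ := a ^ (2 * C.m - 2) with hG
    set H : ℚ := b ^ (2 * C.m - 2) with hH
    have pA : 0 < A := by positivity
    have pB : 0 < B := by positivity
    have pH : 0 < H := by positivity
    have pm : (0 : ℚ) < C.m - 1 := by linarith
    have pm0 : (0 : ℚ) < C.m := by linarith
    refine ⟨⟨hV, div_pos ha' hb'⟩, ?_, ?_, ?_, ?_⟩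
    · rw [le_div_iff₀ hc, ← mul_le_mul_iff_left₀
        (show (0 : ℚ) < (C.m - 1) * (3 * (C.m * (C.m * C.m)) * (H * (A * A * A))) by positivity)]
      refine le_of_eq_of_le ?_ h0
      field_simp
      ring
    · rw [le_div_iff₀ hc, ← mul_le_mul_iff_left₀
        (show (0 : ℚ) < (C.m - 1) * (3 * (C.m * (C.m * C.m)) * (H * (A * A * A))) by positivity)]
      refine le_of_eq_of_le ?_ h1
      field_simp
      ring
    · rw [le_div_iff₀ hc, ← mul_le_mul_iff_left₀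
        (show (0 : ℚ) < (C.m - 1) * (3 * (C.m * (C.m * C.m)) * (H * (A * A * A))) by positivity)]
      refine le_of_eq_of_le ?_ h2
      field_simp
      ring
    · rw [le_div_iff₀ hc, ← mul_le_mul_iff_left₀
        (show (0 : ℚ) < (C.m - 1) * (3 * (C.m * (C.m * C.m)) * (H * (A * A * A))) by positivity)]
      refine le_of_eq_of_le ?_ h3
      field_simp
      ring

theorem Seg.minOK_of_fast {C : Cfg} {s : Seg} (h : s.minFast C = true) : s.minOK C = true := by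
  unfold Seg.minFast at h
  unfold Seg.minOK
  simp only [zero_iff] at h
  by_cases h2 : s.l2 = 0
  · rw [if_neg (not_not.2 h2)]
    simp only [h2, decide_true, Bool.not_true, cond_false, Bool.or_eq_true] at h
    simp only [Bool.or_eq_true]
    refine h.imp (fun h => by simpa using h) fun h => ?_
    simp only [Seg.minLine, ile_eq, Bool.and_eq_true, Bool.not_eq_true',
      decide_eq_false_iff_not, not_le, decide_eq_true_eq, Int.ofNat_eq_natCast] at h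
    obtain ⟨⟨⟨⟨⟨⟨⟨hb, hab⟩, hV⟩, hDc⟩, hDv⟩, hm⟩, h0⟩, h1⟩ := h
    have ha : 0 < s.yn := lt_of_lt_of_le hb hab
    have hm2 : (2 : ℚ) ≤ (C.m : ℚ) := by exact_mod_cast hm
    have hc : (0 : ℚ) < C.Dc := by exact_mod_cast hDc
    have hv : (0 : ℚ) < C.Dv := by exact_mod_cast hDv
    have hy : (1 : ℚ) ≤ (s.yn : ℚ) / s.yd := by
      rw [le_div_iff₀ (by exact_mod_cast hb)]
      simpa using (Int.cast_le (R := ℚ)).2 hab
    simp only [imul_eq, iadd_eq, isub_eq] at h0 h1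
    replace h0 := Int.cast_le (R := ℚ).2 h0
    push_cast [ipw_cast ha, ipw_cast hb, Nat.mul_eq, Nat.sub_eq] at h0
    simp only [div_pow (s.yn : ℚ) (s.yd : ℚ)]
    set a : ℚ := (s.yn : ℚ) with hae
    set b : ℚ := (s.yd : ℚ) with hbe
    set A : ℚ := a ^ C.m with hA
    set B : ℚ := b ^ C.m with hB
    set G : ℚ := a ^ (2 * C.m - 2) with hG
    set H : ℚ := b ^ (2 * C.m - 2) with hH
    have pa : (0 : ℚ) < a := Int.cast_pos.2 ha
    have pb : (0 : ℚ) < b := Int.cast_pos.2 hb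
    have pA : 0 < A := by positivity
    have pB : 0 < B := by positivity
    have pH : 0 < H := by positivity
    have pm : (0 : ℚ) < C.m - 1 := by linarith
    have pm0 : (0 : ℚ) < C.m := by linarith
    have pd : (0 : ℚ) < (C.m - 1) * (3 * (C.m * (C.m * C.m)) * (H * A * (B * B))) := by
      positivity
    match hk : s.kind with
    | .below | .mid =>
      simp only [hk, decide_eq_true_eq] at h1
      replace h1 := Int.cast_le (R := ℚ).2 h1
      push_cast [ipw_cast ha, ipw_cast hb, Nat.mul_eq, Nat.sub_eq, ← hae, ← hbe, ← hA, ← hB, ← hG,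
        ← hH] at h1
      simp only [Bool.and_eq_true, decide_eq_true_eq]
      refine ⟨⟨hy, hV, ?_⟩, ?_⟩
      · refine (mul_le_mul_iff_left₀ (mul_pos (mul_pos (mul_pos pd pB) hc) hv)).1 ?_
        rw [zero_mul]
        refine (sub_nonneg.2 h0).trans_eq ?_
        field_simp
        ring
      · refine (mul_le_mul_iff_left₀ (mul_pos (mul_pos (mul_pos pd pB) hc) hv)).1 ?_
        rw [zero_mul]
        refine (sub_nonneg.2 h1).trans_eq ?_
        field_simp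
        ring
    | .tail =>
      simp only [hk, decide_eq_true_eq] at h1
      replace h1 := Int.cast_le (R := ℚ).2 h1
      push_cast [ipw_cast ha, ipw_cast hb, Nat.mul_eq, Nat.sub_eq, ← hae, ← hbe, ← hA, ← hB, ← hG,
        ← hH] at h1
      simp only [Bool.and_eq_true, decide_eq_true_eq]
      refine ⟨⟨hy, hV, ?_⟩, ?_⟩
      · refine (mul_le_mul_iff_left₀ (mul_pos (mul_pos (mul_pos pd pB) hc) hv)).1 ?_
        rw [zero_mul]
        refine (sub_nonneg.2 h0).trans_eq ?_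
        field_simp
        ring
      · rw [div_le_iff₀ hc, ← mul_le_mul_iff_left₀ pd]
        refine h1.trans_eq ?_
        field_simp
        ring
  · rw [if_pos h2]
    simp only [h2, decide_false, Bool.not_false, cond_true, ile_eq, QN.le_eq, Bool.and_eq_true,
      decide_eq_true_eq, QN.val_sub, QN.val_add, QN.val_mul, QN.val_div, QN.val_pow, QN.val_z,
      QN.val_frac, Int.ofNat_eq_natCast] at h
    simp only [Seg.minQuadOK, decide_eq_true_eq]
    push_cast at h ⊢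
    exact ⟨h.1.1.1.1, h.1.1.1.2, h.1.1.2, h.1.2, h.2⟩

theorem Seg.majOK_of_fast {C : Cfg} {s : Seg} (h : s.majFast C = true) : s.majOK C = true := by
  simp only [Seg.majFast, Bool.and_eq_true] at h
  simp only [Seg.majOK, Seg.majTop_of_fast h.1, Seg.minOK_of_fast h.2, Bool.and_self]

theorem Seg.lineOK_of_fast {C : Cfg} {s : Seg} (h : s.lineFast C = true) : s.lineOK C = true := by
  unfold Seg.lineFast at h
  unfold Seg.lineOK
  simp only [zero_iff, Bool.or_eq_true] at h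
  simp only [Bool.or_eq_true]
  refine h.imp (fun h => by simpa using h) fun h => ?_
  simp only [ile_eq, Bool.and_eq_true, Bool.not_eq_true', decide_eq_false_iff_not, not_le,
    decide_eq_true_eq, Int.ofNat_eq_natCast] at h
  obtain ⟨⟨⟨⟨⟨ha, hb⟩, hDv⟩, hm⟩, h0⟩, h1⟩ := h
  have pm : (0 : ℚ) < C.m := by exact_mod_cast hm
  have hv : (0 : ℚ) < C.Dv := by exact_mod_cast hDv
  simp only [imul_eq, iadd_eq, isub_eq, ineg_eq] at h0 h1
  replace h0 := Int.cast_le (R := ℚ).2 h0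
  push_cast [ipw_cast ha, ipw_cast hb] at h0
  simp only [div_pow (s.cn : ℚ) (s.cd : ℚ)]
  set a : ℚ := (s.cn : ℚ) with hae
  set b : ℚ := (s.cd : ℚ) with hbe
  set A : ℚ := a ^ C.m with hA
  set B : ℚ := b ^ C.m with hB
  have pa : (0 : ℚ) < a := Int.cast_pos.2 ha
  have pb : (0 : ℚ) < b := Int.cast_pos.2 hb
  have pA : 0 < A := by positivity
  have pB : 0 < B := by positivity
  have pd : (0 : ℚ) < a * a * C.m * A * C.Dv := by positivity
  have pd' : (0 : ℚ) < a * a * C.m * A := by positivity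
  match hk : s.kind with
  | .below | .mid =>
    simp only [hk, decide_eq_true_eq] at h1
    replace h1 := Int.cast_le (R := ℚ).2 h1
    push_cast [ipw_cast ha, ipw_cast hb, ← hae, ← hbe, ← hA, ← hB] at h1
    simp only [Bool.and_eq_true, decide_eq_true_eq]
    refine ⟨⟨div_pos pa pb, ?_⟩, ?_⟩
    · rw [← mul_le_mul_iff_left₀ pd]
      refine le_of_eq_of_le ?_ (h0.trans_eq ?_)
      · field_simp
      · field_simp
    · rw [← mul_le_mul_iff_left₀ pd]
      refine le_of_eq_of_le ?_ (h1.trans_eq ?_)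
      · field_simp
      · field_simp
  | .tail =>
    simp only [hk, decide_eq_true_eq] at h1
    replace h1 := Int.cast_le (R := ℚ).2 h1
    push_cast [ipw_cast ha, ipw_cast hb, ← hae, ← hbe, ← hA, ← hB] at h1
    simp only [Bool.and_eq_true, decide_eq_true_eq]
    refine ⟨⟨div_pos pa pb, ?_⟩, ?_⟩
    · rw [← mul_le_mul_iff_left₀ pd]
      refine le_of_eq_of_le ?_ (h0.trans_eq ?_)
      · field_simp
      · field_simp
    · rw [← mul_le_mul_iff_left₀ pd']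
      refine le_of_eq_of_le ?_ (h1.trans_eq ?_)
      · field_simp
      · field_simp

theorem Seg.slopeOK_of_fast {C : Cfg} {I : Ival} {s : Seg} (h : s.slopeFast C I = true) :
    s.slopeOK C I = true := by
  simp only [Seg.slopeFast, QN.le_eq, QN.lt_eq, Bool.or_eq_true, Bool.and_eq_true,
    decide_eq_true_eq, val_timeN, val_ballN, QN.val_sub, QN.val_add, QN.val_mul, QN.val_div,
    QN.val_pow, QN.val_z, QN.val_frac] at h
  simp only [Seg.slopeOK, Bool.or_eq_true, Bool.and_eq_true, decide_eq_true_eq]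
  push_cast at h ⊢
  exact h.imp_right fun h => ⟨⟨h.1.1.1.1, h.1.1.1.2, h.1.1.2, h.1.2⟩, h.2⟩

theorem segEnd_of_fast {C : Cfg} {k p : QN} : ∀ {l : List Seg}, segEndN C k p l = true →
    segEnd C k.val p.val l = true
  | [], h => by simp [segEndN] at h
  | [s], h => by
      simp only [segEndN, QN.le_eq, Bool.or_eq_true, Bool.and_eq_true, decide_eq_true_eq,
        QN.val_add, QN.val_mul, QN.val_pow, QN.val_z, QN.val_frac] at h
      simp only [segEnd, Bool.or_eq_true, decide_eq_true_eq]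
      push_cast at h
      exact h
  | _ :: q :: l, h => by
      simp only [segEndN] at h
      simp only [segEnd]
      exact segEnd_of_fast h

/-- The affine function with the values `x₀ / D`, `x₁ / D` at the two ends. -/
noncomputable def affVal (x₀ x₁ D : ℤ) (U X : ℝ) : ℝ := ((x₀ : ℝ) * U + x₁ * X) / D

theorem ev_polAff (A0 A1 x0 x1 : ℤ) (U X : ℝ) (h : U + X = 1) :
    ev (polAff A0 A1 x0 x1) (A0 * U + A1 * X) = ((A1 : ℝ) - A0) * (x0 * U + x1 * X) := by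
  obtain rfl : U = 1 - X := by linarith
  simp only [polAff, ev, cast_sub', cast_mul']
  ring

theorem ev_polS (Da : ℤ) (A : ℝ) : ev (polS Da) A = (Da : ℝ) ^ 2 + A ^ 2 := by
  simp only [polS, ev, imul_eq]; push_cast; ring

theorem ev_polP (Da : ℤ) (A : ℝ) : ev (polP Da) A = (Da : ℝ) ^ 2 - A ^ 2 := by
  simp only [polP, ev, imul_eq]; push_cast; ring

theorem ev_polK (Da : ℤ) (hDa : Da ≠ 0) (A : ℝ) : ev (polK Da) A =
    1000 * ((Da : ℝ) ^ 2 + A ^ 2) ^ 4 *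
      weightPoly (((Da : ℝ) ^ 2 - A ^ 2) / ((Da : ℝ) ^ 2 + A ^ 2)) := by
  have hD : (Da : ℝ) ≠ 0 := Int.cast_ne_zero.2 hDa
  have hS : (Da : ℝ) ^ 2 + A ^ 2 ≠ 0 := by positivity
  simp only [polK, ev_add1, ev_smul1, ev_mul1, ev_polS, ev_polP, weightPoly]
  push_cast
  field_simp
  ring

/-- Weights of a point of an interval. -/
theorem AtIval.wt {C : Cfg} {I : Ival} {t A U X : ℝ} (h : AtIval C I t A) (hUX : U + X = 1)
    (hA : A = I.A0 * U + I.A1 * X) : Wt C I U X A := by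
  have hd : (0 : ℝ) < (I.A1 : ℝ) - I.A0 := sub_pos.2 (h.lo.trans_lt h.hi)
  obtain rfl : U = 1 - X := by linarith
  have e : A - I.A0 = ((I.A1 : ℝ) - I.A0) * X := by rw [hA]; ring
  refine ⟨?_, (mul_nonneg_iff_of_pos_left hd).1 (e ▸ sub_nonneg.2 h.lo), hUX, hA⟩
  refine (mul_nonneg_iff_of_pos_left hd).1 ?_
  linarith [h.hi]

/-- The value of `formK`. -/
theorem formK_val {C : Cfg} {I : Ival} {A U X : ℝ} (w : Wt C I U X A) (hDa : C.Da ≠ 0) :
    Rep U X 8 (formK C I) (1000 * fS C A ^ 4 * weightPoly (fP C A / fS C A)) := by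
  have u := Rep.unit (U := U) (X := X)
  refine (((((w.mulS (w.mulS (w.mulS (w.mulS u)))).smul 1000).add
    ((w.mulP (w.mulP (w.mulS (w.mulS u)))).smul (-1028))).add
    (((w.mulP (w.mulP (w.mulP (w.mulS u)))).smul 526).add
      ((w.mulP (w.mulP (w.mulP (w.mulP u)))).smul 2)))).congr ?_
  have hD : (C.Da : ℝ) ≠ 0 := Int.cast_ne_zero.2 hDa
  have hS : fS C A ≠ 0 := by rw [fS]; positivity
  simp only [weightPoly]
  push_cast
  field_simp
  ring

/-- The weight is between its affine bounds. -/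
theorem weight_bounds {C : Cfg} {I : Ival} {t A U X : ℝ} (h : AtIval C I t A) (hDa : 0 < C.Da)
    (hDc : 0 < C.Dc) (hu : upperFast C I = true) (hl : lowerFast C I = true) (hUX : U + X = 1)
    (hA : A = I.A0 * U + I.A1 * X) :
    weightPoly (ballShape t) ≤ affVal I.u0 I.u1 C.Dc U X ∧
      affVal I.l0 I.l1 C.Dc U X ≤ weightPoly (ballShape t) := by
  obtain ⟨-, -, -, -, ep⟩ := h.point hDa
  have hD : (0 : ℝ) < C.Da := Int.cast_pos.2 hDa
  have hc : (0 : ℝ) < C.Dc := Int.cast_pos.2 hDc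
  have hd : (0 : ℝ) < (I.A1 : ℝ) - I.A0 := sub_pos.2 (h.lo.trans_lt h.hi)
  have w := h.wt hUX hA
  have hK := formK_val w hDa.ne'
  simp only [fP, fS, ← ep] at hK
  have raise : ∀ {p : Pk} {v : ℝ}, Rep U X 8 p v → Rep U X 9 (p.lin 1 1) v := fun r => w.lin_one r
  set k := weightPoly (ballShape t) with hkd
  set S : ℝ := (C.Da : ℝ) ^ 2 + A ^ 2 with hSd
  have hS : 0 < S := by rw [hSd]; positivity
  have four : ∀ x₀ x₁ : ℤ, Rep U X 9 (mulS4 C I (Pk.unit.lin x₀ x₁))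
      (S ^ 4 * ((x₀ : ℝ) * U + x₁ * X)) := fun x₀ x₁ =>
    (w.mulS (w.mulS (w.mulS (w.mulS (Rep.unit.lin x₀ x₁))))).congr (by rw [fS, ← hSd]; ring)
  have a : 0 ≤ 1000 * (S ^ 4 * ((I.u0 : ℝ) * U + I.u1 * X)) - C.Dc * (1000 * S ^ 4 * k) := by
    simp only [upperFast, Bool.or_eq_true] at hu
    rcases hu with hu | hu
    · simp only [Pk.nn, Bool.and_eq_true, Nat.blt_eq] at hu
      refine (Rep.nonneg w.hU w.hX (((four I.u0 I.u1).smul 1000).add
        ((raise hK).smul (ineg C.Dc))) hu.1 hu.2).trans_eq ?_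
      rw [cast_neg']
      push_cast
      ring
    have a := posOn_sound hu (t := A) (by simpa using h.lo) (by simpa using h.hi.le)
    simp only [ev_add1, ev_smul1, ev_mul1, ev_polS, ev_polK C.Da hDa.ne',
      cast_mul', cast_sub', cast_neg'] at a
    rw [hA, ev_polAff _ _ _ _ _ _ hUX, ← hA, ← hSd, ← ep, ← hkd] at a
    push_cast at a
    refine (mul_nonneg_iff_of_pos_left hd).1 ?_
    linarith
  have b : 0 ≤ C.Dc * (1000 * S ^ 4 * k) - 1000 * (S ^ 4 * ((I.l0 : ℝ) * U + I.l1 * X)) := by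
    simp only [lowerFast, Bool.or_eq_true] at hl
    rcases hl with hl | hl
    · simp only [Pk.nn, Bool.and_eq_true, Nat.blt_eq] at hl
      refine (Rep.nonneg w.hU w.hX (((raise hK).smul C.Dc).add
        ((four I.l0 I.l1).smul (-1000))) hl.1 hl.2).trans_eq ?_
      push_cast
      ring
    have a := posOn_sound hl (t := A) (by simpa using h.lo) (by simpa using h.hi.le)
    simp only [ev_add1, ev_smul1, ev_mul1, ev_polS, ev_polK C.Da hDa.ne',
      cast_mul', cast_sub'] at a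
    rw [hA, ev_polAff _ _ _ _ _ _ hUX, ← hA, ← hSd, ← ep, ← hkd] at a
    push_cast at a
    refine (mul_nonneg_iff_of_pos_left hd).1 ?_
    linarith
  have hk : (0 : ℝ) < 1000 * S ^ 4 := by positivity
  constructor <;> rw [affVal]
  · rw [le_div_iff₀ hc, ← mul_le_mul_iff_of_pos_left hk]
    linarith
  · rw [div_le_iff₀ hc, ← mul_le_mul_iff_of_pos_left hk]
    linarith

/-- The potential is at least its affine bound. -/
theorem pot_lower {C : Cfg} {I : Ival} {t A U X : ℝ} (h : AtIval C I t A) (hDa : 0 < C.Da)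
    (hDc : 0 < C.Dc) (hDw : 0 < C.Dw) (hp : potFast C I = true) (hUX : U + X = 1)
    (hA : A = I.A0 * U + I.A1 * X) : affVal I.w0 I.w1 C.Dc U X ≤ C.W t := by
  obtain ⟨-, -, -, et, ep⟩ := h.point hDa
  have hD : (0 : ℝ) < C.Da := Int.cast_pos.2 hDa
  have hc : (0 : ℝ) < C.Dc := Int.cast_pos.2 hDc
  have hw : (0 : ℝ) < C.Dw := Int.cast_pos.2 hDw
  have hd : (0 : ℝ) < (I.A1 : ℝ) - I.A0 := sub_pos.2 (h.lo.trans_lt h.hi)
  rw [affVal, Cfg.W, div_le_div_iff₀ hc hw]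
  set S : ℝ := (C.Da : ℝ) ^ 2 + A ^ 2 with hSd
  have hS : 0 < S := by rw [hSd]; positivity
  set p := ballShape t with hpd
  set k := weightPoly p with hk
  have hPS : (C.Da : ℝ) ^ 2 - A ^ 2 = p * S := by rw [ep]; field_simp
  have hTS : 2 * (C.Da : ℝ) * A = t * S := by rw [et]; field_simp
  have w := h.wt hUX hA
  have u := Rep.unit (U := U) (X := X)
  have hK := formK_val w hDa.ne'
  have hfP : fP C A / fS C A = p := by rw [fP, fS, ← hSd, hPS, mul_div_cancel_right₀ p hS.ne']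
  rw [hfP, ← hk] at hK
  have rest := (((w.mulS (w.mulS u)).smul C.cC).add ((w.mulP (w.mulS u)).smul C.cD)).add
    ((w.mulP (w.mulP u)).smul C.cE)
  simp only [potFast, Bool.or_eq_true] at hp
  by_cases hb : I.wb = true
  · simp only [if_pos hb] at hp
    have hk' : (0 : ℝ) < 1000 * S ^ 6 := by positivity
    have hq : 0 ≤ 1000 * S ^ 6 * ((C.cB * (k * t ^ 2) + C.cC + C.cD * p + C.cE * p ^ 2) * C.Dc -
        ((I.w0 : ℝ) * U + I.w1 * X) * C.Dw) := by
      rcases hp with hp | hp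
      · simp only [Pk.nn, Bool.and_eq_true, Nat.blt_eq] at hp
        refine (Rep.nonneg w.hU w.hX (((w.lin_one (((w.mulT (w.mulT hK)).smul C.cB).add
          ((w.mulS (w.mulS (w.mulS (w.mulS rest)))).smul 1000))).smul C.Dc).add
          ((w.mulS (w.mulS (w.mulS (w.mulS (w.mulS (w.mulS (u.lin I.w0 I.w1))))))).smul
            (imul (-1000) C.Dw))) hp.1 hp.2).trans_eq ?_
        have e1 : fT C A = t * S := by rw [fT, hTS]
        have e2 : fP C A = p * S := by rw [fP, hPS]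
        have e3 : fS C A = S := by rw [fS]
        rw [e1, e2, e3, cast_mul']
        push_cast
        ring
      unfold potOK at hp
      rw [if_pos hb] at hp
      have a := posOn_sound hp (t := A) (by simpa using h.lo) (by simpa using h.hi.le)
      simp only [ev, ev_add1, ev_smul1, ev_mul1, ev_polS, ev_polP, ev_polK C.Da hDa.ne',
        cast_mul', cast_sub', Int.cast_zero, zero_add] at a
      rw [hA, ev_polAff _ _ _ _ _ _ hUX, ← hA] at a
      push_cast at a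
      rw [hPS, mul_div_cancel_right₀ p hS.ne', ← hk] at a
      rw [show (C.cB : ℝ) * (4 * ((C.Da : ℝ) * C.Da)) * (A * (A * (1000 * S ^ 4 * k))) =
        1000 * S ^ 4 * k * C.cB * (2 * (C.Da : ℝ) * A) ^ 2 by ring, hTS] at a
      refine (mul_nonneg_iff_of_pos_left hd).1 ?_
      linarith
    have := le_max_right (C.cA : ℝ) (C.cB * (k * t ^ 2))
    refine le_trans ?_ (mul_le_mul_of_nonneg_right (add_le_add_left (add_le_add_left
      (add_le_add_left this _) _) _) hc.le)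
    rw [← mul_le_mul_iff_of_pos_left hk']
    linarith
  · simp only [if_neg hb] at hp
    have hk' : (0 : ℝ) < S ^ 2 := by positivity
    have hq : 0 ≤ S ^ 2 * ((C.cA + C.cC + C.cD * p + C.cE * p ^ 2) * C.Dc -
        ((I.w0 : ℝ) * U + I.w1 * X) * C.Dw) := by
      rcases hp with hp | hp
      · simp only [Pk.nn, Bool.and_eq_true, Nat.blt_eq] at hp
        refine (Rep.nonneg w.hU w.hX (((w.lin_one (((w.mulS (w.mulS u)).smul C.cA).add
          rest)).smul C.Dc).add ((w.mulS (w.mulS (u.lin I.w0 I.w1))).smul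
            (ineg C.Dw))) hp.1 hp.2).trans_eq ?_
        have e2 : fP C A = p * S := by rw [fP, hPS]
        have e3 : fS C A = S := by rw [fS]
        rw [e2, e3, cast_neg']
        ring
      unfold potOK at hp
      rw [if_neg hb] at hp
      have a := posOn_sound hp (t := A) (by simpa using h.lo) (by simpa using h.hi.le)
      simp only [ev_add1, ev_smul1, ev_mul1, ev_polS, ev_polP,
        cast_mul', cast_sub', cast_neg'] at a
      rw [hA, ev_polAff _ _ _ _ _ _ hUX, ← hA] at a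
      rw [hPS] at a
      refine (mul_nonneg_iff_of_pos_left hd).1 ?_
      linarith
    have := le_max_left (C.cA : ℝ) (C.cB * (k * t ^ 2))
    refine le_trans ?_ (mul_le_mul_of_nonneg_right (add_le_add_left (add_le_add_left
      (add_le_add_left this _) _) _) hc.le)
    rw [← mul_le_mul_iff_of_pos_left hk']
    linarith

/-- The bound of `log (1 + a ^ 2)` by a tangent in `a ^ 2`. -/
theorem log_quad {C : Cfg} {I : Ival} {t A : ℝ} (h : AtIval C I t A) (hDa : 0 < C.Da)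
    (hDc : 0 < C.Dc) (hh : logOK C I = true) :
    Real.log (1 + halfAngle t ^ 2) ≤ ((I.h0 : ℝ) + I.h1 * A ^ 2) / C.Dc := by
  obtain ⟨-, -, ea, -, -⟩ := h.point hDa
  simp only [logOK, decide_eq_true_eq] at hh
  obtain ⟨hu0, hu1, hb⟩ := hh
  set u : ℚ := ((I.h1 * C.Da * C.Da : ℤ) : ℚ) / C.Dc with hu
  have hy : (0 : ℚ) ≤ 1 / u - 1 := by rw [sub_nonneg, le_div_iff₀ hu0]; linarith
  have h1 := logUp_sound hy
  have h2 := (Rat.cast_le (K := ℝ)).2 hb
  have hu' : (0 : ℝ) < (u : ℝ) := Rat.cast_pos.2 hu0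
  push_cast at h1 h2
  rw [show 1 + (1 / (u : ℝ) - 1) = 1 / (u : ℝ) by ring] at h1
  have ha : (0 : ℝ) < 1 + halfAngle t ^ 2 := by positivity
  have h3 := Real.log_le_sub_one_of_pos (mul_pos hu' ha)
  rw [Real.log_mul hu'.ne' ha.ne'] at h3
  rw [one_div, Real.log_inv] at h1
  have hD : (0 : ℝ) < C.Da := Int.cast_pos.2 hDa
  have hc : (0 : ℝ) < C.Dc := Int.cast_pos.2 hDc
  have e : ((I.h0 : ℝ) + I.h1 * A ^ 2) / C.Dc = (I.h0 : ℝ) / C.Dc + u * halfAngle t ^ 2 := by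
    rw [ea, hu]
    push_cast
    field_simp
  rw [e]
  linarith

theorem shift_inv {t ρ : ℝ} (ht : t ^ 2 < 1) (h : 1 - t * ρ ≠ 0) :
    (t - (t - ρ) / (1 - t * ρ)) / (1 - t * ((t - ρ) / (1 - t * ρ))) = ρ := by
  have e : 1 - t * ((t - ρ) / (1 - t * ρ)) = (1 - t ^ 2) / (1 - t * ρ) := by field_simp; ring
  have e' : t - (t - ρ) / (1 - t * ρ) = ρ * (1 - t ^ 2) / (1 - t * ρ) := by field_simp; ring
  have : 1 - t ^ 2 ≠ 0 := by linarith
  rw [e, e', div_div_div_cancel_right₀ h, mul_div_assoc, div_self this, mul_one]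

theorem half_state {b : ℝ} (h : b ^ 2 < 1) : 2 * b / (1 + b ^ 2) ∈ Ioo (-1 : ℝ) 1 := by
  have h' : |b| < 1 := by rwa [← sq_lt_one_iff_abs_lt_one]
  rw [abs_lt] at h'
  have hp : (0 : ℝ) < 1 + b ^ 2 := by positivity
  constructor
  · rw [lt_div_iff₀ hp]
    linarith [mul_pos (show 0 < 1 + b by linarith) (show 0 < 1 + b by linarith)]
  · rw [div_lt_one hp]
    linarith [mul_pos (show 0 < 1 - b by linarith) (show 0 < 1 - b by linarith)]

theorem slope_ratio_mono {t t₁ r : ℝ} (ht : 0 ≤ t) (htt : t ≤ t₁) (ht1 : t₁ ≤ 1) (hr : r ≤ t) :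
    (1 - t * r) ^ 2 * (1 - t₁ ^ 2) ≤ (1 - t₁ * r) ^ 2 * (1 - t ^ 2) := by
  have h1 : 0 ≤ 1 - r * t₁ := by nlinarith
  have h2 : 0 ≤ 1 - r * t := by nlinarith
  have hfac : 0 ≤ (t - r) * (1 - r * t₁) + (t₁ - r) * (1 - r * t) :=
    add_nonneg (mul_nonneg (by linarith) h1) (mul_nonneg (by linarith) h2)
  linarith [mul_nonneg (sub_nonneg.2 htt) hfac]

theorem zShift_mono {t t' ρ ρ' : ℝ} (ht : t' ≤ t) (hρ : ρ ≤ ρ') (h1 : 0 < 1 - t * ρ)
    (h2 : 0 < 1 - t' * ρ') (h3 : ρ * ρ' ≤ 1) (h4 : t * t' ≤ 1) :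
    (t' - ρ') / (1 - t' * ρ') ≤ (t - ρ) / (1 - t * ρ) := by
  rw [div_le_div_iff₀ h2 h1]
  nlinarith [mul_nonneg (sub_nonneg.2 ht) (sub_nonneg.2 h3),
    mul_nonneg (sub_nonneg.2 hρ) (sub_nonneg.2 h4)]

theorem hull_bound {Y a z lo hi : ℝ} (hlo : lo ≤ z) (hhi : z ≤ hi)
    (h : Y = 1 ∨ (0 ≤ a ∧ 0 ≤ lo ∧ 1 - a ^ 2 ≤ Y ^ 2 ∧ 1 - lo ^ 2 ≤ Y ^ 2) ∨
      (a ≤ 0 ∧ hi ≤ 0 ∧ 1 - a ^ 2 ≤ Y ^ 2 ∧ 1 - hi ^ 2 ≤ Y ^ 2)) :
    ∀ x ∈ Ioo (min a z) (max a z), 1 - x ^ 2 ≤ Y ^ 2 := by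
  intro x hx
  rcases h with rfl | ⟨u0, v0, u1, v1⟩ | ⟨u0, v0, u1, v1⟩
  · nlinarith [sq_nonneg x]
  · rcases le_total a z with hle | hle
    · rw [min_eq_left hle] at hx
      linarith [pow_le_pow_left₀ u0 hx.1.le 2]
    · rw [min_eq_right hle] at hx
      linarith [pow_le_pow_left₀ v0 (hlo.trans hx.1.le) 2]
  · rcases le_total a z with hle | hle
    · rw [max_eq_right hle] at hx
      linarith [pow_le_pow_left₀ (neg_nonneg.2 v0) (neg_le_neg (hx.2.le.trans hhi)) 2,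
        neg_sq x, neg_sq hi]
    · rw [max_eq_left hle] at hx
      linarith [pow_le_pow_left₀ (neg_nonneg.2 u0) (neg_le_neg hx.2.le) 2, neg_sq x, neg_sq a]

theorem corner_bound {t t₀ t₁ r₀ ρ κ K : ℝ} (hκ : 0 ≤ κ) (ht : 0 ≤ t) (h0 : t₀ ≤ t) (h1 : t ≤ t₁)
    (hρ : r₀ ≤ ρ) (e0 : 2 * κ * (1 - t₀ * r₀) ≤ K) (e1 : 2 * κ * (1 - t₁ * r₀) ≤ K) :
    2 * κ * (1 - t * ρ) ≤ K := by
  have step : 2 * κ * (1 - t * ρ) ≤ 2 * κ * (1 - t * r₀) :=
    mul_le_mul_of_nonneg_left (by nlinarith) (by linarith)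
  refine step.trans ?_
  rcases le_total 0 r₀ with hs | hs
  · exact le_trans (mul_le_mul_of_nonneg_left (by nlinarith) (by linarith)) e0
  · exact le_trans (mul_le_mul_of_nonneg_left (by nlinarith) (by linarith)) e1

theorem tangent_combine {t ρ z zj c g l κ K M M₀ : ℝ} (hden : 0 < 1 - t * ρ)
    (hz : z ∈ Icc (0 : ℝ) 1) (hzj : zj ∈ Ioo (-1 : ℝ) 1) (hzd : z = (t - ρ) / (1 - t * ρ))
    (hM₀ : c + g * zj + 2 * |l - g| ≤ M₀)
    (key : M₀ + l * (z - zj) + K / 2 * (z - zj) ^ 2 ≤ M) (hK : 2 * κ * (1 - t * ρ) ≤ K) :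
    (1 - t * ρ) * c + (t - ρ) * g + κ * ((t - ρ) - zj * (1 - t * ρ)) ^ 2 ≤ (1 - t * ρ) * M := by
  have hdz : |z - zj| ≤ 2 := abs_le.2 ⟨by linarith [hz.1, hzj.2], by linarith [hz.2, hzj.1]⟩
  have hl : -(2 * |l - g|) ≤ (l - g) * (z - zj) := by
    have := mul_le_mul_of_nonneg_left hdz (abs_nonneg (l - g))
    rw [← abs_mul] at this
    linarith [neg_abs_le ((l - g) * (z - zj))]
  have lin : c + g * z + K / 2 * (z - zj) ^ 2 ≤ M := by linarith
  have hg : t - ρ = (1 - t * ρ) * z := by rw [hzd]; field_simp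
  have h2 := mul_le_mul_of_nonneg_right hK (mul_nonneg hden.le (sq_nonneg (z - zj)))
  have h3 := mul_le_mul_of_nonneg_left lin hden.le
  rw [hg]
  linarith

/-- The side conditions of a tangent piece in the reals, for the curvature `k` at `Y`. -/
structure PieceFacts (b zj c g κ Y t₀ t₁ r₀ r₁ : ℝ) : Prop where
  hb : b ^ 2 < 1
  hzj : zj = 2 * b / (1 + b ^ 2)
  hκ : 0 ≤ κ
  hY : 0 < Y
  hY1 : Y ≤ 1
  hlog : c + g * zj + 2 * |b * (1 + b ^ 2) / (1 - b ^ 2) - g| ≤ Real.log (1 + b ^ 2)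
  hr₀ : -1 ≤ r₀
  hr₁ : r₁ ≤ 1
  hden : 0 < 1 - t₁ * r₀
  k₀ : 2 * κ * (1 - t₀ * r₀) ≤ weightLim Y / Y ^ 3
  k₁ : 2 * κ * (1 - t₁ * r₀) ≤ weightLim Y / Y ^ 3
  hull : Y = 1 ∨
    (0 ≤ zj ∧ 0 ≤ (t₀ - r₁) / (1 - t₀ * r₁) ∧ 1 - zj ^ 2 ≤ Y ^ 2 ∧
      1 - ((t₀ - r₁) / (1 - t₀ * r₁)) ^ 2 ≤ Y ^ 2) ∨
    (zj ≤ 0 ∧ (t₁ - r₀) / (1 - t₁ * r₀) ≤ 0 ∧ 1 - zj ^ 2 ≤ Y ^ 2 ∧
      1 - ((t₁ - r₀) / (1 - t₁ * r₀)) ^ 2 ≤ Y ^ 2)

theorem Piece.ok_range {C : Cfg} {I : Ival} {q : Piece} (hDr : 0 < C.Dr) (hq : q.ok C I = true) :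
    -1 ≤ (q.R0 : ℝ) / C.Dr ∧ (q.R1 : ℝ) / C.Dr ≤ 1 ∧ q.R0 < q.R1 := by
  simp only [Piece.ok, Bool.and_eq_true, decide_eq_true_eq] at hq
  obtain ⟨⟨⟨hR0, hR01, hR1⟩, -⟩, -⟩ := hq
  have hD : (0 : ℝ) < C.Dr := Int.cast_pos.2 hDr
  refine ⟨?_, (div_le_one hD).2 (Int.cast_le.2 hR1), hR01⟩
  rw [le_div_iff₀ hD]
  have : ((-C.Dr : ℤ) : ℝ) ≤ q.R0 := Int.cast_le.2 hR0
  push_cast at this
  linarith

theorem Piece.ok_facts {C : Cfg} {I : Ival} {q : Piece} (hDr : 0 < C.Dr) (hq : q.ok C I = true)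
    (htan : q.tan = true) : 0 < q.kd ∧
    PieceFacts ((q.B : ℝ) / q.Db) (2 * ((q.B : ℝ) / q.Db) / (1 + ((q.B : ℝ) / q.Db) ^ 2))
      ((q.c : ℝ) / C.Dc) ((q.g : ℝ) / C.Dc) ((q.kn : ℝ) / q.kd) ((q.Yn : ℝ) / q.Yd)
      (timeQ C.Da I.A0) (timeQ C.Da I.A1) ((q.R0 : ℝ) / C.Dr) ((q.R1 : ℝ) / C.Dr) := by
  obtain ⟨hr0, hr1, -⟩ := Piece.ok_range hDr hq
  simp only [Piece.ok, htan, Bool.not_true, Bool.true_or, Bool.false_or, Bool.and_eq_true,
    decide_eq_true_eq, and_true] at hq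
  obtain ⟨-, ⟨⟨⟨⟨-, hb, hkd, hkn, hYn, hYd⟩, hlog⟩, -, hden⟩, hk00, -, hk10, -⟩, hhull⟩ := hq
  have hYd0 : (0 : ℝ) < q.Yd := Int.cast_pos.2 (hYn.trans_le hYd)
  refine ⟨hkd, ⟨?_, rfl, div_nonneg (Int.cast_nonneg hkn) (Int.cast_nonneg hkd.le),
    div_pos (Int.cast_pos.2 hYn) hYd0, (div_le_one hYd0).2 (Int.cast_le.2 hYd), ?_, hr0, hr1, ?_,
    ?_, ?_, ?_⟩⟩
  · have h := (Rat.cast_lt (K := ℝ)).2 hb
    push_cast at h
    exact h
  · have h := (Rat.cast_le (K := ℝ)).2 hlog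
    have h' := logLo_sound (y := ((q.B : ℚ) / q.Db) ^ 2) (sq_nonneg _)
    push_cast at h h'
    exact h.trans h'
  · have h := (Rat.cast_lt (K := ℝ)).2 hden
    push_cast at h
    exact h
  · have h := (Rat.cast_le (K := ℝ)).2 hk00
    push_cast at h
    exact h
  · have h := (Rat.cast_le (K := ℝ)).2 hk10
    push_cast at h
    exact h
  · rcases hhull with hh | ⟨a1, a2, a3, a4⟩ | ⟨a1, a2, a3, a4⟩
    · refine .inl ?_
      rw [hh]
      exact div_self hYd0.ne'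
    · refine .inr (.inl ?_)
      have b1 := (Rat.cast_nonneg (K := ℝ)).2 a1
      have b2 := (Rat.cast_nonneg (K := ℝ)).2 a2
      have b3 := (Rat.cast_le (K := ℝ)).2 a3
      have b4 := (Rat.cast_le (K := ℝ)).2 a4
      push_cast at b1 b2 b3 b4
      exact ⟨b1, b2, b3, b4⟩
    · refine .inr (.inr ?_)
      have b1 := (Rat.cast_nonpos (K := ℝ)).2 a1
      have b2 := (Rat.cast_nonpos (K := ℝ)).2 a2
      have b3 := (Rat.cast_le (K := ℝ)).2 a3
      have b4 := (Rat.cast_le (K := ℝ)).2 a4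
      push_cast at b1 b2 b3 b4
      exact ⟨b1, b2, b3, b4⟩

/-- The tangent of the model on a piece, in the variables of the cell. -/
theorem tangent_real {b zj c g κ Y t₀ t₁ r₀ r₁ t ρ : ℝ} (F : PieceFacts b zj c g κ Y t₀ t₁ r₀ r₁)
    (ht : t ∈ Ioo (0 : ℝ) 1) (ht₀ : 0 ≤ t₀) (h0 : t₀ ≤ t) (h1 : t ≤ t₁) (ht₁ : t₁ ≤ 1)
    (hρ0 : r₀ ≤ ρ) (hρ1 : ρ ≤ r₁) (hρt : ρ ≤ t) :
    (1 - t * ρ) * c + (t - ρ) * g + κ * ((t - ρ) - zj * (1 - t * ρ)) ^ 2 ≤
      (1 - t * ρ) * logModel ((t - ρ) / (1 - t * ρ)) := by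
  have hρ' : -1 ≤ ρ := F.hr₀.trans hρ0
  have hden : 0 < 1 - t * ρ := by nlinarith [ht.1, ht.2]
  have hd : 0 < 1 - t₀ * r₁ := by nlinarith [F.hr₁, ht.2]
  have hzl : (t₀ - r₁) / (1 - t₀ * r₁) ≤ (t - ρ) / (1 - t * ρ) :=
    zShift_mono h0 hρ1 hden hd (by nlinarith [F.hr₁, F.hr₀]) (by nlinarith [ht.2])
  have hzh : (t - ρ) / (1 - t * ρ) ≤ (t₁ - r₀) / (1 - t₁ * r₀) :=
    zShift_mono h1 hρ0 F.hden hden (by nlinarith [F.hr₀, F.hr₁]) (by nlinarith [ht.1, ht.2])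
  have hz : (t - ρ) / (1 - t * ρ) ∈ Icc (0 : ℝ) 1 := ⟨div_nonneg (by linarith) hden.le, by
    rw [div_le_one hden]
    nlinarith [ht.1, ht.2]⟩
  have hzjI : zj ∈ Ioo (-1 : ℝ) 1 := F.hzj ▸ half_state F.hb
  generalize hzd : (t - ρ) / (1 - t * ρ) = z at hzl hzh hz ⊢
  have key := logModel_tangent (lo := min zj z) (hi := max zj z) (Y := Y)
    (k := weightLim Y / Y ^ 3) (s := z) (z := zj)
    (le_min (by linarith [hzjI.1]) (by linarith [hz.1]))
    (max_le hzjI.2.le hz.2) ⟨min_le_right _ _, le_max_right _ _⟩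
    ⟨min_le_left _ _, le_max_left _ _⟩ hzjI F.hY F.hY1 le_rfl (hull_bound hzl hzh F.hull)
  obtain ⟨em, ep⟩ := logModel_half F.hb
  rw [← F.hzj] at em ep
  rw [em, show zj / (ballShape zj * (1 + ballShape zj)) = b * (1 + b ^ 2) / (1 - b ^ 2) by
    rw [ep, F.hzj]
    have : 1 - b ^ 2 ≠ 0 := by linarith [F.hb]
    field_simp
    ring] at key
  exact tangent_combine hden hz hzjI hzd.symm F.hlog key
    (corner_bound F.hκ ht.1.le h0 h1 hρ0 F.k₀ F.k₁)

/-- The tangent of a checked piece. -/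
theorem piece_tangent {C : Cfg} {I : Ival} {q : Piece} {t A ρ : ℝ} (h : AtIval C I t A)
    (hDa : 0 < C.Da) (hDr : 0 < C.Dr) (h0 : 0 ≤ I.A0) (h1 : I.A1 ≤ C.Da) (hq : q.ok C I = true)
    (htan : q.tan = true) (hρ0 : (q.R0 : ℝ) / C.Dr ≤ ρ) (hρ1 : ρ ≤ (q.R1 : ℝ) / C.Dr) (hρt : ρ ≤ t) :
    0 < q.kd ∧ (1 - t * ρ) * ((q.c : ℝ) / C.Dc) + (t - ρ) * ((q.g : ℝ) / C.Dc) +
      (q.kn : ℝ) / q.kd * ((t - ρ) -
        2 * ((q.B : ℝ) / q.Db) / (1 + ((q.B : ℝ) / q.Db) ^ 2) * (1 - t * ρ)) ^ 2 ≤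
      (1 - t * ρ) * logModel ((t - ρ) / (1 - t * ρ)) := by
  obtain ⟨hkd, F⟩ := Piece.ok_facts hDr hq htan
  obtain ⟨⟨ht00, ht0t⟩, htt1, ht11⟩ := h.time_mem hDa h0 h1
  exact ⟨hkd, tangent_real F h.ht ht00 ht0t htt1 ht11 hρ0 hρ1 hρt⟩

/-- The model less the half angle term, near time one. -/
theorem edge_log {t ρ u c p₀ : ℝ} (ht : t ∈ Ioo (0 : ℝ) 1) (hρ : -1 ≤ ρ) (hρt : ρ ≤ t) (hu : 0 < u)
    (hp₀ : ballShape t ≤ p₀) (hc : c ≤ 1 - p₀ / 2) :
    (1 - t * ρ) * c - ((1 - ρ ^ 2) / (2 * u) + u / 2) ≤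
      (1 - t * ρ) / ballShape t *
        (logModel ((t - ρ) / (1 - t * ρ)) - Real.log (1 + halfAngle t ^ 2)) := by
  have hI : t ∈ Ioo (-1 : ℝ) 1 := sub01 ht
  have hp := ball_pos hI
  have hp2 := ball_sq (Ioo_subset_Icc_self hI)
  obtain ⟨-, -, hpa⟩ := halfAngle_param ⟨ht.1.le, ht.2.le⟩
  have hden : 0 < 1 - t * ρ := by nlinarith [ht.1, ht.2]
  set z := (t - ρ) / (1 - t * ρ) with hz
  have hz0 : 0 ≤ z := div_nonneg (by linarith) hden.le
  have hz1 : z ≤ 1 := by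
    rw [hz, div_le_one hden]
    nlinarith [ht.1, ht.2]
  have hρ1 : 0 ≤ 1 - ρ ^ 2 := by nlinarith [ht.2]
  have hQ : ballShape z = ballShape t * Real.sqrt (1 - ρ ^ 2) / (1 - t * ρ) := by
    rw [show ballShape z = Real.sqrt (1 - z ^ 2) from rfl,
      show ballShape t = Real.sqrt (1 - t ^ 2) from rfl, ← Real.sqrt_mul (by nlinarith [ht.1, ht.2]),
      eq_div_iff hden.ne']
    nth_rewrite 1 [← Real.sqrt_sq hden.le]
    rw [← Real.sqrt_mul (by nlinarith)]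
    congr 1
    rw [hz]
    field_simp
    ring
  have hs : Real.sqrt (1 - ρ ^ 2) ≤ (1 - ρ ^ 2) / (2 * u) + u / 2 := by
    rw [div_add_div _ _ (by positivity) two_ne_zero, le_div_iff₀ (by positivity)]
    nlinarith [Real.sq_sqrt hρ1, mul_self_nonneg (Real.sqrt (1 - ρ ^ 2) - u)]
  have hl : ballShape t - ballShape t ^ 2 / 2 ≤ Real.log (1 + ballShape t) := by
    refine le_trans ?_ (Real.le_log_one_add_of_nonneg hp.le)
    rw [le_div_iff₀ (by linarith)]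
    nlinarith [pow_nonneg hp.le 3]
  have ha : (0 : ℝ) < 1 + halfAngle t ^ 2 := by positivity
  have e : logModel z - Real.log (1 + halfAngle t ^ 2) =
      Real.log (1 + ballShape t) - Real.log (1 + ballShape z) := by
    rw [logModel_eq, show 1 + ballShape t = 2 / (1 + halfAngle t ^ 2) by
      rw [eq_div_iff ha.ne']; linear_combination hpa, Real.log_div two_ne_zero ha.ne']
    ring
  have hQz : Real.log (1 + ballShape z) ≤ ballShape z := by
    have := Real.log_le_sub_one_of_pos (one_add_ball_pos z)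
    linarith
  rw [e, div_mul_eq_mul_div, le_div_iff₀ hp]
  have h1 := mul_le_mul_of_nonneg_left (sub_le_sub hl hQz) hden.le
  rw [hQ] at h1
  have h2 : (1 - t * ρ) * (ballShape t * Real.sqrt (1 - ρ ^ 2) / (1 - t * ρ)) =
      ballShape t * Real.sqrt (1 - ρ ^ 2) := by field_simp
  nlinarith [mul_le_mul_of_nonneg_left hs hp.le,
    mul_le_mul_of_nonneg_left (show c ≤ 1 - ballShape t / 2 by linarith) (mul_nonneg hp.le hden.le)]

/-- The majorant of the cubic loss. -/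
theorem seg_majorant {C : Cfg} {s : Seg} {x : ℝ} (hm : 3 ≤ C.m) (hDv : 0 < C.Dv) (hDc' : 0 < C.Dc)
    (h : s.majOK C = true) (hk : s.kind ≠ .below) (hx : (s.V0 : ℝ) / C.Dv ≤ x - 1) :
    1 ≤ x ∧ cubicF C.m x ≤ ((s.r0 : ℝ) + s.r1 * (x - 1) + s.r2 * (x - 1) ^ 2 +
      s.r3 * (x - 1) ^ 3) / C.Dc := by
  obtain ⟨hq, -⟩ := tailExp_mem hm
  have hD : (0 : ℝ) < C.Dv := Int.cast_pos.2 hDv
  have cast : ∀ (a b : ℚ), a ≤ b → (a : ℝ) ≤ (b : ℝ) := fun a b h => Rat.cast_le.2 h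
  have eq : ((2 - 2 / (C.m : ℚ) : ℚ) : ℝ) = tailExp C.m := by rw [tailExp]; push_cast; rfl
  simp only [Seg.majOK, Bool.and_eq_true] at h
  replace h := h.1
  match hkind : s.kind with
  | .below => exact absurd hkind hk
  | .tail =>
    simp only [Seg.majTop, hkind, Bool.and_eq_true, decide_eq_true_eq] at h
    obtain ⟨hV, a0, a1, a2, a3⟩ := h
    have hV' : 0 ≤ x - 1 := (div_nonneg (Int.cast_nonneg hV) hD.le).trans hx
    refine ⟨by linarith, ?_⟩
    rw [cubicF, tailCubicPos, if_pos (by linarith)]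
    refine (tailCubic_le_sq hm (by linarith)).trans ?_
    have h2 := cast _ _ a2
    rw [show ((2 - 2 / (C.m : ℚ) - 1 : ℚ) : ℝ) = tailExp C.m - 1 by rw [← eq]; push_cast; ring]
      at h2
    push_cast at h2
    have hDc : (0 : ℝ) < C.Dc := Int.cast_pos.2 hDc'
    rw [le_div_iff₀ hDc]
    rw [le_div_iff₀ hDc] at h2
    nlinarith [mul_le_mul_of_nonneg_right h2 (sq_nonneg (x - 1)),
      mul_nonneg (Int.cast_nonneg a1 : (0:ℝ) ≤ s.r1) hV',
      mul_nonneg (Int.cast_nonneg a3 : (0:ℝ) ≤ s.r3) (pow_nonneg hV' 3),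
      (Int.cast_nonneg a0 : (0:ℝ) ≤ s.r0)]
  | .mid =>
    simp only [Seg.majTop, hkind, Bool.and_eq_true, decide_eq_true_eq] at h
    obtain ⟨⟨hV, hy⟩, a0, a1, a2, a3⟩ := h
    have hV' : 0 ≤ x - 1 := (div_nonneg (Int.cast_nonneg hV) hD.le).trans hx
    have hx1 : 1 ≤ x := by linarith
    refine ⟨hx1, ?_⟩
    have hy' : (0 : ℝ) < (s.yn : ℝ) / s.yd := by
      have : ((0 : ℚ) : ℝ) < (((s.yn : ℚ) / s.yd : ℚ) : ℝ) := Rat.cast_lt.2 hy
      push_cast at this; exact this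
    have h0 := cast _ _ a0; have h1 := cast _ _ a1
    have h2 := cast _ _ a2; have h3 := cast _ _ a3
    push_cast at h0 h1 h2 h3
    rw [show (2 - 2 / (C.m : ℝ)) = tailExp C.m from rfl] at h0 h1 h2 h3
    have hT := taylor_le_rpow hm (x := x) (by linarith) hy'
    rw [cubicF, tailCubicPos, if_pos hx1, tailCubic]
    set y : ℝ := (s.yn : ℝ) / s.yd
    set q := tailExp C.m
    set c := y ^ C.m with hc
    set K := y ^ (2 * C.m - 2)
    have hc0 : 0 < c := pow_pos hy' _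
    set v := x - 1 with hv
    have hle : 2 / q * (q * (q - 1) / 2 * v ^ 2 - (x ^ q - 1 - q * v)) ≤
        2 / q * (q * (q - 1) / 2 * v ^ 2 - (K * (1 + q * (x / c - 1) +
          q * (q - 1) / 2 * (x / c - 1) ^ 2 + q * (q - 1) * (q - 2) / 6 * (x / c - 1) ^ 3) -
            1 - q * v)) :=
      mul_le_mul_of_nonneg_left (by linarith) (div_nonneg two_pos.le (by linarith))
    refine hle.trans ?_
    have e : x / c - 1 = (1 / c - 1) + v / c := by rw [hv]; field_simp; ring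
    rw [e, show ((s.r0 : ℝ) + s.r1 * v + s.r2 * v ^ 2 + s.r3 * v ^ 3) / C.Dc =
      (s.r0 : ℝ) / C.Dc + (s.r1 : ℝ) / C.Dc * v + (s.r2 : ℝ) / C.Dc * v ^ 2 +
        (s.r3 : ℝ) / C.Dc * v ^ 3 by ring]
    refine le_trans (le_of_eq ?_) (add_le_add (add_le_add (add_le_add h0
      (mul_le_mul_of_nonneg_right h1 hV')) (mul_le_mul_of_nonneg_right h2 (sq_nonneg v)))
      (mul_le_mul_of_nonneg_right h3 (pow_nonneg hV' 3)))
    field_simp
    ring

/-- The cubic loss is above its tangents from one on. -/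
theorem cubicF_tangent {m : ℕ} (hm : 3 ≤ m) {c x : ℝ} (hc : 1 ≤ c) (hx : 1 ≤ x) :
    cubicF m c + 2 / tailExp m * tailCubic' m c * (x - c) ≤ cubicF m x := by
  obtain ⟨hq, hq2⟩ := tailExp_mem hm
  set q := tailExp m with hqdef
  have hd : ∀ t : ℝ, 0 < t → HasDerivAt (tailCubic' m)
      (q * (q - 1) - q * ((q - 1) * t ^ (q - 1 - 1))) t := fun t ht => by
    refine ((((hasDerivAt_id' t).sub_const 1).const_mul (q * (q - 1))).sub
      (((Real.hasDerivAt_rpow_const (Or.inl ht.ne')).const_mul q).sub_const q)).congr_deriv ?_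
    simp [hqdef]
  have hmono : MonotoneOn (tailCubic' m) (Ici 1) := by
    refine monotoneOn_of_deriv_nonneg (convex_Ici 1)
      (fun t ht => (hd t (by linarith [mem_Ici.1 ht])).continuousAt.continuousWithinAt)
      (fun t ht => by
        rw [interior_Ici] at ht
        exact (hd t (by linarith [mem_Ioi.1 ht])).differentiableAt.differentiableWithinAt)
      fun t ht => ?_
    rw [interior_Ici] at ht
    rw [(hd t (by linarith [mem_Ioi.1 ht])).deriv]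
    have := mul_le_mul_of_nonneg_left (Real.rpow_le_one_of_one_le_of_nonpos (mem_Ioi.1 ht).le
      (show q - 1 - 1 ≤ 0 by linarith)) (show 0 ≤ q * (q - 1) by nlinarith)
    linarith
  have hconv : ConvexOn ℝ (Ici 1) (tailCubic m) := by
    refine MonotoneOn.convexOn_of_deriv (convex_Ici 1)
      (fun t _ => (hasDerivAt_tailCubic hm t).continuousAt.continuousWithinAt)
      (fun t _ => (hasDerivAt_tailCubic hm t).differentiableAt.differentiableWithinAt) ?_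
    rw [interior_Ici]
    intro a ha b hb hab
    rw [(hasDerivAt_tailCubic hm a).deriv, (hasDerivAt_tailCubic hm b).deriv]
    exact hmono (mem_Ici.2 (mem_Ioi.1 ha).le) (mem_Ici.2 (mem_Ioi.1 hb).le) hab
  have key : tailCubic m c + tailCubic' m c * (x - c) ≤ tailCubic m x := by
    rcases lt_trichotomy c x with h | rfl | h
    · have := hconv.le_slope_of_hasDerivAt (mem_Ici.2 hc) (mem_Ici.2 hx) h (hasDerivAt_tailCubic hm c)
      rw [slope_def_field, le_div_iff₀ (sub_pos.2 h)] at this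
      linarith
    · simp
    · have := hconv.slope_le_of_hasDerivAt (mem_Ici.2 hx) (mem_Ici.2 hc) h (hasDerivAt_tailCubic hm c)
      rw [slope_def_field, div_le_iff₀ (sub_pos.2 h)] at this
      linarith
  rw [cubicF, cubicF, tailCubicPos, tailCubicPos, if_pos hc, if_pos hx, mul_assoc, ← mul_add]
  exact mul_le_mul_of_nonneg_left key (div_nonneg two_pos.le (by linarith))

/-- The cubic loss is above a quadratic once `y ^ m ≤ x`. -/
theorem cubicF_quad {m : ℕ} (hm : 3 ≤ m) {y x : ℝ} (hy : 1 ≤ y) (hx : y ^ m ≤ x) :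
    2 / tailExp m - 2 / (tailExp m * y ^ 2) + (2 - 2 * (2 / (tailExp m * y ^ 2))) * (x - 1) +
      (tailExp m - 1 - 2 / (tailExp m * y ^ 2)) * (x - 1) ^ 2 ≤ cubicF m x := by
  obtain ⟨hq, hq2⟩ := tailExp_mem hm
  set q := tailExp m with hqdef
  have hy0 : 0 < y := by linarith
  have hm0 : (m : ℝ) ≠ 0 := Nat.cast_ne_zero.2 (by omega)
  have hx1 : 1 ≤ x := (one_le_pow₀ hy).trans hx
  have h1 : x ^ q ≤ x ^ 2 / y ^ 2 := by
    have h2 : x ^ (q - 2) ≤ (y ^ m) ^ (q - 2) :=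
      Real.rpow_le_rpow_of_nonpos (by positivity) hx (by linarith)
    rw [← Real.rpow_natCast y m, ← Real.rpow_mul hy0.le,
      show (m : ℝ) * (q - 2) = -((2 : ℕ) : ℝ) by rw [hqdef, tailExp]; push_cast; field_simp; ring,
      Real.rpow_neg hy0.le, Real.rpow_natCast, Real.rpow_sub (by linarith), Real.rpow_two] at h2
    rw [div_le_iff₀ (by positivity)] at h2
    exact h2.trans_eq (by ring)
  rw [cubicF, tailCubicPos, if_pos hx1, tailCubic, ← hqdef]
  have e : 2 / q - 2 / (q * y ^ 2) + (2 - 2 * (2 / (q * y ^ 2))) * (x - 1) +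
      (q - 1 - 2 / (q * y ^ 2)) * (x - 1) ^ 2 =
      2 / q * (q * (q - 1) / 2 * (x - 1) ^ 2 - (x ^ 2 / y ^ 2 - 1 - q * (x - 1))) := by
    field_simp
    ring
  rw [e]
  exact mul_le_mul_of_nonneg_left (by linarith) (div_nonneg two_pos.le (by linarith))

/-- The minorant of the cubic loss. -/
theorem seg_minorant {C : Cfg} {s : Seg} {x : ℝ} (hm : 3 ≤ C.m) (hDv : 0 < C.Dv) (hDc' : 0 < C.Dc)
    (h : s.majOK C = true) (hx1 : 1 ≤ x) (hlt : s.isTail = true ∨ s.V0 < s.V1)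
    (hx0 : (s.V0 : ℝ) / C.Dv ≤ x - 1) (hxe : s.isTail = true ∨ x - 1 ≤ (s.V1 : ℝ) / C.Dv) :
    ((s.l0 : ℝ) + s.l1 * (x - 1) + s.l2 * (x - 1) ^ 2) / C.Dc ≤ cubicF C.m x := by
  simp only [Seg.majOK, Bool.and_eq_true] at h
  replace h := h.2
  by_cases hl2 : s.l2 ≠ 0
  · rw [Seg.minOK, if_pos hl2] at h
    simp only [Seg.minQuadOK, decide_eq_true_eq] at h
    obtain ⟨hy, hyc, g0, g1, g2⟩ := h
    have hy' := (Rat.cast_le (K := ℝ)).2 hy
    have hyc' := (Rat.cast_le (K := ℝ)).2 hyc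
    have g0' := (Rat.cast_le (K := ℝ)).2 g0
    have g1' := (Rat.cast_le (K := ℝ)).2 g1
    have g2' := (Rat.cast_le (K := ℝ)).2 g2
    push_cast at hy' hyc' g0' g1' g2'
    rw [show (2 - 2 / (C.m : ℝ)) = tailExp C.m from rfl] at g0' g1' g2'
    refine le_trans ?_ (cubicF_quad hm hy' (hyc'.trans (by linarith)))
    rw [add_div, add_div, mul_div_right_comm, mul_div_right_comm]
    have hv : 0 ≤ x - 1 := by linarith
    exact add_le_add (add_le_add g0' (mul_le_mul_of_nonneg_right g1' hv))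
      (mul_le_mul_of_nonneg_right g2' (sq_nonneg _))
  rw [not_not] at hl2
  rw [hl2, Int.cast_zero, zero_mul, add_zero]
  simp only [Seg.minOK, hl2, ne_eq, not_true_eq_false, if_false, Bool.or_eq_true, Bool.and_eq_true,
    decide_eq_true_eq] at h
  rcases h with ⟨e0, e1⟩ | ⟨⟨hy, -, hf0⟩, hend⟩
  · rw [e0, e1]
    simpa using (cubicF_bounds hm (by linarith)).1
  have cast : ∀ {a b : ℚ}, a ≤ b → (a : ℝ) ≤ (b : ℝ) := fun h => Rat.cast_le.2 h
  have hy' := cast hy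
  have hf0' := cast hf0
  push_cast at hy' hf0'
  rw [show (2 - 2 / (C.m : ℝ)) = tailExp C.m from rfl] at hf0'
  set y : ℝ := (s.yn : ℝ) / s.yd
  set q := tailExp C.m with hqdef
  set c := y ^ C.m with hc
  have hy0 : 0 < y := by linarith
  have hc1 : 1 ≤ c := one_le_pow₀ hy'
  have hK : c ^ q = y ^ (2 * C.m - 2) := by
    rw [hc, ← Real.rpow_natCast y C.m, ← Real.rpow_mul hy0.le,
      show (C.m : ℝ) * q = ((2 * C.m - 2 : ℕ) : ℝ) by
        have : (C.m : ℝ) ≠ 0 := Nat.cast_ne_zero.2 (by omega)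
        rw [hqdef, tailExp, Nat.cast_sub (by omega)]
        push_cast
        field_simp, Real.rpow_natCast]
  have ht := cubicF_tangent hm hc1 hx1
  rw [cubicF, tailCubicPos, if_pos hc1, tailCubic, tailCubic',
    Real.rpow_sub_one (by linarith : c ≠ 0), ← hqdef, hK] at ht
  refine le_trans ?_ ht
  obtain ⟨α, hα⟩ : ∃ α : ℝ, α = 2 / q * (q * (q - 1) / 2 * (c - 1) ^ 2 -
      (y ^ (2 * C.m - 2) - 1 - q * (c - 1))) := ⟨_, rfl⟩
  obtain ⟨β, hβ⟩ : ∃ β : ℝ, β = 2 / q * (q * (q - 1) * (c - 1) -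
      (q * (y ^ (2 * C.m - 2) / c) - q)) := ⟨_, rfl⟩
  rw [← hα, ← hβ] at hf0' ⊢
  have hD : (0 : ℝ) < C.Dv := Int.cast_pos.2 hDv
  rw [add_div, mul_div_right_comm]
  set v := x - 1 with hv
  rw [show x - c = v - (c - 1) by rw [hv]; ring]
  set a := (s.V0 : ℝ) / C.Dv
  rcases hkind : s.kind with - | - | -
  · simp only [hkind] at hend
    have := cast (of_decide_eq_true hend)
    push_cast at this
    rw [show (2 - 2 / (C.m : ℝ)) = tailExp C.m from rfl, ← hα, ← hβ] at this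
    have htl := hxe.resolve_left (by simp [Seg.isTail, hkind])
    have hlt' := (Int.cast_lt (R := ℝ)).2 (hlt.resolve_left (by simp [Seg.isTail, hkind]))
    have hab : a < (s.V1 : ℝ) / C.Dv := div_lt_div_of_pos_right hlt' hD
    rw [add_div, mul_div_right_comm] at this hf0'
    nlinarith [mul_nonneg (sub_nonneg.2 hx0) (sub_nonneg.2 htl)]
  · simp only [hkind] at hend
    have := cast (of_decide_eq_true hend)
    push_cast at this
    rw [show (2 - 2 / (C.m : ℝ)) = tailExp C.m from rfl, ← hα, ← hβ] at this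
    have htl := hxe.resolve_left (by simp [Seg.isTail, hkind])
    have hlt' := (Int.cast_lt (R := ℝ)).2 (hlt.resolve_left (by simp [Seg.isTail, hkind]))
    have hab : a < (s.V1 : ℝ) / C.Dv := div_lt_div_of_pos_right hlt' hD
    rw [add_div, mul_div_right_comm] at this hf0'
    nlinarith [mul_nonneg (sub_nonneg.2 hx0) (sub_nonneg.2 htl)]
  · simp only [hkind] at hend
    have := cast (of_decide_eq_true hend)
    push_cast at this
    rw [show (2 - 2 / (C.m : ℝ)) = tailExp C.m from rfl, ← hβ] at this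
    rw [add_div, mul_div_right_comm] at hf0'
    nlinarith [mul_le_mul_of_nonneg_right this (sub_nonneg.2 hx0)]

/-- The bound of the slope on a segment, from the chord from the centre. -/
theorem seg_slope {C : Cfg} {I : Ival} {s : Seg} {t A x ρ : ℝ} (h : AtIval C I t A) (hm : 3 ≤ C.m)
    (hDa : 0 < C.Da) (h0 : 0 ≤ I.A0) (h1 : I.A1 ≤ C.Da)
    (hs : s.slopeOK C I = true) (hx : 0 < x) (hhi : s.isTail = true ∨ x - 1 ≤ (s.V1 : ℝ) / C.Dv)
    (hρt : ρ ≤ t)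
    (hb : (C.b0n : ℝ) / C.b0d * ballShape t ^ C.m ≤ (1 - t * ρ) ^ C.m * x ^ 2) :
    ρ ≤ (s.R : ℝ) / C.Dr := by
  obtain ⟨-, htt1, ht11⟩ := h.time_mem hDa h0 h1
  simp only [Seg.slopeOK, Bool.or_eq_true, Bool.and_eq_true, Bool.not_eq_true',
    decide_eq_true_eq] at hs
  rcases hs with hs | ⟨⟨ht, hp1, hr, hV⟩, hch⟩
  · have : ((timeQ C.Da I.A1 : ℚ) : ℝ) ≤ (((s.R : ℚ) / C.Dr : ℚ) : ℝ) := Rat.cast_le.2 hs
    push_cast at this
    linarith
  by_contra hlt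
  rw [not_le] at hlt
  have hhi' := hhi.resolve_left (by rw [ht]; simp)
  have hp1' : (0 : ℝ) < (ballQ C.Da I.A1 : ℝ) := Rat.cast_pos.2 hp1
  have hr' : ((0 : ℚ) : ℝ) ≤ ((1 - timeQ C.Da I.A1 * ((s.R : ℚ) / C.Dr) : ℚ) : ℝ) :=
    Rat.cast_le.2 hr
  have hch' : (((((1 - timeQ C.Da I.A1 * ((s.R : ℚ) / C.Dr)) / ballQ C.Da I.A1) ^ C.m *
      (1 + (s.V1 : ℚ) / C.Dv) ^ 2) : ℚ) : ℝ) ≤ (((C.b0n : ℚ) / C.b0d : ℚ) : ℝ) := Rat.cast_le.2 hch
  push_cast at hr' hch'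
  set r : ℝ := (s.R : ℝ) / C.Dr
  set t1 : ℝ := (timeQ C.Da I.A1 : ℝ)
  have hp := ball_pos (sub01 h.ht)
  have hp2 := ball_sq (Ioo_subset_Icc_self (sub01 h.ht))
  have hD : (0 : ℝ) < C.Da := Int.cast_pos.2 hDa
  obtain ⟨ht1', hp1e⟩ := timeQ_cast hDa I.A1
  have hp12 : (ballQ C.Da I.A1 : ℝ) ^ 2 = 1 - t1 ^ 2 := by
    simp only [t1, ht1', hp1e, timeR]
    field_simp
    ring
  set p1 : ℝ := (ballQ C.Da I.A1 : ℝ)
  have hρden : 0 ≤ 1 - t * ρ := by nlinarith [h.ht.1, h.ht.2]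
  have hrt : r ≤ t := hlt.le.trans hρt
  have ha : (1 - t * ρ) / ballShape t < (1 - t * r) / ballShape t :=
    div_lt_div_of_pos_right (by nlinarith [h.ht.1]) hp
  have hmono : (1 - t * r) / ballShape t ≤ (1 - t1 * r) / p1 := by
    refine (pow_le_pow_iff_left₀ (div_nonneg (by nlinarith [h.ht.1, h.ht.2]) hp.le)
      (div_nonneg hr' hp1'.le) two_ne_zero).1 ?_
    rw [div_pow, div_pow, hp2, hp12,
      div_le_div_iff₀ (hp2 ▸ pow_pos hp 2) (hp12 ▸ pow_pos hp1' 2)]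
    exact slope_ratio_mono h.ht.1.le htt1 ht11 hrt
  have hpow : ((1 - t * ρ) / ballShape t) ^ C.m < ((1 - t1 * r) / p1) ^ C.m :=
    pow_lt_pow_left₀ (ha.trans_le hmono) (div_nonneg hρden hp.le) (by omega)
  have hx2 : x ^ 2 ≤ (1 + (s.V1 : ℝ) / C.Dv) ^ 2 := pow_le_pow_left₀ hx.le (by linarith) 2
  have hb' : (C.b0n : ℝ) / C.b0d ≤ ((1 - t * ρ) / ballShape t) ^ C.m * x ^ 2 := by
    rw [div_pow, div_mul_eq_mul_div, le_div_iff₀ (pow_pos hp _)]
    exact hb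
  have := mul_lt_mul_of_pos_right hpow (pow_pos hx 2)
  have := mul_le_mul_of_nonneg_left hx2 (pow_nonneg (div_nonneg hr' hp1'.le) C.m)
  linarith

end Vale.Agent.P237.Quant.TailCert
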