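import Mathlib
import Vale.Agent.P237.Quant.TailSide

/-!
The values of the packed forms of the tail checker at a point of an interval, and the meaning of the
packed tests of a cell.
-/

namespace Vale.Agent.P237.Quant.TailCert

open TailTuple Four.Checker Set

/-- The value of a polynomial in `A`. -/
noncomputable def Quad.val (e : Quad) (A : ℝ) : ℝ := e.e0 + e.e1 * A + e.e2 * A ^ 2

/-- Its slope. -/
noncomputable def Quad.slope (e : Quad) (A : ℝ) : ℝ := e.e1 + 2 * e.e2 * A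

namespace Wt

variable {C : Cfg} {I : Ival} {U X A : ℝ} {d : ℕ} {p : Pk} {v : ℝ}

theorem quad (h : Wt C I U X A) (e : Quad) : Rep U X 2 (quadForm I e) (e.val A) :=
  (((h.lin_one (h.lin_one Rep.unit)).smul e.e0).add
    (((h.lin_A (h.lin_one Rep.unit)).smul e.e1).add
      ((h.lin_A (h.lin_A Rep.unit)).smul e.e2))).congr (by rw [Quad.val]; ring)

theorem slope (h : Wt C I U X A) (e : Quad) :
    Rep U X 1 (Pk.unit.lin (slopeEnds I.A0 I.A1 e).1 (slopeEnds I.A0 I.A1 e).2) (e.slope A) :=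
  (Rep.unit.lin _ _).congr (by
    simp only [slopeEnds, cast_add', cast_mul', Quad.slope, h.hA]
    push_cast
    linear_combination (e.e1 : ℝ) * h.hs)

theorem spRow (h : Wt C I U X A) (hp : Rep U X 2 p v) :
    Rep U X 7 (I.spRow C p) (fS C A * fP C A * v) :=
  (h.lin_one (h.mulS (h.mulP hp))).congr (by ring)

end Wt

/-- The values of the gain forms. -/
structure FormsVal (C : Cfg) (I : Ival) (U X A : ℝ) : Prop where
  SSLL : Rep U X 7 (I.forms C).SSLL (fS C A ^ 2)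
  STLL : Rep U X 7 (I.forms C).STLL (fS C A * fT C A)
  TTLL : Rep U X 7 (I.forms C).TTLL (fT C A ^ 2)
  SSLH : Rep U X 7 (I.forms C).SSLH (fS C A ^ 2 * (I.h0 + I.h1 * A ^ 2))
  STLH : Rep U X 7 (I.forms C).STLH (fS C A * fT C A * (I.h0 + I.h1 * A ^ 2))
  SPAL : Rep U X 7 (I.forms C).SPAL (fS C A * fP C A * A)
  SPLu : Rep U X 7 (I.forms C).SPLu (fS C A * fP C A * (I.u0 * U + I.u1 * X))
  SPLl : Rep U X 7 (I.forms C).SPLl (fS C A * fP C A * (I.l0 * U + I.l1 * X))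
  SPLL : Rep U X 7 (I.forms C).SPLL (fS C A * fP C A)
  TPLL : Rep U X 7 (I.forms C).TPLL (fT C A * fP C A)

theorem forms_val {C : Cfg} {I : Ival} {U X A : ℝ} (h : Wt C I U X A) : FormsVal C I U X A := by
  have L := h.lin_one (Rep.unit (U := U) (X := X))
  have LL := h.lin_one L
  have lo : ∀ x₀ x₁ : ℤ, Rep U X 2 ((Pk.unit.lin 1 1).lin x₀ x₁) ((x₀ : ℝ) * U + x₁ * X) :=
    fun x₀ x₁ => (L.lin x₀ x₁).congr (mul_one _)
  exact
    { SSLL := (h.lin_one (h.mulS (h.mulS LL))).congr (by ring)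
      STLL := (h.lin_one (h.mulS (h.mulT LL))).congr (by ring)
      TTLL := (h.lin_one (h.mulT (h.mulT LL))).congr (by ring)
      SSLH := (h.lin_one (h.mulS (h.mulS (h.quad ⟨I.h0, 0, I.h1⟩)))).congr
        (by simp only [Quad.val]; push_cast; ring)
      STLH := (h.lin_one (h.mulS (h.mulT (h.quad ⟨I.h0, 0, I.h1⟩)))).congr
        (by simp only [Quad.val]; push_cast; ring)
      SPAL := (h.lin_one (h.mulS (h.mulP (h.lin_A L)))).congr (by ring)
      SPLu := (h.lin_one (h.mulS (h.mulP (lo I.u0 I.u1)))).congr (by ring)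
      SPLl := (h.lin_one (h.mulS (h.mulP (lo I.l0 I.l1)))).congr (by ring)
      SPLL := (h.lin_one (h.mulS (h.mulP LL))).congr (by ring)
      TPLL := (h.lin_one (h.mulT (h.mulP LL))).congr (by ring) }

/-- The common factor `m n Θ`. -/
noncomputable def Cfg.k1R (C : Cfg) : ℝ := C.m * ((C.m : ℝ) + 1) * ((C.Dth : ℝ) * C.Det)

/-- The factor `n Θ Da`. -/
noncomputable def Cfg.nTaR (C : Cfg) : ℝ := ((C.m : ℝ) + 1) * ((C.Dth : ℝ) * C.Det) * C.Da

/-- The value of the coefficient row of one spline. -/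
noncomputable def acoefV (C : Cfg) (e : Quad) (A : ℝ) : ℝ :=
  C.k1R * (fS C A * fP C A ^ 2 * e.slope A) -
    2 * C.k1R * ((C.m : ℝ) + 1) * C.Da * (fP C A * fT C A * e.val A)

/-- The values of the rows. -/
structure RowsVal where
  a0 : ℝ
  a1 : ℝ
  a2 : ℝ
  b0 : ℝ
  b1 : ℝ
  b2 : ℝ
  b2σ : ℝ
  V0 : ℝ
  V1 : ℝ
  C3 : ℝ
  dB : ℝ

/-- The factor `n Det (Dth + t₃) Da` of the loss with its multiplier. -/
noncomputable def Cfg.nT3R (C : Cfg) : ℝ :=
  ((C.m : ℝ) + 1) * C.Det * ((C.Dth : ℝ) + C.t3) * C.Da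

/-- The factor `2 m n Det Da` of a multiplier. -/
noncomputable def Cfg.m2R (C : Cfg) : ℝ := 2 * (C.m * ((C.m : ℝ) + 1)) * (C.Det * C.Da)

/-- The row of the multipliers of the power ratio and of the value at the ratio bracket `r`. -/
noncomputable def Cfg.bRow (C : Cfg) (r A : ℝ) : ℝ :=
  C.m2R * ((C.t3 : ℝ) - C.t1) * (r * fP C A ^ 2 - C.Dc * (fS C A * fP C A))

/-- The values of the rows at a point. -/
noncomputable def Ival.rowsR (C : Cfg) (I : Ival) (U X A : ℝ) : RowsVal :=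
  let SP := fS C A * fP C A
  let eb := (C.flux.be.line I.A0).val A
  let eg := (C.flux.ga.line I.A0).val A
  let es := (C.flux.si.line I.A0).val A
  { a0 := acoefV C (C.flux.al.line I.A0) A
    a1 := acoefV C (C.flux.be.line I.A0) A + 2 * C.bRow C.rA A - C.m2R * C.Dth * C.kap * SP
    a2 := acoefV C (C.flux.ga.line I.A0) A + 4 * C.nT3R * C.Dc * SP -
      2 * C.m * C.nTaR * (SP * (I.w0 * U + I.w1 * X)) + C.bRow C.rA A
    b0 := C.m ^ 2 * C.nTaR * (SP * eb)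
    b1 := C.m ^ 2 * C.nTaR * (SP * eb + 2 * (SP * eg))
    b2 := 2 * C.m ^ 2 * C.nTaR * (SP * eg)
    b2σ := 2 * C.nTaR * ((C.m : ℝ) - 2) * (SP * es)
    V0 := acoefV C (C.flux.si.line I.A0) A + 2 * C.m * C.nT3R * C.Dc * SP
    V1 := 2 * C.m * C.nTaR * ((C.m : ℝ) - 1) * (SP * es)
    C3 := 4 * C.nT3R * ((C.m : ℝ) - 2) * C.Dc * SP
    dB := C.bRow C.rB A - C.bRow C.rA A }

/-- Every row has its value. -/
structure RowsRep (U X : ℝ) (R : Rows) (V : RowsVal) : Prop where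
  a0 : Rep U X 7 R.a0 V.a0
  a1 : Rep U X 7 R.a1 V.a1
  a2 : Rep U X 7 R.a2 V.a2
  b0 : Rep U X 7 R.b0 V.b0
  b1 : Rep U X 7 R.b1 V.b1
  b2 : Rep U X 7 R.b2 V.b2
  b2σ : Rep U X 7 R.b2σ V.b2σ
  V0 : Rep U X 7 R.V0 V.V0
  V1 : Rep U X 7 R.V1 V.V1
  C3 : Rep U X 7 R.C3 V.C3
  dB : Rep U X 7 R.dB V.dB

theorem rows_val {C : Cfg} {I : Ival} {U X A : ℝ} (h : Wt C I U X A) :
    RowsRep U X (I.rows C) (I.rowsR C U X A) := by
  have L := h.lin_one (Rep.unit (U := U) (X := X))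
  have LL := h.lin_one L
  have sLL := h.spRow LL
  have sW := h.spRow (L.lin I.w0 I.w1)
  have ac : ∀ (k1 k2 : ℤ) (e : Quad), Rep U X 7 (I.acoef C k1 k2 e)
      (k1 * (fS C A * fP C A ^ 2 * e.slope A) + k2 * (fP C A * fT C A * e.val A)) := fun k1 k2 e =>
    (((h.mulS (h.mulP (h.mulP (h.slope e)))).smul k1).add
      ((h.lin_one (h.mulP (h.mulT (h.quad e)))).smul k2)).congr (by ring)
  have hb := h.spRow (h.quad (C.flux.be.line I.A0))
  have hg := h.spRow (h.quad (C.flux.ga.line I.A0))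
  have hs := h.spRow (h.quad (C.flux.si.line I.A0))
  have PP : Rep U X 7 ((mulP C I (mulP C I ((Pk.unit.lin 1 1).lin 1 1))).lin 1 1) (fP C A ^ 2) :=
    (h.lin_one (h.mulP (h.mulP LL))).congr (by ring)
  constructor
  · refine (ac _ _ _).congr ?_
    simp only [Ival.rowsR, acoefV, cast_mul', cast_add', cast_ofNat', Cfg.n, Cfg.th', Cfg.k1R]
    push_cast
    ring
  · refine ((ac _ _ _).add ((((PP.smul _).add (sLL.smul _)).smul 2).add (sLL.smul _))).congr ?_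
    simp only [Ival.rowsR, acoefV, cast_mul', cast_add', cast_sub', cast_neg', cast_ofNat', Cfg.n,
      Cfg.th', Cfg.k1R, Cfg.bRow, Cfg.m2R]
    push_cast
    ring
  · refine (((ac _ _ _).add ((sLL.smul _).add (sW.smul _))).add
      ((PP.smul _).add (sLL.smul _))).congr ?_
    simp only [Ival.rowsR, acoefV, cast_mul', cast_add', cast_sub', cast_neg', cast_ofNat', Cfg.n,
      Cfg.th', Cfg.k1R, Cfg.nTaR, Cfg.nT3R, Cfg.bRow, Cfg.m2R]
    push_cast
    ring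
  · refine (hb.smul _).congr ?_
    simp only [Ival.rowsR, cast_mul', cast_add', cast_ofNat', Cfg.n, Cfg.th', Cfg.nTaR]
    push_cast
    ring
  · refine ((hb.add (hg.smul 2)).smul _).congr ?_
    simp only [Ival.rowsR, cast_mul', cast_add', cast_ofNat', Cfg.n, Cfg.th', Cfg.nTaR]
    push_cast
    ring
  · refine (hg.smul _).congr ?_
    simp only [Ival.rowsR, cast_mul', cast_add', cast_ofNat', Cfg.n, Cfg.th', Cfg.nTaR]
    push_cast
    ring
  · refine (hs.smul _).congr ?_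
    simp only [Ival.rowsR, cast_mul', cast_add', cast_sub', cast_ofNat', Cfg.n, Cfg.th', Cfg.nTaR]
    push_cast
    ring
  · refine ((ac _ _ _).add (sLL.smul _)).congr ?_
    simp only [Ival.rowsR, acoefV, cast_mul', cast_add', cast_ofNat', Cfg.n, Cfg.th', Cfg.k1R,
      Cfg.nT3R]
    push_cast
    ring
  · refine (hs.smul _).congr ?_
    simp only [Ival.rowsR, cast_mul', cast_add', cast_sub', cast_ofNat', Cfg.n, Cfg.th', Cfg.nTaR]
    push_cast
    ring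
  · refine (sLL.smul _).congr ?_
    simp only [Ival.rowsR, cast_mul', cast_add', cast_sub', cast_ofNat', Cfg.n, Cfg.nT3R]
    push_cast
    ring
  · refine (PP.smul _).congr ?_
    simp only [Ival.rowsR, cast_mul', cast_add', cast_sub', cast_ofNat', Cfg.n, Cfg.bRow, Cfg.m2R]
    push_cast
    ring

/-- The rows with the four-term flux have their values. -/
theorem rowsHigh_val {C : Cfg} {I : Ival} {U X A : ℝ} (h : Wt C I U X A) :
    RowsRep U X (I.rowsHigh C (I.rows C)) (I.rowsR C.far U X A) := by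
  have R := rows_val (C := C) (I := I) h
  have he := h.quad (C.flux.k5.line I.A0)
  have ac : ∀ (k1 k2 : ℤ) (e : Quad), Rep U X 7 (I.acoef C k1 k2 e)
      (k1 * (fS C A * fP C A ^ 2 * e.slope A) + k2 * (fP C A * fT C A * e.val A)) := fun k1 k2 e =>
    (((h.mulS (h.mulP (h.mulP (h.slope e)))).smul k1).add
      ((h.lin_one (h.mulP (h.mulT (h.quad e)))).smul k2)).congr (by ring)
  have B := (h.spRow he).smul (imul (imul (Int.ofNat C.m) (Int.ofNat C.m)) (imul (imul C.n C.th') C.Da))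
  refine ⟨(R.a0.add ((ac _ _ _).smul _)).congr ?_, (R.a1.add ((ac _ _ _).smul _)).congr ?_,
    (R.a2.add (ac _ _ _)).congr ?_, (R.b0.add (B.smul _)).congr ?_, (R.b1.add (B.smul _)).congr ?_,
    (R.b2.add (B.smul _)).congr ?_, R.b2σ, R.V0, R.V1, R.C3, R.dB⟩
  all_goals
    simp only [Ival.rowsR, Cfg.far, Flux.high, Spline.line_addSmul, acoefV, Quad.val, Quad.slope,
      cast_mul', cast_add', cast_ofNat', Cfg.n, Cfg.th', Cfg.k1R, Cfg.nTaR, Cfg.bRow, Cfg.m2R,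
      Cfg.nT3R, fS, fP, fT]
    push_cast
    ring

/-- The four coefficients of a row as a polynomial. -/
noncomputable def cubicAt (c : Fin 4 → ℝ) (v : ℝ) : ℝ :=
  c 0 + v * c 1 + v ^ 2 * c 2 + v ^ 3 * c 3

/-- The value of a functional on four coefficients. -/
noncomputable def V4.app (M : V4) (c : Fin 4 → ℝ) : ℝ :=
  M.a * c 0 + M.b * c 1 + M.c * c 2 + M.d * c 3

/-- The functional number `k` of a segment. -/
def ctrlAt (M : V4 × V4 × V4 × V4) : Fin 4 → V4 := ![M.1, M.2.1, M.2.2.1, M.2.2.2]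

/-- A row of four forms has the coefficients `c`. -/
def R4Rep (U X : ℝ) (r : R4) (c : Fin 4 → ℝ) : Prop :=
  Rep U X 7 r.c0 (c 0) ∧ Rep U X 7 r.c1 (c 1) ∧ Rep U X 7 r.c2 (c 2) ∧ Rep U X 7 r.c3 (c 3)

theorem spread_rep {U X v : ℝ} {g : Pk} (w : V4) (h : Rep U X 7 g v) :
    RepFour U X (spread (spreadW w) g) ![(w.a : ℝ) * v, w.b * v, w.c * v, w.d * v] := by
  refine RepFour.of_eq (RepFour.blocks (h.smul w.a) (h.smul w.b) (h.smul w.c) (h.smul w.d)) ?_ ?_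
  · simp only [Pk.N_blocks, Pk.N_smul]
    rw [← Pk.parts_sub w.a, ← Pk.parts_sub w.b, ← Pk.parts_sub w.c, ← Pk.parts_sub w.d]
    simp only [Pk.N, spread, spreadW, Nat.add_eq, Nat.mul_eq]
    push_cast
    ring
  · simp only [Pk.blocks, Pk.n_smul, spread, spreadW, iabs_eq, Nat.add_eq, Nat.mul_eq]
    ring

theorem R4Rep.ctrl {U X : ℝ} {r : R4} {c : Fin 4 → ℝ} (h : R4Rep U X r c)
    (M : V4 × V4 × V4 × V4) :
    RepFour U X (r.ctrl M) fun k => (ctrlAt M k).app c := by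
  obtain ⟨h0, h1, h2, h3⟩ := h
  refine (((((spread_rep _ h0).add (spread_rep _ h1)).add (spread_rep _ h2)).add
    (spread_rep _ h3))).congr fun k => ?_
  fin_cases k <;> simp [ctrlAt, V4.app]

theorem colA_rep {U X v : ℝ} {g : Pk} (h : Rep U X 7 g v) (M : V4 × V4 × V4 × V4) :
    RepFour U X (spread (colA M) g) fun k => (ctrlAt M k).app ![v, 0, 0, 0] :=
  (spread_rep _ h).congr fun k => by fin_cases k <;> simp [ctrlAt, V4.app]

theorem colB_rep {U X v : ℝ} {g : Pk} (h : Rep U X 7 g v) (M : V4 × V4 × V4 × V4) :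
    RepFour U X (spread (colB M) g) fun k => (ctrlAt M k).app ![0, v, 0, 0] :=
  (spread_rep _ h).congr fun k => by fin_cases k <;> simp [ctrlAt, V4.app]

theorem colD_rep {U X v : ℝ} {g : Pk} (h : Rep U X 7 g v) (M : V4 × V4 × V4 × V4) :
    RepFour U X (spread (colD M) g) fun k => (ctrlAt M k).app ![0, 0, 0, v] :=
  (spread_rep _ h).congr fun k => by fin_cases k <;> simp [ctrlAt, V4.app]

theorem polyW_rep {U X v : ℝ} {g : Pk} (h : Rep U X 7 g v) (M : V4 × V4 × V4 × V4) (r : V4) :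
    RepFour U X (spread (polyW M r) g) fun k =>
      (ctrlAt M k).app ![r.a * v, r.b * v, r.c * v, r.d * v] :=
  (spread_rep _ h).congr fun k => by
    fin_cases k <;>
    · simp [ctrlAt, V4.app, V4.dot, iadd_eq, imul_eq]
      ring

theorem ctrl3_rep {U X u v w : ℝ} {a b c : Pk} (ha : Rep U X 7 a u) (hb : Rep U X 7 b v)
    (hc : Rep U X 7 c w) (M : V4 × V4 × V4 × V4) :
    RepFour U X (ctrl3 M a b c) fun k => (ctrlAt M k).app ![u, v, w, 0] :=
  (((spread_rep _ ha).add (spread_rep _ hb)).add (spread_rep _ hc)).congr fun k => by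
    fin_cases k <;> simp [ctrlAt, V4.app]

theorem addMul_rep {U X : ℝ} {p q : Pk} {v w : Fin 4 → ℝ} (hp : RepFour U X p v)
    (hq : RepFour U X q w) (k : ℕ) :
    RepFour U X (addMul p q k) fun i => v i + ((Int.ofNat k : ℤ) : ℝ) * w i := by
  cases k with
  | zero => exact hp.congr fun i => by simp
  | succ k => exact hp.add (hq.smul _)

/-- Four Bernstein coefficients on a segment. -/
theorem seg_cubic {C : Cfg} {s : Seg} {v : ℝ} (hDv : 0 < C.Dv)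
    (hlt : s.isTail = true ∨ s.V0 < s.V1) (h0 : (s.V0 : ℝ) / C.Dv ≤ v)
    (h1 : s.isTail = true ∨ v ≤ (s.V1 : ℝ) / C.Dv) {c : Fin 4 → ℝ}
    (h : ∀ k, 0 ≤ (ctrlAt (s.ctrl C) k).app c) : 0 ≤ cubicAt c v := by
  have hD : (0 : ℝ) < C.Dv := Int.cast_pos.2 hDv
  rw [div_le_iff₀ hD] at h0
  have k0 := h 0; have k1 := h 1; have k2 := h 2; have k3 := h 3
  match hk : s.kind with
  | .tail =>
    simp only [ctrlAt, Seg.ctrl, hk, Matrix.cons_val, V4.app, cast_mul'] at k0 k1 k2 k3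
    push_cast at k0 k1 k2 k3
    refine cubic_tail_nonneg hD h0 ?_ ?_ ?_ ?_ <;> linarith
  | .below | .mid =>
    have h1' := h1.resolve_left (by simp [Seg.isTail, hk])
    have hlt' : (s.V0 : ℝ) < s.V1 := Int.cast_lt.2 (hlt.resolve_left (by simp [Seg.isTail, hk]))
    rw [le_div_iff₀ hD] at h1'
    simp only [ctrlAt, Seg.ctrl, hk, Matrix.cons_val, V4.app, cast_mul', cast_add'] at k0 k1 k2 k3
    push_cast at k0 k1 k2 k3
    refine cubic_nonneg hD hlt' h0 h1' ?_ ?_ ?_ ?_ <;> linarith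

/-- A passed cell of any packed side: the rows against the gain, at every point of the cell. -/
theorem cell_core {C : Cfg} {s : Seg} {U X v ρ mth sc : ℝ} {D : ℤ} {S : Side}
    {c₀ c₁ : Fin 4 → ℝ} {G : Gain} {e₀ e₁ e₂ : ℝ} {σ : ℤ}
    (hU : 0 ≤ U) (hX : 0 ≤ X) (hDv : 0 < C.Dv) (hlt : s.isTail = true ∨ s.V0 < s.V1)
    (h0 : (s.V0 : ℝ) / C.Dv ≤ v) (h1 : s.isTail = true ∨ v ≤ (s.V1 : ℝ) / C.Dv)
    (hD : 0 < D) (hR : G.R0 < G.R1) (hρ0 : (G.R0 : ℝ) / D ≤ ρ) (hρ1 : ρ ≤ (G.R1 : ℝ) / D)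
    (hW : S.W = sideW (s.ctrl C) σ) (hsc : (σ : ℝ) = sc)
    (hp : RepFour U X S.p fun k => (ctrlAt (s.ctrl C) k).app c₀)
    (hq : RepFour U X S.q fun k => (ctrlAt (s.ctrl C) k).app c₁)
    (g0 : Rep U X 7 G.g0 (mth * ((D : ℝ) ^ 2 * e₀ + D * G.R0 * e₁ + (G.R0 : ℝ) ^ 2 * e₂)))
    (g1 : Rep U X 7 G.g1 (mth * (2 * (D : ℝ) ^ 2 * e₀ + D * (G.R0 + G.R1) * e₁ +
      2 * G.R0 * G.R1 * e₂)))
    (g2 : Rep U X 7 G.g2 (mth * ((D : ℝ) ^ 2 * e₀ + D * G.R1 * e₁ + (G.R1 : ℝ) ^ 2 * e₂)))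
    (h : cellOK D S G = true) :
    (G.z : ℝ) * (cubicAt c₀ v + ρ * cubicAt c₁ v) ≤
      sc * (1 + v) ^ 2 * mth * (e₀ + ρ * e₁ + ρ ^ 2 * e₂) := by
  simp only [cellOK, Pk.nn, Bool.and_eq_true, Nat.blt_eq, hW, sideW] at h
  obtain ⟨⟨⟨n0, t0⟩, n1, t1⟩, n2, t2⟩ := h
  set M := s.ctrl C with hM
  -- one test
  have test : ∀ {a b : ℤ} {g : Pk} {vg : ℝ}, Rep U X 7 g vg →
      ((spread (spreadW ⟨imul σ M.1.sq, imul σ M.2.1.sq, imul σ M.2.2.1.sq,
        imul σ M.2.2.2.sq⟩) g).add ((S.p.smul a).add (S.q.smul b))).n <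
        packHalf →
      digitsNonneg ((spread (spreadW ⟨imul σ M.1.sq, imul σ M.2.1.sq, imul σ M.2.2.1.sq,
        imul σ M.2.2.2.sq⟩) g).add ((S.p.smul a).add (S.q.smul b))) 32 =
        true →
      0 ≤ cubicAt (fun i => sc * vg * ![1, 2, 1, 0] i + (a * c₀ i + b * c₁ i)) v := by
    intro a b g vg hg hn ht
    refine seg_cubic hDv hlt h0 h1 fun k => ?_
    have key := RepFour.nonneg hU hX ((spread_rep _ hg).add ((hp.smul a).add (hq.smul b))) hn ht k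
    refine key.trans_eq ?_
    rw [← hM]
    fin_cases k <;>
    · simp only [ctrlAt, Matrix.cons_val, V4.app, V4.sq, cast_mul', cast_add', hsc]
      push_cast
      ring
  have A0 := test g0 n0 t0
  have A1 := test g1 n1 t1
  have A2 := test g2 n2 t2
  have hD' : (0 : ℝ) < D := Int.cast_pos.2 hD
  rw [div_le_iff₀ hD'] at hρ0
  rw [le_div_iff₀ hD'] at hρ1
  have key := quad_nonneg (r := ρ) (e₀ := -(G.z : ℝ) * cubicAt c₀ v + sc * (1 + v) ^ 2 * mth * e₀)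
    (e₁ := -(G.z : ℝ) * cubicAt c₁ v + sc * (1 + v) ^ 2 * mth * e₁)
    (e₂ := sc * (1 + v) ^ 2 * mth * e₂) hD' (Int.cast_lt.2 hR) hρ0 hρ1
    (A0.trans_eq ?_) (A1.trans_eq ?_) (A2.trans_eq ?_)
  · linarith
  all_goals
    simp only [cubicAt, Matrix.cons_val, cast_mul', cast_neg', cast_add']
    push_cast
    ring

/-- A passed cell: the rows against the gain, at every point of the cell. -/
theorem cell_sound {C : Cfg} {s : Seg} {U X v ρ mth sc : ℝ} {D : ℤ} {r : R4 × R4}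
    {c₀ c₁ : Fin 4 → ℝ} {G : Gain} {e₀ e₁ e₂ : ℝ} {σ : ℤ}
    (hU : 0 ≤ U) (hX : 0 ≤ X) (hDv : 0 < C.Dv) (hlt : s.isTail = true ∨ s.V0 < s.V1)
    (h0 : (s.V0 : ℝ) / C.Dv ≤ v) (h1 : s.isTail = true ∨ v ≤ (s.V1 : ℝ) / C.Dv)
    (hD : 0 < D) (hR : G.R0 < G.R1) (hρ0 : (G.R0 : ℝ) / D ≤ ρ) (hρ1 : ρ ≤ (G.R1 : ℝ) / D)
    (hr₀ : R4Rep U X r.1 c₀) (hr₁ : R4Rep U X r.2 c₁) (hsc : (σ : ℝ) = sc)
    (g0 : Rep U X 7 G.g0 (mth * ((D : ℝ) ^ 2 * e₀ + D * G.R0 * e₁ + (G.R0 : ℝ) ^ 2 * e₂)))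
    (g1 : Rep U X 7 G.g1 (mth * (2 * (D : ℝ) ^ 2 * e₀ + D * (G.R0 + G.R1) * e₁ +
      2 * G.R0 * G.R1 * e₂)))
    (g2 : Rep U X 7 G.g2 (mth * ((D : ℝ) ^ 2 * e₀ + D * G.R1 * e₁ + (G.R1 : ℝ) ^ 2 * e₂)))
    (h : cellOK D (mkSide (s.ctrl C) r σ) G = true) :
    (G.z : ℝ) * (cubicAt c₀ v + ρ * cubicAt c₁ v) ≤
      sc * (1 + v) ^ 2 * mth * (e₀ + ρ * e₁ + ρ ^ 2 * e₂) :=
  cell_core (S := mkSide (s.ctrl C) r σ) hU hX hDv hlt h0 h1 hD hR hρ0 hρ1 rfl hsc (hr₀.ctrl _)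
    (hr₁.ctrl _) g0 g1 g2 h

end Vale.Agent.P237.Quant.TailCert
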