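import Vale.Agent.P237.Quant.TailSound
import Vale.Agent.P237.Quant.EnvelopeBinTable
import Vale.Agent.P237.Quant.EnvelopeBinIntSound
import Vale.Agent.P237.Quant.GeneralAssembly

/-!
A checked tail calibration gives the tail inequality of one bin: the potential of the calibration
lies below that of the row, its weights are those of the row, and each node of the calibration
repeats the bound of the centre or follows from a node of the envelope table of the bin.
-/

namespace Vale.Agent.P237.Quant.TailCert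

open MeasureTheory Set

/-- A potential `max a (b · weight · t ^ 2) + c + d p`. -/
structure Pot where
  a : ℚ
  b : ℚ
  c : ℚ
  d : ℚ

/-- Its value. -/
noncomputable def Pot.val (P : Pot) (t : ℝ) : ℝ :=
  max (P.a : ℝ) ((P.b : ℝ) * (weightPoly (ballShape t) * t ^ 2)) + P.c + P.d * ballShape t

/-- The potential of the negative side. -/
def negPot (m : ℕ) : Pot :=
  ⟨49 / 20 / m, 977 / 2000 * ((m : ℚ) + 1) / m, 21 / (100 * ((m : ℚ) + 1)), 0⟩

/-- The potential of a row of the positive side. -/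
def posPot (R : PosRow) (m : ℕ) : Pot :=
  ⟨R.a / m, R.f / 2 * ((m : ℚ) + 1) / m, R.lam / ((m : ℚ) + 1) + R.cy, -R.cy⟩

theorem negPot_val (m : ℕ) (t : ℝ) : (negPot m).val t = negW m t := by
  simp only [Pot.val, negPot, negW]
  push_cast
  rw [← max_div_div_right (Nat.cast_nonneg m)]
  ring_nf

theorem posPot_val (R : PosRow) (m : ℕ) (t : ℝ) : (posPot R m).val t = R.W m t := by
  simp only [Pot.val, posPot, PosRow.W]
  push_cast
  rw [← max_div_div_right (Nat.cast_nonneg m), show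
    (R.f : ℝ) / 2 * weightPoly (ballShape t) * (((m : ℝ) + 1) * t ^ 2) / m =
      (R.f : ℝ) / 2 * ((m : ℝ) + 1) / m * (weightPoly (ballShape t) * t ^ 2) by ring]
  field_simp
  ring

/-- The potential of the calibration lies below `P`. -/
def Pot.above (P : Pot) (C : Cfg) : Bool :=
  decide (0 < C.Dw ∧ C.cE ≤ 0 ∧ (C.cA : ℚ) / C.Dw ≤ P.a ∧ (C.cB : ℚ) / C.Dw ≤ P.b ∧
    (C.cC : ℚ) / C.Dw ≤ P.c ∧ ((C.cC : ℚ) + C.cD) / C.Dw ≤ P.c + P.d)

theorem Pot.above_sound {P : Pot} {C : Cfg} (h : P.above C = true) {t : ℝ}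
    (ht : t ∈ Ioo (0 : ℝ) 1) : C.W t ≤ P.val t := by
  simp only [Pot.above, decide_eq_true_eq] at h
  obtain ⟨hw, hE, ha, hb, hc, hd⟩ := h
  have hw' : (0 : ℝ) < C.Dw := Int.cast_pos.2 hw
  have ha' := (Rat.cast_le (K := ℝ)).2 ha
  have hb' := (Rat.cast_le (K := ℝ)).2 hb
  have hc' := (Rat.cast_le (K := ℝ)).2 hc
  have hd' := (Rat.cast_le (K := ℝ)).2 hd
  push_cast at ha' hb' hc' hd'
  set p := ballShape t
  have hp0 : 0 ≤ p := (ball_pos (sub01 ht)).le
  have hp1 : p ≤ 1 := ball_le_one t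
  have hy := mul_nonneg (weightPoly_mem ⟨hp0, hp1⟩).1 (sq_nonneg t)
  have e : C.W t = max ((C.cA : ℝ) / C.Dw) ((C.cB : ℝ) / C.Dw * (weightPoly p * t ^ 2)) +
      ((1 - p) * ((C.cC : ℝ) / C.Dw) + p * (((C.cC : ℝ) + C.cD) / C.Dw)) +
        (C.cE : ℝ) / C.Dw * p ^ 2 := by
    rw [Cfg.W, div_mul_eq_mul_div (C.cB : ℝ), max_div_div_right hw'.le]
    ring
  have hE' : (C.cE : ℝ) / C.Dw * p ^ 2 ≤ 0 :=
    mul_nonpos_of_nonpos_of_nonneg (div_nonpos_of_nonpos_of_nonneg (Int.cast_nonpos.2 hE) hw'.le)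
      (sq_nonneg p)
  rw [e, Pot.val]
  nlinarith [max_le_max ha' (mul_le_mul_of_nonneg_right hb' hy),
    mul_le_mul_of_nonneg_left hc' (sub_nonneg.2 hp1), mul_le_mul_of_nonneg_left hd' hp0]

/-- A node of a calibration from the nodes of one dimension. -/
def coveredExact (nodes : List BinNode) (N : Node) : Bool :=
  N.ok &&
    (nodes.any fun B => decide (B.t ≤ (N.Tn : ℚ) / N.Td ∧
      281 / 250 * B.K ≤ (N.Kn : ℚ) / N.Kd)) &&
    (decide (N.Xn = N.Xd) || nodes.any fun B => decide (B.t ≤ (N.Tn : ℚ) / N.Td ∧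
      B.X ≤ (N.Xn : ℚ) / N.Xd))

/-- A node of a calibration from the nodes of a range of dimensions. -/
def coveredRange (m : ℕ) (nodes : List RangeBinNode) (N : Node) : Bool :=
  let T : ℚ := (N.Tn : ℚ) / N.Td
  N.ok && decide (0 ≤ T) &&
    (nodes.any fun B => decide (B.Z * B.Z ≤ T * T * ((m : ℚ) + 1) ∧
      281 / 250 * B.K ≤ (N.Kn : ℚ) / N.Kd)) &&
    (decide (N.Xn = N.Xd) || nodes.any fun B => decide (B.Z * B.Z ≤ T * T * ((m : ℚ) + 1) ∧
      0 ≤ B.L ∧ 1 / (1 + B.L / m) ≤ (N.Xn : ℚ) / N.Xd))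

/-- A node that repeats the bound of the centre. -/
def coveredCentre (C : Cfg) (N : Node) : Bool :=
  N.ok && decide (N.Xn = N.Xd ∧ 0 ≤ (N.Tn : ℚ) / N.Td ∧
    (C.centre.Kn : ℚ) / C.centre.Kd ≤ (N.Kn : ℚ) / N.Kd)

/-- The bound of a node from a bound of the power and one of the value at its time. -/
theorem node_bound {m : ℕ} {φ : ℝ → ℝ} (hφ : IsShape φ) {N : Node} (hok : N.ok = true) {M : ℝ}
    (hK : ∀ u, (N.Tn : ℝ) / N.Td ≤ u → 0 ≤ u → u ≤ 1 → φ u ^ m ≤ (N.Kn : ℝ) / N.Kd * M ^ 2)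
    (hX : N.Xn ≠ N.Xd → (N.Tn : ℝ) / N.Td ≤ 1 →
      φ ((N.Tn : ℝ) / N.Td) ≤ (N.Xn : ℝ) / N.Xd * φ 0)
    {t : ℝ} (ht : t ∈ Ioo (0 : ℝ) 1) (hT : (N.Tn : ℝ) / N.Td ≤ t) :
    specU m φ t ^ 2 * ballShape t ^ m ≤ N.boundR m t * M ^ 2 := by
  rw [specU_sq hφ (sub01 ht), div_pow,
    div_mul_cancel₀ _ (pow_ne_zero _ (ball_pos (sub01 ht)).ne')]
  simp only [Node.ok, Bool.and_eq_true, Bool.or_eq_true, decide_eq_true_eq] at hok
  obtain ⟨hKd, h⟩ := hok
  by_cases he : N.Xn = N.Xd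
  · simpa only [Node.boundR, he, if_true] using hK t hT ht.1.le ht.2.le
  obtain ⟨-, hTn, hTd, hXn, hle⟩ := h.resolve_left he
  set T : ℝ := (N.Tn : ℝ) / N.Td with hTdef
  have hT0 : 0 < T := div_pos (Int.cast_pos.2 hTn) (Int.cast_pos.2 hTd)
  have hT1 : T ≤ 1 := hT.trans ht.2.le
  have hX0 : (0 : ℝ) < (N.Xn : ℝ) / N.Xd :=
    div_pos (Int.cast_pos.2 hXn) (Int.cast_pos.2 (hXn.trans_le hle))
  have hc := envelope_chord hφ hT0 hT ht.2.le hX0 (hX he hT1)
  have hφT : 0 ≤ φ T := (shape_pos hφ (⟨by linarith, hT.trans_lt ht.2⟩ : T ∈ Ioo (-1 : ℝ) 1)).le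
  have hφt : 0 ≤ φ t := (shape_pos hφ (sub01 ht)).le
  simp only [Node.boundR, he, if_false, ← hTdef]
  set r : ℝ := max (t / T - (t / T - 1) / ((N.Xn : ℝ) / N.Xd)) 0 with hr
  calc φ t ^ m ≤ (φ T * r) ^ m :=
        pow_le_pow_left₀ hφt (hc.trans (mul_le_mul_of_nonneg_left (le_max_left _ _) hφT)) m
    _ = φ T ^ m * r ^ m := mul_pow _ _ _
    _ ≤ (N.Kn : ℝ) / N.Kd * M ^ 2 * r ^ m :=
        mul_le_mul_of_nonneg_right (hK T le_rfl hT0.le hT1) (pow_nonneg (le_max_right _ _) m)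
    _ = _ := by ring

/-- The relation of a calibration to a bin of a row. -/
def linkOK (C : Cfg) (P : Pot) (θ η lo hi : ℚ) : Bool :=
  decide (0 ≤ lo ∧ 0 ≤ hi ∧ (C.b0n : ℚ) / C.b0d ≤ lo ∧
    min (281 / 250 * hi) (1540 / 1000 * (1540 / 1000)) ≤ (C.centre.Kn : ℚ) / C.centre.Kd) &&
  decide (0 < θ ∧ ((C.th : ℚ) - C.t1) / C.Dth = θ ∧
    (C.th : ℚ) * C.et / (C.Dth * C.Det) - (C.t1 : ℚ) / C.Dth ≤ η) &&
  P.above C

/-- A checked calibration gives the tail inequality of its bin. -/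
theorem tailBin_of_nodes {C : Cfg} (hC : C.check = true) {P : Pot} {θ η lo hi : ℚ}
    (hl : linkOK C P θ η lo hi = true) {W : ℝ → ℝ} (hW : ∀ t, P.val t = W t)
    (hWc : Continuous W)
    (hN : ∀ φ, BinState C.m lo hi φ → ∀ I ∈ C.ivals, coveredCentre C I.node = false →
      ∀ t ∈ Ioo (0 : ℝ) 1, (I.node.Tn : ℝ) / I.node.Td ≤ t →
        specU C.m φ t ^ 2 * ballShape t ^ C.m ≤ I.node.boundR C.m t * specM C.m φ ^ 2) :
    TailBin C.m W θ η lo hi := by
  intro φ hst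
  simp only [linkOK, Bool.and_eq_true, decide_eq_true_eq] at hl
  obtain ⟨⟨⟨hlo, hhi, hb0, hcen⟩, hθ0, hθ, hη⟩, hP⟩ := hl
  have hlo' : (0 : ℝ) ≤ lo := by exact_mod_cast hlo
  have hhi' : (0 : ℝ) ≤ hi := by exact_mod_cast hhi
  have hb0' := (Rat.cast_le (K := ℝ)).2 hb0
  have hcen' := (Rat.cast_le (K := ℝ)).2 hcen
  push_cast at hb0' hcen'
  have hθ' : C.θ₀ = (θ : ℝ) := by
    have := congrArg (Rat.cast : ℚ → ℝ) hθ
    push_cast at this
    rw [Cfg.θ₀, Cfg.θ, Cfg.τ₁, ← this, sub_div]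
  have hη' : C.θ * C.η - C.τ₁ ≤ (η : ℝ) := by
    have := (Rat.cast_le (K := ℝ)).2 hη
    push_cast at this
    rwa [Cfg.θ, Cfg.η, Cfg.τ₁, div_mul_div_comm]
  have hθpos : (0 : ℝ) < C.θ₀ := hθ' ▸ by exact_mod_cast hθ0
  obtain ⟨B, -, hB⟩ := bounded_unit hWc
  have hsq := sq_nonneg (specM C.m φ)
  have hc : φ 0 ^ C.m ≤ (C.centre.Kn : ℝ) / C.centre.Kd * specM C.m φ ^ 2 := by
    refine le_trans ?_ (mul_le_mul_of_nonneg_right hcen' hsq)
    rw [min_mul_of_nonneg _ _ hsq]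
    refine le_min (hst.centre_high hhi') (hst.centreUp.trans_eq (by ring))
  have hnodes : ∀ I ∈ C.ivals, ∀ t ∈ Ioo (0 : ℝ) 1, (I.node.Tn : ℝ) / I.node.Td ≤ t →
      specU C.m φ t ^ 2 * ballShape t ^ C.m ≤ I.node.boundR C.m t * specM C.m φ ^ 2 := by
    intro I hI t ht hT
    cases hcc : coveredCentre C I.node with
    | false => exact hN φ hst I hI hcc t ht hT
    | true =>
      simp only [coveredCentre, Bool.and_eq_true, decide_eq_true_eq] at hcc
      obtain ⟨hok, he, hT0, hK⟩ := hcc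
      refine node_bound hst.shape hok (fun u hu hu0 hu1 => ?_) (fun hne _ => absurd he hne) ht hT
      refine ((pow_le_pow_left₀ (hst.shape.nonneg _ ⟨by linarith, hu1⟩)
        (shape_le_centre hst.shape ⟨by linarith, hu1⟩) C.m).trans hc).trans
          (mul_le_mul_of_nonneg_right ?_ hsq)
      have hK' := (Rat.cast_le (K := ℝ)).2 hK
      push_cast at hK'
      exact hK'
  have h := C.excess_le hC hst.shape hst.power hst.value
    (η₀ := (C.θ * C.η - C.τ₁) / C.θ₀) (mul_div_cancel₀ _ hθpos.ne') hWc.measurable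
    (fun t ht => hB t (Ioo_subset_Icc_self ht)) (fun t ht => hW t ▸ Pot.above_sound hP ht)
    ((mul_le_mul_of_nonneg_right hb0' hsq).trans (hst.centre_low hlo')) hc hnodes
  set E := specEnergy C.m (bregPoly C.m) (fun t => specU' C.m φ t / specM C.m φ)
  have hE : 0 ≤ E := specEnergy_nonneg (fun t _ => bregPoly_nonneg C.m t) _
  have e : C.θ₀ * (specSurplus C.m (bregPoly C.m) φ + (C.θ * C.η - C.τ₁) / C.θ₀ * E) =
      θ * specSurplus C.m (bregPoly C.m) φ + (C.θ * C.η - C.τ₁) * E := by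
    rw [← hθ']
    field_simp
  linarith [mul_le_mul_of_nonneg_right hη' hE]

/-- A checked calibration on a bin of an envelope table of one dimension. -/
def exactLink (C : Cfg) (P : Pot) (θ η lo hi : ℚ) (R : ExactDim)
    (bins : List (ℚ × ℚ × List BinNode)) : Bool :=
  decide (R.m = C.m) && linkOK C P θ η lo hi &&
    bins.any fun b => decide (b.1 ≤ lo ∧ hi ≤ b.2.1) &&
      C.ivals.all fun I => coveredCentre C I.node || coveredExact b.2.2 I.node

/-- The tail inequality of a bin in one dimension. -/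
theorem tailBin_exact {C : Cfg} (hC : C.check = true) {R : ExactDim}
    {bins : List (ℚ × ℚ × List BinNode)}
    (hbins : R.check = true ∧ (bins.all fun b => b.2.2.all fun N => N.check R b.1 b.2.1) = true)
    {P : Pot} {θ η lo hi : ℚ} (hl : exactLink C P θ η lo hi R bins = true) {W : ℝ → ℝ}
    (hW : ∀ t, P.val t = W t) (hWc : Continuous W) : TailBin C.m W θ η lo hi := by
  simp only [exactLink, Bool.and_eq_true, decide_eq_true_eq, List.any_eq_true,
    List.all_eq_true] at hl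
  obtain ⟨⟨hm, hlink⟩, b, hb, ⟨hblo, hbhi⟩, hcov⟩ := hl
  refine tailBin_of_nodes hC hlink hW hWc fun φ hst I hI hcc t ht hT => ?_
  have hp : powRatio R.m φ ≤ 1 := hm.symm ▸ hst.power
  have hs : mass R.m φ 1 ≤ 281 / 250 * specM C.m φ ^ 2 * mass R.m ballShape 1 :=
    hm.symm ▸ hst.massUp
  have hmass : 0 ≤ mass R.m φ 1 := intervalIntegral.integral_nonneg zero_le_one fun u hu =>
    pow_nonneg (hst.shape.nonneg _ ⟨by linarith [hu.1], hu.2⟩) _
  have hlo : (b.1 : ℝ) * mass R.m φ 1 ≤ mass R.m ballShape 1 * φ 0 ^ R.m :=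
    (mul_le_mul_of_nonneg_right (Rat.cast_le.2 hblo) hmass).trans (hm.symm ▸ hst.relLow)
  have hhi : mass R.m ballShape 1 * φ 0 ^ R.m ≤ (b.2.1 : ℝ) * mass R.m φ 1 :=
    (hm.symm ▸ hst.relUp : mass R.m ballShape 1 * φ 0 ^ R.m ≤ (hi : ℝ) * mass R.m φ 1).trans
      (mul_le_mul_of_nonneg_right (Rat.cast_le.2 hbhi) hmass)
  have hc := hcov I hI
  rw [hcc, Bool.false_or] at hc
  simp only [coveredExact, Bool.and_eq_true, Bool.or_eq_true, decide_eq_true_eq,
    List.any_eq_true] at hc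
  obtain ⟨⟨hok, A, hA, hAt, hAK⟩, hX⟩ := hc
  refine node_bound hst.shape hok (fun u hu _ hu1 => ?_) (fun hne hT1 => ?_) ht hT
  · have := envelope_bins hst.shape hbins hp hb hA hs hlo hhi (u := u)
      (le_trans (by exact_mod_cast hAt) hu) hu1
    refine (hm ▸ this).trans (mul_le_mul_of_nonneg_right ?_ (sq_nonneg _))
    have hK := (Rat.cast_le (K := ℝ)).2 hAK
    push_cast at hK
    exact hK
  · obtain ⟨B, hB, hBt, hBX⟩ := hX.resolve_left hne
    have hchk := List.all_eq_true.1 (List.all_eq_true.1 hbins.2 b hb) B hB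
    refine ((envelope_bin hst.shape hp hbins.1 hchk hlo hhi
      (u := (I.node.Tn : ℝ) / I.node.Td) (by exact_mod_cast hBt) hT1).2).trans ?_
    refine mul_le_mul_of_nonneg_right ?_ hst.shape.centre.le
    exact_mod_cast hBX

/-- A checked calibration on a bin of a table of `EnvelopeTableData`. -/
def tableLink (C : Cfg) (P : Pot) (θ η lo hi : ℚ) (m : ℕ)
    (bins : List (ℕ × ℕ × List EnvInt.Node)) : Bool :=
  exactLink C P θ η lo hi ⟨m, 0⟩ (EnvInt.tableQ bins)

/-- The tail inequality of a bin from a table of naturals. -/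
theorem tailBin_table {C : Cfg} (hC : C.check = true) {m Vn Vd : ℕ}
    {bins : List (ℕ × ℕ × List EnvInt.Node)} (ht : EnvInt.tableOK m Vn Vd bins = true)
    {P : Pot} {θ η lo hi : ℚ} (hl : tableLink C P θ η lo hi m bins = true) {W : ℝ → ℝ}
    (hW : ∀ t, P.val t = W t) (hWc : Continuous W) : TailBin C.m W θ η lo hi :=
  tailBin_exact hC (EnvInt.table_sound ht) hl hW hWc

/-- A checked calibration on a bin of an envelope table of a range. -/
def rangeLink (C : Cfg) (P : Pot) (θ η lo hi : ℚ) (R : EnvRange)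
    (bins : List (ℚ × ℚ × List RangeBinNode)) : Bool :=
  decide (R.lo ≤ C.m + 1 ∧ (R.hi = 0 ∨ C.m + 1 ≤ R.hi) ∧ 1 ≤ C.m) && linkOK C P θ η lo hi &&
    bins.any fun b => decide (b.1 ≤ lo ∧ hi ≤ b.2.1) &&
      C.ivals.all fun I => coveredCentre C I.node || coveredRange C.m b.2.2 I.node

/-- The tail inequality of a bin in a dimension of a range. -/
theorem tailBin_range {C : Cfg} (hC : C.check = true) {R : EnvRange}
    {bins : List (ℚ × ℚ × List RangeBinNode)}
    (hbins : R.check = true ∧ (bins.all fun b => b.2.2.all fun N => N.check R b.1 b.2.1) = true)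
    {P : Pot} {θ η lo hi : ℚ} (hl : rangeLink C P θ η lo hi R bins = true) {W : ℝ → ℝ}
    (hW : ∀ t, P.val t = W t) (hWc : Continuous W) : TailBin C.m W θ η lo hi := by
  simp only [rangeLink, Bool.and_eq_true, decide_eq_true_eq, List.any_eq_true,
    List.all_eq_true] at hl
  obtain ⟨⟨⟨hm0, hm1, hm⟩, hlink⟩, b, hb, ⟨hblo, hbhi⟩, hcov⟩ := hl
  refine tailBin_of_nodes hC hlink hW hWc fun φ hst I hI hcc t ht hT => ?_
  have hmass : 0 ≤ mass C.m φ 1 := intervalIntegral.integral_nonneg zero_le_one fun u hu =>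
    pow_nonneg (hst.shape.nonneg _ ⟨by linarith [hu.1], hu.2⟩) _
  have hlo := (mul_le_mul_of_nonneg_right ((Rat.cast_le (K := ℝ)).2 hblo) hmass).trans hst.relLow
  have hhi := hst.relUp.trans (mul_le_mul_of_nonneg_right ((Rat.cast_le (K := ℝ)).2 hbhi) hmass)
  have hc := hcov I hI
  rw [hcc, Bool.false_or] at hc
  simp only [coveredRange, Bool.and_eq_true, Bool.or_eq_true, decide_eq_true_eq,
    List.any_eq_true] at hc
  obtain ⟨⟨⟨hok, hT0⟩, A, hA, hAt, hAK⟩, hX⟩ := hc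
  have hT0' : (0 : ℝ) ≤ (I.node.Tn : ℝ) / I.node.Td := by exact_mod_cast hT0
  have time : ∀ B : RangeBinNode, 0 < B.Z →
      B.Z * B.Z ≤ (I.node.Tn : ℚ) / I.node.Td * ((I.node.Tn : ℚ) / I.node.Td) * ((C.m : ℚ) + 1) →
      (B.Z : ℝ) / √((C.m : ℝ) + 1) ≤ (I.node.Tn : ℝ) / I.node.Td := by
    intro B hB h
    have h' := (Rat.cast_le (K := ℝ)).2 h
    push_cast at h'
    rw [div_le_iff₀ (by positivity)]
    refine le_of_pow_le_pow_left₀ two_ne_zero (by positivity) ?_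
    rw [mul_pow, Real.sq_sqrt (by positivity)]
    linarith
  have pos : ∀ B ∈ b.2.2, 0 < B.Z := fun B hB => by
    have := List.all_eq_true.1 (List.all_eq_true.1 hbins.2 b hb) B hB
    simp only [RangeBinNode.check, Bool.and_eq_true, decide_eq_true_eq] at this
    exact this.1.1
  refine node_bound hst.shape hok (fun u hu _ hu1 => ?_) (fun hne hT1 => ?_) ht hT
  · refine (envelope_bins_range hst.shape hst.power hbins ⟨hm0, hm1⟩ hb hA hst.massUp hlo hhi
      ((time A (pos A hA) hAt).trans hu) hu1).trans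
        (mul_le_mul_of_nonneg_right ?_ (sq_nonneg _))
    have hK := (Rat.cast_le (K := ℝ)).2 hAK
    push_cast at hK
    exact hK
  · obtain ⟨B, hB, hBt, hL, hBX⟩ := hX.resolve_left hne
    have hchk := List.all_eq_true.1 (List.all_eq_true.1 hbins.2 b hb) B hB
    have hφT : 0 ≤ φ ((I.node.Tn : ℝ) / I.node.Td) :=
      hst.shape.nonneg _ ⟨by linarith, hT1⟩
    refine (range_node_ratio hm (by exact_mod_cast hL) hφT hst.shape.centre
      (envelope_bin_range hst.shape hst.power hbins.1 ⟨hm0, hm1⟩ hchk hlo hhi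
        (time B (pos B hB) hBt) hT1).2).trans ?_
    refine mul_le_mul_of_nonneg_right ?_ hst.shape.centre.le
    have h' := (Rat.cast_le (K := ℝ)).2 hBX
    push_cast at h'
    exact h'

end Vale.Agent.P237.Quant.TailCert
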