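import Mathlib
import Vale.Agent.P237.Quant.FluxSum
import Vale.Agent.P237.Quant.LinearCauchy

/-!
The tail calibration with three multipliers: `κ` for the vanishing mean of `v`, `t₃ ≥ 0` for the
constraint `powRatio ≤ 1`, in the form `0 ≤ L + R + excess`, and `t₁ ≥ 0` for the nonpositive value
with its exact remainder. Only the pointwise inequality changes.
-/

namespace Vale.Agent.P237.Quant

open MeasureTheory Set Filter Topology

variable {m : ℕ} {φ Q W : ℝ → ℝ} {η : ℝ}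

/-- What the multipliers take from the right side at `(t, x)`. -/
noncomputable def multLoss (m : ℕ) (κ t₁ t₃ t x : ℝ) : ℝ :=
  (t₃ - t₁) * (2 * (ballRatio m * ballShape t - 1) * (x - 1) +
    (ballRatio m * ballShape t - 1) * (x - 1) ^ 2) + t₃ * tailLoss m x - κ * (x - 1)

/-- The integrand `p ^ (m - 1) * multLoss`. -/
noncomputable def multIntegrand (m : ℕ) (Q : ℝ → ℝ) (κ t₁ t₃ : ℝ) (φ : ℝ → ℝ) (t : ℝ) : ℝ :=
  ballShape t ^ (m - 1) * multLoss m κ t₁ t₃ t (specU m φ t / specM m φ) -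
    t₁ * (ballShape t ^ (m - 1) *
      tailGain m Q 1 t (specU m φ t / specM m φ) (shapeRho φ t))

theorem mult_integral_nonneg (hm : 2 ≤ m) (hφ : IsShape φ) (hx : powRatio m φ ≤ 1)
    (hV : convexVal m (pureG m) φ ≤ 0) {κ t₁ t₃ : ℝ} (ht₁ : 0 ≤ t₁) (ht₃ : 0 ≤ t₃) :
    IntervalIntegrable (multIntegrand m Q κ t₁ t₃ φ) volume 0 1 ∧
      0 ≤ ∫ t in (0 : ℝ)..1, multIntegrand m Q κ t₁ t₃ φ t := by
  have hm1 : 1 ≤ m := by omega
  have hM0 := specM_pos hm1 hφ
  set M := specM m φ with hMdef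
  set v := specV m φ with hv
  set r := ballRatio m with hr
  set P := mass (m - 1) ballShape 1 with hPdef
  have hP0 : 0 < P := ball_mass_pos _
  set q : ℝ := 2 - 2 / (m : ℝ) with hq
  set g : ℝ → ℝ := fun t => (specU m φ t / M) ^ q - (1 + q * v t) with hg
  have hxq : ∀ t ∈ Ioo (0 : ℝ) 1, ballShape t ^ (m - 1) * (specU m φ t / M) ^ q =
      φ t ^ (m - 1) / M ^ q := fun t ht => by
    rw [Real.div_rpow (specU_pos hφ (sub01 ht)).le hM0.le, hq, specU_rpow hm1 hφ (sub01 ht),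
      div_pow, mul_div_assoc', mul_div_cancel₀ _ (pow_ne_zero _ (ball_pos (sub01 ht)).ne')]
  have i1 := intervalIntegrable_wv hm1 hφ
  have i2 := intervalIntegrable_wv2 hm1 hφ
  have ig : IntervalIntegrable (fun t => ballShape t ^ (m - 1) * g t) volume 0 1 := by
    refine interval_iff01.2 ((interval_iff01.1 (((intervalIntegrable_shape_pow01 hφ (m - 1)).div_const
      (M ^ q)).sub (((cont_pow (m - 1)).intervalIntegrable _ _).add
        (i1.const_mul q)))).congr_fun (fun t ht => ?_) measurableSet_Ioo)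
    dsimp only
    rw [← hxq t ht]
    ring
  have mb : Measurable fun t => r * ballShape t - 1 :=
    (cont_ball.measurable.const_mul r).sub_const 1
  have bb : ∀ t ∈ Ioo (0 : ℝ) 1, |r * ballShape t - 1| ≤ r + 1 := fun t _ =>
    (abs_sub _ _).trans (add_le_add (ball_bound m) (le_of_eq abs_one))
  have jb := intervalIntegrable_quad hm1 hφ mb bb
  have jl : IntervalIntegrable
      (fun t => ballShape t ^ (m - 1) * (2 * (r * ballShape t - 1) * v t)) volume 0 1 :=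
    (i1.mul_continuousOn (show ContinuousOn (fun t => 2 * (r * ballShape t - 1)) (uIcc 0 1) from
      (continuous_const.mul ((continuous_const.mul cont_ball).sub
        continuous_const)).continuousOn)).congr fun t _ => by
        simp only [hv]
        ring
  set T : ℝ → ℝ := fun t => ballShape t ^ (m - 1) * v t ^ 2 -
    m / (m - 1) * (ballShape t ^ (m - 1) * g t) with hT
  have iT : IntervalIntegrable T volume 0 1 := i2.sub (ig.const_mul _)
  set N : ℝ → ℝ := fun t =>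
    ballShape t ^ (m - 1) * (2 * (r * ballShape t - 1) * v t) +
      ballShape t ^ (m - 1) * ((r * ballShape t - 1) * v t ^ 2) + T t with hN
  have iN : IntervalIntegrable N volume 0 1 := (jl.add jb).add iT
  obtain ⟨iB, hval⟩ := convexVal_pureG_eq hm1 hφ
  set B : ℝ → ℝ := fun t =>
    ballShape t ^ (m - 1) * (2 * (r * ballShape t - 1) * v t) +
      ballShape t ^ (m - 1) * ((r * ballShape t - 1) * v t ^ 2) +
      m * φ t ^ m / ballShape t ^ 2 * pureBreg m t (shapeRho φ t) / M ^ 2 with hB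
  have iBt : IntervalIntegrable B volume 0 1 := (jl.add jb).add (iB.div_const (M ^ 2))
  have e : EqOn (fun t => t₃ * N t - t₁ * B t - κ * (ballShape t ^ (m - 1) * v t))
      (multIntegrand m Q κ t₁ t₃ φ) (Ioo 0 1) := fun t ht => by
    have hu := specU_sq (m := m) hφ (sub01 ht)
    have hp := ball_pos (sub01 ht)
    have e1 : ballShape t ^ (m - 1) * tailGain m Q 1 t (specU m φ t / M) (shapeRho φ t) =
        m * φ t ^ m / ballShape t ^ 2 * pureBreg m t (shapeRho φ t) / M ^ 2 := by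
      obtain ⟨k, rfl⟩ : ∃ k, m = k + 1 := ⟨m - 1, by omega⟩
      simp only [tailGain, Nat.add_sub_cancel, div_pow, hu, pow_succ (ballShape t) k]
      field_simp
      ring
    simp only [multIntegrand, multLoss, ← hMdef, e1]
    simp only [tailLoss, hN, hB, hT, hg, hv, specV, hq, ← hr, ← hMdef]
    ring
  have hpos : 0 ≤ ∫ t in (0 : ℝ)..1, N t := by
    have hexc := excess_le hm hφ ig fun t _ => le_of_eq (by simp only [hg, hv, hq, hMdef]; ring)
    have hlow := excess_lower hm hφ hx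
    rw [← hv, ← hr] at hlow
    rw [← hv] at hexc
    have eL : (∫ t in (0 : ℝ)..1, ballShape t ^ (m - 1) * (2 * (r * ballShape t - 1) * v t)) =
        specLin m v * P := by
      rw [specLin, specMean, ← hPdef, div_mul_cancel₀ _ hP0.ne']
    have eR : (∫ t in (0 : ℝ)..1, ballShape t ^ (m - 1) * ((r * ballShape t - 1) * v t ^ 2)) =
        specQuad m (fun t => r * ballShape t - 1) v * P := by
      rw [specQuad, specMean, ← hPdef, div_mul_cancel₀ _ hP0.ne']
    have eT : (∫ t in (0 : ℝ)..1, T t) =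
        (specQuad m (fun _ => 1) v - m / (m - 1) * specMean m g) * P := by
      rw [hT, intervalIntegral.integral_sub i2 (ig.const_mul _),
        intervalIntegral.integral_const_mul, specQuad, specMean, specMean, ← hPdef, sub_mul,
        mul_assoc, div_mul_cancel₀ _ hP0.ne', div_mul_cancel₀ _ hP0.ne']
      simp only [one_mul, hv]
    rw [hN, intervalIntegral.integral_add (jl.add jb) iT, intervalIntegral.integral_add jl jb,
      eL, eR, eT, ← add_mul, ← add_mul]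
    exact mul_nonneg (by linarith) hP0.le
  have hneg : (∫ t in (0 : ℝ)..1, B t) ≤ 0 := by
    have eL : (∫ t in (0 : ℝ)..1, ballShape t ^ (m - 1) * (2 * (r * ballShape t - 1) * v t)) =
        specLin m v * P := by
      rw [specLin, specMean, ← hPdef, div_mul_cancel₀ _ hP0.ne']
    have h1 := mass_expand hm1 hφ
    have h2 := sq_expand hm1 hφ
    have kb := intervalIntegrable_quad hm1 hφ (g := fun t => r * ballShape t)
      (cont_ball.const_smul r).measurable (C := r) fun t _ => ball_bound m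
    have eR : (∫ t in (0 : ℝ)..1, ballShape t ^ (m - 1) * ((r * ballShape t - 1) * v t ^ 2)) =
        (∫ t in (0 : ℝ)..1, ballShape t ^ (m - 1) * (r * ballShape t * v t ^ 2)) -
          ∫ t in (0 : ℝ)..1, ballShape t ^ (m - 1) * v t ^ 2 := by
      rw [← intervalIntegral.integral_sub kb i2]
      exact integral_congr01 fun t _ => by ring
    rw [← hr, ← hv, ← hPdef] at h1
    rw [← hv, ← hPdef] at h2
    have h3 : (convexVal m (pureG m) φ * mass m φ 1) / M ^ 2 ≤ 0 :=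
      div_nonpos_of_nonpos_of_nonneg (mul_nonpos_of_nonpos_of_nonneg hV
        (intervalIntegral.integral_nonneg zero_le_one fun t ht =>
          pow_nonneg (hφ.nonneg t ⟨by linarith [ht.1], ht.2⟩) m)) (sq_nonneg _)
    rw [hval, add_div, sub_div, ← hr, hMdef, h1, h2, ← hMdef, ← intervalIntegral.integral_div] at h3
    rw [hB, intervalIntegral.integral_add (jl.add jb) (iB.div_const (M ^ 2)),
      intervalIntegral.integral_add jl jb, eL, eR]
    linarith
  have ic := ((iN.const_mul t₃).sub (iBt.const_mul t₁)).sub (i1.const_mul κ)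
  refine ⟨interval_iff01.2 ((interval_iff01.1 ic).congr_fun e measurableSet_Ioo), ?_⟩
  rw [← integral_congr01 e,
    intervalIntegral.integral_sub ((iN.const_mul t₃).sub (iBt.const_mul t₁)) (i1.const_mul κ),
    intervalIntegral.integral_sub (iN.const_mul t₃) (iBt.const_mul t₁),
    intervalIntegral.integral_const_mul, intervalIntegral.integral_const_mul,
    intervalIntegral.integral_const_mul, mean_specV hm1 hφ, mul_zero, sub_zero]
  linarith [mul_nonneg ht₃ hpos, mul_nonpos_of_nonneg_of_nonpos ht₁ hneg]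

/-- The gain with the multiplier of the value is a gain with a larger weight and share. -/
theorem mult_gain {θ t₁ : ℝ} (h : θ + t₁ ≠ 0) (η t x ρ : ℝ) :
    θ * tailGain m Q η t x ρ + t₁ * tailGain m Q 1 t x ρ =
      (θ + t₁) * tailGain m Q ((θ * η + t₁) / (θ + t₁)) t x ρ := by
  have e : (θ + t₁) * (1 - (θ * η + t₁) / (θ + t₁)) = θ * (1 - η) := by
    rw [mul_sub, mul_div_cancel₀ _ h]
    ring
  simp only [tailGain]
  linear_combination (m / ballShape t * x ^ 2 * (Q t * ρ ^ 2)) * e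

/-- The tail lemma with the flux `p ^ (m + 1) * D t x z` and the multipliers. -/
theorem excess_le_of_concave_mult (hm : 2 ≤ m) (hφ : IsShape φ) (hx1 : powRatio m φ ≤ 1)
    (hV : convexVal m (pureG m) φ ≤ 0)
    (hQ0 : ∀ t ∈ Ioo (0 : ℝ) 1, 0 ≤ Q t) (hQm : Measurable Q)
    (hQ : ∀ t ∈ Ioo (0 : ℝ) 1, ∀ r ∈ Icc (-1 : ℝ) 1, Q t * r ^ 2 ≤ pureBreg m t r)
    (hWm : Measurable W) {C : ℝ} (hWb : ∀ t ∈ Ioo (0 : ℝ) 1, |W t| ≤ C) (θ : ℝ) {κ t₁ t₃ : ℝ}
    (ht₁ : 0 ≤ t₁) (ht₃ : 0 ≤ t₃) {D Dt Dx : ℝ → ℝ → ℝ → ℝ} {S : ℝ → ℝ → ℝ → Prop}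
    (hDc : ContinuousOn (fun p : ℝ × ℝ × ℝ => D p.1 p.2.1 p.2.2)
      (Ico 0 1 ×ˢ Ioi 0 ×ˢ Icc 0 1))
    (hDz : ∀ t ∈ Ioo (0 : ℝ) 1, ∀ x, 0 < x → ContinuousOn (Dt t x) (Icc 0 1) ∧
      ContinuousOn (Dx t x) (Icc 0 1))
    (hDm : ∀ z ∈ Icc (0 : ℝ) 1, Measurable (fun p : ℝ × ℝ => Dt p.1 p.2 z) ∧
      Measurable (fun p : ℝ × ℝ => Dx p.1 p.2 z))
    (hDB : ∀ b < (1 : ℝ), ∀ a c, 0 < a → ∃ B, ∀ t ∈ Ioo 0 b, ∀ x ∈ Icc a c,
      ∀ z ∈ Icc (0 : ℝ) 1, |Dt t x z| ≤ B ∧ |Dx t x z| ≤ B)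
    (hDd : ∀ z ∈ Icc (0 : ℝ) 1, ∀ t ∈ Ioo (0 : ℝ) 1, ∀ (u : ℝ → ℝ) (u' : ℝ), 0 < u t →
      HasDerivWithinAt u u' (Ioi t) t →
      HasDerivWithinAt (fun s => D s (u s) z) (Dt t (u t) z + Dx t (u t) z * u') (Ioi t) t)
    (hanti : ∀ t ∈ Ioo (0 : ℝ) 1, ∀ x, 0 < x → (∃ z ∈ Icc (0 : ℝ) 1, S t x z) →
      AntitoneOn (D t x) (Icc 0 1))
    (hD0 : D 0 (specU m φ 0 / specM m φ) 0 ≤ 0)
    (hD1 : ∃ K : ℝ, ∀ᶠ b in 𝓝[<] (1 : ℝ), ∀ x, 0 < x → ∀ z ∈ Icc (0 : ℝ) 1,
      -K * (1 + x ^ 2) ≤ D b x z)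
    (hS : ∀ t ∈ Ioo (0 : ℝ) 1, S t (specU m φ t / specM m φ) (shapeZ φ t))
    (h : ∀ t ∈ Ioo (0 : ℝ) 1, ∀ x, 0 < x → ∀ z ∈ Icc (0 : ℝ) 1, S t x z →
      ballShape t ^ 2 * Dt t x z + (m : ℝ) / 2 * x * ((t - z) / (1 - t * z)) * Dx t x z -
        ((m : ℝ) + 1) * t * D t x z + tailLoss m x + multLoss m κ t₁ t₃ t x ≤
      W t * (x - 1) ^ 2 + θ * tailGain m Q η t x ((t - z) / (1 - t * z)) +
        t₁ * tailGain m Q 1 t x ((t - z) / (1 - t * z))) :
    specExcess m φ ≤ specQuad m W (specV m φ) + θ * (specSurplus m Q φ +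
      η * specEnergy m Q (fun t => specU' m φ t / specM m φ)) := by
  obtain ⟨iN, hN⟩ := mult_integral_nonneg (Q := Q) (κ := κ) hm hφ hx1 hV ht₁ ht₃
  refine excess_le_of_integrand hm hφ hQ0 hQm hQ hWm hWb θ fun iup => ?_
  have idiff := iup.sub iN
  have hev : ∀ ε > 0, ∀ᶠ b in 𝓝[<] (1 : ℝ), -ε ≤
      ∫ t in (0 : ℝ)..b, (tailIntegrand m Q θ η W φ t - multIntegrand m Q κ t₁ t₃ φ t) := fun ε hε =>
    partial_integral_nonneg_of_concave (by omega) hφ idiff
      (g := fun t x z => W t * (x - 1) ^ 2 + θ * tailGain m Q η t x ((t - z) / (1 - t * z)) +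
        t₁ * tailGain m Q 1 t x ((t - z) / (1 - t * z)) -
        tailLoss m x - multLoss m κ t₁ t₃ t x) (fun t ht => by
        rw [tailIntegrand_eq (by omega) hφ θ ht, multIntegrand, shapeRho_eq_shapeZ hφ ht, specV]
        ring) hDc hDz hDm hDB hDd hanti hD0 hD1 hS
      (fun t ht x hx z hz hSx => by linarith [h t ht x hx z hz hSx]) hε
  have h1 := integral_nonneg_of_eventually idiff hev
  rw [intervalIntegral.integral_sub iup iN] at h1
  intro ε hε
  have hc := intervalIntegral.continuousOn_primitive_interval' iup left_mem_uIcc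
  rw [uIcc_of_le zero_le_one] at hc
  exact ((hc 1 (right_mem_Icc.2 zero_le_one)).mono_left
    (nhdsWithin_le_iff.2 (Icc_mem_nhdsLT zero_lt_one))).eventually
    (Ici_mem_nhds (show -ε < ∫ t in (0 : ℝ)..1, tailIntegrand m Q θ η W φ t by linarith))

/-- The tail lemma with a separated flux and the multipliers. -/
theorem excess_le_of_sepFlux_mult {ι : Type*} [Fintype ι] (hm : 2 ≤ m) (hφ : IsShape φ)
    (hx1 : powRatio m φ ≤ 1) (hV : convexVal m (pureG m) φ ≤ 0)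
    (hQ0 : ∀ t ∈ Ioo (0 : ℝ) 1, 0 ≤ Q t) (hQm : Measurable Q)
    (hQ : ∀ t ∈ Ioo (0 : ℝ) 1, ∀ r ∈ Icc (-1 : ℝ) 1, Q t * r ^ 2 ≤ pureBreg m t r)
    (hWm : Measurable W) {C : ℝ} (hWb : ∀ t ∈ Ioo (0 : ℝ) 1, |W t| ≤ C) (θ : ℝ) {κ t₁ t₃ : ℝ}
    (ht₁ : 0 ≤ t₁) (ht₃ : 0 ≤ t₃) {A : SepFlux ι} (hA : A.Regular) {S : ℝ → ℝ → ℝ → Prop}
    (hanti : ∀ t ∈ Ioo (0 : ℝ) 1, ∀ x, 0 < x → (∃ z ∈ Icc (0 : ℝ) 1, S t x z) →
      AntitoneOn (A.D t x) (Icc 0 1))
    (hD0 : A.D 0 (specU m φ 0 / specM m φ) 0 ≤ 0)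
    (hD1 : ∃ K : ℝ, ∀ᶠ b in 𝓝[<] (1 : ℝ), ∀ x, 0 < x → ∀ z ∈ Icc (0 : ℝ) 1,
      -K * (1 + x ^ 2) ≤ A.D b x z)
    (hS : ∀ t ∈ Ioo (0 : ℝ) 1, S t (specU m φ t / specM m φ) (shapeZ φ t))
    (h : ∀ t ∈ Ioo (0 : ℝ) 1, ∀ x, 0 < x → ∀ z ∈ Icc (0 : ℝ) 1, S t x z →
      ballShape t ^ 2 * A.Dt t x z + (m : ℝ) / 2 * x * ((t - z) / (1 - t * z)) * A.Dx t x z -
        ((m : ℝ) + 1) * t * A.D t x z + tailLoss m x + multLoss m κ t₁ t₃ t x ≤
      W t * (x - 1) ^ 2 + θ * tailGain m Q η t x ((t - z) / (1 - t * z)) +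
        t₁ * tailGain m Q 1 t x ((t - z) / (1 - t * z))) :
    specExcess m φ ≤ specQuad m W (specV m φ) + θ * (specSurplus m Q φ +
      η * specEnergy m Q (fun t => specU' m φ t / specM m φ)) :=
  excess_le_of_concave_mult hm hφ hx1 hV hQ0 hQm hQ hWm hWb θ ht₁ ht₃ hA.continuousOn_D
    (fun t _ x _ => hA.continuousOn_z t x) (fun z _ => hA.measurable_partials z)
    (fun _ hb _ _ ha => hA.bound hb ha) (fun z _ _ ht _ _ hu hd => hA.chain z ht hu hd)
    hanti hD0 hD1 hS h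

end Vale.Agent.P237.Quant
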