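import Mathlib
import Vale.Agent.P237.Quant.TailForms

/-!
Soundness of the multipliers of the tail cells: the bound of the slope by the centre as a line in
`v`, the chord above the envelope, a square, and a cell tested with their nonnegative combination.
-/

namespace Vale.Agent.P237.Quant.TailCert

open TailTuple Four.Checker Set

/-- The tangent of `c ^ (2/m) / x ^ (2/m)` at `c`, to the power `m`. -/
theorem tangent_pow {m : ℕ} (hm : 0 < m) {r : ℝ} (hr : 0 ≤ r)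
    (h : 0 ≤ 1 - 2 / (m : ℝ) * (r - 1)) : (1 - 2 / (m : ℝ) * (r - 1)) ^ m * r ^ 2 ≤ 1 := by
  have hm' : (m : ℝ) ≠ 0 := Nat.cast_ne_zero.2 hm.ne'
  have h1 : 1 - 2 / (m : ℝ) * (r - 1) ≤ Real.exp (-(2 / (m : ℝ) * (r - 1))) := by
    have := Real.add_one_le_exp (-(2 / (m : ℝ) * (r - 1)))
    linarith
  have h2 : r ≤ Real.exp (r - 1) := by linarith [Real.add_one_le_exp (r - 1)]
  calc (1 - 2 / (m : ℝ) * (r - 1)) ^ m * r ^ 2
      ≤ Real.exp (-(2 / (m : ℝ) * (r - 1))) ^ m * Real.exp (r - 1) ^ 2 :=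
        mul_le_mul (pow_le_pow_left₀ h h1 m) (pow_le_pow_left₀ hr h2 2) (sq_nonneg r)
          (pow_nonneg (Real.exp_pos _).le m)
    _ = 1 := by
        rw [← Real.exp_nat_mul, ← Real.exp_nat_mul, ← Real.exp_add]
        convert Real.exp_zero using 2
        push_cast
        field_simp
        ring

/-- The line of the tangent is below the slope bound by the centre. -/
theorem centre_line {m : ℕ} (hm : 0 < m) {p d x y B b : ℝ} (hp : 0 ≤ p) (hd : 0 ≤ d) (hx : 0 < x)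
    (hy : 0 < y) (hB : 0 ≤ B) (hBb : B ^ m ≤ b) (h : b * p ^ m ≤ d ^ m * x ^ 2) :
    p * (B / y ^ 2 * (1 - 2 / (m : ℝ) * ((x - y ^ m) / y ^ m))) ≤ d := by
  set c := y ^ m with hc
  have hc0 : 0 < c := pow_pos hy m
  set k := 1 - 2 / (m : ℝ) * ((x - c) / c) with hk
  rcases le_total k 0 with hk0 | hk0
  · refine le_trans ?_ hd
    exact mul_nonpos_of_nonneg_of_nonpos hp
      (mul_nonpos_of_nonneg_of_nonpos (div_nonneg hB (sq_nonneg y)) hk0)
  refine le_of_pow_le_pow_left₀ hm.ne' hd (le_of_mul_le_mul_right ?_ (pow_pos hx 2))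
  have e : (x - c) / c = x / c - 1 := by field_simp
  have ht := tangent_pow hm (div_nonneg hx.le hc0.le) (by rw [← e]; exact hk0)
  rw [← e, ← hk] at ht
  calc (p * (B / y ^ 2 * k)) ^ m * x ^ 2 = B ^ m * p ^ m * (k ^ m * (x / c) ^ 2) := by
        rw [mul_pow, mul_pow, div_pow, ← pow_mul, Nat.mul_comm 2 m, pow_mul, ← hc]
        field_simp
    _ ≤ B ^ m * p ^ m * 1 := mul_le_mul_of_nonneg_left ht (by positivity)
    _ ≤ b * p ^ m := by rw [mul_one]; exact mul_le_mul_of_nonneg_right hBb (pow_nonneg hp m)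
    _ ≤ _ := h

theorem line_below {a b f₀ f₁ v v₀ v₁ : ℝ} (h0 : v₀ ≤ v) (h1 : v ≤ v₁)
    (u : a + b * v₀ ≤ f₀ + f₁ * v₀) (w : a + b * v₁ ≤ f₀ + f₁ * v₁) :
    a + b * v ≤ f₀ + f₁ * v := by
  rcases le_total b f₁ with hb | hb
  · nlinarith [mul_le_mul_of_nonneg_left h0 (sub_nonneg.2 hb)]
  · nlinarith [mul_le_mul_of_nonneg_left h1 (sub_nonneg.2 hb)]

/-- The line of a segment is below the bound by the centre. -/
theorem seg_line {C : Cfg} {s : Seg} (hm : 0 < C.m) (hDc : 0 < C.Dc)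
    (hcb0 : 0 ≤ C.cb) (hcb : ((C.cb : ℚ) / C.Dc) ^ C.m ≤ (C.b0n : ℚ) / C.b0d)
    (hs : s.lineOK C = true) {x p d : ℝ} (hp : 0 ≤ p) (hd : 0 ≤ d) (hx : 0 < x)
    (hs0 : (s.V0 : ℝ) / C.Dv ≤ x - 1) (hs1 : s.isTail = true ∨ x - 1 ≤ (s.V1 : ℝ) / C.Dv)
    (h : (C.b0n : ℝ) / C.b0d * p ^ C.m ≤ d ^ C.m * x ^ 2) :
    0 ≤ C.Dc * d - p * (s.w0 + s.w1 * (x - 1)) := by
  have hc : (0 : ℝ) < C.Dc := Int.cast_pos.2 hDc
  simp only [Seg.lineOK, Bool.or_eq_true, decide_eq_true_eq, Bool.and_eq_true] at hs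
  rcases hs with ⟨e0, e1⟩ | ⟨⟨hy, u0⟩, hkind⟩
  · rw [e0, e1]
    push_cast
    have : 0 ≤ (C.Dc : ℝ) * d := mul_nonneg hc.le hd
    linarith
  set y : ℝ := (s.cn : ℝ) / s.cd with hy'
  have hy0 : 0 < y := by
    have := (Rat.cast_lt (K := ℝ)).2 hy
    push_cast at this
    exact this
  have hB : (0 : ℝ) ≤ (C.cb : ℝ) / C.Dc := div_nonneg (Int.cast_nonneg hcb0) hc.le
  have hBb := (Rat.cast_le (K := ℝ)).2 hcb
  push_cast at hBb
  have key := centre_line hm hp hd hx hy0 hB hBb h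
  have u0' := (Rat.cast_le (K := ℝ)).2 u0
  push_cast at u0'
  rw [← hy'] at u0'
  have hle : (s.w0 : ℝ) + s.w1 * (x - 1) ≤
      (C.cb : ℝ) / y ^ 2 * (1 - 2 / (C.m : ℝ) * ((x - y ^ C.m) / y ^ C.m)) := by
    have ef : ∀ v : ℝ, (C.cb : ℝ) / y ^ 2 * (1 - 2 / (C.m : ℝ) * ((1 + v - y ^ C.m) / y ^ C.m)) =
        (C.cb : ℝ) / y ^ 2 * (1 - 2 / (C.m : ℝ) * ((1 - y ^ C.m) / y ^ C.m)) +
          -((C.cb : ℝ) / y ^ 2 * (2 / (C.m : ℝ)) / y ^ C.m) * v := fun v => by ring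
    rw [ef] at u0'
    have ex := ef (x - 1)
    rw [add_sub_cancel] at ex
    rw [ex]
    match hk : s.kind with
    | .tail =>
      simp only [hk, decide_eq_true_eq] at hkind
      have w := (Rat.cast_le (K := ℝ)).2 hkind
      push_cast at w
      rw [← hy'] at w
      nlinarith [mul_le_mul_of_nonneg_left hs0 (sub_nonneg.2 w)]
    | .below | .mid =>
      simp only [hk, decide_eq_true_eq] at hkind
      have w := (Rat.cast_le (K := ℝ)).2 hkind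
      push_cast at w
      rw [← hy', ef] at w
      exact line_below hs0 (hs1.resolve_left (by simp [Seg.isTail, hk])) u0' w
  have h2 := mul_le_mul_of_nonneg_left hle hp
  have h3 : p * ((C.cb : ℝ) / y ^ 2 * (1 - 2 / (C.m : ℝ) * ((x - y ^ C.m) / y ^ C.m))) =
      C.Dc * (p * ((C.cb : ℝ) / C.Dc / y ^ 2 *
        (1 - 2 / (C.m : ℝ) * ((x - y ^ C.m) / y ^ C.m)))) := by
    field_simp
  linarith [mul_le_mul_of_nonneg_left key hc.le]

/-- The logarithm of `(1 + a ^ 2) / (1 - a ^ 2)` is convex. -/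
theorem convexOn_logBall :
    ConvexOn ℝ (Ico (0 : ℝ) 1) fun a => Real.log (1 + a ^ 2) - Real.log (1 - a ^ 2) := by
  have d1 : ∀ a ∈ Ico (0 : ℝ) 1,
      HasDerivAt (fun a : ℝ => Real.log (1 + a ^ 2) - Real.log (1 - a ^ 2))
        (4 * a / ((1 + a ^ 2) * (1 - a ^ 2))) a := fun a ha => by
    have h1 : (0 : ℝ) < 1 + a ^ 2 := by positivity
    have h2 : (0 : ℝ) < 1 - a ^ 2 := by nlinarith [ha.1, ha.2]
    refine (((hasDerivAt_pow 2 a).const_add 1 |>.log h1.ne').sub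
      ((hasDerivAt_pow 2 a).const_sub 1 |>.log h2.ne')).congr_deriv ?_
    push_cast
    field_simp
    ring
  refine MonotoneOn.convexOn_of_deriv (convex_Ico _ _)
    (fun a ha => (d1 a ha).continuousAt.continuousWithinAt)
    (fun a ha => (d1 a (interior_subset ha)).differentiableAt.differentiableWithinAt) ?_
  intro a ha b hb hab
  have ha' := interior_subset ha
  have hb' := interior_subset hb
  rw [(d1 a ha').deriv, (d1 b hb').deriv]
  have e : ∀ c : ℝ, (1 + c ^ 2) * (1 - c ^ 2) = 1 - c ^ 4 := fun c => by ring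
  have hb4 : b ^ 4 < 1 := pow_lt_one₀ hb'.1 hb'.2 (by norm_num)
  rw [e, e]
  exact div_le_div₀ (by linarith [hb'.1]) (by linarith) (by linarith)
    (by linarith [pow_le_pow_left₀ ha'.1 hab 4])

/-- A combination of `1 / (1 - a)` and `1 / (1 + a)` below its chord. -/
theorem node_gap {β α a₀ a₁ U X : ℝ} (h0 : 0 ≤ a₀) (h1 : a₁ < 1) (h01 : a₀ ≤ a₁) (hU : 0 ≤ U)
    (hX : 0 ≤ X) (hs : U + X = 1) (hm : 0 ≤ β - α)
    (hb : 0 ≤ (β + α) * ((1 + a₀) * ((1 + a₁) * (1 + a₁))) +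
      (β - α) * ((1 - a₀) * ((1 - a₁) * (1 - a₁)))) :
    -β + (β + α) / (1 - (U * a₀ + X * a₁)) + (β - α) / (1 + (U * a₀ + X * a₁)) ≤
      U * (-β + (β + α) / (1 - a₀) + (β - α) / (1 + a₀)) +
        X * (-β + (β + α) / (1 - a₁) + (β - α) / (1 + a₁)) := by
  obtain rfl : U = 1 - X := by linarith
  set a := (1 - X) * a₀ + X * a₁ with ha
  have ha1 : a ≤ a₁ := by nlinarith [mul_nonneg hU (sub_nonneg.2 h01)]
  have ha0 : a₀ ≤ a := by nlinarith [mul_nonneg hX (sub_nonneg.2 h01)]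
  have u0 : 0 < 1 - a₀ := by linarith
  have u1 : 0 < 1 - a₁ := by linarith
  have u : 0 < 1 - a := by linarith
  have w0 : 0 < 1 + a₀ := by linarith
  have w1 : 0 < 1 + a₁ := by linarith
  have w : 0 < 1 + a := by linarith
  set B := (β + α) * ((1 + a₀) * ((1 + a₁) * (1 + a))) +
    (β - α) * ((1 - a₀) * ((1 - a₁) * (1 - a))) with hB
  have hB0 : 0 ≤ B := by
    have v := mul_pos w0 w1
    have v' := mul_pos u0 u1
    rcases le_total 0 (β + α) with hp | hp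
    · exact add_nonneg (mul_nonneg hp (mul_nonneg w0.le (mul_nonneg w1.le w.le)))
        (mul_nonneg hm (mul_nonneg u0.le (mul_nonneg u1.le u.le)))
    · have := mul_nonneg (sub_nonneg.2 ha1)
        (add_nonneg (mul_nonneg (neg_nonneg.2 hp) v.le) (mul_nonneg hm v'.le))
      linarith [hb, show B - ((β + α) * ((1 + a₀) * ((1 + a₁) * (1 + a₁))) +
        (β - α) * ((1 - a₀) * ((1 - a₁) * (1 - a₁)))) =
          (a₁ - a) * (-(β + α) * ((1 + a₀) * (1 + a₁)) + (β - α) * ((1 - a₀) * (1 - a₁))) by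
            rw [hB]; ring]
  have e : (1 - X) * (-β + (β + α) / (1 - a₀) + (β - α) / (1 + a₀)) +
        X * (-β + (β + α) / (1 - a₁) + (β - α) / (1 + a₁)) -
        (-β + (β + α) / (1 - a) + (β - α) / (1 + a)) =
      (1 - X) * X * (a₁ - a₀) ^ 2 * B /
        ((1 - a₀) * (1 + a₀) * ((1 - a₁) * (1 + a₁)) * ((1 - a) * (1 + a))) := by
    rw [hB]
    field_simp
    rw [ha]
    ring
  have : 0 ≤ (1 - X) * X * (a₁ - a₀) ^ 2 * B /
      ((1 - a₀) * (1 + a₀) * ((1 - a₁) * (1 + a₁)) * ((1 - a) * (1 + a))) := by positivity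
  linarith

/-- The bound of a node on `x` is below the chord of its values at the two ends. -/
theorem node_chord {m : ℕ} (hm : 2 ≤ m) {K g g₀ g₁ U X x y₀ y₁ : ℝ} (hK : 0 ≤ K) (hx : 0 ≤ x)
    (hy₀ : 0 ≤ y₀) (hy₁ : 0 ≤ y₁) (hU : 0 ≤ U) (hX : 0 ≤ X) (hs : U + X = 1)
    (hg : g ≤ U * g₀ + X * g₁) (hxg : x ^ 2 ≤ K * max g 0 ^ m)
    (h₀ : K * max g₀ 0 ^ m ≤ y₀ ^ 2) (h₁ : K * max g₁ 0 ^ m ≤ y₁ ^ 2) :
    x ≤ U * y₀ + X * y₁ := by
  set p : ℝ := (m : ℝ) / 2 with hp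
  have hp1 : 1 ≤ p := by
    rw [hp, le_div_iff₀ two_pos, one_mul]
    exact_mod_cast hm
  have sq : ∀ {h : ℝ}, 0 ≤ h → (√K * h ^ p) ^ 2 = K * h ^ m := fun {h} hh => by
    rw [mul_pow, Real.sq_sqrt hK, ← Real.rpow_natCast (h ^ p) 2, ← Real.rpow_mul hh, hp,
      Nat.cast_ofNat, div_mul_cancel₀ _ (two_ne_zero' ℝ), Real.rpow_natCast]
  have root : ∀ {h y : ℝ}, 0 ≤ h → 0 ≤ y → K * h ^ m ≤ y ^ 2 → √K * h ^ p ≤ y := fun hh hy h' =>
    le_of_pow_le_pow_left₀ two_ne_zero hy ((sq hh).trans_le h')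
  set L := U * max g₀ 0 + X * max g₁ 0 with hL
  have hL0 : 0 ≤ L := add_nonneg (mul_nonneg hU (le_max_right _ _))
    (mul_nonneg hX (le_max_right _ _))
  have hgL : max g 0 ≤ L := max_le (hg.trans (add_le_add
    (mul_le_mul_of_nonneg_left (le_max_left _ _) hU)
    (mul_le_mul_of_nonneg_left (le_max_left _ _) hX))) hL0
  have hxL : x ≤ √K * L ^ p := le_of_pow_le_pow_left₀ two_ne_zero
    (mul_nonneg (Real.sqrt_nonneg _) (Real.rpow_nonneg hL0 _))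
    (hxg.trans (by
      rw [sq hL0]
      exact mul_le_mul_of_nonneg_left (pow_le_pow_left₀ (le_max_right _ _) hgL m) hK))
  have hc := (convexOn_rpow hp1).2 (Set.mem_Ici.2 (le_max_right g₀ 0))
    (Set.mem_Ici.2 (le_max_right g₁ 0)) hU hX hs
  simp only [smul_eq_mul] at hc
  calc x ≤ √K * (U * max g₀ 0 ^ p + X * max g₁ 0 ^ p) :=
        hxL.trans (mul_le_mul_of_nonneg_left hc (Real.sqrt_nonneg _))
    _ = U * (√K * max g₀ 0 ^ p) + X * (√K * max g₁ 0 ^ p) := by ring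
    _ ≤ _ := add_le_add (mul_le_mul_of_nonneg_left (root (le_max_right _ _) hy₀ h₀) hU)
        (mul_le_mul_of_nonneg_left (root (le_max_right _ _) hy₁ h₁) hX)

/-- The bound of a node on `x` is below the fourth power of the chord of the fourth roots. -/
theorem node_root {m : ℕ} (hm : 8 ≤ m) {K g g₀ g₁ U X x r₀ r₁ : ℝ} (hK : 0 ≤ K) (hx : 0 ≤ x)
    (hr₀ : 0 ≤ r₀) (hr₁ : 0 ≤ r₁) (hU : 0 ≤ U) (hX : 0 ≤ X) (hs : U + X = 1)
    (hg : g ≤ U * g₀ + X * g₁) (hxg : x ^ 2 ≤ K * max g 0 ^ m)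
    (h₀ : K * max g₀ 0 ^ m ≤ (r₀ ^ 4) ^ 2) (h₁ : K * max g₁ 0 ^ m ≤ (r₁ ^ 4) ^ 2) :
    x ≤ (U * r₀ + X * r₁) ^ 4 := by
  set p : ℝ := (m : ℝ) / 8 with hp
  have hp1 : 1 ≤ p := by
    rw [hp, le_div_iff₀ (by norm_num), one_mul]
    exact_mod_cast hm
  set c : ℝ := K ^ ((8 : ℝ)⁻¹) with hc'
  have hc0 : 0 ≤ c := Real.rpow_nonneg hK _
  have sq : ∀ {h : ℝ}, 0 ≤ h → (c * h ^ p) ^ 8 = K * h ^ m := fun {h} hh => by
    rw [mul_pow, hc', ← Real.rpow_natCast (K ^ _) 8, ← Real.rpow_mul hK,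
      ← Real.rpow_natCast (h ^ p) 8, ← Real.rpow_mul hh, hp, Nat.cast_ofNat,
      inv_mul_cancel₀ (by norm_num : (8 : ℝ) ≠ 0), Real.rpow_one,
      div_mul_cancel₀ _ (by norm_num : (8 : ℝ) ≠ 0), Real.rpow_natCast]
  have root : ∀ {h r : ℝ}, 0 ≤ h → 0 ≤ r → K * h ^ m ≤ (r ^ 4) ^ 2 → c * h ^ p ≤ r :=
    fun {h r} hh hr h' => le_of_pow_le_pow_left₀ (by norm_num) hr ((sq hh).trans_le (by
      rwa [← pow_mul] at h'))
  set L := U * max g₀ 0 + X * max g₁ 0 with hL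
  have hL0 : 0 ≤ L := add_nonneg (mul_nonneg hU (le_max_right _ _))
    (mul_nonneg hX (le_max_right _ _))
  have hgL : max g 0 ≤ L := max_le (hg.trans (add_le_add
    (mul_le_mul_of_nonneg_left (le_max_left _ _) hU)
    (mul_le_mul_of_nonneg_left (le_max_left _ _) hX))) hL0
  have hxL : x ≤ (c * L ^ p) ^ 4 := le_of_pow_le_pow_left₀ two_ne_zero
    (pow_nonneg (mul_nonneg hc0 (Real.rpow_nonneg hL0 _)) 4)
    (hxg.trans (by
      rw [← pow_mul, sq hL0]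
      exact mul_le_mul_of_nonneg_left (pow_le_pow_left₀ (le_max_right _ _) hgL m) hK))
  have hc := (convexOn_rpow hp1).2 (Set.mem_Ici.2 (le_max_right g₀ 0))
    (Set.mem_Ici.2 (le_max_right g₁ 0)) hU hX hs
  simp only [smul_eq_mul] at hc
  refine hxL.trans (pow_le_pow_left₀ (mul_nonneg hc0 (Real.rpow_nonneg hL0 _)) ?_ 4)
  calc c * L ^ p ≤ c * (U * max g₀ 0 ^ p + X * max g₁ 0 ^ p) := mul_le_mul_of_nonneg_left hc hc0
    _ = U * (c * max g₀ 0 ^ p) + X * (c * max g₁ 0 ^ p) := by ring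
    _ ≤ _ := add_le_add (mul_le_mul_of_nonneg_left (root (le_max_right _ _) hr₀ h₀) hU)
        (mul_le_mul_of_nonneg_left (root (le_max_right _ _) hr₁ h₁) hX)

/-- The chord above the envelope of `x`, from the bound at the left end. -/
theorem env_chord {C : Cfg} {I : Ival} (hDv : 0 < C.Dv) (hDa : 0 < C.Da) 
    (hp0 : 0 < ballQ C.Da I.A0) (hp1 : 0 < ballQ C.Da I.A1)
    (hy0 : 0 ≤ 1 + (I.e0 : ℚ) / C.Dv) (hy1 : 0 ≤ 1 + (I.e1 : ℚ) / C.Dv)
    (hK0 : I.node.boundQ C.m (timeQ C.Da I.A0) ≤ (1 + (I.e0 : ℚ) / C.Dv) ^ 2 * ballQ C.Da I.A0 ^ C.m)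
    (hK1 : I.node.boundQ C.m (timeQ C.Da I.A0) ≤ (1 + (I.e1 : ℚ) / C.Dv) ^ 2 * ballQ C.Da I.A1 ^ C.m)
    (h0 : 0 ≤ I.A0) (h1 : I.A1 ≤ C.Da) {t A U X x : ℝ}
    (h : AtIval C I t A) (w : Wt C I U X A) (hx : 0 < x)
    (hN : x ^ 2 * ballShape t ^ C.m ≤ (I.node.boundQ C.m (timeQ C.Da I.A0) : ℝ)) :
    0 ≤ (I.e0 : ℝ) * U + I.e1 * X - C.Dv * (x - 1) := by
  have hD : (0 : ℝ) < C.Dv := Int.cast_pos.2 hDv
  have hDa' : (0 : ℝ) < C.Da := Int.cast_pos.2 hDa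
  set K : ℝ := (I.node.boundQ C.m (timeQ C.Da I.A0) : ℝ)
  set a0 : ℝ := (I.A0 : ℝ) / C.Da
  set a1 : ℝ := (I.A1 : ℝ) / C.Da
  set y0 : ℝ := 1 + (I.e0 : ℝ) / C.Dv
  set y1 : ℝ := 1 + (I.e1 : ℝ) / C.Dv
  have hp0' := (Rat.cast_lt (K := ℝ)).2 hp0
  have hp1' := (Rat.cast_lt (K := ℝ)).2 hp1
  have hy0' := (Rat.cast_le (K := ℝ)).2 hy0
  have hy1' := (Rat.cast_le (K := ℝ)).2 hy1
  have hK0' := (Rat.cast_le (K := ℝ)).2 hK0
  have hK1' := (Rat.cast_le (K := ℝ)).2 hK1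
  push_cast [(timeQ_cast hDa _).2] at hp0' hp1' hy0' hy1' hK0' hK1'
  obtain ⟨hA0, hA1, ea, -, -⟩ := h.point hDa
  obtain ⟨hmem, -, ep⟩ := halfAngle_param (t := t) (Ioo_subset_Icc_self h.ht)
  have hlt : I.A0 < I.A1 := Int.cast_lt.1 (h.lo.trans_lt h.hi)
  have ha0 : 0 ≤ a0 := div_nonneg (Int.cast_nonneg h0) hDa'.le
  have m1 : a1 ∈ Ico (0 : ℝ) 1 := by
    refine ⟨div_nonneg (Int.cast_nonneg (by omega)) hDa'.le, ?_⟩
    rcases lt_or_eq_of_le ((div_le_one hDa').2 (Int.cast_le.2 h1) : a1 ≤ 1) with hl | hl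
    · exact hl
    · rw [hl] at hp1'
      norm_num at hp1'
  have m0 : a0 ∈ Ico (0 : ℝ) 1 := ⟨ha0, lt_of_le_of_lt (by
    have : (I.A0 : ℝ) ≤ I.A1 := Int.cast_le.2 hlt.le
    exact div_le_div_of_nonneg_right this hDa'.le) m1.2⟩
  have ha : U * a0 + X * a1 = halfAngle t := by
    rw [ea, w.hA]
    simp only [a0, a1]
    ring
  have key := convexOn_logBall.2 m0 m1 w.hU w.hX w.hs
  simp only [smul_eq_mul, ha] at key
  have hp := ball_pos (sub01 h.ht)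
  have elog : ∀ a : ℝ, 0 < (1 - a ^ 2) / (1 + a ^ 2) →
      Real.log (1 + a ^ 2) - Real.log (1 - a ^ 2) = -Real.log ((1 - a ^ 2) / (1 + a ^ 2)) := by
    intro a ha
    have h1 : (0 : ℝ) < 1 + a ^ 2 := by positivity
    have h2 : 0 < 1 - a ^ 2 := (div_pos_iff_of_pos_right h1).1 ha
    rw [Real.log_div h2.ne' h1.ne']
    ring
  have ept : ballShape t = (1 - halfAngle t ^ 2) / (1 + halfAngle t ^ 2) := by
    rw [eq_div_iff (by positivity)]
    have := ep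
    field_simp at this
    linarith
  rw [elog _ hp0', elog _ hp1', elog _ (ept ▸ hp), ← ept] at key
  rcases le_or_gt K 0 with hKle | hKpos
  · have : 0 < x ^ 2 * ballShape t ^ C.m := mul_pos (pow_pos hx 2) (pow_pos hp _)
    linarith
  set p0 : ℝ := (1 - a0 ^ 2) / (1 + a0 ^ 2)
  set p1 : ℝ := (1 - a1 ^ 2) / (1 + a1 ^ 2)
  have bound : ∀ {p y : ℝ}, 0 < p → 0 ≤ y → K ≤ y ^ 2 * p ^ C.m →
      Real.exp (Real.log K / 2 - (C.m : ℝ) / 2 * Real.log p) ≤ y := by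
    intro p y hp hy hK
    refine le_of_pow_le_pow_left₀ two_ne_zero hy ?_
    rw [← Real.exp_nat_mul]
    have e : ((2 : ℕ) : ℝ) * (Real.log K / 2 - (C.m : ℝ) / 2 * Real.log p) =
        Real.log K - (C.m : ℝ) * Real.log p := by push_cast; ring
    rw [e, Real.exp_sub, Real.exp_log hKpos, Real.exp_nat_mul, Real.exp_log hp,
      div_le_iff₀ (pow_pos hp _)]
    exact hK
  have hxe : x ≤ Real.exp (Real.log K / 2 - (C.m : ℝ) / 2 * Real.log (ballShape t)) := by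
    refine le_of_pow_le_pow_left₀ two_ne_zero (Real.exp_pos _).le ?_
    rw [← Real.exp_nat_mul]
    have e : ((2 : ℕ) : ℝ) * (Real.log K / 2 - (C.m : ℝ) / 2 * Real.log (ballShape t)) =
        Real.log K - (C.m : ℝ) * Real.log (ballShape t) := by push_cast; ring
    rw [e, Real.exp_sub, Real.exp_log hKpos, Real.exp_nat_mul, Real.exp_log hp,
      le_div_iff₀ (pow_pos hp _)]
    exact hN
  have hcx := convexOn_exp.2 (Set.mem_univ (Real.log K / 2 - (C.m : ℝ) / 2 * Real.log p0))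
    (Set.mem_univ (Real.log K / 2 - (C.m : ℝ) / 2 * Real.log p1)) w.hU w.hX w.hs
  simp only [smul_eq_mul] at hcx
  have harg : Real.log K / 2 - (C.m : ℝ) / 2 * Real.log (ballShape t) ≤
      U * (Real.log K / 2 - (C.m : ℝ) / 2 * Real.log p0) +
        X * (Real.log K / 2 - (C.m : ℝ) / 2 * Real.log p1) := by
    have := mul_le_mul_of_nonneg_left key (div_nonneg (Nat.cast_nonneg C.m) two_pos.le :
      (0 : ℝ) ≤ (C.m : ℝ) / 2)
    calc Real.log K / 2 - (C.m : ℝ) / 2 * Real.log (ballShape t)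
        ≤ Real.log K / 2 * (U + X) + (C.m : ℝ) / 2 * (U * -Real.log p0 + X * -Real.log p1) := by
          rw [w.hs]; linarith
      _ = _ := by ring
  have hfin : x ≤ U * y0 + X * y1 :=
    (hxe.trans ((Real.exp_le_exp.2 harg).trans hcx)).trans
      (add_le_add (mul_le_mul_of_nonneg_left (bound hp0' hy0' hK0') w.hU)
        (mul_le_mul_of_nonneg_left (bound hp1' hy1' hK1') w.hX))
  have e : U * y0 + X * y1 = 1 + ((I.e0 : ℝ) * U + I.e1 * X) / C.Dv := by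
    simp only [y0, y1]
    linear_combination w.hs
  rw [e] at hfin
  have : (x - 1) ≤ ((I.e0 : ℝ) * U + I.e1 * X) / C.Dv := by linarith
  rw [le_div_iff₀ hD] at this
  linarith

/-- The value of the envelope constraint. -/
noncomputable def envGap (C : Cfg) (I : Ival) (U X v : ℝ) : ℝ :=
  if I.er = 0 then (I.e0 : ℝ) * U + I.e1 * X - C.Dv * v
  else ((I.e1 : ℝ) * U + I.e0 * X) ^ 3 *
    (C.Dv * ((I.e0 : ℝ) * U + I.e1 * X) ^ 4 - C.Dv * (I.er : ℝ) ^ 4 * (1 + v))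

/-- The constraints hold at a point: values of the forms with their signs. -/
structure PadsVal (C : Cfg) (I : Ival) (U X A v ρ : ℝ) (s : Seg) where
  mu : 0 ≤ fS C A * C.Dc - fT C A * C.Dc * ρ - fP C A * (s.w0 + s.w1 * v)
  nu : I.env = true → 0 ≤ envGap C I U X v
  sp : 0 ≤ fS C A * fP C A

theorem cellMult_sound {C : Cfg} {I : Ival} {s : Seg} {U X A v ρ mth sc : ℝ} {S : Side}
    {c₀ c₁ : Fin 4 → ℝ} {G : Gain} {M : Mult} {e₀ e₁ e₂ : ℝ} {σ : ℤ}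
    (w : Wt C I U X A) (hDv : 0 < C.Dv) (hlt : s.isTail = true ∨ s.V0 < s.V1)
    (h0 : (s.V0 : ℝ) / C.Dv ≤ v) (h1 : s.isTail = true ∨ v ≤ (s.V1 : ℝ) / C.Dv)
    (hD : 0 < C.Dr) (hR : G.R0 < G.R1) (hρ0 : (G.R0 : ℝ) / C.Dr ≤ ρ)
    (hρ1 : ρ ≤ (G.R1 : ℝ) / C.Dr) (hW : S.W = sideW (s.ctrl C) σ)
    (hr₀ : RepFour U X S.p fun k => (ctrlAt (s.ctrl C) k).app c₀)
    (hr₁ : RepFour U X S.q fun k => (ctrlAt (s.ctrl C) k).app c₁)
    (hsc : (σ : ℝ) = sc) (hsc0 : 0 ≤ sc) (hz : 0 ≤ (G.z : ℝ))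
    (g0 : Rep U X 7 G.g0 (mth * ((C.Dr : ℝ) ^ 2 * e₀ + C.Dr * G.R0 * e₁ + (G.R0 : ℝ) ^ 2 * e₂)))
    (g1 : Rep U X 7 G.g1 (mth * (2 * (C.Dr : ℝ) ^ 2 * e₀ + C.Dr * (G.R0 + G.R1) * e₁ +
      2 * G.R0 * G.R1 * e₂)))
    (g2 : Rep U X 7 G.g2 (mth * ((C.Dr : ℝ) ^ 2 * e₀ + C.Dr * G.R1 * e₁ + (G.R1 : ℝ) ^ 2 * e₂)))
    (P : PadsVal C I U X A v ρ s)
    (h : cellMult C.Dr S ((I.pads C).cons C s (s.ctrl C) σ) M G = true) :
    (G.z : ℝ) * (cubicAt c₀ v + ρ * cubicAt c₁ v) ≤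
      sc * (1 + v) ^ 2 * mth * (e₀ + ρ * e₁ + ρ ^ 2 * e₂) := by
  by_cases h0M : Nat.beq (Nat.add M.mu (Nat.add M.nu M.sq)) 0 = true
  · simp only [cellMult, h0M, cond_true] at h
    exact cell_core w.hU w.hX hDv hlt h0 h1 hD hR hρ0 hρ1 hW hsc hr₀ hr₁ g0 g1 g2 h
  rw [cellMult, Bool.eq_false_iff.2 h0M, cond_false] at h
  have L := w.lin_one (Rep.unit (U := U) (X := X))
  have five := w.lin_one (w.lin_one (w.lin_one (w.lin_one L)))
  have hS : Rep U X 7 (I.pads C).S (fS C A) := (w.mulS five).congr (by ring)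
  have hP : Rep U X 7 (I.pads C).P (fP C A) := (w.mulP five).congr (by ring)
  have hT : Rep U X 7 (I.pads C).T (fT C A) := (w.mulT five).congr (by ring)
  have hSP : Rep U X 7 (I.pads C).SP (fS C A * fP C A) :=
    (w.spRow (w.lin_one L)).congr (by ring)
  obtain ⟨vL, v1, hL, hone, hnu⟩ : ∃ vL v1 : ℝ, Rep U X 7 (I.pads C).L vL ∧
      Rep U X 7 (I.pads C).one v1 ∧ 0 ≤ vL - C.Dv * v * v1 := by
    by_cases he : I.env = true
    · by_cases her : I.er = 0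
      · refine ⟨(I.e0 : ℝ) * U + I.e1 * X, 1, ?_, ?_, ?_⟩
        · simp only [Ival.pads, he, if_true, her, ne_eq, not_true_eq_false, if_false]
          exact ((w.lin_one five).lin _ _).congr (mul_one _)
        · simp only [Ival.pads, he, if_true, her, ne_eq, not_true_eq_false, if_false]
          exact w.lin_one (w.lin_one five)
        · simpa [envGap, her] using P.nu he
      · have hW : Rep U X 3 I.rootW (((I.e1 : ℝ) * U + I.e0 * X) ^ 3) :=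
          (((Rep.unit.lin _ _).lin _ _).lin _ _).congr (by ring)
        have hO : Rep U X 7 I.rootOne ((I.er : ℝ) ^ 4 * ((I.e1 : ℝ) * U + I.e0 * X) ^ 3) :=
          ((w.lin_one (w.lin_one (w.lin_one (w.lin_one hW)))).smul _).congr
            (by simp only [cast_mul']; ring)
        refine ⟨((I.e1 : ℝ) * U + I.e0 * X) ^ 3 *
          (C.Dv * ((I.e0 : ℝ) * U + I.e1 * X) ^ 4 - C.Dv * (I.er : ℝ) ^ 4),
          (I.er : ℝ) ^ 4 * ((I.e1 : ℝ) * U + I.e0 * X) ^ 3, ?_, ?_, ?_⟩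
        · simp only [Ival.pads, he, if_true, her, ne_eq, not_false_eq_true, Ival.rootL]
          exact ((((((hW.lin _ _).lin _ _).lin _ _).lin _ _).smul _).add (hO.smul _)).congr
            (by simp only [cast_neg']; ring)
        · simp only [Ival.pads, he, if_true, her, ne_eq, not_false_eq_true]
          exact hO
        · have := P.nu he
          simp only [envGap, her, if_false] at this
          linarith
    · refine ⟨0, 0, ?_, ?_, by simp⟩ <;>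
      · simp only [Ival.pads, he, Bool.false_eq_true, if_false]
        exact Rep.zero
  set mu : ℝ := ((Int.ofNat M.mu : ℤ) : ℝ)
  set nu : ℝ := ((Int.ofNat M.nu : ℤ) : ℝ)
  set sq : ℝ := ((Int.ofNat M.sq : ℤ) : ℝ)
  set SP := fS C A * fP C A
  set K := (I.pads C).cons C s (s.ctrl C) σ with hK
  have hm : RepFour U X K.muP fun k => (ctrlAt (s.ctrl C) k).app
      ![fS C A * C.Dc - fP C A * s.w0, -(fP C A * s.w1), 0, 0] :=
    ((colA_rep (hS.smul _) _).add (polyW_rep hP _ _)).congr fun k => by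
      simp [V4.app, ineg_eq]; ring
  have hm' : RepFour U X K.muQ fun k => (ctrlAt (s.ctrl C) k).app
      ![-(fT C A * C.Dc), 0, 0, 0] :=
    (colA_rep (hT.smul _) _).congr fun k => by simp [V4.app, ineg_eq, mul_comm]
  have hn : RepFour U X K.nuP fun k => (ctrlAt (s.ctrl C) k).app ![vL, -(C.Dv * v1), 0, 0] :=
    ((colA_rep hL _).add (colB_rep (hone.smul _) _)).congr fun k => by
      simp [V4.app, ineg_eq]
  have hq : RepFour U X K.sqP fun k => (ctrlAt (s.ctrl C) k).app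
      ![sc * SP * (s.sg : ℝ) ^ 2, sc * SP * (2 * s.sg * s.tau), sc * SP * (s.tau : ℝ) ^ 2, 0] :=
    (polyW_rep (hSP.smul _) _ _).congr fun k => by
      simp [V4.app, imul_eq, hsc, SP]; ring
  have hq' : RepFour U X K.sqQ fun k => (ctrlAt (s.ctrl C) k).app
      ![sc * SP * (-2 * C.Dr * s.sg), sc * SP * (-2 * C.Dr * (s.sg + s.tau)),
        sc * SP * (-2 * C.Dr * s.tau), 0] :=
    (polyW_rep (hSP.smul _) _ _).congr fun k => by
      simp [V4.app, imul_eq, iadd_eq, hsc, SP]; ring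
  have k0 := addMul_rep (addMul_rep (addMul_rep hr₀ hm M.mu) hn M.nu) hq M.sq
  have k1 := addMul_rep (addMul_rep hr₁ hm' M.mu) hq' M.sq
  set d₀ : Fin 4 → ℝ := fun i => c₀ i + mu * ![fS C A * C.Dc - fP C A * s.w0,
    -(fP C A * s.w1), 0, 0] i + nu * ![vL, -(C.Dv * v1), 0, 0] i + sq * ![sc * SP * (s.sg : ℝ) ^ 2,
    sc * SP * (2 * s.sg * s.tau), sc * SP * (s.tau : ℝ) ^ 2, 0] i with hd₀
  set d₁ : Fin 4 → ℝ := fun i => c₁ i + mu * ![-(fT C A * C.Dc), 0, 0, 0] i +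
    sq * ![sc * SP * (-2 * C.Dr * s.sg), sc * SP * (-2 * C.Dr * (s.sg + s.tau)),
      sc * SP * (-2 * C.Dr * s.tau), 0] i with hd₁
  have hg : ∀ (g : Pk) (vg : ℝ) (k : ℤ), Rep U X 7 g vg →
      Rep U X 7 (g.add ((((I.pads C).SP.smul (imul C.Dr C.Dr))).smul
        (imul (ineg (imul G.z (Int.ofNat M.sq))) k)))
        (vg - G.z * sq * ((C.Dr : ℝ) ^ 2 * SP * k)) := fun g vg k hg =>
    (hg.add ((hSP.smul _).smul _)).congr (by simp only [cast_mul', cast_neg', sq, SP]; ring)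
  obtain ⟨ez, eR0, eR1, a0, a1, a2⟩ : (G.adj K M).z = G.z ∧ (G.adj K M).R0 = G.R0 ∧
      (G.adj K M).R1 = G.R1 ∧
      Rep U X 7 (G.adj K M).g0 (1 * ((C.Dr : ℝ) ^ 2 * (mth * e₀) + C.Dr * G.R0 * (mth * e₁) +
        (G.R0 : ℝ) ^ 2 * (mth * e₂ - G.z * sq * ((C.Dr : ℝ) ^ 2 * SP)))) ∧
      Rep U X 7 (G.adj K M).g1 (1 * (2 * (C.Dr : ℝ) ^ 2 * (mth * e₀) +
        C.Dr * (G.R0 + G.R1) * (mth * e₁) +
        2 * G.R0 * G.R1 * (mth * e₂ - G.z * sq * ((C.Dr : ℝ) ^ 2 * SP)))) ∧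
      Rep U X 7 (G.adj K M).g2 (1 * ((C.Dr : ℝ) ^ 2 * (mth * e₀) + C.Dr * G.R1 * (mth * e₁) +
        (G.R1 : ℝ) ^ 2 * (mth * e₂ - G.z * sq * ((C.Dr : ℝ) ^ 2 * SP)))) := by
    cases hq0 : Nat.beq M.sq 0 with
    | false =>
      simp only [Gain.adj, hq0, cond_false, true_and, hK, Pads.cons]
      exact ⟨(hg _ _ (imul G.R0 G.R0) g0).congr (by simp only [cast_mul']; ring),
        (hg _ _ (imul 2 (imul G.R0 G.R1)) g1).congr (by simp only [cast_mul']; push_cast; ring),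
        (hg _ _ (imul G.R1 G.R1) g2).congr (by simp only [cast_mul']; ring)⟩
    | true =>
      have e : sq = 0 := by simp [sq, Nat.eq_of_beq_eq_true hq0]
      simp only [Gain.adj, hq0, cond_true, true_and, e, mul_zero, zero_mul, sub_zero]
      exact ⟨g0.congr (by ring), g1.congr (by ring), g2.congr (by ring)⟩
  have key := cell_core (C := C) (s := s) (U := U) (X := X) (v := v) (ρ := ρ) (mth := 1)
    (sc := sc) (D := C.Dr) (c₀ := d₀) (c₁ := d₁) (G := G.adj K M)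
    (e₀ := mth * e₀) (e₁ := mth * e₁)
    (e₂ := mth * e₂ - G.z * sq * ((C.Dr : ℝ) ^ 2 * SP)) (σ := σ) (S := S.adj K M)
    w.hU w.hX hDv hlt h0 h1 hD (by rw [eR0, eR1]; exact hR) (by rw [eR0]; exact hρ0)
    (by rw [eR1]; exact hρ1) hW hsc
    (k0.congr fun k => by simp only [hd₀, V4.app, mu, nu, sq]; ring)
    (k1.congr fun k => by simp only [hd₁, V4.app, mu, sq]; ring)
    (by rw [eR0]; exact a0) (by rw [eR0, eR1]; exact a1) (by rw [eR1]; exact a2)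
    h
  rw [ez] at key
  have hμ : 0 ≤ mu * (fS C A * C.Dc - fT C A * C.Dc * ρ - fP C A * (s.w0 + s.w1 * v)) :=
    mul_nonneg (Int.cast_nonneg (Int.natCast_nonneg _)) P.mu
  have hν : 0 ≤ nu * (vL - C.Dv * v * v1) :=
    mul_nonneg (Int.cast_nonneg (Int.natCast_nonneg _)) hnu
  have hs : 0 ≤ sq * (sc * SP * ((C.Dr : ℝ) * ρ * (1 + v) - (s.sg + s.tau * v)) ^ 2) :=
    mul_nonneg (Int.cast_nonneg (Int.natCast_nonneg _))
      (mul_nonneg (mul_nonneg hsc0 P.sp) (sq_nonneg _))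
  have hall := mul_nonneg hz (add_nonneg (add_nonneg hμ hν) hs)
  simp only [cubicAt, hd₀, hd₁, Matrix.cons_val] at key ⊢
  linarith

end Vale.Agent.P237.Quant.TailCert
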