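import Mathlib.Tactic.NormNum
import Mathlib.Tactic.Ring
import Mathlib.Tactic.FieldSimp
import Mathlib.Data.Rat.Cast.Order
import Mathlib.Algebra.Order.Field.Basic

/-!
Integer and rational operations that the kernel reduces in few steps. The integer operations branch
on signs by recursors and leave all arithmetic to the naturals; the rationals are unreduced
fractions, where a zero denominator stands for zero, so that every operation is exact.
-/

namespace Vale.Agent.P237.Quant.TailCert

/-- The difference of two naturals. -/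
noncomputable def isub2 (m n : ℕ) : ℤ :=
  Bool.rec (Int.negSucc (Nat.sub (Nat.sub n m) 1)) (Int.ofNat (Nat.sub m n)) (Nat.ble n m)

/-- Minus a natural. -/
noncomputable def inegN (n : ℕ) : ℤ :=
  Bool.rec (Int.negSucc (Nat.sub n 1)) (Int.ofNat 0) (Nat.beq n 0)

/-- Sum. -/
noncomputable def iadd (a b : ℤ) : ℤ :=
  Int.rec
    (fun m => Int.rec (fun n => Int.ofNat (Nat.add m n)) (fun n => isub2 m (Nat.succ n)) b)
    (fun m => Int.rec (fun n => isub2 n (Nat.succ m))
      (fun n => Int.negSucc (Nat.add (Nat.add m n) 1)) b) a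

/-- Product. -/
noncomputable def imul (a b : ℤ) : ℤ :=
  Int.rec
    (fun m => Int.rec (fun n => Int.ofNat (Nat.mul m n)) (fun n => inegN (Nat.mul m (Nat.succ n))) b)
    (fun m => Int.rec (fun n => inegN (Nat.mul (Nat.succ m) n))
      (fun n => Int.ofNat (Nat.mul (Nat.succ m) (Nat.succ n))) b) a

/-- Negation. -/
noncomputable def ineg (a : ℤ) : ℤ :=
  Int.rec (fun m => inegN m) (fun m => Int.ofNat (Nat.succ m)) a

/-- Difference. -/
noncomputable def isub (a b : ℤ) : ℤ := iadd a (ineg b)

/-- Absolute value. -/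
noncomputable def iabs (a : ℤ) : ℕ := Int.rec (fun m => m) (fun m => Nat.succ m) a

/-- Nonnegativity. -/
noncomputable def inn (a : ℤ) : Bool := Int.rec (fun _ => true) (fun _ => false) a

/-- The natural part. -/
noncomputable def itoN (a : ℤ) : ℕ := Int.rec (fun m => m) (fun _ => 0) a

/-- `a ≤ b`. -/
noncomputable def ile (a b : ℤ) : Bool :=
  Int.rec (fun m => Int.rec (fun n => Nat.ble m n) (fun _ => false) b)
    (fun m => Int.rec (fun _ => true) (fun n => Nat.ble n m) b) a

theorem isub2_eq (m n : ℕ) : isub2 m n = (m : ℤ) - n := by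
  rw [isub2]
  cases h : Nat.ble n m
  · have h' : m < n := Nat.not_le.1 fun c => Bool.false_ne_true (h.symm.trans (Nat.ble_eq_true_of_le c))
    simp only [Nat.sub_eq, Int.negSucc_eq]
    omega
  · have h' := Nat.le_of_ble_eq_true h
    simp only [Nat.sub_eq, Int.ofNat_eq_natCast]
    omega

theorem inegN_eq (n : ℕ) : inegN n = -(n : ℤ) := by
  cases n with
  | zero => rfl
  | succ n => rfl

theorem iadd_eq (a b : ℤ) : iadd a b = a + b := by
  cases a with
  | ofNat m =>
    cases b with
    | ofNat n => rfl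
    | negSucc n => show isub2 m (n + 1) = _; rw [isub2_eq]; simp [Int.negSucc_eq]; ring
  | negSucc m =>
    cases b with
    | ofNat n => show isub2 n (m + 1) = _; rw [isub2_eq]; simp [Int.negSucc_eq]; ring
    | negSucc n => show Int.negSucc (m + n + 1) = _; simp [Int.negSucc_eq]; ring

theorem imul_eq (a b : ℤ) : imul a b = a * b := by
  cases a with
  | ofNat m =>
    cases b with
    | ofNat n => rfl
    | negSucc n => show inegN (m * (n + 1)) = _; rw [inegN_eq]; simp [Int.negSucc_eq]; ring
  | negSucc m =>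
    cases b with
    | ofNat n => show inegN ((m + 1) * n) = _; rw [inegN_eq]; simp [Int.negSucc_eq]; ring
    | negSucc n =>
      show Int.ofNat ((m + 1) * (n + 1)) = _; simp [Int.negSucc_eq]; ring

theorem ineg_eq (a : ℤ) : ineg a = -a := by
  cases a with
  | ofNat m => show inegN m = _; rw [inegN_eq]; rfl
  | negSucc m => rfl

theorem isub_eq (a b : ℤ) : isub a b = a - b := by rw [isub, iadd_eq, ineg_eq, sub_eq_add_neg]

theorem iabs_eq (a : ℤ) : iabs a = a.natAbs := by cases a <;> rfl

theorem itoN_eq (a : ℤ) : itoN a = a.toNat := by cases a <;> rfl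

theorem inn_eq (a : ℤ) : inn a = decide (0 ≤ a) := by
  cases a with
  | ofNat m => exact (decide_eq_true (Int.natCast_nonneg m)).symm
  | negSucc m => exact (decide_eq_false (Int.not_le.2 (Int.negSucc_lt_zero m))).symm

theorem ile_eq (a b : ℤ) : ile a b = decide (a ≤ b) := by
  cases a with
  | ofNat m =>
    cases b with
    | ofNat n =>
      show Nat.ble m n = _
      rw [Bool.eq_iff_iff, Nat.ble_eq, decide_eq_true_eq]; exact Int.ofNat_le.symm
    | negSucc n => exact (decide_eq_false (by simp [Int.negSucc_eq]; omega)).symm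
  | negSucc m =>
    cases b with
    | ofNat n => exact (decide_eq_true (by simp [Int.negSucc_eq]; omega)).symm
    | negSucc n =>
      show Nat.ble n m = _
      rw [Bool.eq_iff_iff, Nat.ble_eq, decide_eq_true_eq]; simp [Int.negSucc_eq]; omega

/-- A fraction; a zero denominator stands for zero. -/
structure QN where
  n : ℤ
  d : ℕ

namespace QN

/-- The value. -/
def val (q : QN) : ℚ := (q.n : ℚ) / (q.d : ℚ)

/-- An integer. -/
noncomputable def z (k : ℤ) : QN := ⟨k, 1⟩

/-- A quotient of two integers. -/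
noncomputable def frac (a b : ℤ) : QN := Bool.rec ⟨ineg a, iabs b⟩ ⟨a, iabs b⟩ (inn b)

/-- The numerator over a positive denominator. -/
noncomputable def num (q : QN) : ℤ := Bool.rec q.n 0 (Nat.beq q.d 0)

/-- A positive denominator. -/
noncomputable def den (q : QN) : ℕ := Bool.rec q.d 1 (Nat.beq q.d 0)

/-- Sum. -/
noncomputable def add (a b : QN) : QN :=
  ⟨iadd (imul a.num (Int.ofNat b.den)) (imul b.num (Int.ofNat a.den)), Nat.mul a.den b.den⟩

/-- Product. -/
noncomputable def mul (a b : QN) : QN := ⟨imul a.n b.n, Nat.mul a.d b.d⟩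

/-- Negation. -/
noncomputable def neg (a : QN) : QN := ⟨ineg a.n, a.d⟩

/-- Quotient. -/
noncomputable def div (a b : QN) : QN :=
  frac (imul a.n (Int.ofNat b.d)) (imul b.n (Int.ofNat a.d))

/-- Power. -/
noncomputable def pow (a : QN) (k : ℕ) : QN :=
  ⟨Bool.rec (Bool.rec (inegN (Nat.pow (iabs a.n) k)) (Int.ofNat (Nat.pow (iabs a.n) k))
      (Nat.beq (Nat.mod k 2) 0)) (Int.ofNat (Nat.pow (iabs a.n) k)) (inn a.n), Nat.pow a.d k⟩

/-- Absolute value. -/
noncomputable def abs (a : QN) : QN := ⟨Int.ofNat (iabs a.n), a.d⟩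

/-- Order. -/
noncomputable def le (a b : QN) : Bool :=
  ile (imul a.num (Int.ofNat b.den)) (imul b.num (Int.ofNat a.den))

/-- Strict order. -/
noncomputable def lt (a b : QN) : Bool := !b.le a

noncomputable instance : Add QN := ⟨add⟩
noncomputable instance : Mul QN := ⟨mul⟩
noncomputable instance : Neg QN := ⟨neg⟩
noncomputable instance : Sub QN := ⟨fun a b => add a (neg b)⟩
noncomputable instance : Div QN := ⟨div⟩
noncomputable instance : HPow QN ℕ QN := ⟨pow⟩

theorem num_den (q : QN) : q.val = (q.num : ℚ) / (q.den : ℚ) ∧ 0 < q.den := by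
  rcases q with ⟨n, d⟩
  cases d with
  | zero => exact ⟨by simp [val, num, den], Nat.one_pos⟩
  | succ d => exact ⟨rfl, Nat.succ_pos d⟩

theorem val_z (k : ℤ) : (z k).val = k := by simp [val, z]

theorem val_frac (a b : ℤ) : (frac a b).val = (a : ℚ) / b := by
  cases b with
  | ofNat b => simp [val, frac, inn, iabs]
  | negSucc b =>
    simp only [val, frac, inn, iabs, ineg_eq, Int.negSucc_eq]
    push_cast
    rw [neg_div, div_neg]

theorem val_add (a b : QN) : (a + b).val = a.val + b.val := by
  obtain ⟨ea, ha⟩ := num_den a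
  obtain ⟨eb, hb⟩ := num_den b
  have ha' : (a.den : ℚ) ≠ 0 := by exact_mod_cast ha.ne'
  have hb' : (b.den : ℚ) ≠ 0 := by exact_mod_cast hb.ne'
  rw [ea, eb, div_add_div _ _ ha' hb']
  show (add a b).val = _
  simp only [add, val, iadd_eq, imul_eq, Nat.mul_eq, Int.ofNat_eq_natCast]
  push_cast
  ring

theorem val_mul (a b : QN) : (a * b).val = a.val * b.val := by
  show (mul a b).val = _
  simp only [mul, val, imul_eq, Nat.mul_eq]
  push_cast
  rw [div_mul_div_comm]

theorem val_neg (a : QN) : (-a).val = -a.val := by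
  show (neg a).val = _
  simp only [neg, val, ineg_eq]
  push_cast
  rw [neg_div]

theorem val_sub (a b : QN) : (a - b).val = a.val - b.val := by
  show (a + -b).val = _
  rw [val_add, val_neg, sub_eq_add_neg]

theorem val_div (a b : QN) : (a / b).val = a.val / b.val := by
  show (div a b).val = _
  rw [div, val_frac]
  simp only [imul_eq, val, Int.ofNat_eq_natCast]
  push_cast
  rw [div_div_div_eq, mul_comm (a.d : ℚ)]

theorem pow_num (n : ℤ) (k : ℕ) :
    Bool.rec (Bool.rec (inegN (Nat.pow (iabs n) k)) (Int.ofNat (Nat.pow (iabs n) k))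
      (Nat.beq (Nat.mod k 2) 0)) (Int.ofNat (Nat.pow (iabs n) k)) (inn n) = n ^ k := by
  cases n with
  | ofNat m => simp [inn, iabs]
  | negSucc m =>
    simp only [inn, iabs, inegN_eq, Int.negSucc_eq, Nat.pow_eq, Nat.succ_eq_add_one,
      Int.ofNat_eq_natCast]
    rcases Nat.even_or_odd k with hk | hk
    · rw [show Nat.mod k 2 = 0 from Nat.even_iff.1 hk, hk.neg_pow]
      push_cast
      rfl
    · rw [show Nat.mod k 2 = 1 from Nat.odd_iff.1 hk, hk.neg_pow]
      push_cast
      rfl

theorem val_pow (a : QN) (k : ℕ) : (a ^ k).val = a.val ^ k := by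
  show (pow a k).val = _
  simp only [pow, val]
  rw [pow_num, Nat.pow_eq]
  push_cast
  rw [div_pow]

theorem val_abs (a : QN) : (abs a).val = |a.val| := by
  simp only [abs, val, iabs_eq, Int.ofNat_eq_natCast]
  rw [abs_div, Nat.abs_cast, ← Int.cast_abs, Int.abs_eq_natAbs]

theorem le_eq (a b : QN) : a.le b = decide (a.val ≤ b.val) := by
  obtain ⟨ea, ha⟩ := num_den a
  obtain ⟨eb, hb⟩ := num_den b
  rw [le, ile_eq, imul_eq, imul_eq, decide_eq_decide, ea, eb,
    div_le_div_iff₀ (by exact_mod_cast ha) (by exact_mod_cast hb)]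
  simp only [Int.ofNat_eq_natCast]
  exact_mod_cast Iff.rfl

theorem lt_eq (a b : QN) : a.lt b = decide (a.val < b.val) := by
  rw [lt, le_eq, ← decide_not, decide_eq_decide, not_le]

end QN

end Vale.Agent.P237.Quant.TailCert
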