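import Vale.Agent.P237.Quant.TailTuple
import Vale.Agent.P237.Quant.TailPrim

/-!
Packed binary forms for the tail checker: the coefficients of a form are the digits of one integer
in the base `2 ^ 640`, carried with a bound of their absolute sum. While that bound is below half
the base, one bitwise test decides whether all coefficients are nonnegative.
-/

namespace Vale.Agent.P237.Quant.TailCert

open TailTuple Four.Checker

/-- Half the base. -/
@[irreducible] def packHalf : ℕ := 2 ^ 639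

/-- The base. -/
@[irreducible] def packBase : ℕ := 2 ^ 640

/-- A packed form: the value at the base as a difference `P - Q` of two naturals, and a bound of
the absolute sum of the coefficients. -/
structure Pk where
  P : ℕ
  Q : ℕ
  n : ℕ

/-- The positive part of an integer. -/
noncomputable def iposP (a : ℤ) : ℕ := itoN a

/-- The negative part of an integer. -/
noncomputable def inegP (a : ℤ) : ℕ := Int.rec (fun _ => 0) (fun m => Nat.succ m) a

namespace Pk

/-- The value at the base. -/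
def N (p : Pk) : ℤ := (p.P : ℤ) - (p.Q : ℤ)

/-- Sum. -/
noncomputable def add (p q : Pk) : Pk := ⟨Nat.add p.P q.P, Nat.add p.Q q.Q, Nat.add p.n q.n⟩

/-- Scalar multiple. -/
noncomputable def smul (k : ℤ) (p : Pk) : Pk :=
  Int.rec (fun a => ⟨Nat.mul a p.P, Nat.mul a p.Q, Nat.mul a p.n⟩)
    (fun a => ⟨Nat.mul (Nat.succ a) p.Q, Nat.mul (Nat.succ a) p.P, Nat.mul (Nat.succ a) p.n⟩) k

/-- Product with the linear form `a U + b X`. -/
noncomputable def lin (a b : ℤ) (p : Pk) : Pk :=
  (fun u v => ⟨Nat.add (Nat.mul u p.P) (Nat.mul v p.Q), Nat.add (Nat.mul u p.Q) (Nat.mul v p.P),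
      Nat.mul (Nat.add (iabs a) (iabs b)) p.n⟩ : ℕ → ℕ → Pk)
    (Nat.add (iposP a) (Nat.mul (iposP b) packBase)) (Nat.add (inegP a) (Nat.mul (inegP b) packBase))

/-- The constant form of degree zero. -/
def unit : Pk := ⟨1, 0, 1⟩

/-- The zero form. -/
def zero : Pk := ⟨0, 0, 0⟩

/-- Four blocks of eight digits. -/
noncomputable def blocks (p₀ p₁ p₂ p₃ : Pk) : Pk :=
  let S := packBase ^ 8
  ⟨Nat.add p₀.P (Nat.mul S (Nat.add p₁.P (Nat.mul S (Nat.add p₂.P (Nat.mul S p₃.P))))),
    Nat.add p₀.Q (Nat.mul S (Nat.add p₁.Q (Nat.mul S (Nat.add p₂.Q (Nat.mul S p₃.Q))))),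
    Nat.add (Nat.add p₀.n p₁.n) (Nat.add p₂.n p₃.n)⟩

theorem parts_sub (a : ℤ) : ((iposP a : ℕ) : ℤ) - (inegP a : ℕ) = a := by
  cases a with
  | ofNat m => simp [iposP, itoN, inegP]
  | negSucc m => simp [iposP, itoN, inegP, Int.negSucc_eq]

theorem N_add (p q : Pk) : (p.add q).N = p.N + q.N := by
  simp only [N, add, Nat.add_eq]; push_cast; ring

theorem N_smul (k : ℤ) (p : Pk) : (p.smul k).N = k * p.N := by
  cases k with
  | ofNat a => simp only [N, smul, Nat.mul_eq, Int.ofNat_eq_natCast]; push_cast; ring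
  | negSucc a =>
    simp only [N, smul, Nat.mul_eq, Nat.succ_eq_add_one, Int.negSucc_eq]; push_cast; ring

theorem n_smul (k : ℤ) (p : Pk) : (p.smul k).n = k.natAbs * p.n := by cases k <;> rfl

theorem N_lin (a b : ℤ) (p : Pk) : (p.lin a b).N = (a + b * (packBase : ℤ)) * p.N := by
  simp only [N, lin, Nat.add_eq, Nat.mul_eq]
  push_cast
  linear_combination ((p.P : ℤ) - p.Q) * (parts_sub a + (packBase : ℤ) * parts_sub b)

theorem N_blocks (p₀ p₁ p₂ p₃ : Pk) : (blocks p₀ p₁ p₂ p₃).N =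
    p₀.N + (packBase : ℤ) ^ 8 * (p₁.N + (packBase : ℤ) ^ 8 *
      (p₂.N + (packBase : ℤ) ^ 8 * p₃.N)) := by
  simp only [N, blocks, Nat.add_eq, Nat.mul_eq]
  push_cast
  ring

end Pk

/-- The sum `∑ half * base ^ i` over `i < d`. -/
def packMask : ℕ → ℕ
  | 0 => 0
  | d + 1 => packHalf + packBase * packMask d

/-- All `d` digits are nonnegative. -/
noncomputable def digitsNonneg (p : Pk) (d : ℕ) : Bool :=
  let M := packMask d
  let S := Nat.add p.P M
  Nat.ble p.Q S && Nat.beq (Nat.land (Nat.sub S p.Q) M) M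

/-- The absolute sum of a list. -/
def l1 : P1 → ℕ
  | [] => 0
  | a :: l => a.natAbs + l1 l

theorem l1_add : ∀ k l : P1, l1 (add1 k l) ≤ l1 k + l1 l
  | [], l => by simp [add1, l1]
  | a :: k, [] => by simp [add1, l1]
  | a :: k, b :: l => by
      simp only [add1, l1, Int.add_def]
      have := l1_add k l
      have := Int.natAbs_add_le a b
      omega

theorem l1_smul (c : ℤ) : ∀ k : P1, l1 (smul1 c k) = c.natAbs * l1 k
  | [] => by simp [smul1, l1]
  | a :: k => by
      simp only [smul1, l1, Int.mul_def, Int.natAbs_mul, l1_smul c k]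
      ring

theorem l1_lin (a b : ℤ) : ∀ (prev : ℤ) (k : P1),
    l1 (lin1 a b prev k) ≤ b.natAbs * prev.natAbs + (a.natAbs + b.natAbs) * l1 k
  | prev, [] => by simp [lin1, l1, Int.natAbs_mul]
  | prev, r :: k => by
      simp only [lin1, l1, Int.add_def, Int.mul_def]
      have h1 := Int.natAbs_add_le (a * r) (b * prev)
      rw [Int.natAbs_mul, Int.natAbs_mul] at h1
      have h2 := l1_lin a b r k
      nlinarith

theorem l1_append : ∀ k l : P1, l1 (k ++ l) = l1 k + l1 l
  | [], l => by simp [l1]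
  | a :: k, l => by simp [l1, l1_append k l, add_assoc]

theorem mem_le_l1 : ∀ {l : P1} {a : ℤ}, a ∈ l → a.natAbs ≤ l1 l
  | [], _, h => by simp at h
  | b :: l, a, h => by
      simp only [l1]
      rcases List.mem_cons.1 h with rfl | h
      · omega
      · have := mem_le_l1 h
        omega

theorem ev_append : ∀ (k l : P1) (x : ℝ), ev (k ++ l) x = ev k x + x ^ k.length * ev l x
  | [], l, x => by simp [ev]
  | a :: k, l, x => by
      simp only [List.cons_append, ev, ev_append k l x, List.length_cons]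
      ring

/-- The shifted digits as one natural number. -/
def shifted : P1 → ℕ
  | [] => 0
  | a :: l => (a + packHalf).toNat + packBase * shifted l

theorem two_pow_succ' (k : ℕ) : 2 ^ (k + 1) = 2 * 2 ^ k := by rw [pow_succ, mul_comm]

theorem base_eq : packBase = 2 * packHalf := by
  unfold packBase packHalf
  exact two_pow_succ' 639

theorem split_land {k a b c e : ℕ} (ha : a < 2 ^ k) (hc : c < 2 ^ k)
    (h : (a + 2 ^ k * b) &&& (c + 2 ^ k * e) = c + 2 ^ k * e) : c ≤ a ∧ b &&& e = e := by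
  have hk : 0 < 2 ^ k := Nat.two_pow_pos k
  have m1 : ((a + 2 ^ k * b) &&& (c + 2 ^ k * e)) % 2 ^ k = (c + 2 ^ k * e) % 2 ^ k := by rw [h]
  rw [Nat.and_mod_two_pow, Nat.add_mul_mod_self_left, Nat.add_mul_mod_self_left,
    Nat.mod_eq_of_lt ha, Nat.mod_eq_of_lt hc] at m1
  have m2 : ((a + 2 ^ k * b) &&& (c + 2 ^ k * e)) >>> k = (c + 2 ^ k * e) >>> k := by rw [h]
  rw [Nat.shiftRight_and_distrib, Nat.shiftRight_eq_div_pow, Nat.shiftRight_eq_div_pow,
    Nat.add_mul_div_left _ _ hk, Nat.add_mul_div_left _ _ hk, Nat.div_eq_of_lt ha,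
    Nat.div_eq_of_lt hc, zero_add, zero_add] at m2
  exact ⟨m1 ▸ Nat.and_le_left, m2⟩

theorem shifted_eq : ∀ l : P1, l1 l < packHalf →
    ((shifted l : ℕ) : ℝ) = ev l (packBase : ℝ) + (packMask l.length : ℝ)
  | [], _ => by simp [shifted, ev, packMask]
  | a :: l, h => by
      simp only [l1] at h
      have ih := shifted_eq l (by omega)
      have ha : 0 ≤ a + (packHalf : ℤ) := by omega
      simp only [shifted, ev, List.length_cons, packMask]
      push_cast
      rw [ih]
      have e : (((a + (packHalf : ℤ)).toNat : ℕ) : ℝ) = (a : ℝ) + packHalf := by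
        have := Int.toNat_of_nonneg ha
        exact_mod_cast this
      rw [e]
      ring

theorem land_mask : ∀ l : P1, l1 l < packHalf →
    Nat.land (shifted l) (packMask l.length) = packMask l.length → ∀ a ∈ l, (0 : ℤ) ≤ a
  | [], _, _ => by simp
  | a :: l, h, e => by
      simp only [l1] at h
      simp only [shifted, List.length_cons, packMask] at e
      set d := (a + (packHalf : ℤ)).toNat with hd
      have hlt : d < packBase := by rw [base_eq, hd]; omega
      have hh : packHalf < packBase := by rw [base_eq]; omega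
      obtain ⟨k, hk⟩ : ∃ k, packBase = 2 ^ k := by unfold packBase; exact ⟨_, rfl⟩
      rw [hk] at e hlt hh
      obtain ⟨m1, m2⟩ := split_land hlt hh e
      intro x hx
      rcases List.mem_cons.1 hx with rfl | hx
      · omega
      · exact land_mask l (by omega) m2 x hx

theorem digits_sound {p : Pk} {l : P1} (hN : (p.N : ℝ) = ev l (packBase : ℝ))
    (hl : l1 l < packHalf) (h : digitsNonneg p l.length = true) : ∀ a ∈ l, (0 : ℤ) ≤ a := by
  refine land_mask l hl ?_
  simp only [digitsNonneg, Bool.and_eq_true, Nat.beq_eq, Nat.add_eq, Nat.sub_eq] at h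
  have hle := Nat.le_of_ble_eq_true h.1
  have e : (shifted l : ℤ) = p.N + (packMask l.length : ℤ) := by
    have := shifted_eq l hl
    rw [← hN] at this
    exact_mod_cast this
  have e2 : shifted l = p.P + packMask l.length - p.Q := by
    have : ((p.P + packMask l.length - p.Q : ℕ) : ℤ) = p.N + (packMask l.length : ℤ) := by
      rw [Nat.cast_sub hle, Pk.N]
      push_cast
      ring
    exact_mod_cast e.trans this.symm
  rw [e2]
  exact h.2

/-- A packed form `p` of degree `d` has the value `v` at the weights `U`, `X`. -/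
def Rep (U X : ℝ) (d : ℕ) (p : Pk) (v : ℝ) : Prop :=
  ∃ l : P1, l.length = d + 1 ∧ (p.N : ℝ) = ev l (packBase : ℝ) ∧ l1 l ≤ p.n ∧ evD U X d l = v

namespace Rep

variable {U X v w : ℝ} {d : ℕ} {p q : Pk}

theorem congr (h : Rep U X d p v) (e : v = w) : Rep U X d p w := e ▸ h

theorem unit : Rep U X 0 Pk.unit 1 := ⟨[1], rfl, by simp [Pk.unit, Pk.N, ev],
  by simp [l1, Pk.unit],
  by simp [evD]⟩

theorem add (hp : Rep U X d p v) (hq : Rep U X d q w) : Rep U X d (p.add q) (v + w) := by
  obtain ⟨k, k1, k2, k3, k4⟩ := hp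
  obtain ⟨l, l1', l2, l3, l4⟩ := hq
  refine ⟨add1 k l, by rw [length_add1, k1, l1', max_self], ?_,
    (l1_add k l).trans (Nat.add_le_add k3 l3), ?_⟩
  · simp [Pk.N_add, ev_add1, k2, l2]
  · rw [evD_add, k4, l4]

theorem smul (hp : Rep U X d p v) (k : ℤ) : Rep U X d (p.smul k) (k * v) := by
  obtain ⟨l, l1', l2, l3, l4⟩ := hp
  refine ⟨smul1 k l, by rw [length_smul1, l1'], ?_, ?_, ?_⟩
  · simp [Pk.N_smul, ev_smul1, l2]
  · rw [l1_smul]
    rw [Pk.n_smul]
    exact Nat.mul_le_mul_left _ l3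
  · rw [evD_smul, l4]

theorem lin (hp : Rep U X d p v) (a b : ℤ) :
    Rep U X (d + 1) (p.lin a b) ((a * U + b * X) * v) := by
  obtain ⟨l, l1', l2, l3, l4⟩ := hp
  refine ⟨lin1 a b 0 l, by rw [length_lin1, l1'], ?_, ?_, ?_⟩
  · rw [ev_lin1, ← l2]
    simp [Pk.N_lin]
  · refine (l1_lin a b 0 l).trans ?_
    simp only [Pk.lin, iabs_eq, Int.natAbs_zero, mul_zero, zero_add, Nat.mul_eq, Nat.add_eq]
    exact Nat.mul_le_mul_left _ l3
  · have h := evD_lin1 U X a b (d + 1) 0 l (by omega)
    simp only [Int.cast_zero, mul_zero, zero_mul, zero_add, add_tsub_cancel_right] at h ⊢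
    rw [h, l4]

theorem zero : Rep U X d Pk.zero 0 := by
  have h1 : ∀ n, ev (List.replicate n (0 : ℤ)) (packBase : ℝ) = 0 ∧
      l1 (List.replicate n (0 : ℤ)) = 0 ∧ ∀ d, evD U X d (List.replicate n (0 : ℤ)) = 0 := by
    intro n
    induction n with
    | zero => exact ⟨rfl, rfl, fun d => by cases d <;> rfl⟩
    | succ n ih =>
      refine ⟨?_, ?_, fun d => ?_⟩
      · rw [List.replicate_succ, ev, ih.1]; simp
      · rw [List.replicate_succ, l1, ih.2.1]; rfl
      · cases d <;> simp [List.replicate_succ, evD, ih.2.2]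
  obtain ⟨e1, e2, e3⟩ := h1 (d + 1)
  exact ⟨_, List.length_replicate, by rw [e1]; simp [Pk.zero, Pk.N], by rw [e2]; exact Nat.zero_le _,
    e3 d⟩

end Rep

/-- The packed value of four forms of degree seven with four values. -/
def RepFour (U X : ℝ) (p : Pk) (v : Fin 4 → ℝ) : Prop :=
  ∃ l : Fin 4 → P1, (∀ k, (l k).length = 8) ∧
    (p.N : ℝ) = ev (l 0 ++ (l 1 ++ (l 2 ++ l 3))) (packBase : ℝ) ∧
    l1 (l 0 ++ (l 1 ++ (l 2 ++ l 3))) ≤ p.n ∧ ∀ k, evD U X 7 (l k) = v k

namespace RepFour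

variable {U X : ℝ} {p q : Pk} {v w : Fin 4 → ℝ}

theorem congr (h : RepFour U X p v) (e : ∀ k, v k = w k) : RepFour U X p w :=
  (funext e : v = w) ▸ h

theorem blocks {p₀ p₁ p₂ p₃ : Pk} {v₀ v₁ v₂ v₃ : ℝ} (h₀ : Rep U X 7 p₀ v₀) (h₁ : Rep U X 7 p₁ v₁)
    (h₂ : Rep U X 7 p₂ v₂) (h₃ : Rep U X 7 p₃ v₃) :
    RepFour U X (Pk.blocks p₀ p₁ p₂ p₃) ![v₀, v₁, v₂, v₃] := by
  obtain ⟨a, a1, a2, a3, a4⟩ := h₀
  obtain ⟨b, b1, b2, b3, b4⟩ := h₁
  obtain ⟨c, c1, c2, c3, c4⟩ := h₂
  obtain ⟨e, e1, e2, e3, e4⟩ := h₃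
  refine ⟨![a, b, c, e], fun k => by fin_cases k <;> assumption, ?_, ?_,
    fun k => by fin_cases k <;> assumption⟩
  · simp only [Pk.N_blocks, Int.cast_add, Int.cast_mul, Int.cast_pow, Int.cast_natCast, a2, b2, c2,
      e2, Matrix.cons_val, ev_append, a1, b1, c1]
  · simp only [Pk.blocks, Matrix.cons_val, l1_append, Nat.add_eq]
    omega

theorem add (hp : RepFour U X p v) (hq : RepFour U X q w) :
    RepFour U X (p.add q) (fun k => v k + w k) := by
  obtain ⟨k, k1, k2, k3, k4⟩ := hp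
  obtain ⟨l, l1', l2, l3, l4⟩ := hq
  refine ⟨fun i => add1 (k i) (l i), fun i => by rw [length_add1, k1, l1', max_self], ?_, ?_,
    fun i => by rw [evD_add, k4, l4]⟩
  · simp only [Pk.N_add, Int.cast_add, k2, l2, ev_append, k1, l1', length_add1,
      ev_add1, max_self]
    ring
  · simp only [Pk.add, Nat.add_eq, l1_append] at *
    have := l1_add (k 0) (l 0); have := l1_add (k 1) (l 1)
    have := l1_add (k 2) (l 2); have := l1_add (k 3) (l 3)
    omega

theorem smul (hp : RepFour U X p v) (c : ℤ) : RepFour U X (p.smul c) (fun k => c * v k) := by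
  obtain ⟨k, k1, k2, k3, k4⟩ := hp
  refine ⟨fun i => smul1 c (k i), fun i => by rw [length_smul1, k1], ?_, ?_,
    fun i => by rw [evD_smul, k4]⟩
  · simp only [Pk.N_smul, Int.cast_mul, k2, ev_append, k1, length_smul1, ev_smul1]
    ring
  · simp only [Pk.n_smul, l1_append, l1_smul] at *
    rw [← Nat.mul_add, ← Nat.mul_add, ← Nat.mul_add]
    exact Nat.mul_le_mul_left _ k3

theorem evD_nonneg' (hU : 0 ≤ U) (hX : 0 ≤ X) : ∀ (d : ℕ) (l : P1), (∀ a ∈ l, (0 : ℤ) ≤ a) →
    0 ≤ evD U X d l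
  | d, [], _ => by cases d <;> simp [evD]
  | d, a :: l, h => by
      have ha : (0 : ℝ) ≤ (a : ℝ) := Int.cast_nonneg (h a (by simp))
      have ih := evD_nonneg' hU hX (d - 1) l fun x hx => h x (List.mem_cons_of_mem _ hx)
      simp only [evD]
      positivity

/-- A packed value transfers along the value and the bound. -/
theorem of_eq (hp : RepFour U X p v) (hN : q.N = p.N) (hn : q.n = p.n) : RepFour U X q v := by
  obtain ⟨l, e1, e2, e3, e4⟩ := hp
  exact ⟨l, e1, by rw [hN]; exact e2, by rw [hn]; exact e3, e4⟩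

/-- All four values are nonnegative once the digits pass the test. -/
theorem nonneg (hU : 0 ≤ U) (hX : 0 ≤ X) (hp : RepFour U X p v) (hn : p.n < packHalf)
    (h : digitsNonneg p 32 = true) (k : Fin 4) : 0 ≤ v k := by
  obtain ⟨l, e1, e2, e3, e4⟩ := hp
  rw [← e4 k]
  have := digits_sound (l := l 0 ++ (l 1 ++ (l 2 ++ l 3))) e2 (lt_of_le_of_lt e3 hn)
    (by rw [List.length_append, List.length_append, List.length_append, e1, e1, e1, e1]; exact h)
  refine evD_nonneg' hU hX 7 (l k) fun a ha => this a ?_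
  fin_cases k <;> simp_all

end RepFour

/-- A single form is nonnegative once its digits pass the test. -/
theorem Rep.nonneg {U X v : ℝ} {p : Pk} {d : ℕ} (hU : 0 ≤ U) (hX : 0 ≤ X) (hp : Rep U X d p v)
    (hn : p.n < packHalf) (h : digitsNonneg p (d + 1) = true) : 0 ≤ v := by
  obtain ⟨l, e1, e2, e3, e4⟩ := hp
  rw [← e4]
  exact RepFour.evD_nonneg' hU hX d l
    (digits_sound e2 (lt_of_le_of_lt e3 hn) (by rw [e1]; exact h))

/-- Both tests of one packed form. -/
noncomputable def Pk.nn (p : Pk) (d : ℕ) : Bool := Nat.blt p.n packHalf && digitsNonneg p d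

end Vale.Agent.P237.Quant.TailCert
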