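import Vale.Agent.P237.Quant.TailCheck

/-!
The check of a tail calibration from parts of its list of intervals, each checked by its own
declaration against the calibration without intervals.
-/

namespace Vale.Agent.P237.Quant.TailCert

/-- The calibration with other intervals. -/
noncomputable def Cfg.withIvals (C : Cfg) (L : List Ival) : Cfg := { C with ivals := L }

/-- The test of a part of the intervals. -/
noncomputable def Cfg.partOK (C : Cfg) (L : List Ival) : Bool :=
  L.all fun I => I.sideOK C && I.cellsOK C

/-- Equality of the fields of two nodes. -/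
def Node.same (a b : Node) : Bool :=
  decide (a.Tn = b.Tn) && decide (a.Td = b.Td) && decide (a.Kn = b.Kn) && decide (a.Kd = b.Kd) &&
    decide (a.Xn = b.Xn) && decide (a.Xd = b.Xd)

theorem Node.eq_of_same {a b : Node} (h : a.same b = true) : a = b := by
  simp only [Node.same, Bool.and_eq_true, decide_eq_true_eq] at h
  obtain ⟨a1, a2, a3, a4, a5, a6⟩ := a
  obtain ⟨b1, b2, b3, b4, b5, b6⟩ := b
  simp_all

/-- Every node of the intervals is in the list `used`. -/
noncomputable def nodesIn (used : List Node) (L : List Ival) : Bool :=
  L.all fun I => used.any fun N => I.node.same N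

/-- The test of a part of the intervals with the record of its nodes. -/
noncomputable def Cfg.partUsed (C : Cfg) (used : List Node) (L : List Ival) : Bool :=
  C.partOK L && nodesIn used L

/-- The nodes of parts with a record are recorded. -/
theorem mem_used {C : Cfg} {used : List Node} {L : List (List Ival)}
    (hp : L.Forall fun l => C.partUsed used l = true) :
    ∀ I ∈ L.flatten, I.node ∈ used := by
  intro I hI
  obtain ⟨l, hl, hIl⟩ := List.mem_flatten.1 hI
  have h := List.forall_iff_forall_mem.1 hp l hl
  simp only [Cfg.partUsed, nodesIn, Bool.and_eq_true, List.all_eq_true, List.any_eq_true] at h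
  obtain ⟨N, hN, he⟩ := h.2 I hIl
  exact Node.eq_of_same he ▸ hN

theorem Cfg.segEndN_withIvals (C : Cfg) (L : List Ival) (k p1 : QN) :
    ∀ l : List Seg, segEndN (C.withIvals L) k p1 l = segEndN C k p1 l
  | [] => rfl
  | [_] => rfl
  | _ :: s :: l => segEndN_withIvals C L k p1 (s :: l)

theorem Cfg.sideOK_withIvals (C : Cfg) (L : List Ival) (I : Ival) :
    I.sideOK (C.withIvals L) = I.sideOK C := by
  unfold Ival.sideOK
  rw [C.segEndN_withIvals L]
  rfl

theorem Cfg.cellsOK_withIvals (C : Cfg) (L : List Ival) (I : Ival) :
    I.cellsOK (C.withIvals L) = I.cellsOK C := rfl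

/-- The head, the centre and the parts give the check. -/
theorem Cfg.check_of_parts {C : Cfg} {used : List Node} {L : List (List Ival)}
    (hh : ((C.withIvals L.flatten).headOK && (C.withIvals L.flatten).centreOK) = true)
    (hp : L.Forall fun l => C.partUsed used l = true) :
    (C.withIvals L.flatten).check = true := by
  have hi : ((C.withIvals L.flatten).ivals.all fun I =>
      I.sideOK (C.withIvals L.flatten) && I.cellsOK (C.withIvals L.flatten)) = true := by
    simp only [List.all_eq_true]
    intro I hI
    obtain ⟨l, hl, hIl⟩ := List.mem_flatten.1 hI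
    have h := List.forall_iff_forall_mem.1 hp l hl
    simp only [Cfg.partUsed, Cfg.partOK, Bool.and_eq_true, List.all_eq_true] at h
    rw [C.sideOK_withIvals, C.cellsOK_withIvals]
    simp only [Bool.and_eq_true]
    exact h.1 I hIl
  simp only [Cfg.check, hh, hi, Bool.and_self]

end Vale.Agent.P237.Quant.TailCert
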