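import Vale.Agent.P237.Quant.TailGlue

/-!
A checked calibration with a checked envelope table of the same dimension gives the tail
inequality of a bin of a row of either side.
-/

namespace Vale.Agent.P237.Quant

open TailCert

/-- A bin of the negative side. -/
theorem tailBin_negTable {C : Cfg} (hC : C.check = true) {m Vn Vd : ℕ}
    {bins : List (ℕ × ℕ × List EnvInt.Node)} (ht : EnvInt.tableOK m Vn Vd bins = true) {lo hi : ℚ}
    (hl : tableLink C (negPot m) (2500 / 3417) 0 lo hi m bins = true) :
    TailBin m (negW m) (2500 / 3417) 0 lo hi := by
  have hm : m = C.m := by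
    have h := hl
    simp only [tableLink, exactLink, Bool.and_eq_true, decide_eq_true_eq] at h
    exact h.1.1
  have h := tailBin_table hC ht hl (W := negW m) (negPot_val m) (continuous_negW m)
  rw [← hm] at h
  simpa using h

/-- A bin of a row of the positive side. -/
theorem tailBin_posTable {C : Cfg} (hC : C.check = true) {m Vn Vd : ℕ}
    {bins : List (ℕ × ℕ × List EnvInt.Node)} (ht : EnvInt.tableOK m Vn Vd bins = true)
    {R : PosRow} {lo hi : ℚ}
    (hl : tableLink C (posPot R m) (1 + R.mu * R.e2) R.eta lo hi m bins = true) :
    TailBin m (R.W m) (1 + (R.mu : ℝ) * R.e2) R.eta lo hi := by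
  have hm : m = C.m := by
    have h := hl
    simp only [tableLink, exactLink, Bool.and_eq_true, decide_eq_true_eq] at h
    exact h.1.1
  have h := tailBin_table hC ht hl (W := R.W m) (posPot_val R m) (R.continuous_W m)
  rw [← hm] at h
  simpa using h

end Vale.Agent.P237.Quant
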