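import Vale.Agent.P237.Quant.TailParts
import Vale.Agent.P237.Quant.TailTableBins

/-!
The tail inequality of a bin from a calibration checked in parts: the link to the envelope table
reads the record of the nodes that the parts left, not the intervals, and scans the table in
integers.
-/

namespace Vale.Agent.P237.Quant.TailCert

/-- A node of a calibration from the nodes of a table of naturals. -/
def coveredNat (nodes : List EnvInt.Node) (N : Node) : Bool :=
  N.ok && decide (0 < N.Td) && decide (0 < N.Xd) &&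
    (nodes.any fun B => decide ((B.t : ℤ) * N.Td ≤ N.Tn * 10000) &&
      decide (281 * (B.K : ℤ) * N.Kd ≤ N.Kn * 250000000000000)) &&
    (decide (N.Xn = N.Xd) || nodes.any fun B => decide ((B.t : ℤ) * N.Td ≤ N.Tn * 10000) &&
      decide ((B.X : ℤ) * N.Xd ≤ N.Xn * 10000))

theorem ratio_le {a b c e : ℤ} {d : ℚ} (hc : 0 < c) (hd : 0 < d)
    (h : a * c ≤ b * e) (he : d = e) : (a : ℚ) / d ≤ (b : ℚ) / c := by
  subst he
  rw [div_le_div_iff₀ hd (by exact_mod_cast hc)]
  exact_mod_cast h

theorem coveredExact_of_nat {nodes : List EnvInt.Node} {N : Node}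
    (h : coveredNat nodes N = true) : coveredExact (nodes.map EnvInt.Node.toQ) N = true := by
  simp only [coveredNat, Bool.and_eq_true, Bool.or_eq_true, decide_eq_true_eq,
    List.any_eq_true] at h
  obtain ⟨⟨⟨⟨hok, hTd⟩, hXd⟩, A, hA, hAt, hAK⟩, hX⟩ := h
  have hKd : 0 < N.Kd := by
    simp only [Node.ok, Bool.and_eq_true, decide_eq_true_eq] at hok
    exact hok.1
  have time : ∀ B : EnvInt.Node, (B.t : ℤ) * N.Td ≤ N.Tn * 10000 →
      (EnvInt.Node.toQ B).t ≤ (N.Tn : ℚ) / N.Td := fun B hB => by
    simpa [EnvInt.Node.toQ] using ratio_le (d := 10000) hTd (by norm_num) hB (by norm_num)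
  simp only [coveredExact, Bool.and_eq_true, Bool.or_eq_true, decide_eq_true_eq, List.any_eq_true,
    List.mem_map]
  refine ⟨⟨hok, _, ⟨A, hA, rfl⟩, time A hAt, ?_⟩, ?_⟩
  · have := ratio_le (d := 250000000000000) hKd (by norm_num) hAK (by norm_num)
    push_cast at this
    simp only [EnvInt.Node.toQ]
    calc (281 / 250 : ℚ) * ((A.K : ℚ) / 1000000000000) = 281 * (A.K : ℚ) / 250000000000000 := by
          ring
      _ ≤ _ := this
  · rcases hX with hX | ⟨B, hB, hBt, hBX⟩
    · exact Or.inl hX
    · refine Or.inr ⟨_, ⟨B, hB, rfl⟩, time B hBt, ?_⟩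
      simpa [EnvInt.Node.toQ] using ratio_le (d := 10000) hXd (by norm_num) hBX (by norm_num)

/-- The link of a calibration without intervals and the record of its nodes. -/
def partsLink (C : Cfg) (used : List Node) (P : Pot) (θ η lo hi : ℚ) (m : ℕ)
    (bins : List (ℕ × ℕ × List EnvInt.Node)) : Bool :=
  decide (m = C.m) && linkOK C P θ η lo hi &&
    bins.any fun b => decide ((b.1 : ℚ) / 10000 ≤ lo ∧ hi ≤ (b.2.1 : ℚ) / 10000) &&
      used.all fun N => coveredCentre C N || coveredNat b.2.2 N

theorem tableLink_of_parts {C : Cfg} {used : List Node} {L : List (List Ival)}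
    (hp : L.Forall fun l => C.partUsed used l = true) {P : Pot} {θ η lo hi : ℚ} {m : ℕ}
    {bins : List (ℕ × ℕ × List EnvInt.Node)}
    (hl : partsLink C used P θ η lo hi m bins = true) :
    tableLink (C.withIvals L.flatten) P θ η lo hi m bins = true := by
  simp only [partsLink, Bool.and_eq_true, List.any_eq_true, List.all_eq_true] at hl
  obtain ⟨⟨hm, hlink⟩, b, hb, hbd, hcov⟩ := hl
  simp only [tableLink, exactLink, Bool.and_eq_true, List.any_eq_true, List.all_eq_true]
  refine ⟨⟨hm, hlink⟩, _, List.mem_map.2 ⟨b, hb, rfl⟩, hbd, fun I hI => ?_⟩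
  have h := hcov _ (mem_used hp I hI)
  rw [Bool.or_eq_true] at h ⊢
  exact h.imp_right coveredExact_of_nat

end Vale.Agent.P237.Quant.TailCert

namespace Vale.Agent.P237.Quant

open TailCert

/-- A bin of the negative side from parts. -/
theorem tailBin_negParts {C : Cfg} {used : List Node} {L : List (List Ival)}
    (hC : (C.withIvals L.flatten).check = true)
    (hp : L.Forall fun l => C.partUsed used l = true) {m Vn Vd : ℕ}
    {bins : List (ℕ × ℕ × List EnvInt.Node)} (ht : EnvInt.tableOK m Vn Vd bins = true) {lo hi : ℚ}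
    (hl : partsLink C used (negPot m) (2500 / 3417) 0 lo hi m bins = true) :
    TailBin m (negW m) (2500 / 3417) 0 lo hi :=
  tailBin_negTable hC ht (tableLink_of_parts hp hl)

/-- A bin of a row of the positive side from parts. -/
theorem tailBin_posParts {C : Cfg} {used : List Node} {L : List (List Ival)}
    (hC : (C.withIvals L.flatten).check = true)
    (hp : L.Forall fun l => C.partUsed used l = true) {m Vn Vd : ℕ}
    {bins : List (ℕ × ℕ × List EnvInt.Node)} (ht : EnvInt.tableOK m Vn Vd bins = true)
    {R : PosRow} {lo hi : ℚ}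
    (hl : partsLink C used (posPot R m) (1 + R.mu * R.e2) R.eta lo hi m bins = true) :
    TailBin m (R.W m) (1 + (R.mu : ℝ) * R.e2) R.eta lo hi :=
  tailBin_posTable hC ht (tableLink_of_parts hp hl)

end Vale.Agent.P237.Quant
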