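import Vale.Agent.P237.Quant.TailParts

/-!
The check of a tail calibration from parts of its intervals, without a record of their nodes.
-/

namespace Vale.Agent.P237.Quant.TailCert

/-- The head, the centre and the parts give the check. -/
theorem Cfg.check_of_okParts {C : Cfg} {L : List (List Ival)}
    (hh : ((C.withIvals L.flatten).headOK && (C.withIvals L.flatten).centreOK) = true)
    (hp : L.Forall fun l => C.partOK l = true) :
    (C.withIvals L.flatten).check = true := by
  have hi : ((C.withIvals L.flatten).ivals.all fun I =>
      I.sideOK (C.withIvals L.flatten) && I.cellsOK (C.withIvals L.flatten)) = true := by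
    simp only [List.all_eq_true]
    intro I hI
    obtain ⟨l, hl, hIl⟩ := List.mem_flatten.1 hI
    have h := List.forall_iff_forall_mem.1 hp l hl
    simp only [Cfg.partOK, List.all_eq_true] at h
    rw [C.sideOK_withIvals, C.cellsOK_withIvals]
    exact h I hIl
  simp only [Cfg.check, hh, hi, Bool.and_self]

end Vale.Agent.P237.Quant.TailCert
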