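import Vale.Agent.P237.Quant.TailTableBins
import Vale.Agent.P237.Quant.NegRowsMid
import Vale.Agent.P237.Quant.EnvelopeTableData.N6
import Vale.Agent.P237.Quant.TailSmallData.N11A
import Vale.Agent.P237.Quant.TailSmallData.N11B
import Vale.Agent.P237.Quant.TailSmallData.N11C
import Vale.Agent.P237.Quant.TailSmallData.N12A
import Vale.Agent.P237.Quant.TailSmallData.N12B
import Vale.Agent.P237.Quant.TailSmallData.N12C
import Vale.Agent.P237.Quant.TailSmallData.N13A
import Vale.Agent.P237.Quant.TailSmallData.N13B
import Vale.Agent.P237.Quant.TailSmallData.N13C

/-!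
The tail inequalities of the row of the negative side for `11 ≤ n ≤ 13`.
-/

namespace Vale.Agent.P237.Quant

open TailCert TailData

/-- The bins of `negRow11` in dimension 11. -/
theorem negRow11_bins_11 : ∀ P ∈ binsOf negRow11.cuts,
    TailBin 10 (negW 10) (2500 / 3417) 0 P.1 P.2 := by
  intro P hP
  simp only [negRow11, binsOf, List.mem_cons, List.not_mem_nil, or_false] at hP
  rcases hP with rfl | rfl | rfl
  · exact tailBin_negTable tailN11A_check envTable11_check (by decide +kernel)
  · exact tailBin_negTable tailN11B_check envTable11_check (by decide +kernel)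
  · exact tailBin_negTable tailN11C_check envTable11_check (by decide +kernel)

/-- The bins of `negRow11` in dimension 12. -/
theorem negRow11_bins_12 : ∀ P ∈ binsOf negRow11.cuts,
    TailBin 11 (negW 11) (2500 / 3417) 0 P.1 P.2 := by
  intro P hP
  simp only [negRow11, binsOf, List.mem_cons, List.not_mem_nil, or_false] at hP
  rcases hP with rfl | rfl | rfl
  · exact tailBin_negTable tailN12A_check envTable12_check (by decide +kernel)
  · exact tailBin_negTable tailN12B_check envTable12_check (by decide +kernel)
  · exact tailBin_negTable tailN12C_check envTable12_check (by decide +kernel)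

/-- The bins of `negRow11` in dimension 13. -/
theorem negRow11_bins_13 : ∀ P ∈ binsOf negRow11.cuts,
    TailBin 12 (negW 12) (2500 / 3417) 0 P.1 P.2 := by
  intro P hP
  simp only [negRow11, binsOf, List.mem_cons, List.not_mem_nil, or_false] at hP
  rcases hP with rfl | rfl | rfl
  · exact tailBin_negTable tailN13A_check envTable13_check (by decide +kernel)
  · exact tailBin_negTable tailN13B_check envTable13_check (by decide +kernel)
  · exact tailBin_negTable tailN13C_check envTable13_check (by decide +kernel)

/-- The tail inequality of `negRow11`. -/
theorem negRow11_tail : negRow11.Tail := by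
  intro m hm hmem
  simp only [negRow11, DimRange.Mem] at hmem
  obtain rfl | rfl | rfl : m = 10 ∨ m = 11 ∨ m = 12 := by omega
  · exact negRow11_bins_11
  · exact negRow11_bins_12
  · exact negRow11_bins_13

end Vale.Agent.P237.Quant
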