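import Mathlib
import Vale.Agent.P237.Quant.TailMult
import Vale.Agent.P237.Quant.TailCases
import Vale.Agent.P237.Quant.TailLagrange
import Vale.Agent.P237.Quant.EnvelopeExact

/-!
Soundness of the tail checker: a passed check proves the tail inequality for its surplus weight,
energy share and potential, for every profile in the bin of the centre and below the envelope nodes.
-/

namespace Vale.Agent.P237.Quant.TailCert

open TailTuple Four.Checker Set MeasureTheory Filter Topology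

attribute [local irreducible] Pk.smul Pk.add Pk.lin imul iadd isub spread spreadW

/-- The weight of the surplus together with the multiplier of the value. -/
noncomputable def Cfg.θ (C : Cfg) : ℝ := (C.th : ℝ) / C.Dth

/-- The multiplier of the value. -/
noncomputable def Cfg.τ₁ (C : Cfg) : ℝ := (C.t1 : ℝ) / C.Dth

/-- The multiplier of the power ratio. -/
noncomputable def Cfg.τ₃ (C : Cfg) : ℝ := (C.t3 : ℝ) / C.Dth

/-- The multiplier of the mean. -/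
noncomputable def Cfg.κ (C : Cfg) : ℝ := (C.kap : ℝ) / C.Dc

/-- The surplus weight that is left for the tail lemma. -/
noncomputable def Cfg.θ₀ (C : Cfg) : ℝ := C.θ - C.τ₁

/-- The energy share inside the combined weight. -/
noncomputable def Cfg.η (C : Cfg) : ℝ := (C.et : ℝ) / C.Det

/-- The clearing factor of a cell. -/
noncomputable def Cfg.mult (C : Cfg) (A : ℝ) : ℝ := 2 * C.k1R * C.Da * C.Dc * (fS C A * fP C A)

/-- The head conditions in the reals. -/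
structure Head (C : Cfg) : Prop where
  hm : 3 ≤ C.m
  th : 0 ≤ C.th
  Dth : 0 < C.Dth
  et : 0 ≤ C.et
  et1 : C.et ≤ C.Det
  Det : 0 < C.Det
  Da : 0 < C.Da
  Dc : 0 < C.Dc
  Dr : 0 < C.Dr
  Dv : 0 < C.Dv
  Dw : 0 < C.Dw
  b0d : 0 < C.b0d
  cb : 0 ≤ C.cb
  cbm : ((C.cb : ℚ) / C.Dc) ^ C.m ≤ (C.b0n : ℚ) / C.b0d
  t1 : 0 ≤ C.t1
  t3 : 0 ≤ C.t3
  ratio : C.ratioOK = true
  cover : ivalChain C.Da 0 C.ivals = true

theorem head_of_check {C : Cfg} (h : C.headOK = true) : Head C := by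
  simp only [Cfg.headOK, Bool.and_eq_true, decide_eq_true_eq] at h
  obtain ⟨⟨⟨⟨⟨⟨⟨a, b1, b2, b3, b4, b5⟩, c1, c2, c3, c4, c5⟩, d1, -⟩, g1, g2⟩, f1, f2⟩, g⟩, e⟩ := h
  exact ⟨a, b1, b2, b3, b4, b5, c1, c2, c3, c4, c5, d1, g1, g2, f1, f2, g, e⟩

/-- The bound of a node at the time `t`. -/
noncomputable def Node.boundR (N : Node) (m : ℕ) (t : ℝ) : ℝ :=
  if N.Xn = N.Xd then (N.Kn : ℝ) / N.Kd
  else (N.Kn : ℝ) / N.Kd *
    max (t / ((N.Tn : ℝ) / N.Td) - (t / ((N.Tn : ℝ) / N.Td) - 1) / ((N.Xn : ℝ) / N.Xd)) 0 ^ m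

/-- The bound of a node falls with the time. -/
theorem Node.boundR_le {N : Node} (h : N.ok = true) {m : ℕ} {t₀ : ℚ} {t : ℝ} (ht : (t₀ : ℝ) ≤ t) :
    N.boundR m t ≤ (N.boundQ m t₀ : ℝ) := by
  simp only [Node.ok, Bool.and_eq_true, Bool.or_eq_true, decide_eq_true_eq] at h
  obtain ⟨hKd, h⟩ := h
  by_cases he : N.Xn = N.Xd
  · simp [Node.boundR, Node.boundQ, he]
  obtain ⟨hK, hTn, hTd, hXn, hXle⟩ := h.resolve_left he
  simp only [Node.boundR, Node.boundQ, he, if_false]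
  push_cast
  have hT : (0 : ℝ) < (N.Tn : ℝ) / N.Td := div_pos (Int.cast_pos.2 hTn) (Int.cast_pos.2 hTd)
  have hXd : (0 : ℝ) < N.Xd := Int.cast_pos.2 (by omega)
  have hX : (1 : ℝ) ≤ 1 / ((N.Xn : ℝ) / N.Xd) := by
    rw [one_div_div, le_div_iff₀ (Int.cast_pos.2 hXn), one_mul]
    exact Int.cast_le.2 hXle
  refine mul_le_mul_of_nonneg_left (pow_le_pow_left₀ (le_max_right _ _) (max_le_max ?_ le_rfl) _)
    (div_nonneg (Int.cast_nonneg hK) (Int.cast_nonneg hKd.le))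
  set X : ℝ := (N.Xn : ℝ) / N.Xd
  rw [div_eq_mul_one_div _ X, div_eq_mul_one_div ((t₀ : ℝ) / _ - 1) X]
  have hle := div_le_div_of_nonneg_right ht hT.le
  nlinarith [mul_nonneg (sub_nonneg.2 hle) (sub_nonneg.2 hX)]

/-- The bound of a node as a power of an affine function of the time. -/
theorem node_coeffs {C : Cfg} {I : Ival} (H : Head C) (hnok : I.node.ok = true) (h0 : 0 ≤ I.A0)
    (hlt : (I.A0 : ℝ) ≤ I.A1) (h1 : I.A1 ≤ C.Da) (hbend : envBend C I = true) :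
    ∃ β α : ℝ, 0 ≤ β - α ∧
      0 ≤ (β + α) * ((1 + (I.A0 : ℝ) / C.Da) *
          ((1 + (I.A1 : ℝ) / C.Da) * (1 + (I.A1 : ℝ) / C.Da))) +
        (β - α) * ((1 - (I.A0 : ℝ) / C.Da) *
          ((1 - (I.A1 : ℝ) / C.Da) * (1 - (I.A1 : ℝ) / C.Da))) ∧
      (∀ s, I.node.boundR C.m s = (I.node.Kn : ℝ) / I.node.Kd * max (β + α * s) 0 ^ C.m) ∧
      ∀ s : ℚ, (I.node.boundQ C.m s : ℝ) =
        (I.node.Kn : ℝ) / I.node.Kd * max (β + α * s) 0 ^ C.m := by
  have hDa : (0 : ℝ) < C.Da := Int.cast_pos.2 H.Da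
  have hok := hnok
  simp only [Node.ok, Bool.and_eq_true, Bool.or_eq_true, decide_eq_true_eq] at hok
  obtain ⟨hKd, hok⟩ := hok
  simp only [envBend, Bool.or_eq_true, ile_eq, decide_eq_true_eq, iadd_eq, imul_eq, isub_eq] at hbend
  by_cases hX : I.node.Xn = I.node.Xd
  · refine ⟨1, 0, by norm_num, ?_, fun s => by simp [Node.boundR, hX],
      fun s => by simp [Node.boundQ, hX]⟩
    have u0 : 0 ≤ (I.A0 : ℝ) / C.Da := div_nonneg (Int.cast_nonneg h0) hDa.le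
    have u1 : (I.A1 : ℝ) / C.Da ≤ 1 := (div_le_one hDa).2 (Int.cast_le.2 h1)
    have u01 := div_le_div_of_nonneg_right hlt hDa.le
    simp only [add_zero, sub_zero, one_mul]
    exact add_nonneg (mul_nonneg (by linarith) (mul_self_nonneg _))
      (mul_nonneg (by linarith) (mul_self_nonneg _))
  obtain ⟨-, hTn, hTd, hXn, hXle⟩ := hok.resolve_left hX
  have vTn : (0 : ℝ) < I.node.Tn := Int.cast_pos.2 hTn
  have vTd : (0 : ℝ) < I.node.Td := Int.cast_pos.2 hTd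
  have vXn : (0 : ℝ) < I.node.Xn := Int.cast_pos.2 hXn
  have vle : (I.node.Xn : ℝ) ≤ I.node.Xd := Int.cast_le.2 hXle
  have vXd : (0 : ℝ) ≤ I.node.Xd := vXn.le.trans vle
  refine ⟨(I.node.Xd : ℝ) / I.node.Xn,
    ((I.node.Xn : ℝ) - I.node.Xd) * I.node.Td / (I.node.Xn * I.node.Tn), ?_, ?_, fun s => ?_,
    fun s => ?_⟩
  · exact sub_nonneg.2 ((div_nonpos_of_nonpos_of_nonneg
      (mul_nonpos_of_nonpos_of_nonneg (sub_nonpos.2 vle) vTd.le) (by positivity)).trans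
      (by positivity))
  · have hb' := (Int.cast_le (R := ℝ)).2 (hbend.resolve_left hX)
    push_cast at hb'
    refine le_of_mul_le_mul_right ?_
      (show (0 : ℝ) < I.node.Xn * I.node.Tn * (C.Da : ℝ) ^ 3 by positivity)
    rw [zero_mul]
    refine hb'.trans (le_of_eq ?_)
    field_simp
  · simp only [Node.boundR, hX, if_false]
    congr 3
    field_simp
    ring
  · simp only [Node.boundQ, hX, if_false]
    push_cast
    congr 3
    field_simp
    ring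

/-- The bound of a node over the profile on an interval, as a function below its chord. -/
theorem node_parts {m : ℕ} {K β α a₀ a₁ U X x Y₀ Y₁ : ℝ} (h0 : 0 ≤ a₀) (h1 : a₁ < 1)
    (h01 : a₀ ≤ a₁) (hU : 0 ≤ U) (hX : 0 ≤ X) (hs : U + X = 1) (hba : 0 ≤ β - α)
    (hb : 0 ≤ (β + α) * ((1 + a₀) * ((1 + a₁) * (1 + a₁))) +
      (β - α) * ((1 - a₀) * ((1 - a₁) * (1 - a₁)))) (hx : 0 < x)
    (hxa : x ^ 2 * ((1 - (U * a₀ + X * a₁) ^ 2) / (1 + (U * a₀ + X * a₁) ^ 2)) ^ m ≤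
      K * max (β + α * timeR (U * a₀ + X * a₁)) 0 ^ m)
    (hk₀ : K * max (β + α * timeR a₀) 0 ^ m ≤ Y₀ * ((1 - a₀ ^ 2) / (1 + a₀ ^ 2)) ^ m)
    (hk₁ : K * max (β + α * timeR a₁) 0 ^ m ≤ Y₁ * ((1 - a₁ ^ 2) / (1 + a₁ ^ 2)) ^ m) :
    ∃ g g₀ g₁ : ℝ, 0 ≤ K ∧ g ≤ U * g₀ + X * g₁ ∧ x ^ 2 ≤ K * max g 0 ^ m ∧
      K * max g₀ 0 ^ m ≤ Y₀ ∧ K * max g₁ 0 ^ m ≤ Y₁ := by
  have ha : a₀ ≤ U * a₀ + X * a₁ := by
    nlinarith [mul_nonneg hX (sub_nonneg.2 h01)]
  have ha' : U * a₀ + X * a₁ ≤ a₁ := by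
    nlinarith [mul_nonneg hU (sub_nonneg.2 h01)]
  have pos : ∀ {u : ℝ}, 0 ≤ u → u < 1 → 0 < (1 - u ^ 2) / (1 + u ^ 2) := fun {u} h0 h1 =>
    div_pos (by nlinarith) (by positivity)
  have split : ∀ {u : ℝ}, 0 ≤ u → u < 1 → max (β + α * timeR u) 0 =
      (1 - u ^ 2) / (1 + u ^ 2) * max (-β + (β + α) / (1 - u) + (β - α) / (1 + u)) 0 := by
    intro u h0 h1
    rw [mul_max_of_nonneg _ _ (pos h0 h1).le, mul_zero]
    congr 1
    have e1 : (1 + u ^ 2 : ℝ) ≠ 0 := by positivity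
    have e2 : (1 - u : ℝ) ≠ 0 := by linarith
    have e3 : (1 + u : ℝ) ≠ 0 := by linarith
    simp only [timeR]
    field_simp
    ring
  have a1' : U * a₀ + X * a₁ < 1 := ha'.trans_lt h1
  rw [split (h0.trans ha) a1', mul_pow, mul_left_comm, mul_comm (x ^ 2)] at hxa
  rw [split h0 (h01.trans_lt h1), mul_pow, mul_left_comm, mul_comm (Y₀)] at hk₀
  rw [split (h0.trans h01) h1, mul_pow, mul_left_comm, mul_comm (Y₁)] at hk₁
  have hxg := le_of_mul_le_mul_left hxa (pow_pos (pos (h0.trans ha) a1') _)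
  have hK : 0 ≤ K := by
    by_contra hneg
    exact absurd ((pow_pos hx 2).trans_le hxg) (not_lt.2
      (mul_nonpos_of_nonpos_of_nonneg (not_le.1 hneg).le (pow_nonneg (le_max_right _ _) m)))
  exact ⟨_, _, _, hK, node_gap h0 h1 h01 hU hX hs hba hb, hxg,
    le_of_mul_le_mul_left hk₀ (pow_pos (pos h0 (h01.trans_lt h1)) _),
    le_of_mul_le_mul_left hk₁ (pow_pos (pos (h0.trans h01) h1) _)⟩

theorem segChord_last {e0 e1 : ℤ} : ∀ {l : List Seg} {s : Seg}, segChord e0 e1 l = true →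
    l.getLast? = some s → e0 ≤ s.V1 ∧ e1 ≤ s.V1
  | [], s, h, _ => by simp [segChord] at h
  | [q], s, h, e => by
      simp only [List.getLast?_singleton, Option.some.injEq] at e
      subst e
      simpa [segChord, ile_eq] using h
  | q :: q' :: l, s, h, e => by
      rw [List.getLast?_cons_cons] at e
      exact segChord_last (by simpa [segChord] using h) e

/-- The fourth power of the chord of the roots above the envelope of `x`. -/
theorem env_root_node {C : Cfg} {I : Ival} (H : Head C) (hnok : I.node.ok = true)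
    (he : envOK C I = true) (henv : I.env = true) (her : I.er ≠ 0) (h0 : 0 ≤ I.A0)
    (h1 : I.A1 ≤ C.Da) {t A U X x : ℝ} (h : AtIval C I t A) (w : Wt C I U X A) (hx : 0 < x)
    (hN : x ^ 2 * ballShape t ^ C.m ≤ I.node.boundR C.m t) :
    0 ≤ ((I.e1 : ℝ) * U + I.e0 * X) ^ 3 *
      (C.Dv * ((I.e0 : ℝ) * U + I.e1 * X) ^ 4 - C.Dv * (I.er : ℝ) ^ 4 * (1 + (x - 1))) := by
  simp only [envOK, rootOK, henv, her, ne_eq, not_false_eq_true, if_true, Bool.not_true,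
    Bool.false_or, Bool.and_eq_true, decide_eq_true_eq] at he
  obtain ⟨⟨⟨⟨⟨hm8, her0, he0, he1⟩, hp1⟩, hbend⟩, hK0⟩, hK1⟩ := he
  have hDa : (0 : ℝ) < C.Da := Int.cast_pos.2 H.Da
  have hR : (0 : ℝ) < I.er := Int.cast_pos.2 her0
  have u0 : (0 : ℝ) ≤ I.e0 := Int.cast_nonneg he0.le
  have u1 : (0 : ℝ) ≤ I.e1 := Int.cast_nonneg he1.le
  obtain ⟨hA0, hA1, -, et, ep⟩ := h.point H.Da
  obtain ⟨t0, q0⟩ := timeQ_cast H.Da I.A0
  obtain ⟨t1, q1⟩ := timeQ_cast H.Da I.A1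
  have hK0' := (Rat.cast_le (K := ℝ)).2 hK0
  have hK1' := (Rat.cast_le (K := ℝ)).2 hK1
  have hp1' := (Rat.cast_lt (K := ℝ)).2 hp1
  obtain ⟨β, α, hm, hb, hR', hQ⟩ := node_coeffs H hnok h0 (h.lo.trans_lt h.hi).le h1 hbend
  rw [hQ, t0, Rat.cast_mul, Rat.cast_pow, Rat.cast_pow, q0] at hK0'
  rw [hQ, t1, Rat.cast_mul, Rat.cast_pow, Rat.cast_pow, q1] at hK1'
  rw [Rat.cast_zero, q1] at hp1'
  push_cast at hK0' hK1'
  have et' : t = timeR (A / C.Da) := by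
    rw [et, timeR]
    field_simp
  have ep' : ballShape t = (1 - (A / C.Da) ^ 2) / (1 + (A / C.Da) ^ 2) := by
    rw [ep]
    field_simp
  have ea : U * ((I.A0 : ℝ) / C.Da) + X * ((I.A1 : ℝ) / C.Da) = A / C.Da := by
    rw [w.hA]
    ring
  rw [hR', ep', et', ← ea] at hN
  have a00 : 0 ≤ (I.A0 : ℝ) / C.Da := div_nonneg (Int.cast_nonneg h0) hDa.le
  have a01 := div_le_div_of_nonneg_right (h.lo.trans_lt h.hi).le hDa.le
  have a11 : (I.A1 : ℝ) / C.Da < 1 := by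
    have h' : 0 < 1 - ((I.A1 : ℝ) / C.Da) ^ 2 := (div_pos_iff_of_pos_right (by positivity)).1 hp1'
    nlinarith [a00.trans a01]
  obtain ⟨g, g₀, g₁, hK, hg, hxg, k0, k1⟩ :=
    node_parts a00 a11 a01 w.hU w.hX w.hs hm hb hx hN hK0' hK1'
  have key := node_root hm8 hK hx.le (div_nonneg u0 hR.le) (div_nonneg u1 hR.le) w.hU w.hX w.hs hg
    hxg (k0.trans_eq (by ring)) (k1.trans_eq (by ring))
  have e : (U * ((I.e0 : ℝ) / I.er) + X * ((I.e1 : ℝ) / I.er)) ^ 4 =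
      ((I.e0 : ℝ) * U + I.e1 * X) ^ 4 / (I.er : ℝ) ^ 4 := by
    rw [← div_pow]; ring
  rw [e, le_div_iff₀ (by positivity)] at key
  refine mul_nonneg (pow_nonneg (add_nonneg (mul_nonneg u1 w.hU) (mul_nonneg u0 w.hX)) 3) ?_
  have := mul_le_mul_of_nonneg_left key (Int.cast_nonneg H.Dv.le : (0 : ℝ) ≤ C.Dv)
  linarith

theorem segRoot_last {Dv r e0 e1 : ℤ} : ∀ {l : List Seg} {s : Seg},
    segRoot Dv r e0 e1 l = true → l.getLast? = some s →
    Dv * e0 ^ 4 ≤ r ^ 4 * (Dv + s.V1) ∧ Dv * e1 ^ 4 ≤ r ^ 4 * (Dv + s.V1)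
  | [], s, h, _ => by simp [segRoot] at h
  | [q], s, h, e => by
      simp only [List.getLast?_singleton, Option.some.injEq] at e
      subst e
      simp only [segRoot, ile_eq, imul_eq, iadd_eq, Bool.and_eq_true, decide_eq_true_eq] at h
      exact ⟨by linarith [h.1], by linarith [h.2]⟩
  | q :: q' :: l, s, h, e => by
      rw [List.getLast?_cons_cons] at e
      exact segRoot_last (by simpa [segRoot] using h) e

/-- A point under the envelope constraint is left of an end that covers the chord. -/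
theorem envGap_le {C : Cfg} {I : Ival} (hDv : 0 < C.Dv) {U X v : ℝ} (hU : 0 ≤ U) (hX : 0 ≤ X)
    (hs : U + X = 1) (hg : 0 ≤ envGap C I U X v) (he : envOK C I = true) (henv : I.env = true)
    {l : List Seg} {s : Seg} (h' : l.getLast? = some s)
    (hend : (if I.er ≠ 0 then segRoot C.Dv I.er I.e0 I.e1 l else segChord I.e0 I.e1 l) = true) :
    v ≤ (s.V1 : ℝ) / C.Dv := by
  have hD : (0 : ℝ) < C.Dv := Int.cast_pos.2 hDv
  rw [le_div_iff₀ hD]
  unfold envGap at hg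
  by_cases her : I.er = 0
  · rw [if_pos her] at hg
    rw [if_neg (not_not.2 her)] at hend
    obtain ⟨l0, l1⟩ := segChord_last hend h'
    have q0 := mul_le_mul_of_nonneg_right (Int.cast_le (R := ℝ).2 l0) hU
    have q1 := mul_le_mul_of_nonneg_right (Int.cast_le (R := ℝ).2 l1) hX
    have q2 : (s.V1 : ℝ) * U + s.V1 * X = s.V1 := by rw [← mul_add, hs, mul_one]
    linarith
  rw [if_neg her] at hg
  rw [if_pos her] at hend
  simp only [envOK, rootOK, henv, her, ne_eq, not_false_eq_true, if_true, Bool.not_true,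
    Bool.false_or, Bool.and_eq_true, decide_eq_true_eq] at he
  obtain ⟨⟨⟨⟨⟨-, her0, he0, he1⟩, -⟩, -⟩, -⟩, -⟩ := he
  obtain ⟨l0, l1⟩ := segRoot_last hend h'
  have hR : (0 : ℝ) < (I.er : ℝ) ^ 4 := pow_pos (Int.cast_pos.2 her0) 4
  have u0 : (0 : ℝ) ≤ I.e0 := Int.cast_nonneg he0.le
  have u1 : (0 : ℝ) ≤ I.e1 := Int.cast_nonneg he1.le
  have hb : (C.Dv : ℝ) * ((I.e0 : ℝ) * U + I.e1 * X) ^ 4 ≤
      (I.er : ℝ) ^ 4 * (C.Dv + s.V1) := by
    have l0' := Int.cast_le (R := ℝ).2 l0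
    have l1' := Int.cast_le (R := ℝ).2 l1
    push_cast at l0' l1'
    rcases le_total (I.e0 : ℝ) I.e1 with hle | hle
    · refine le_trans (mul_le_mul_of_nonneg_left (pow_le_pow_left₀ (add_nonneg (mul_nonneg u0 hU)
        (mul_nonneg u1 hX)) ?_ 4) hD.le) l1'
      calc (I.e0 : ℝ) * U + I.e1 * X ≤ I.e1 * U + I.e1 * X := by
            linarith [mul_le_mul_of_nonneg_right hle hU]
        _ = _ := by rw [← mul_add, hs, mul_one]
    · refine le_trans (mul_le_mul_of_nonneg_left (pow_le_pow_left₀ (add_nonneg (mul_nonneg u0 hU)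
        (mul_nonneg u1 hX)) ?_ 4) hD.le) l0'
      calc (I.e0 : ℝ) * U + I.e1 * X ≤ I.e0 * U + I.e0 * X := by
            linarith [mul_le_mul_of_nonneg_right hle hX]
        _ = _ := by rw [← mul_add, hs, mul_one]
  have hp : 0 < (I.e1 : ℝ) * U + I.e0 * X := by
    have p0 : (0 : ℝ) < I.e0 := Int.cast_pos.2 he0
    have p1 : (0 : ℝ) < I.e1 := Int.cast_pos.2 he1
    rcases hU.eq_or_lt with hz | hz
    · rw [← hz, zero_add] at hs
      rw [← hz, hs]; linarith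
    · exact add_pos_of_pos_of_nonneg (mul_pos p1 hz) (mul_nonneg u0 hX)
  have := nonneg_of_mul_nonneg_right hg (pow_pos hp 3)
  refine le_of_mul_le_mul_left ?_ hR
  linarith

/-- The chord above the envelope of `x`. -/
theorem env_chord_node {C : Cfg} {I : Ival} (H : Head C) (hnok : I.node.ok = true)
    (he : envOK C I = true) (henv : I.env = true) (h0 : 0 ≤ I.A0) (h1 : I.A1 ≤ C.Da)
    {t A U X x : ℝ} (h : AtIval C I t A) (w : Wt C I U X A) (hx : 0 < x)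
    (hN : x ^ 2 * ballShape t ^ C.m ≤ I.node.boundR C.m t) :
    0 ≤ envGap C I U X (x - 1) := by
  unfold envGap
  by_cases her : I.er = 0
  swap
  · rw [if_neg her]
    exact env_root_node H hnok he henv her h0 h1 h w hx hN
  rw [if_pos her]
  simp only [envOK, henv, her, ne_eq, not_true_eq_false, if_false, Bool.not_true, Bool.false_or,
    Bool.and_eq_true, Bool.or_eq_true, decide_eq_true_eq] at he
  obtain ⟨⟨⟨hp0, hp1, hy0, hy1⟩, hK0⟩, hK1⟩ := he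
  obtain ⟨⟨-, ht0⟩, -, -⟩ := h.time_mem H.Da h0 h1
  rcases hK1 with ⟨hbend, hK1⟩ | hK1
  swap
  · exact env_chord H.Dv H.Da hp0 hp1 hy0 hy1 hK0 hK1 h0 h1 h w hx
      (hN.trans (Node.boundR_le hnok ht0))
  set N := I.node
  have hD : (0 : ℝ) < C.Dv := Int.cast_pos.2 H.Dv
  have hDa : (0 : ℝ) < C.Da := Int.cast_pos.2 H.Da
  obtain ⟨hA0, hA1, -, et, ep⟩ := h.point H.Da
  set a0 : ℝ := (I.A0 : ℝ) / C.Da with ha0
  set a1 : ℝ := (I.A1 : ℝ) / C.Da with ha1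
  set a : ℝ := A / C.Da with ha
  have ea : U * a0 + X * a1 = a := by
    rw [ha, ha0, ha1, w.hA]
    ring
  have et' : t = timeR a := by
    rw [et, ha, timeR]
    field_simp
  have ep' : ballShape t = (1 - a ^ 2) / (1 + a ^ 2) := by
    rw [ep, ha]
    field_simp
  obtain ⟨t0, q0⟩ := timeQ_cast H.Da I.A0
  obtain ⟨t1, q1⟩ := timeQ_cast H.Da I.A1
  have hK0' := (Rat.cast_le (K := ℝ)).2 hK0
  have hK1' := (Rat.cast_le (K := ℝ)).2 hK1
  have hy0' := (Rat.cast_le (K := ℝ)).2 hy0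
  have hy1' := (Rat.cast_le (K := ℝ)).2 hy1
  have hp1' := (Rat.cast_lt (K := ℝ)).2 hp1
  push_cast at hy0' hy1'
  have hok := hnok
  simp only [Node.ok, Bool.and_eq_true, Bool.or_eq_true, decide_eq_true_eq] at hok
  obtain ⟨hKd, hok⟩ := hok
  obtain ⟨β, α, hm, hb, hR, hQ⟩ := node_coeffs H hnok h0 (h.lo.trans_lt h.hi).le h1 hbend
  have hlt : (I.A0 : ℝ) ≤ I.A1 := (h.lo.trans_lt h.hi).le
  have a00 : 0 ≤ a0 := div_nonneg (Int.cast_nonneg h0) hDa.le
  have a01 : a0 ≤ a1 := div_le_div_of_nonneg_right hlt hDa.le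
  rw [Rat.cast_zero, q1, ← ha1] at hp1'
  have a11 : a1 < 1 := by
    have h' : 0 < 1 - a1 ^ 2 := (div_pos_iff_of_pos_right (by positivity)).1 hp1'
    nlinarith
  have key : x ≤ U * (1 + (I.e0 : ℝ) / C.Dv) + X * (1 + (I.e1 : ℝ) / C.Dv) := by
    rw [hQ, t0, Rat.cast_mul, Rat.cast_pow, Rat.cast_pow, q0] at hK0'
    rw [hQ, t1, Rat.cast_mul, Rat.cast_pow, Rat.cast_pow, q1] at hK1'
    push_cast at hK0' hK1'
    have hxa := hN
    rw [hR, ep', et', ← ea] at hxa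
    obtain ⟨g, g₀, g₁, hK, hg, hxg, k0, k1⟩ :=
      node_parts a00 a11 a01 w.hU w.hX w.hs hm hb hx hxa hK0' hK1'
    exact node_chord (by linarith [H.hm]) hK hx.le hy0' hy1' w.hU w.hX w.hs hg hxg k0 k1
  have e : U * (1 + (I.e0 : ℝ) / C.Dv) + X * (1 + (I.e1 : ℝ) / C.Dv) =
      1 + ((I.e0 : ℝ) * U + I.e1 * X) / C.Dv := by linear_combination w.hs
  rw [e] at key
  have := (le_div_iff₀ hD).1 (show x - 1 ≤ ((I.e0 : ℝ) * U + I.e1 * X) / C.Dv by linarith)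
  linarith

/-- The bound of a node is at most its constant after its time. -/
theorem Node.boundR_le_K {N : Node} (h : N.ok = true) {m : ℕ} {t : ℝ}
    (ht : (N.Tn : ℝ) / N.Td ≤ t) : N.boundR m t ≤ (N.Kn : ℝ) / N.Kd := by
  simp only [Node.ok, Bool.and_eq_true, Bool.or_eq_true, decide_eq_true_eq] at h
  obtain ⟨hKd, h⟩ := h
  by_cases he : N.Xn = N.Xd
  · simp [Node.boundR, he]
  obtain ⟨hK, hTn, hTd, hXn, hXle⟩ := h.resolve_left he
  simp only [Node.boundR, he, if_false]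
  refine mul_le_of_le_one_right (div_nonneg (Int.cast_nonneg hK) (Int.cast_nonneg hKd.le))
    (pow_le_one₀ (le_max_right _ _) (max_le ?_ zero_le_one))
  have hT : (0 : ℝ) < (N.Tn : ℝ) / N.Td := div_pos (Int.cast_pos.2 hTn) (Int.cast_pos.2 hTd)
  have hX : (1 : ℝ) ≤ 1 / ((N.Xn : ℝ) / N.Xd) := by
    rw [one_div_div, le_div_iff₀ (Int.cast_pos.2 hXn), one_mul]
    exact Int.cast_le.2 hXle
  have hr : 0 ≤ t / ((N.Tn : ℝ) / N.Td) - 1 := sub_nonneg.2 ((one_le_div hT).2 ht)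
  rw [div_eq_mul_one_div (t / _ - 1)]
  nlinarith [mul_le_mul_of_nonneg_left hX hr]

theorem ivalChain_sound {Da : ℤ} : ∀ {l : List Ival} {a : ℤ}, ivalChain Da a l = true →
    ∀ {A : ℝ}, (a : ℝ) ≤ A → A < Da → ∃ I ∈ l, (I.A0 : ℝ) ≤ A ∧ A < I.A1
  | [], a, h, A, h0, h1 => by
      simp only [ivalChain, decide_eq_true_eq] at h
      have : (Da : ℝ) ≤ a := Int.cast_le.2 h
      linarith
  | I :: l, a, h, A, h0, h1 => by
      simp only [ivalChain, Bool.and_eq_true, decide_eq_true_eq] at h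
      by_cases hlt : A < I.A1
      · exact ⟨I, List.mem_cons_self .., le_trans (Int.cast_le.2 h.1) h0, hlt⟩
      · obtain ⟨J, hJ, hJ'⟩ := ivalChain_sound h.2 (not_lt.1 hlt) h1
        exact ⟨J, List.mem_cons_of_mem _ hJ, hJ'⟩

theorem segChain_sound {Dv : ℤ} (hD : 0 < Dv) : ∀ {l : List Seg} {a : ℤ}, segChain a l = true →
    ∀ {v : ℝ}, (a : ℝ) / Dv ≤ v → ∃ s ∈ l, (s.V0 : ℝ) / Dv ≤ v ∧
      (s.isTail = true ∨ s.V0 < s.V1) ∧
      ((s.isTail = true ∨ v ≤ (s.V1 : ℝ) / Dv) ∨ l.getLast? = some s)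
  | [], _, h, _, _ => by simp [segChain] at h
  | [s], a, h, v, hv => by
      simp only [segChain, ile_eq, Bool.not_eq_true', decide_eq_false_iff_not, not_le, Bool.and_eq_true, Bool.or_eq_true, decide_eq_true_eq] at h
      exact ⟨s, List.mem_cons_self .., le_trans (div_le_div_of_nonneg_right (Int.cast_le.2 h.1)
        (Int.cast_nonneg hD.le)) hv, h.2, .inr rfl⟩
  | s :: s' :: l, a, h, v, hv => by
      simp only [segChain, ile_eq, Bool.not_eq_true', decide_eq_false_iff_not, not_le, Bool.and_eq_true, decide_eq_true_eq] at h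
      obtain ⟨⟨⟨h1, h2⟩, -⟩, h4⟩ := h
      by_cases hle : v ≤ (s.V1 : ℝ) / Dv
      · exact ⟨s, List.mem_cons_self .., le_trans (div_le_div_of_nonneg_right (Int.cast_le.2 h1)
          (Int.cast_nonneg hD.le)) hv, .inr h2, .inl (.inr hle)⟩
      · obtain ⟨q, hq, q1, q2, q3⟩ := segChain_sound hD h4 (not_le.1 hle).le
        exact ⟨q, List.mem_cons_of_mem _ hq, q1, q2, q3.imp_right fun e => by
          rw [List.getLast?_cons_cons]; exact e⟩

theorem segEnd_last {C : Cfg} {k p1 : ℚ} : ∀ {l : List Seg} {s : Seg}, segEnd C k p1 l = true →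
    l.getLast? = some s →
    s.isTail = true ∨ (0 ≤ 1 + (s.V1 : ℚ) / C.Dv ∧ k ≤ (1 + (s.V1 : ℚ) / C.Dv) ^ 2 * p1 ^ C.m)
  | [], s, h, _ => by simp [segEnd] at h
  | [q], s, h, e => by
      simp only [List.getLast?_singleton, Option.some.injEq] at e
      subst e
      simpa [segEnd] using h
  | q :: q' :: l, s, h, e => by
      rw [List.getLast?_cons_cons] at e
      exact segEnd_last (by simpa [segEnd] using h) e

theorem pieceChain_sound {segs : List Seg} {D : ℤ} (hD : 0 < D) : ∀ {l : List Piece} {a : ℤ},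
    pieceChain segs a l = true → ∀ {s : Seg}, s ∈ segs → s.contact = false → ∀ {ρ : ℝ},
      (a : ℝ) / D ≤ ρ →
      ρ ≤ (s.R : ℝ) / D → (a : ℝ) / D < ρ ∨ l ≠ [] →
      ∃ q ∈ l, (q.R0 : ℝ) / D ≤ ρ ∧ ρ ≤ (q.R1 : ℝ) / D ∧ q.R0 ≤ s.R
  | [], a, h, s, hs, hc, ρ, h0, h1, h2 => by
      simp only [pieceChain, ile_eq, List.all_eq_true, Bool.or_eq_true, decide_eq_true_eq] at h
      rcases h2 with h2 | h2
      · have := div_le_div_of_nonneg_right
          (Int.cast_le.2 ((h s hs).resolve_left (by simp [hc])) : (s.R : ℝ) ≤ a)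
          (Int.cast_nonneg hD.le : (0 : ℝ) ≤ D)
        linarith
      · exact absurd rfl h2
  | q :: l, a, h, s, hs, hc, ρ, h0, h1, _ => by
      simp only [pieceChain, ile_eq, Bool.and_eq_true, decide_eq_true_eq] at h
      have hD' : (0 : ℝ) < D := Int.cast_pos.2 hD
      have hq0 : (q.R0 : ℝ) / D ≤ ρ :=
        le_trans (div_le_div_of_nonneg_right (Int.cast_le.2 h.1) hD'.le) h0
      by_cases hle : ρ ≤ (q.R1 : ℝ) / D
      · exact ⟨q, List.mem_cons_self .., hq0, hle,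
          Int.cast_le.1 ((div_le_div_iff_of_pos_right hD').1 (hq0.trans h1))⟩
      · obtain ⟨r, hr, hr'⟩ := pieceChain_sound hD h.2 hs hc (not_le.1 hle).le h1 (.inl (not_le.1 hle))
        exact ⟨r, List.mem_cons_of_mem _ hr, hr'⟩

/-- The quantity paid by the gain. -/
noncomputable def cellGainTerm (C : Cfg) (t x ρ A : ℝ) : ℝ :=
  C.mult A * (C.θ * tailGain C.m (bregPoly C.m) C.η t x ρ)

theorem forms_pos {C : Cfg} (hDa : 0 < C.Da) {A : ℝ} (hA : 0 ≤ A) (hA1 : A < C.Da) :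
    0 < fS C A ∧ 0 < fP C A := by
  have hD : (0 : ℝ) < C.Da := Int.cast_pos.2 hDa
  unfold fS fP
  exact ⟨by positivity, sub_pos.2 (pow_lt_pow_left₀ hA1 hA two_ne_zero)⟩

theorem mult_pos {C : Cfg} (H : Head C) {I : Ival} {t A : ℝ} (h : AtIval C I t A) :
    0 < C.mult A := by
  obtain ⟨hA, hA1, -, -, -⟩ := h.point H.Da
  have hD : (0 : ℝ) < C.Da := Int.cast_pos.2 H.Da
  obtain ⟨h1, h2⟩ := forms_pos H.Da hA hA1
  have hm : (0 : ℝ) < C.m := Nat.cast_pos.2 (by linarith [H.hm])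
  have h3 : (0 : ℝ) < C.Dth := Int.cast_pos.2 H.Dth
  have h4 : (0 : ℝ) < C.Det := Int.cast_pos.2 H.Det
  have h5 : (0 : ℝ) < C.Dc := Int.cast_pos.2 H.Dc
  unfold Cfg.mult Cfg.k1R
  positivity

theorem abs_le_abs_of_sq_le {a x : ℝ} (h : (1 + a) ^ 2 ≤ x ^ 2) (hx : 0 < x) : 1 + a ≤ x :=
  (le_abs_self _).trans ((sq_le_sq.1 h).trans_eq (abs_of_pos hx))

theorem tan_algebra {Da Dc Det et zd zn zdk kn kd S P T A c g H u ρ : ℝ} (hDa : Da ≠ 0)
    (hDc : Dc ≠ 0) (hDet : Det ≠ 0) (hzd : zd ≠ 0) (hkd : kd ≠ 0) (hS : S ≠ 0) (hP : P ≠ 0)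
    (hz : zdk = zd * zd * kd) :
    zdk * (2 * Det * Da * Dc) * (S * P) *
      (1 / (P / S) * ((1 - T / S * ρ) * (c / Dc) + (T / S - ρ) * (g / Dc) +
          kn / kd * ((T / S - ρ) - zn / zd * (1 - T / S * ρ)) ^ 2 - (1 - T / S * ρ) * (H / Dc)) +
        ρ * (A / Da) - (1 - et / Det) * (u / Dc) / 2 * ρ ^ 2) =
    (2 * Det * Da * zdk * c + 2 * Det * Da * Dc * kn * (zn * zn)) * S ^ 2 +
      (2 * Det * Da * zdk * g - 2 * (2 * Det * Da * Dc * kn * (zd * zn))) * (S * T) +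
      2 * Det * Da * Dc * kn * (zd * zd) * T ^ 2 - 2 * Det * Da * zdk * (S ^ 2 * H) +
    ρ * ((2 * (2 * Det * Da * Dc * kn * (zd * zn)) - 2 * Det * Da * zdk * g) * S ^ 2 -
      (2 * Det * Da * zdk * c + 2 * (2 * Det * Da * Dc * kn) * (zd * zd + zn * zn)) * (S * T) +
      2 * (2 * Det * Da * Dc * kn * (zd * zn)) * T ^ 2 + 2 * Det * Da * zdk * (S * T * H) +
      2 * Det * Dc * zdk * (S * P * A)) +
    ρ ^ 2 * (2 * Det * Da * Dc * kn * (zd * zd) * S ^ 2 -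
      2 * (2 * Det * Da * Dc * kn * (zd * zn)) * (S * T) +
      2 * Det * Da * Dc * kn * (zn * zn) * T ^ 2 - (Det - et) * Da * zdk * (S * P * u)) := by
  subst hz
  field_simp
  ring

theorem mult_gain {C : Cfg} (H : Head C) (t x ρ A G : ℝ) {zdk : ℝ} (hz : 0 ≤ zdk)
    (hM : 0 ≤ C.mult A) (hg : (C.m : ℝ) / ((C.m : ℝ) + 1) * x ^ 2 * G ≤
      tailGain C.m (bregPoly C.m) C.η t x ρ) :
    ((C.m : ℝ) * C.m * C.th) * x ^ 2 * (zdk * (2 * C.Det * C.Da * C.Dc) * (fS C A * fP C A) * G) ≤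
      zdk * cellGainTerm C t x ρ A := by
  have hθ : 0 ≤ C.θ := div_nonneg (Int.cast_nonneg H.th) (Int.cast_nonneg H.Dth.le)
  have h1 := mul_le_mul_of_nonneg_left (mul_le_mul_of_nonneg_left
    (mul_le_mul_of_nonneg_left hg hθ) hM) hz
  refine le_trans (le_of_eq ?_) h1
  have hD : (C.Dth : ℝ) ≠ 0 := Int.cast_ne_zero.2 H.Dth.ne'
  have hn : (C.m : ℝ) + 1 ≠ 0 := by positivity
  have key : C.mult A * C.θ * ((C.m : ℝ) / ((C.m : ℝ) + 1)) =
      ((C.m : ℝ) * C.m * C.th) * (2 * C.Det * C.Da * C.Dc) * (fS C A * fP C A) := by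
    unfold Cfg.mult Cfg.k1R Cfg.θ
    field_simp
  calc _ = zdk * (((C.m : ℝ) * C.m * C.th) * (2 * C.Det * C.Da * C.Dc) * (fS C A * fP C A)) *
        (x ^ 2 * G) := by ring
    _ = _ := by rw [← key]; ring

/-- The state numerator `2 B Db` of a piece. -/
noncomputable def Piece.znR (q : Piece) : ℝ := 2 * ((q.B : ℝ) * q.Db)

/-- The state denominator `Db ^ 2 + B ^ 2` of a piece. -/
noncomputable def Piece.zdR (q : Piece) : ℝ := (q.Db : ℝ) * q.Db + (q.B : ℝ) * q.B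

/-- The scale of a tangent piece. -/
noncomputable def Piece.zdkR (q : Piece) : ℝ := q.zdR * q.zdR * q.kd

/-- The constant coefficient of a tangent gain. -/
noncomputable def tanE0 (C : Cfg) (q : Piece) (S T H : ℝ) : ℝ :=
  (2 * C.Det * C.Da * q.zdkR * q.c + 2 * C.Det * C.Da * C.Dc * q.kn * (q.znR * q.znR)) * S ^ 2 +
    (2 * C.Det * C.Da * q.zdkR * q.g -
      2 * (2 * C.Det * C.Da * C.Dc * q.kn * (q.zdR * q.znR))) * (S * T) +
    2 * C.Det * C.Da * C.Dc * q.kn * (q.zdR * q.zdR) * T ^ 2 -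
    2 * C.Det * C.Da * q.zdkR * (S ^ 2 * H)

/-- The linear coefficient of a tangent gain. -/
noncomputable def tanE1 (C : Cfg) (q : Piece) (S P T A H : ℝ) : ℝ :=
  (2 * (2 * C.Det * C.Da * C.Dc * q.kn * (q.zdR * q.znR)) -
      2 * C.Det * C.Da * q.zdkR * q.g) * S ^ 2 -
    (2 * C.Det * C.Da * q.zdkR * q.c +
      2 * (2 * C.Det * C.Da * C.Dc * q.kn) * (q.zdR * q.zdR + q.znR * q.znR)) * (S * T) +
    2 * (2 * C.Det * C.Da * C.Dc * q.kn * (q.zdR * q.znR)) * T ^ 2 +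
    2 * C.Det * C.Da * q.zdkR * (S * T * H) + 2 * C.Det * C.Dc * q.zdkR * (S * P * A)

/-- The quadratic coefficient of a tangent gain. -/
noncomputable def tanE2 (C : Cfg) (q : Piece) (S P T u : ℝ) : ℝ :=
  2 * C.Det * C.Da * C.Dc * q.kn * (q.zdR * q.zdR) * S ^ 2 -
    2 * (2 * C.Det * C.Da * C.Dc * q.kn * (q.zdR * q.znR)) * (S * T) +
    2 * C.Det * C.Da * C.Dc * q.kn * (q.znR * q.znR) * T ^ 2 -
    (C.Det - C.et) * C.Da * q.zdkR * (S * P * u)

theorem tanCoef_rep {C : Cfg} {I : Ival} {U X A : ℝ} (F : FormsVal C I U X A) (q : Piece) :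
    Rep U X 7 (q.tanCoef C (I.forms C)).1 (tanE0 C q (fS C A) (fT C A) (I.h0 + I.h1 * A ^ 2)) ∧
    Rep U X 7 (q.tanCoef C (I.forms C)).2.1
      (tanE1 C q (fS C A) (fP C A) (fT C A) A (I.h0 + I.h1 * A ^ 2)) ∧
    Rep U X 7 (q.tanCoef C (I.forms C)).2.2
      (tanE2 C q (fS C A) (fP C A) (fT C A) (I.u0 * U + I.u1 * X)) := by
  refine ⟨(((F.SSLL.smul _).add (F.STLL.smul _)).add
      ((F.TTLL.smul _).add (F.SSLH.smul _))).congr ?_,
    ((((F.SSLL.smul _).add (F.STLL.smul _)).add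
      ((F.TTLL.smul _).add (F.STLH.smul _))).add (F.SPAL.smul _)).congr ?_,
    (((F.SSLL.smul _).add (F.STLL.smul _)).add
      ((F.TTLL.smul _).add (F.SPLu.smul _))).congr ?_⟩
  · simp only [tanE0, Piece.zdkR, Piece.zdR, Piece.znR, cast_mul', cast_add', cast_sub', cast_neg']
    push_cast
    ring
  · simp only [tanE1, Piece.zdkR, Piece.zdR, Piece.znR, cast_mul', cast_add', cast_sub', cast_neg']
    push_cast
    ring
  · simp only [tanE2, Piece.zdkR, Piece.zdR, Piece.znR, cast_mul', cast_add', cast_sub', cast_neg']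
    push_cast
    ring

/-- The denominator of an edge gain. -/
noncomputable def Piece.zeR (q : Piece) : ℝ := 2 * (q.Yn * q.Yd)

/-- The constant coefficient of an edge gain. -/
noncomputable def edgeE0 (C : Cfg) (q : Piece) (S P : ℝ) : ℝ :=
  (2 * (C.Det * C.Da) * q.zeR * q.c - 2 * (C.Det * C.Da * C.Dc) * (q.Yd * q.Yd + q.Yn * q.Yn)) *
    (S * P)

/-- The linear coefficient of an edge gain. -/
noncomputable def edgeE1 (C : Cfg) (q : Piece) (S P T A : ℝ) : ℝ :=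
  -(2 * (C.Det * C.Da) * q.zeR * q.c) * (T * P) + 2 * (C.Det * C.Dc) * q.zeR * (S * P * A)

/-- The quadratic coefficient of an edge gain. -/
noncomputable def edgeE2 (C : Cfg) (q : Piece) (S P u : ℝ) : ℝ :=
  2 * (C.Det * C.Da * C.Dc) * (q.Yd * q.Yd) * (S * P) -
    (C.Det - C.et) * C.Da * q.zeR * (S * P * u)

theorem edgeCoef_rep {C : Cfg} {I : Ival} {U X A : ℝ} (F : FormsVal C I U X A) (q : Piece) :
    Rep U X 7 (q.edgeCoef C (I.forms C)).1 (edgeE0 C q (fS C A) (fP C A)) ∧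
    Rep U X 7 (q.edgeCoef C (I.forms C)).2.1 (edgeE1 C q (fS C A) (fP C A) (fT C A) A) ∧
    Rep U X 7 (q.edgeCoef C (I.forms C)).2.2
      (edgeE2 C q (fS C A) (fP C A) (I.u0 * U + I.u1 * X)) := by
  refine ⟨(F.SPLL.smul _).congr ?_, ((F.TPLL.smul _).add (F.SPAL.smul _)).congr ?_,
    ((F.SPLL.smul _).add (F.SPLu.smul _)).congr ?_⟩
  · simp only [edgeE0, Piece.zeR, cast_mul', cast_add', cast_sub']
    push_cast
    ring
  · simp only [edgeE1, Piece.zeR, cast_mul', cast_neg']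
    push_cast
    ring
  · simp only [edgeE2, Piece.zeR, cast_mul', cast_sub', cast_neg']
    push_cast
    ring

theorem ctrl_rep {U X : ℝ} {C : Cfg} {p : Pk × Pk × Pk} {v₀ v₁ v₂ : ℝ} (r₀ : Rep U X 7 p.1 v₀)
    (r₁ : Rep U X 7 p.2.1 v₁) (r₂ : Rep U X 7 p.2.2 v₂) (a b : ℤ) :
    Rep U X 7 (((slopeCtrl C.Dr a b p).1).smul
        (imul (imul (Int.ofNat C.m) (Int.ofNat C.m)) C.th))
      (((C.m : ℝ) * C.m * C.th) * ((C.Dr : ℝ) ^ 2 * v₀ + C.Dr * a * v₁ + (a : ℝ) ^ 2 * v₂)) ∧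
    Rep U X 7 (((slopeCtrl C.Dr a b p).2.1).smul
        (imul (imul (Int.ofNat C.m) (Int.ofNat C.m)) C.th))
      (((C.m : ℝ) * C.m * C.th) * (2 * (C.Dr : ℝ) ^ 2 * v₀ + C.Dr * (a + b) * v₁ +
        2 * a * b * v₂)) ∧
    Rep U X 7 (((slopeCtrl C.Dr a b p).2.2).smul
        (imul (imul (Int.ofNat C.m) (Int.ofNat C.m)) C.th))
      (((C.m : ℝ) * C.m * C.th) * ((C.Dr : ℝ) ^ 2 * v₀ + C.Dr * b * v₁ + (b : ℝ) ^ 2 * v₂)) := by
  refine ⟨((((r₀.smul _).add (r₁.smul _)).add (r₂.smul _)).smul _).congr ?_,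
    ((((r₀.smul _).add (r₁.smul _)).add (r₂.smul _)).smul _).congr ?_,
    ((((r₀.smul _).add (r₁.smul _)).add (r₂.smul _)).smul _).congr ?_⟩ <;>
  · simp only [cast_mul', cast_add', cast_ofNat']
    push_cast
    ring

/-- The bracket of a tangent gain. -/
noncomputable def tanG (C : Cfg) (q : Piece) (t p a Hh u ρ : ℝ) : ℝ :=
  1 / p * ((1 - t * ρ) * ((q.c : ℝ) / C.Dc) + (t - ρ) * ((q.g : ℝ) / C.Dc) +
      (q.kn : ℝ) / q.kd * ((t - ρ) - q.znR / q.zdR * (1 - t * ρ)) ^ 2 - (1 - t * ρ) * Hh) +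
    ρ * a - (1 - C.η) * u / 2 * ρ ^ 2

theorem tan_identity {C : Cfg} (H : Head C) {q : Piece} (hzd : q.zdR ≠ 0) (hkd : (q.kd : ℝ) ≠ 0)
    {S P T A Hh u ρ : ℝ} (hS : S ≠ 0) (hP : P ≠ 0) :
    tanE0 C q S T Hh + ρ * tanE1 C q S P T A Hh + ρ ^ 2 * tanE2 C q S P T u =
      q.zdkR * (2 * C.Det * C.Da * C.Dc) * (S * P) *
        tanG C q (T / S) (P / S) (A / C.Da) (Hh / C.Dc) (u / C.Dc) ρ := by
  unfold tanG Cfg.η
  rw [tan_algebra (Int.cast_ne_zero.2 H.Da.ne') (Int.cast_ne_zero.2 H.Dc.ne')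
    (Int.cast_ne_zero.2 H.Det.ne') hzd hkd hS hP (rfl : q.zdkR = _)]
  rfl

theorem tanG_le {C : Cfg} {q : Piece} {t p a Hh u ρ M L : ℝ} (hp : 0 < p) (hden : 0 ≤ 1 - t * ρ)
    (hT : (1 - t * ρ) * ((q.c : ℝ) / C.Dc) + (t - ρ) * ((q.g : ℝ) / C.Dc) +
      (q.kn : ℝ) / q.kd * ((t - ρ) - q.znR / q.zdR * (1 - t * ρ)) ^ 2 ≤ (1 - t * ρ) * M)
    (hL : L ≤ Hh) :
    tanG C q t p a Hh u ρ ≤ (1 - t * ρ) / p * (M - L) + ρ * a - (1 - C.η) * u / 2 * ρ ^ 2 := by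
  have h2 := mul_le_mul_of_nonneg_left hL hden
  have h3 := mul_le_mul_of_nonneg_left (show ((1 - t * ρ) * ((q.c : ℝ) / C.Dc) +
      (t - ρ) * ((q.g : ℝ) / C.Dc) +
      (q.kn : ℝ) / q.kd * ((t - ρ) - q.znR / q.zdR * (1 - t * ρ)) ^ 2 - (1 - t * ρ) * Hh) ≤
      (1 - t * ρ) * (M - L) by linarith) (show 0 ≤ 1 / p by positivity)
  rw [tanG, show (1 - t * ρ) / p * (M - L) = 1 / p * ((1 - t * ρ) * (M - L)) by ring]
  linarith

/-- The model gain of a tangent piece is at most the gain. -/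
theorem tan_pay {C : Cfg} {I : Ival} {t A U X x z ρ : ℝ} (H : Head C) (h : AtIval C I t A)
    (_w : Wt C I U X A) (h0 : 0 ≤ I.A0) (h1 : I.A1 ≤ C.Da)
    (hh : logOK C I = true)
    (wu : weightPoly (ballShape t) ≤ affVal I.u0 I.u1 C.Dc U X)
    (hz : z ∈ Icc (0 : ℝ) 1) {q : Piece} (hq : q.ok C I = true) (htan : q.tan = true)
    (hρ : ρ = (t - z) / (1 - t * z)) (hρt : ρ ≤ t)
    (hρ0 : (q.R0 : ℝ) / C.Dr ≤ ρ) (hρ1 : ρ ≤ (q.R1 : ℝ) / C.Dr) :
    0 < q.zdkR ∧ ((C.m : ℝ) * C.m * C.th) * x ^ 2 *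
        (tanE0 C q (fS C A) (fT C A) (I.h0 + I.h1 * A ^ 2) +
          ρ * tanE1 C q (fS C A) (fP C A) (fT C A) A (I.h0 + I.h1 * A ^ 2) +
          ρ ^ 2 * tanE2 C q (fS C A) (fP C A) (fT C A) (I.u0 * U + I.u1 * X)) ≤
      q.zdkR * cellGainTerm C t x ρ A := by
  have mp := (mult_pos H h).le
  obtain ⟨hA, hA1, ea, et, ep⟩ := h.point H.Da
  obtain ⟨hkd, hT⟩ := piece_tangent h H.Da H.Dr h0 h1 hq htan hρ0 hρ1 hρt
  obtain ⟨hr0, -, -⟩ := Piece.ok_range H.Dr hq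
  have hDb : (q.Db : ℝ) ≠ 0 := by
    simp only [Piece.ok, htan, Bool.not_true, Bool.false_or, Bool.and_eq_true,
      decide_eq_true_eq] at hq
    obtain ⟨-, ⟨⟨⟨⟨hb0, -⟩, -⟩, -⟩, -⟩, -⟩ := hq
    exact (Int.cast_pos.2 hb0 : (0 : ℝ) < q.Db).ne'
  have hzd0 : 0 < q.zdR := by
    unfold Piece.zdR
    nlinarith [mul_self_pos.2 hDb, mul_self_nonneg (q.B : ℝ)]
  have hkd' : (0 : ℝ) < q.kd := Int.cast_pos.2 hkd
  have hzdk : 0 < q.zdkR := mul_pos (mul_pos hzd0 hzd0) hkd'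
  refine ⟨hzdk, ?_⟩
  have hp := ball_pos (sub01 h.ht)
  have hden : 0 < 1 - t * z := by nlinarith [h.ht.1, h.ht.2, hz.2]
  have hm1 : 1 ≤ C.m := by linarith [H.hm]
  have hη1 : C.η ≤ 1 := (div_le_one (Int.cast_pos.2 H.Det)).2 (Int.cast_le.2 H.et1)
  have hQ : 2 * ((C.m : ℝ) + 1) * bregPoly C.m t = ballShape t * weightPoly (ballShape t) := by
    rw [bregPoly]; field_simp
  have hzj : 2 * ((q.B : ℝ) / q.Db) / (1 + ((q.B : ℝ) / q.Db) ^ 2) = q.znR / q.zdR := by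
    rw [Piece.znR, Piece.zdR]
    field_simp
  have hden' : 0 < 1 - t * ρ := by nlinarith [h.ht.1, h.ht.2, hρt, hr0.trans hρ0]
  have hzinv : (t - ρ) / (1 - t * ρ) = z := by
    rw [hρ]
    exact shift_inv (by nlinarith [h.ht.1, h.ht.2]) hden.ne'
  rw [hzinv, hzj] at hT
  have hG : cellGain t z = (1 - t * ρ) / ballShape t *
      (logModel z - Real.log (1 + halfAngle t ^ 2)) + ρ * halfAngle t := by
    rw [cellGain_eq h.ht ⟨by linarith [hz.1], hz.2⟩, ← hρ]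
  have hgain := cellGain_le_tailGain (Q := bregPoly C.m) (x := x) (η := C.η)
    (u := affVal I.u0 I.u1 C.Dc U X) hm1 h.ht ⟨by linarith [hz.1], hz.2⟩ hη1
    (by rw [hQ]; exact mul_le_mul_of_nonneg_left wu hp.le)
  rw [← hρ] at hgain
  have hlog := log_quad h H.Da H.Dc hh
  have hGle := tanG_le (C := C) (q := q) (a := halfAngle t) (u := affVal I.u0 I.u1 C.Dc U X)
    hp hden'.le hT hlog
  rw [← hG] at hGle
  have h5 := (mul_le_mul_of_nonneg_left hGle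
    (show 0 ≤ (C.m : ℝ) / ((C.m : ℝ) + 1) * x ^ 2 by positivity)).trans hgain
  have hmg := mult_gain H t x ρ A _ hzdk.le mp h5
  refine le_trans (le_of_eq ?_) hmg
  have hS : fS C A ≠ 0 := (forms_pos H.Da hA hA1).1.ne'
  have hP : fP C A ≠ 0 := (forms_pos H.Da hA hA1).2.ne'
  have et' : fT C A / fS C A = t := et.symm
  have ep' : fP C A / fS C A = ballShape t := ep.symm
  rw [tan_identity H hzd0.ne' hkd'.ne' hS hP, et', ep', ← ea]
  simp only [affVal]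

/-- The model gain of an edge piece is at most the gain. -/
theorem edge_pay {C : Cfg} {I : Ival} {t A U X x z ρ : ℝ} (H : Head C) (h : AtIval C I t A)
    (h0 : 0 ≤ I.A0) (h1 : I.A1 ≤ C.Da)
    (wu : weightPoly (ballShape t) ≤ affVal I.u0 I.u1 C.Dc U X)
    (hz : z ∈ Icc (0 : ℝ) 1) {q : Piece} (hq : q.ok C I = true) (htan : q.tan = false) (hB : q.B ≠ 0)
    (hρ : ρ = (t - z) / (1 - t * z)) (hρt : ρ ≤ t) (hρ0 : (q.R0 : ℝ) / C.Dr ≤ ρ) :
    0 < q.zeR ∧ ((C.m : ℝ) * C.m * C.th) * x ^ 2 *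
        (edgeE0 C q (fS C A) (fP C A) + ρ * edgeE1 C q (fS C A) (fP C A) (fT C A) A +
          ρ ^ 2 * edgeE2 C q (fS C A) (fP C A) (I.u0 * U + I.u1 * X)) ≤
      q.zeR * cellGainTerm C t x ρ A := by
  have mp := (mult_pos H h).le
  obtain ⟨hA, hA1, ea, et, ep⟩ := h.point H.Da
  obtain ⟨hr0, -, -⟩ := Piece.ok_range H.Dr hq
  simp only [Piece.ok, htan, hB, decide_false, Bool.not_false, Bool.true_or, Bool.false_or,
    Bool.or_false, Bool.and_true, Bool.and_eq_true, Piece.edgeOK, decide_eq_true_eq] at hq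
  obtain ⟨-, hYn, hYd, hc⟩ := hq
  have hYn' : (0 : ℝ) < q.Yn := Int.cast_pos.2 hYn
  have hYd' : (0 : ℝ) < q.Yd := Int.cast_pos.2 hYd
  have hze : 0 < q.zeR := mul_pos two_pos (mul_pos hYn' hYd')
  refine ⟨hze, ?_⟩
  have hp := ball_pos (sub01 h.ht)
  have hm1 : 1 ≤ C.m := by linarith [H.hm]
  have hη1 : C.η ≤ 1 := (div_le_one (Int.cast_pos.2 H.Det)).2 (Int.cast_le.2 H.et1)
  have hQ : 2 * ((C.m : ℝ) + 1) * bregPoly C.m t = ballShape t * weightPoly (ballShape t) := by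
    rw [bregPoly]; field_simp
  have hden : 0 < 1 - t * z := by nlinarith [h.ht.1, h.ht.2, hz.2]
  have hzinv : (t - ρ) / (1 - t * ρ) = z := by
    rw [hρ]
    exact shift_inv (by nlinarith [h.ht.1, h.ht.2]) hden.ne'
  have hc' := (Rat.cast_le (K := ℝ)).2 hc
  push_cast at hc'
  have hlog := edge_log (u := (q.Yn : ℝ) / q.Yd) h.ht (hr0.trans hρ0) hρt (div_pos hYn' hYd')
    (h.ball_le H.Da h0 h1) hc'
  rw [hzinv] at hlog
  have hG : cellGain t z = (1 - t * ρ) / ballShape t *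
      (logModel z - Real.log (1 + halfAngle t ^ 2)) + ρ * halfAngle t := by
    rw [cellGain_eq h.ht ⟨by linarith [hz.1], hz.2⟩, ← hρ]
  have hgain := cellGain_le_tailGain (Q := bregPoly C.m) (x := x) (η := C.η)
    (u := affVal I.u0 I.u1 C.Dc U X) hm1 h.ht ⟨by linarith [hz.1], hz.2⟩ hη1
    (by rw [hQ]; exact mul_le_mul_of_nonneg_left wu hp.le)
  rw [← hρ] at hgain
  have hGle : (1 - t * ρ) * ((q.c : ℝ) / C.Dc) -
      ((1 - ρ ^ 2) / (2 * ((q.Yn : ℝ) / q.Yd)) + (q.Yn : ℝ) / q.Yd / 2) + ρ * halfAngle t -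
      (1 - C.η) * affVal I.u0 I.u1 C.Dc U X / 2 * ρ ^ 2 ≤
      cellGain t z - (1 - C.η) * affVal I.u0 I.u1 C.Dc U X / 2 * ρ ^ 2 := by
    rw [hG]
    linarith
  have h5 := (mul_le_mul_of_nonneg_left hGle
    (show 0 ≤ (C.m : ℝ) / ((C.m : ℝ) + 1) * x ^ 2 by positivity)).trans hgain
  have hmg := mult_gain H t x ρ A _ hze.le mp h5
  refine le_trans (le_of_eq ?_) hmg
  have hS : fS C A ≠ 0 := (forms_pos H.Da hA hA1).1.ne'
  have hDa : (C.Da : ℝ) ≠ 0 := Int.cast_ne_zero.2 H.Da.ne'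
  have hDc : (C.Dc : ℝ) ≠ 0 := Int.cast_ne_zero.2 H.Dc.ne'
  have hDet : (C.Det : ℝ) ≠ 0 := Int.cast_ne_zero.2 H.Det.ne'
  rw [ea, edgeE0, edgeE1, edgeE2, Piece.zeR, Cfg.η, show t = fT C A / fS C A from et]
  simp only [affVal]
  field_simp
  ring

theorem Piece.gain_tan {C : Cfg} {F : Forms} {R : Rows} {q : Piece} (h : q.tan = true) :
    ((q.gain C F R).z : ℝ) = q.zdkR ∧
    (q.gain C F R).g0 = ((slopeCtrl C.Dr q.R0 q.R1 (q.tanCoef C F)).1).smul
      (imul (imul (Int.ofNat C.m) (Int.ofNat C.m)) C.th) ∧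
    (q.gain C F R).g1 = ((slopeCtrl C.Dr q.R0 q.R1 (q.tanCoef C F)).2.1).smul
      (imul (imul (Int.ofNat C.m) (Int.ofNat C.m)) C.th) ∧
    (q.gain C F R).g2 = ((slopeCtrl C.Dr q.R0 q.R1 (q.tanCoef C F)).2.2).smul
      (imul (imul (Int.ofNat C.m) (Int.ofNat C.m)) C.th) := by
  simp only [Piece.gain, h, if_true, Piece.zdkR, Piece.zdR, cast_mul', cast_add', and_self]

theorem Piece.gain_edge {C : Cfg} {F : Forms} {R : Rows} {q : Piece} (h : q.tan = false)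
    (hB : q.B ≠ 0) :
    ((q.gain C F R).z : ℝ) = q.zeR ∧
    (q.gain C F R).g0 = ((slopeCtrl C.Dr q.R0 q.R1 (q.edgeCoef C F)).1).smul
      (imul (imul (Int.ofNat C.m) (Int.ofNat C.m)) C.th) ∧
    (q.gain C F R).g1 = ((slopeCtrl C.Dr q.R0 q.R1 (q.edgeCoef C F)).2.1).smul
      (imul (imul (Int.ofNat C.m) (Int.ofNat C.m)) C.th) ∧
    (q.gain C F R).g2 = ((slopeCtrl C.Dr q.R0 q.R1 (q.edgeCoef C F)).2.2).smul
      (imul (imul (Int.ofNat C.m) (Int.ofNat C.m)) C.th) := by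
  simp only [Piece.gain, h, hB, Bool.false_eq_true, if_false, Piece.zeR, cast_mul', Int.cast_ofNat,
    and_self]

theorem Piece.gain_zero {C : Cfg} {F : Forms} {R : Rows} {q : Piece} (h : ¬q.tan = true)
    (hB : q.B = 0) :
    ((q.gain C F R).z : ℝ) = 1 ∧
    (q.gain C F R).g0 = ((slopeCtrl C.Dr q.R0 q.R1
      (Pk.zero, Pk.zero, F.SPLl.smul (imul C.et C.Da))).1).smul
      (imul (imul (Int.ofNat C.m) (Int.ofNat C.m)) C.th) ∧
    (q.gain C F R).g1 = ((slopeCtrl C.Dr q.R0 q.R1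
      (Pk.zero, Pk.zero, F.SPLl.smul (imul C.et C.Da))).2.1).smul
      (imul (imul (Int.ofNat C.m) (Int.ofNat C.m)) C.th) ∧
    (q.gain C F R).g2 = ((slopeCtrl C.Dr q.R0 q.R1
      (Pk.zero, Pk.zero, F.SPLl.smul (imul C.et C.Da))).2.2).smul
      (imul (imul (Int.ofNat C.m) (Int.ofNat C.m)) C.th) := by
  simp only [Piece.gain, if_neg h, if_pos hB, Int.cast_one, and_self]

/-- The gain controls of a piece pay at most the gain. -/
theorem piece_gain {C : Cfg} {I : Ival} {t A U X x z : ℝ} (H : Head C) (h : AtIval C I t A)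
    (w : Wt C I U X A) (h0 : 0 ≤ I.A0) (h1 : I.A1 ≤ C.Da)
    (hh : logOK C I = true)
    (hu : upperFast C I = true) (hl : lowerFast C I = true) (hz : z ∈ Icc (0 : ℝ) 1)
    {q : Piece} (hq : q.ok C I = true) {ρ : ℝ} (hρ : ρ = (t - z) / (1 - t * z)) (hρt : ρ ≤ t)
    (hρ0 : (q.R0 : ℝ) / C.Dr ≤ ρ) (hρ1 : ρ ≤ (q.R1 : ℝ) / C.Dr) {R : Rows} :
    ∃ e₀ e₁ e₂ : ℝ, 0 < ((q.gain C (I.forms C) R).z : ℝ) ∧
      Rep U X 7 (q.gain C (I.forms C) R).g0 (((C.m : ℝ) * C.m * C.th) *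
        ((C.Dr : ℝ) ^ 2 * e₀ + C.Dr * q.R0 * e₁ + (q.R0 : ℝ) ^ 2 * e₂)) ∧
      Rep U X 7 (q.gain C (I.forms C) R).g1 (((C.m : ℝ) * C.m * C.th) *
        (2 * (C.Dr : ℝ) ^ 2 * e₀ + C.Dr * (q.R0 + q.R1) * e₁ + 2 * q.R0 * q.R1 * e₂)) ∧
      Rep U X 7 (q.gain C (I.forms C) R).g2 (((C.m : ℝ) * C.m * C.th) *
        ((C.Dr : ℝ) ^ 2 * e₀ + C.Dr * q.R1 * e₁ + (q.R1 : ℝ) ^ 2 * e₂)) ∧
      ((C.m : ℝ) * C.m * C.th) * x ^ 2 * (e₀ + ρ * e₁ + ρ ^ 2 * e₂) ≤
        ((q.gain C (I.forms C) R).z : ℝ) * cellGainTerm C t x ρ A := by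
  have F := forms_val w
  obtain ⟨wu, wl⟩ := weight_bounds h H.Da H.Dc hu hl w.hs w.hA
  by_cases htan : q.tan = true
  · obtain ⟨hpos, hpay⟩ := tan_pay (x := x) H h w h0 h1 hh wu hz hq htan hρ hρt hρ0 hρ1
    obtain ⟨ez, e0, e1, e2⟩ := Piece.gain_tan (C := C) (F := I.forms C) (R := R) htan
    obtain ⟨r₀, r₁, r₂⟩ := tanCoef_rep F q
    obtain ⟨c₀, c₁, c₂⟩ := ctrl_rep (C := C) r₀ r₁ r₂ q.R0 q.R1
    rw [ez, e0, e1, e2]
    exact ⟨_, _, _, hpos, c₀, c₁, c₂, hpay⟩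
  rcases ne_or_eq q.B 0 with hB | hB
  · obtain ⟨hpos, hpay⟩ := edge_pay (x := x) H h h0 h1 wu hz hq (by simpa using htan) hB hρ hρt hρ0
    obtain ⟨ez, e0, e1, e2⟩ :=
      Piece.gain_edge (C := C) (F := I.forms C) (R := R) (by simpa using htan) hB
    obtain ⟨r₀, r₁, r₂⟩ := edgeCoef_rep F q
    obtain ⟨c₀, c₁, c₂⟩ := ctrl_rep (C := C) r₀ r₁ r₂ q.R0 q.R1
    rw [ez, e0, e1, e2]
    exact ⟨_, _, _, hpos, c₀, c₁, c₂, hpay⟩
  · obtain ⟨ez, e0, e1, e2⟩ := Piece.gain_zero (C := C) (F := I.forms C) (R := R) htan hB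
    obtain ⟨c₀, c₁, c₂⟩ := ctrl_rep (C := C)
      (p := (Pk.zero, Pk.zero, (I.forms C).SPLl.smul (imul C.et C.Da)))
      (Rep.zero (U := U) (X := X) (d := 7)) (Rep.zero (U := U) (X := X) (d := 7))
      (F.SPLl.smul (imul C.et C.Da)) q.R0 q.R1
    rw [ez, e0, e1, e2]
    refine ⟨_, _, _, one_pos, c₀, c₁, c₂, ?_⟩
    obtain ⟨hr0, hr1, -⟩ := Piece.ok_range H.Dr hq
    have hm1 : 1 ≤ C.m := by linarith [H.hm]
    have hη0 : 0 ≤ C.η := div_nonneg (Int.cast_nonneg H.et) (Int.cast_nonneg H.Det.le)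
    have hp := ball_pos (sub01 h.ht)
    have hQ : 2 * ((C.m : ℝ) + 1) * bregPoly C.m t = ballShape t * weightPoly (ballShape t) := by
      rw [bregPoly]; field_simp
    have hρI : ρ ∈ Icc (-1 : ℝ) 1 := ⟨hr0.trans hρ0, hρ1.trans hr1⟩
    have hgain := quad_le_tailGain (Q := bregPoly C.m) (x := x) (η := C.η)
      (l := affVal I.l0 I.l1 C.Dc U X) hm1 hη0 h.ht hρI
      (fun t ht r hr => bregPoly_mul_le hm1 ht hr)
      (by rw [hQ]; exact mul_le_mul_of_nonneg_left wl hp.le)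
    refine le_trans (le_of_eq ?_) (mult_gain H t x ρ A _ zero_le_one (mult_pos H h).le hgain)
    have hDc : (C.Dc : ℝ) ≠ 0 := Int.cast_ne_zero.2 H.Dc.ne'
    have hDet : (C.Det : ℝ) ≠ 0 := Int.cast_ne_zero.2 H.Det.ne'
    simp only [affVal, Cfg.η, cast_mul']
    field_simp
    ring

/-- The common part of the left side against the rows. -/
theorem lhs_identity {m n t v x ρ q dal dbe dga dsi al be ga si Φ Φ' P' SP S P T Da Dc k nT w
    Aal Abe Aga Asi Eal Ebe Ega Esi : ℝ}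
    (hm : m ≠ 0) (hDa : Da ≠ 0) (hDc : Dc ≠ 0) (hS : S ≠ 0) (hn : n = m + 1) (hx : x = 1 + v)
    (hk : k * Da = m * nT) (ht : t = T / S) (hSP : SP = S * P)
    (h1 : al = Eal / Dc) (h2 : be = Ebe / Dc) (h3 : ga = Ega / Dc) (h4 : si = Esi / Dc)
    (hP : P' = P / (2 * Da * Dc))
    (d1 : dal = Aal * P') (d2 : dbe = Abe * P') (d3 : dga = Aga * P') (d4 : dsi = Asi * P') :
    2 * k * Da * Dc * SP * ((dal + dbe * v + dga * v ^ 2 + dsi * Φ) +
        m / 2 * x * ρ * (be + ga * (2 * v) + si * Φ') - n * t * (al + be * v + ga * v ^ 2 + si * Φ) +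
        (2 / m * v ^ 2 + q) - w / Dc * v ^ 2) =
      (k * (S * P ^ 2 * Aal) - 2 * k * n * Da * (P * T * Eal)) +
      v * (k * (S * P ^ 2 * Abe) - 2 * k * n * Da * (P * T * Ebe)) +
      v ^ 2 * (k * (S * P ^ 2 * Aga) - 2 * k * n * Da * (P * T * Ega) + 4 * nT * Dc * SP -
        2 * m * nT * (SP * w)) +
      ρ * (m ^ 2 * nT * (SP * Ebe) + v * (m ^ 2 * nT * (SP * Ebe + 2 * (SP * Ega))) +
        v ^ 2 * (2 * m ^ 2 * nT * (SP * Ega))) +
      (Φ * (k * (S * P ^ 2 * Asi) - 2 * k * n * Da * (P * T * Esi)) +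
        ρ * (2 * k * Da * (SP * Esi) * (m / 2 * x * Φ')) + 2 * k * Da * Dc * SP * q) := by
  subst hn hx ht hSP h1 h2 h3 h4 hP d1 d2 d3 d4
  obtain rfl : nT = k * Da / m := by field_simp; linarith
  field_simp
  ring

/-- The cubic parts: below one, and above one through the identity of the power. -/
theorem cubic_deriv {m : ℕ} (hm : 3 ≤ m) {x : ℝ} (h1 : 1 ≤ x) :
    (m : ℝ) / 2 * x * cubicF' m x =
      ((m : ℝ) - 1) * cubicF m x + ((m : ℝ) - 2) / m * (x - 1) ^ 2 := by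
  obtain ⟨hq, -⟩ := tailExp_mem hm
  have hq0 : tailExp m ≠ 0 := by linarith
  have hm0 : (m : ℝ) ≠ 0 := Nat.cast_ne_zero.2 (by omega)
  have e1 := tailCubic_identity (m := m) (by omega) (show 0 < x by linarith)
  have e2 : tailExp m * (m : ℝ) = 2 * ((m : ℝ) - 1) := by rw [tailExp]; field_simp
  rw [cubicF, cubicF', tailCubicPos, tailCubicPos', if_pos h1, if_pos h1]
  have e3 : tailExp m - 1 = ((m : ℝ) - 2) / m := by rw [tailExp]; field_simp; ring
  calc (m : ℝ) / 2 * x * (2 / tailExp m * tailCubic' m x)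
      = (m : ℝ) / tailExp m * (x * tailCubic' m x) := by field_simp
    _ = (m : ℝ) * tailCubic m x + (tailExp m - 1) * (x - 1) ^ 2 := by
        rw [e1]
        field_simp
    _ = _ := by
        rw [e3, ← mul_assoc, show ((m : ℝ) - 1) * (2 / tailExp m) = m by
          field_simp; linarith]

/-- What a point of an interval knows about its segment and its piece. -/
theorem cell_exists {C : Cfg} {I : Ival} (H : Head C) (hside : I.sideOK C = true) {t A : ℝ}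
    (h : AtIval C I t A) {x z : ℝ} (hx : 0 < x) (hz : z ∈ Icc (0 : ℝ) 1) {ρ : ℝ}
    (hρ : ρ = (t - z) / (1 - t * z))
    (hN : (I.node.Tn : ℝ) / I.node.Td ≤ t → x ^ 2 * ballShape t ^ C.m ≤ I.node.boundR C.m t)
    (hb : (C.b0n : ℝ) / C.b0d * (1 - t * z) ^ C.m ≤ ballShape t ^ C.m * x ^ 2) :
    ρ ≤ t ∧ -1 ≤ ρ ∧ ∃ s ∈ I.segs, (s.V0 : ℝ) / C.Dv ≤ x - 1 ∧
      (s.isTail = true ∨ s.V0 < s.V1) ∧ (s.isTail = true ∨ x - 1 ≤ (s.V1 : ℝ) / C.Dv) ∧
      s.majOK C = true ∧ s.contactOK C = true ∧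
      (C.b0n : ℝ) / C.b0d * ballShape t ^ C.m ≤ (1 - t * ρ) ^ C.m * x ^ 2 ∧ (s.contact = true ∨ ∃ q ∈ I.pieces,
      (q.R0 : ℝ) / C.Dr ≤ ρ ∧ ρ ≤ (q.R1 : ℝ) / C.Dr ∧ q.R0 ≤ s.R ∧ q.ok C I = true) := by
  simp only [Ival.sideOK, Bool.and_eq_true, QN.le_eq, QN.val_frac, val_timeN, decide_eq_true_eq,
    List.all_eq_true] at hside
  obtain ⟨⟨⟨⟨⟨⟨⟨⟨⟨⟨⟨⟨⟨⟨⟨⟨⟨⟨⟨h0, -, h1⟩, -⟩, -⟩, -⟩, -⟩, -⟩, -⟩, he⟩, -⟩, -⟩, -⟩, -⟩, hnok, hTn⟩, hch⟩,
    hend⟩, hpch⟩, hpne⟩, hpok⟩, hsok⟩ := hside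
  obtain ⟨hA0, hA1, ea, et, ep⟩ := h.point H.Da
  obtain ⟨⟨ht00, ht0t⟩, htt1, ht11⟩ := h.time_mem H.Da h0 h1
  have hp := ball_pos (sub01 h.ht)
  have hden : 0 < 1 - t * z := by nlinarith [h.ht.1, h.ht.2, hz.2]
  have ht2 : 0 ≤ 1 - t * t := by nlinarith [h.ht.1, h.ht.2]
  have hρt : ρ ≤ t := by
    rw [hρ, div_le_iff₀ hden]
    nlinarith [mul_nonneg hz.1 ht2]
  have hρ1 : -1 ≤ ρ := by
    rw [hρ, le_div_iff₀ hden]
    nlinarith [mul_nonneg (show (0 : ℝ) ≤ 1 + t by linarith [h.ht.1]) (sub_nonneg.2 hz.2)]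
  have hDv : (0 : ℝ) < C.Dv := Int.cast_pos.2 H.Dv
  obtain ⟨s, hsm, hs0, hslt, hs1'⟩ := segChain_sound H.Dv hch (v := x - 1) (by
    rw [Int.cast_neg, neg_div, div_self hDv.ne']
    linarith)
  have hs1 : s.isTail = true ∨ x - 1 ≤ (s.V1 : ℝ) / C.Dv := by
    rcases hs1' with h' | h'
    · exact h'
    have hT0 : (I.node.Tn : ℝ) / I.node.Td ≤ t := by
      have := (Rat.cast_le (K := ℝ)).2 hTn
      push_cast at this
      linarith
    simp only [Bool.or_eq_true, Bool.and_eq_true] at hend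
    rcases hend with ⟨henv, hend⟩ | hend
    · obtain ⟨U, X, hU, hX, hs, hA⟩ := h.weights
      have hch := env_chord_node H hnok (envOK_of_fast he) henv h0 h1 h
        (U := U) (X := X) ⟨hU, hX, hs, hA⟩ hx (hN hT0)
      exact .inr (envGap_le H.Dv hU hX hs hch (envOK_of_fast he) henv h' hend)
    replace hend := segEnd_of_fast hend
    rw [val_boundN, val_timeN, val_ballN] at hend
    refine (segEnd_last hend h').imp_right fun ⟨e1, e2⟩ => ?_
    have hx2 := (hN hT0).trans (Node.boundR_le (t₀ := timeQ C.Da I.A0) hnok (by linarith))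
    have e1' := (Rat.cast_nonneg (K := ℝ)).2 e1
    have e2' := (Rat.cast_le (K := ℝ)).2 e2
    push_cast at e1' e2'
    obtain ⟨-, e⟩ := timeQ_cast H.Da I.A1
    have hD : (0 : ℝ) < C.Da := Int.cast_pos.2 H.Da
    have hp1 : (ballQ C.Da I.A1 : ℝ) ≤ ballShape t := by
      rw [e, ep, div_le_div_iff₀ (by positivity) (by positivity)]
      field_simp
      nlinarith [mul_self_le_mul_self hA0 h.hi.le]
    have hp10 : 0 ≤ (ballQ C.Da I.A1 : ℝ) := by
      rw [e]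
      refine div_nonneg (sub_nonneg.2 (pow_le_one₀ (div_nonneg ?_ hD.le)
        ((div_le_one hD).2 (Int.cast_le.2 h1)))) (by positivity)
      linarith [h.hi]
    have h2 : x ^ 2 * ballShape t ^ C.m ≤
        (1 + (s.V1 : ℝ) / C.Dv) ^ 2 * ballShape t ^ C.m :=
      (hx2.trans e2').trans (mul_le_mul_of_nonneg_left (pow_le_pow_left₀ hp10 hp1 _) (sq_nonneg _))
    have h3 := le_of_pow_le_pow_left₀ two_ne_zero e1' (le_of_mul_le_mul_right h2 (pow_pos hp _))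
    linarith
  obtain ⟨⟨hmaj', hslope'⟩, hcon⟩ := hsok s hsm
  have hmaj := Seg.majOK_of_fast hmaj'
  have hb' : (C.b0n : ℝ) / C.b0d * ballShape t ^ C.m ≤ (1 - t * ρ) ^ C.m * x ^ 2 := by
    have e : 1 - t * ρ = ballShape t ^ 2 / (1 - t * z) := by
      rw [hρ, ball_sq (Ioo_subset_Icc_self (sub01 h.ht))]
      field_simp
      ring
    rw [e, div_pow (ballShape t ^ 2), div_mul_eq_mul_div ((ballShape t ^ 2) ^ C.m),
      le_div_iff₀ (pow_pos hden _), ← pow_mul, Nat.mul_comm, pow_mul]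
    calc (C.b0n : ℝ) / C.b0d * ballShape t ^ C.m * (1 - t * z) ^ C.m
        = ballShape t ^ C.m * ((C.b0n : ℝ) / C.b0d * (1 - t * z) ^ C.m) := by ring
      _ ≤ ballShape t ^ C.m * (ballShape t ^ C.m * x ^ 2) :=
          mul_le_mul_of_nonneg_left hb (pow_nonneg hp.le _)
      _ = _ := by ring
  refine ⟨hρt, hρ1, s, hsm, hs0, hslt, hs1, hmaj, hcon, hb', ?_⟩
  by_cases hcs : s.contact = true
  · exact .inl hcs
  right
  have hcs' : s.contact = false := by simpa using hcs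
  have hslope : s.slopeOK C I = true := Seg.slopeOK_of_fast (by simpa [hcs'] using hslope')
  have hρR : ρ ≤ (s.R : ℝ) / C.Dr := seg_slope h H.hm H.Da h0 h1 hslope hx hs1 hρt hb'
  have hDr : (0 : ℝ) < C.Dr := Int.cast_pos.2 H.Dr
  obtain ⟨q, hqm, hq0, hq1, hqR⟩ := pieceChain_sound (a := -C.Dr) H.Dr hpch hsm hcs' (ρ := ρ)
    (by rw [Int.cast_neg, neg_div, div_self hDr.ne']; exact hρ1) hρR (.inr (by
      intro e
      simp [e] at hpne))
  exact ⟨q, hqm, hq0, hq1, hqR, Piece.ok_of_fast (hpok q hqm)⟩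

/-- The left side of the pointwise inequality less the affine bound of the potential. -/
noncomputable def lhsL (C : Cfg) (I : Ival) (U X t x z ρ : ℝ) : ℝ :=
  ballShape t ^ 2 * (C.flux.sep C.Da C.Dc C.m).Dt t x z +
    (C.m : ℝ) / 2 * x * ρ * (C.flux.sep C.Da C.Dc C.m).Dx t x z -
    ((C.m : ℝ) + 1) * t * (C.flux.sep C.Da C.Dc C.m).D t x z + tailLoss C.m x -
    affVal I.w0 I.w1 C.Dc U X * (x - 1) ^ 2 +
  ((C.τ₃ - C.τ₁) * (2 * (x - 1) + (x - 1) ^ 2) * ((C.rA : ℝ) / C.Dc * ballShape t - 1) +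
    C.τ₃ * tailLoss C.m x - C.κ * (x - 1))

/-- The part of the multipliers in the rows. -/
theorem extra_identity {M k Da Dc S P m n Dth Det t1 t3 rA kap p v q : ℝ} (hDc : Dc ≠ 0) (hS : S ≠ 0)
    (hDth : Dth ≠ 0) (hm : m ≠ 0) (hk : k = m * n * (Dth * Det))
    (hM : M = 2 * k * Da * Dc * (S * P)) (hp : p = P / S) :
    M * ((t3 / Dth - t1 / Dth) * (2 * v + v ^ 2) * (rA / Dc * p - 1) +
        t3 / Dth * (2 / m * v ^ 2 + q) - kap / Dc * v) =
      v * (2 * (2 * (m * n) * (Det * Da) * (t3 - t1) * (rA * P ^ 2 - Dc * (S * P))) -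
          2 * (m * n) * (Det * Da) * Dth * kap * (S * P)) +
      v ^ 2 * (4 * (n * Det * t3 * Da) * Dc * (S * P) +
        2 * (m * n) * (Det * Da) * (t3 - t1) * (rA * P ^ 2 - Dc * (S * P))) +
      M * (t3 / Dth) * q := by
  subst hk hM hp
  field_simp
  ring

theorem deriv_value {C : Cfg} {I : Ival} {t A : ℝ} (H : Head C) (h : AtIval C I t A) (e : Quad)
    {d : ℝ} (hd : d = ((e.e1 : ℝ) + 2 * e.e2 * A) / C.Dc *
      (C.Da * (1 / (ballShape t * (1 + ballShape t))))) :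
    ballShape t ^ 2 * d = e.slope A * (fP C A / (2 * C.Da * C.Dc)) := by
  obtain ⟨-, -, ea, -, -⟩ := h.point H.Da
  have hpd := halfAngle_deriv_eq h.ht
  rw [ea] at hpd
  have hDa : (C.Da : ℝ) ≠ 0 := Int.cast_ne_zero.2 H.Da.ne'
  have hDc : (C.Dc : ℝ) ≠ 0 := Int.cast_ne_zero.2 H.Dc.ne'
  calc ballShape t ^ 2 * d = ((e.e1 : ℝ) + 2 * e.e2 * A) / C.Dc * C.Da *
        (ballShape t ^ 2 * (1 / (ballShape t * (1 + ballShape t)))) := by rw [hd]; ring
    _ = _ := by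
        rw [hpd, Quad.slope, fP]
        field_simp

theorem lhs_rows {C : Cfg} {I : Ival} {t A U X : ℝ} (H : Head C) (h : AtIval C I t A)
    (fa : kinkFree I.A0 I.A1 C.flux.al.kinks = true)
    (fb : kinkFree I.A0 I.A1 C.flux.be.kinks = true)
    (fg : kinkFree I.A0 I.A1 C.flux.ga.kinks = true)
    (fs : kinkFree I.A0 I.A1 C.flux.si.kinks = true) (x z ρ : ℝ)
    (h5 : x ≤ 3 ∨ C.flux.k5 = ⟨0, 0, 0, []⟩) :
    C.mult A * lhsL C I U X t x z ρ =
      (I.rowsR C U X A).a0 + (x - 1) * (I.rowsR C U X A).a1 + (x - 1) ^ 2 * (I.rowsR C U X A).a2 +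
      ρ * ((I.rowsR C U X A).b0 + (x - 1) * (I.rowsR C U X A).b1 +
        (x - 1) ^ 2 * (I.rowsR C U X A).b2) +
      (cubicF C.m x * acoefV C (C.flux.si.line I.A0) A +
        ρ * (2 * C.k1R * C.Da * (fS C A * fP C A * (C.flux.si.line I.A0).val A) *
          ((C.m : ℝ) / 2 * x * cubicF' C.m x)) +
        C.mult A * (1 + C.τ₃) * (2 / tailExp C.m * tailCubic C.m x)) := by
  obtain ⟨va, va'⟩ := Spline.at_line (Dc := C.Dc) fa (Da := C.Da) (t := t)
    (h.hA ▸ h.lo) (h.hA ▸ h.hi)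
  obtain ⟨vb, vb'⟩ := Spline.at_line (Dc := C.Dc) fb (Da := C.Da) (t := t)
    (h.hA ▸ h.lo) (h.hA ▸ h.hi)
  obtain ⟨vg, vg'⟩ := Spline.at_line (Dc := C.Dc) fg (Da := C.Da) (t := t)
    (h.hA ▸ h.lo) (h.hA ▸ h.hi)
  obtain ⟨vs, vs'⟩ := Spline.at_line (Dc := C.Dc) fs (Da := C.Da) (t := t)
    (h.hA ▸ h.lo) (h.hA ▸ h.hi)
  rw [← h.hA] at va va' vb vb' vg vg' vs vs'
  obtain ⟨-, -, -, et, -⟩ := h.point H.Da
  have hm0 : (C.m : ℝ) ≠ 0 := Nat.cast_ne_zero.2 (by linarith [H.hm])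
  have hDa : (C.Da : ℝ) ≠ 0 := Int.cast_ne_zero.2 H.Da.ne'
  have hDc : (C.Dc : ℝ) ≠ 0 := Int.cast_ne_zero.2 H.Dc.ne'
  have hS : fS C A ≠ 0 := by
    unfold fS
    have : (0 : ℝ) < C.Da := Int.cast_pos.2 H.Da
    positivity
  have key := lhs_identity (m := (C.m : ℝ)) (n := (C.m : ℝ) + 1) (t := t)
    (v := x - 1) (x := x) (ρ := ρ) (q := 2 / tailExp C.m * tailCubic C.m x)
    (Φ := cubicF C.m x) (Φ' := cubicF' C.m x) (S := fS C A) (P := fP C A) (T := fT C A)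
    (SP := fS C A * fP C A) (Da := C.Da) (Dc := C.Dc) (k := C.k1R) (nT := C.nTaR)
    (w := I.w0 * U + I.w1 * X) hm0 hDa hDc hS rfl (by ring)
    (by rw [Cfg.k1R, Cfg.nTaR]; ring) et rfl va vb vg vs rfl
    (deriv_value H h _ va') (deriv_value H h _ vb') (deriv_value H h _ vg') (deriv_value H h _ vs')
  have hex := extra_identity (M := C.mult A) (k := C.k1R) (Da := C.Da) (Dc := C.Dc)
    (S := fS C A) (P := fP C A) (m := (C.m : ℝ)) (n := (C.m : ℝ) + 1) (Dth := C.Dth) (Det := C.Det)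
    (t1 := C.t1) (t3 := C.t3) (rA := C.rA) (kap := C.kap) (v := x - 1)
    (q := 2 / tailExp C.m * tailCubic C.m x) hDc hS (Int.cast_ne_zero.2 H.Dth.ne') hm0
    (by rw [Cfg.k1R]) (by rw [Cfg.mult]) (h.point H.Da).2.2.2.2
  simp only [Ival.rowsR, acoefV, Cfg.mult, Quad.val, Cfg.bRow, Cfg.m2R, Cfg.nT3R, Cfg.nTaR,
    Cfg.τ₃,] at key hex ⊢
  have key2 := congr (congrArg HAdd.hAdd key) hex
  refine Eq.trans ?_ (key2.trans (by ring))
  have z5 : C.flux.k5.val C.Da C.Dc t * farSq x = 0 ∧ C.flux.k5.val' C.Da C.Dc t * farSq x = 0 ∧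
      C.flux.k5.val C.Da C.Dc t * farSq' x = 0 := by
    rcases h5 with e | e
    · simp [farSq_low e]
    · rw [e]
      simp [Spline.val, Spline.at_, Spline.val', kinkVal, kinkSlope]
  rw [lhsL, Flux.Dt_eq, Flux.Dx_eq, Flux.D_eq, tailLoss_eq H.hm, affVal, z5.1, z5.2.1, z5.2.2,
    Cfg.τ₃, Cfg.τ₁, Cfg.κ]
  ring

/-- Above one the rows are linear in the cubic loss. -/
theorem lhs_above {C : Cfg} {I : Ival} {A U X x ρ L : ℝ} (H : Head C) (hx1 : 1 ≤ x)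
    (hid : C.mult A * L =
      (I.rowsR C U X A).a0 + (x - 1) * (I.rowsR C U X A).a1 + (x - 1) ^ 2 * (I.rowsR C U X A).a2 +
      ρ * ((I.rowsR C U X A).b0 + (x - 1) * (I.rowsR C U X A).b1 +
        (x - 1) ^ 2 * (I.rowsR C U X A).b2) +
      (cubicF C.m x * acoefV C (C.flux.si.line I.A0) A +
        ρ * (2 * C.k1R * C.Da * (fS C A * fP C A * (C.flux.si.line I.A0).val A) *
          ((C.m : ℝ) / 2 * x * cubicF' C.m x)) +
        C.mult A * (1 + C.τ₃) * (2 / tailExp C.m * tailCubic C.m x))) :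
    C.mult A * L =
      (I.rowsR C U X A).a0 + (x - 1) * (I.rowsR C U X A).a1 + (x - 1) ^ 2 * (I.rowsR C U X A).a2 +
      ρ * ((I.rowsR C U X A).b0 + (x - 1) * (I.rowsR C U X A).b1 +
        (x - 1) ^ 2 * ((I.rowsR C U X A).b2 + (I.rowsR C U X A).b2σ)) +
      cubicF C.m x * ((I.rowsR C U X A).V0 + ρ * (I.rowsR C U X A).V1) := by
  rw [hid, cubic_deriv H.hm hx1]
  have hDth : (C.Dth : ℝ) ≠ 0 := Int.cast_ne_zero.2 H.Dth.ne'
  have e : 2 / tailExp C.m * tailCubic C.m x = cubicF C.m x := by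
    rw [cubicF, tailCubicPos, if_pos hx1]
  rw [e]
  have hm0 : (C.m : ℝ) ≠ 0 := Nat.cast_ne_zero.2 (by linarith [H.hm])
  simp only [Ival.rowsR, Cfg.mult, Cfg.k1R, Cfg.nTaR, Cfg.nT3R, Cfg.τ₃]
  field_simp
  ring

/-- Below one the cubic loss is below its cubic term. -/
theorem lhs_below {C : Cfg} {I : Ival} {A U X x ρ L : ℝ} (H : Head C) (hx : 0 < x) (hx1 : x ≤ 1)
    (hM : 0 ≤ C.mult A)
    (hid : C.mult A * L =
      (I.rowsR C U X A).a0 + (x - 1) * (I.rowsR C U X A).a1 + (x - 1) ^ 2 * (I.rowsR C U X A).a2 +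
      ρ * ((I.rowsR C U X A).b0 + (x - 1) * (I.rowsR C U X A).b1 +
        (x - 1) ^ 2 * (I.rowsR C U X A).b2) +
      (cubicF C.m x * acoefV C (C.flux.si.line I.A0) A +
        ρ * (2 * C.k1R * C.Da * (fS C A * fP C A * (C.flux.si.line I.A0).val A) *
          ((C.m : ℝ) / 2 * x * cubicF' C.m x)) +
        C.mult A * (1 + C.τ₃) * (2 / tailExp C.m * tailCubic C.m x))) :
    3 * (C.m : ℝ) * (C.mult A * L + (I.rowsR C U X A).dB * (2 * (x - 1) + (x - 1) ^ 2)) ≤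
      cubicAt ![3 * (C.m : ℝ) * (I.rowsR C U X A).a0,
        3 * C.m * ((I.rowsR C U X A).a1 + 2 * (I.rowsR C U X A).dB),
        3 * C.m * ((I.rowsR C U X A).a2 + (I.rowsR C U X A).dB), (I.rowsR C U X A).C3] (x - 1) +
      ρ * cubicAt ![3 * (C.m : ℝ) * (I.rowsR C U X A).b0, 3 * C.m * (I.rowsR C U X A).b1,
        3 * C.m * (I.rowsR C U X A).b2, 0] (x - 1) := by
  have hm0 : (0 : ℝ) < C.m := Nat.cast_pos.2 (by linarith [H.hm])
  have hF : cubicF C.m x = 0 ∧ cubicF' C.m x = 0 := by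
    rcases hx1.eq_or_lt with e | e
    · subst e
      simp [cubicF, cubicF', tailCubicPos, tailCubicPos', (tailCubic_one C.m).1,
        (tailCubic_one C.m).2]
    · simp [cubicF, cubicF', tailCubicPos, tailCubicPos', e.not_ge]
  have hDth : (C.Dth : ℝ) ≠ 0 := Int.cast_ne_zero.2 H.Dth.ne'
  have hτ : 0 ≤ 1 + C.τ₃ :=
    add_nonneg zero_le_one (div_nonneg (Int.cast_nonneg H.t3) (Int.cast_nonneg H.Dth.le))
  have hc3 := mul_le_mul_of_nonneg_left (tailCubic_le_cube H.hm hx) (mul_nonneg hM hτ)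
  rw [hid, hF.1, hF.2]
  have e3 : C.mult A * (1 + C.τ₃) * (2 * ((C.m : ℝ) - 2) / (3 * (C.m : ℝ) ^ 2) * (x - 1) ^ 3) =
      (I.rowsR C U X A).C3 * (x - 1) ^ 3 / (3 * C.m) := by
    simp only [Ival.rowsR, Cfg.mult, Cfg.k1R, Cfg.nT3R, Cfg.τ₃]
    field_simp
    ring
  rw [e3, le_div_iff₀ (by linarith)] at hc3
  simp only [cubicAt, Matrix.cons_val]
  linarith

theorem linear_nonneg {D a b r₀ r₁ ρ : ℝ} (hD : 0 < D) (h0 : r₀ / D ≤ ρ) (h1 : ρ ≤ r₁ / D)
    (u1 : 0 ≤ D * a + r₀ * b) (u2 : 0 ≤ D * a + r₁ * b) : 0 ≤ a + ρ * b := by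
  rw [div_le_iff₀ hD] at h0
  rw [le_div_iff₀ hD] at h1
  rcases le_total 0 b with hb' | hb'
  · nlinarith [mul_le_mul_of_nonneg_right h0 hb']
  · nlinarith [mul_le_mul_of_nonpos_right h1 hb']

theorem pk_nonneg {U X v : ℝ} {p : Pk} (hU : 0 ≤ U) (hX : 0 ≤ X) (hp : Rep U X 7 p v)
    (hn : p.nn 8 = true) : 0 ≤ v := by
  simp only [Pk.nn, Bool.and_eq_true, Nat.blt_eq] at hn
  exact hp.nonneg hU hX hn.1 hn.2

/-- From a cell bound to the inequality. -/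
theorem cell_finish {Z sc a b ρ mth x B M L T : ℝ} (hZ : 0 < Z) (hsc : 0 < sc)
    (hcl : Z * (a + ρ * b) ≤ sc * x ^ 2 * mth * B) (hg : mth * x ^ 2 * B ≤ Z * T)
    (hle : sc * (M * L) ≤ a + ρ * b) : M * L ≤ T := by
  refine le_of_mul_le_mul_left (le_of_mul_le_mul_left ?_ hsc) hZ
  calc sc * (Z * (M * L)) = Z * (sc * (M * L)) := by ring
    _ ≤ Z * (a + ρ * b) := mul_le_mul_of_nonneg_left hle hZ.le
    _ ≤ _ := hcl
    _ = sc * (mth * x ^ 2 * B) := by ring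
    _ ≤ _ := mul_le_mul_of_nonneg_left hg hsc.le

theorem cellsWith_mem {f : Gain → Mult → Mult → Bool} : ∀ {G : List Gain} {a b : List Mult},
    cellsWith f G a b = true → ∀ g ∈ G, ∃ M N : Mult, f g M N = true
  | [], _, _, _, g, hg => by simp at hg
  | g₀ :: G, a, b, h, g, hg => by
      simp only [cellsWith, Bool.and_eq_true] at h
      rcases List.mem_cons.1 hg with rfl | hg
      · exact ⟨_, _, h.1⟩
      · exact cellsWith_mem h.2 g hg

/-- A passed cell bounds the left side by the gain. -/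
theorem cell_pay {C : Cfg} {I : Ival} {s : Seg} {q : Piece} {t A U X x ρ : ℝ} (H : Head C)
    (w : Wt C I U X A) (hx : 0 < x) (hM : 0 < C.mult A) (hs0 : (s.V0 : ℝ) / C.Dv ≤ x - 1)
    (hslt : s.isTail = true ∨ s.V0 < s.V1) (hs1 : s.isTail = true ∨ x - 1 ≤ (s.V1 : ℝ) / C.Dv)
    (hq0 : (q.R0 : ℝ) / C.Dr ≤ ρ) (hq1 : ρ ≤ (q.R1 : ℝ) / C.Dr) (hqlt : q.R0 < q.R1)
    (hqR : q.R0 ≤ s.R) (hmaj : s.majOK C = true)
    {Q : Pk} {R : Rows} (RR : RowsRep U X R (I.rowsR C U X A)) (hcon : s.contact = false)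
    (hc : segCells C R (I.pieces.map fun q => q.gain C (I.forms C) R) Q
      (I.pads C) s = true) (P : PadsVal C I U X A (x - 1) ρ s)
    (hqm : q ∈ I.pieces) {e₀ e₁ e₂ : ℝ} (hz0 : 0 < ((q.gain C (I.forms C) R).z : ℝ))
    (g0 : Rep U X 7 (q.gain C (I.forms C) R).g0 (((C.m : ℝ) * C.m * C.th) *
      ((C.Dr : ℝ) ^ 2 * e₀ + C.Dr * q.R0 * e₁ + (q.R0 : ℝ) ^ 2 * e₂)))
    (g1 : Rep U X 7 (q.gain C (I.forms C) R).g1 (((C.m : ℝ) * C.m * C.th) *
      (2 * (C.Dr : ℝ) ^ 2 * e₀ + C.Dr * (q.R0 + q.R1) * e₁ + 2 * q.R0 * q.R1 * e₂)))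
    (g2 : Rep U X 7 (q.gain C (I.forms C) R).g2 (((C.m : ℝ) * C.m * C.th) *
      ((C.Dr : ℝ) ^ 2 * e₀ + C.Dr * q.R1 * e₁ + (q.R1 : ℝ) ^ 2 * e₂)))
    (hgain : ((C.m : ℝ) * C.m * C.th) * x ^ 2 * (e₀ + ρ * e₁ + ρ ^ 2 * e₂) ≤
      ((q.gain C (I.forms C) R).z : ℝ) * cellGainTerm C t x ρ A) {L L' : ℝ}
    (hLA : 1 ≤ x → C.mult A * L' ≤ C.mult A * L)
    (hLB : x ≤ 1 → C.mult A * L' ≤
      C.mult A * L + (I.rowsR C U X A).dB * (2 * (x - 1) + (x - 1) ^ 2))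
    (hid : C.mult A * L =
      (I.rowsR C U X A).a0 + (x - 1) * (I.rowsR C U X A).a1 + (x - 1) ^ 2 * (I.rowsR C U X A).a2 +
      ρ * ((I.rowsR C U X A).b0 + (x - 1) * (I.rowsR C U X A).b1 +
        (x - 1) ^ 2 * (I.rowsR C U X A).b2) +
      (cubicF C.m x * acoefV C (C.flux.si.line I.A0) A +
        ρ * (2 * C.k1R * C.Da * (fS C A * fP C A * (C.flux.si.line I.A0).val A) *
          ((C.m : ℝ) / 2 * x * cubicF' C.m x)) +
        C.mult A * (1 + C.τ₃) * (2 / tailExp C.m * tailCubic C.m x))) :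
    C.mult A * L' ≤ cellGainTerm C t x ρ A := by
  have hU := w.hU
  have hX := w.hX
  generalize hV : I.rowsR C U X A = V at hid RR hLB
  have hR0 : (q.gain C (I.forms C) R).R0 = q.R0 := rfl
  have hR1 : (q.gain C (I.forms C) R).R1 = q.R1 := rfl
  have hqlt' : (q.gain C (I.forms C) R).R0 < (q.gain C (I.forms C) R).R1 := hqlt
  have hGm : q.gain C (I.forms C) R ∈
      I.pieces.map (fun q => q.gain C (I.forms C) R) := List.mem_map.2 ⟨q, hqm, rfl⟩
  have hskip : ¬ s.R < (q.gain C (I.forms C) R).R0 := not_lt.2 hqR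
  have hx1 : (1 + (x - 1)) ^ 2 = x ^ 2 := by ring
  match hk : s.kind with
  | .below =>
    simp only [segCells, hcon, Bool.false_eq_true, if_false, hk] at hc
    obtain ⟨M, -, hc'⟩ := cellsWith_mem hc _ hGm
    simp only [Bool.or_eq_true, ile_eq, Bool.not_eq_true', decide_eq_false_iff_not, not_le] at hc'
    replace hc' := hc'.resolve_left hskip
    have hxle : x ≤ 1 := by
      have hh1 := hs1.resolve_left (by simp [Seg.isTail, hk])
      simp only [Seg.majOK, Seg.majTop, hk, Bool.and_eq_true, decide_eq_true_eq] at hmaj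
      have : (s.V1 : ℝ) / C.Dv ≤ 0 :=
        div_nonpos_of_nonpos_of_nonneg (Int.cast_nonpos.2 hmaj.1) (Int.cast_nonneg H.Dv.le)
      linarith
    have h3m : ((imul 3 (Int.ofNat C.m) : ℤ) : ℝ) = 3 * C.m := by
      rw [cast_mul', cast_ofNat']; norm_num
    have cl := cellMult_sound (c₀ := ![3 * (C.m : ℝ) * V.a0, 3 * C.m * (V.a1 + 2 * V.dB),
        3 * C.m * (V.a2 + V.dB), V.C3])
      (c₁ := ![3 * (C.m : ℝ) * V.b0, 3 * C.m * V.b1, 3 * C.m * V.b2, 0]) w H.Dv hslt hs0 hs1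
      H.Dr hqlt' hq0 hq1
      rfl
      ((((ctrl3_rep RR.a0 (RR.a1.add (RR.dB.smul 2)) (RR.a2.add RR.dB) _).smul _).add
        (colD_rep RR.C3 _)).congr fun k => by simp [V4.app, imul_eq]; ring)
      (((ctrl3_rep RR.b0 RR.b1 RR.b2 _).smul _).congr fun k => by simp [V4.app, imul_eq]; ring)
      h3m (by positivity) hz0.le g0 g1 g2 P hc'
    rw [hx1] at cl
    have hm0 : (0 : ℝ) < C.m := Nat.cast_pos.2 (by linarith [H.hm])
    refine (hLB hxle).trans ((one_mul _).symm.trans_le (cell_finish (M := 1)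
      (L := C.mult A * L + V.dB * (2 * (x - 1) + (x - 1) ^ 2)) hz0 (by linarith) cl hgain ?_))
    subst hV
    rw [one_mul]
    exact lhs_below H hx hxle hM.le hid
  | .mid | .tail =>
    simp only [segCells, hcon, Bool.false_eq_true, if_false, hk] at hc
    obtain ⟨M, N, hc'⟩ := cellsWith_mem hc _ hGm
    simp only [Bool.or_eq_true, Bool.and_eq_true, ile_eq, Bool.not_eq_true', decide_eq_false_iff_not, not_le] at hc'
    obtain ⟨hz', hf'⟩ := hc'.resolve_left hskip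
    obtain ⟨hx1', hmaj'⟩ := seg_majorant (x := x) H.hm H.Dv H.Dc hmaj (by simp [hk]) hs0
    have hDc' : (0 : ℝ) < C.Dc := Int.cast_pos.2 H.Dc
    have hΦ0 : 0 ≤ cubicF C.m x := (cubicF_bounds H.hm hx.le).1
    have hΦr := (le_div_iff₀ hDc').1 hmaj'
    have hfull : C.mult A * L = V.a0 + (x - 1) * V.a1 + (x - 1) ^ 2 * V.a2 +
        ρ * (V.b0 + (x - 1) * V.b1 + (x - 1) ^ 2 * (V.b2 + V.b2σ)) +
        cubicF C.m x * (V.V0 + ρ * V.V1) := by
      subst hV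
      exact lhs_above H hx1' hid
    refine (hLA hx1').trans ?_
    have full : cellMult C.Dr ((R.baseSide (s.ctrl C) C.Dc).loss R (s.ctrl C)
          ⟨s.r0, s.r1, s.r2, s.r3⟩) ((I.pads C).cons C s (s.ctrl C) C.Dc) N (q.gain C (I.forms C) R) = true →
        0 ≤ V.V0 + ρ * V.V1 → C.mult A * L ≤ cellGainTerm C t x ρ A := by
      intro hok hsign
      have cl := cellMult_sound (S := (R.baseSide (s.ctrl C) C.Dc).loss R (s.ctrl C)
          ⟨s.r0, s.r1, s.r2, s.r3⟩)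
        (c₀ := ![C.Dc * V.a0 + s.r0 * V.V0, C.Dc * V.a1 + s.r1 * V.V0,
          C.Dc * V.a2 + s.r2 * V.V0, s.r3 * V.V0])
        (c₁ := ![C.Dc * V.b0 + s.r0 * V.V1, C.Dc * V.b1 + s.r1 * V.V1,
          C.Dc * (V.b2 + V.b2σ) + s.r2 * V.V1, s.r3 * V.V1])
        w H.Dv hslt hs0 hs1 H.Dr hqlt' hq0 hq1
        rfl
        ((((ctrl3_rep RR.a0 RR.a1 RR.a2 _).smul _).add (polyW_rep RR.V0 _ _)).congr fun k => by
          simp [V4.app]; ring)
        ((((ctrl3_rep RR.b0 RR.b1 (RR.b2.add RR.b2σ) _).smul _).add (polyW_rep RR.V1 _ _)).congr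
          fun k => by simp [V4.app]; ring)
        rfl hDc'.le hz0.le g0 g1 g2 P hok
      rw [hx1] at cl
      refine cell_finish hz0 hDc' cl hgain ?_
      rw [hfull]
      have := mul_le_mul_of_nonneg_right hΦr hsign
      simp only [cubicAt, Matrix.cons_val]
      linarith
    have hmin := (div_le_iff₀ hDc').1
      (seg_minorant (x := x) H.hm H.Dv H.Dc hmaj hx1' hslt hs0 hs1)
    have zero : cellMult C.Dr ((R.baseSide (s.ctrl C) C.Dc).loss R (s.ctrl C)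
          ⟨s.l0, s.l1, s.l2, 0⟩) ((I.pads C).cons C s (s.ctrl C) C.Dc) M (q.gain C (I.forms C) R) = true →
        V.V0 + ρ * V.V1 ≤ 0 → C.mult A * L ≤ cellGainTerm C t x ρ A := by
      intro hok hsign
      have cl := cellMult_sound (S := (R.baseSide (s.ctrl C) C.Dc).loss R (s.ctrl C)
          ⟨s.l0, s.l1, s.l2, 0⟩)
        (c₀ := ![C.Dc * V.a0 + s.l0 * V.V0, C.Dc * V.a1 + s.l1 * V.V0,
          C.Dc * V.a2 + s.l2 * V.V0, ((0 : ℤ) : ℝ) * V.V0])
        (c₁ := ![C.Dc * V.b0 + s.l0 * V.V1, C.Dc * V.b1 + s.l1 * V.V1,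
          C.Dc * (V.b2 + V.b2σ) + s.l2 * V.V1, ((0 : ℤ) : ℝ) * V.V1])
        w H.Dv hslt hs0 hs1 H.Dr hqlt' hq0 hq1
        rfl
        ((((ctrl3_rep RR.a0 RR.a1 RR.a2 _).smul _).add (polyW_rep RR.V0 _ _)).congr fun k => by
          simp [V4.app]; ring)
        ((((ctrl3_rep RR.b0 RR.b1 (RR.b2.add RR.b2σ) _).smul _).add (polyW_rep RR.V1 _ _)).congr
          fun k => by simp [V4.app]; ring)
        rfl hDc'.le hz0.le g0 g1 g2 P hok
      rw [hx1] at cl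
      refine cell_finish hz0 hDc' cl hgain ?_
      rw [hfull]
      have := mul_le_mul_of_nonpos_right hmin hsign
      simp only [cubicAt, Matrix.cons_val, Int.cast_zero]
      linarith
    have hDr : (0 : ℝ) < C.Dr := Int.cast_pos.2 H.Dr
    rcases hz' with hpos | hz'
    · simp only [Piece.gain, Bool.and_eq_true] at hpos
      have p0 := pk_nonneg hU hX ((RR.V0.smul C.Dr).add (RR.V1.smul q.R0)) hpos.1
      have p1 := pk_nonneg hU hX ((RR.V0.smul C.Dr).add (RR.V1.smul q.R1)) hpos.2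
      rcases hf' with hneg | hf'
      · simp only [Piece.gain, hpos.1, hpos.2, Bool.and_self, Bool.not_true, Bool.false_and,
          Bool.false_eq_true] at hneg
      · exact full hf' (linear_nonneg hDr hq0 hq1 p0 p1)
    · rcases hf' with hneg | hf'
      · simp only [Piece.gain, Bool.and_eq_true] at hneg
        have n0 := pk_nonneg hU hX (((RR.V0.smul C.Dr).add (RR.V1.smul q.R0)).smul (-1)) hneg.1.2
        have n1 := pk_nonneg hU hX (((RR.V0.smul C.Dr).add (RR.V1.smul q.R1)).smul (-1)) hneg.2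
        push_cast at n0 n1
        have hle : 0 ≤ -V.V0 + ρ * -V.V1 :=
          linear_nonneg hDr hq0 hq1 (by linarith) (by linarith)
        exact zero hz' (by linarith)
      · rcases le_total 0 (V.V0 + ρ * V.V1) with hsign | hsign
        · exact full hf' hsign
        · exact zero hz' hsign

/-- A passed ratio chain: the quadratic form is nonnegative from the first ratio on. -/
theorem ratioChain_sound {C : Cfg} {s : Seg} {U X v vg : ℝ} {D σ : ℤ} {r : R4 × R4}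
    {c₀ c₁ : Fin 4 → ℝ} {g : Pk} (hU : 0 ≤ U) (hX : 0 ≤ X) (hDv : 0 < C.Dv)
    (hlt : s.isTail = true ∨ s.V0 < s.V1) (h0 : (s.V0 : ℝ) / C.Dv ≤ v)
    (h1 : s.isTail = true ∨ v ≤ (s.V1 : ℝ) / C.Dv) (hD : 0 < D)
    (hr₀ : R4Rep U X r.1 c₀) (hr₁ : R4Rep U X r.2 c₁) (hg : Rep U X 7 g vg) :
    (∀ {k0 k1 k2 : ℤ}, ratioTest (mkSide (s.ctrl C) r σ) g k0 k1 k2 = true →
      0 ≤ (k2 : ℝ) * (σ * (1 + v) ^ 2 * vg) - k0 * cubicAt c₀ v - k1 * cubicAt c₁ v) ∧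
    ∀ {l : List ℤ} {a : ℤ}, ratioChain D (mkSide (s.ctrl C) r σ) g a l = true → ∀ {τ : ℝ},
      (a : ℝ) ≤ τ * D → 0 ≤ τ ^ 2 * (σ * (1 + v) ^ 2 * vg) - τ * cubicAt c₁ v - cubicAt c₀ v := by
  have test : ∀ {k0 k1 k2 : ℤ}, ratioTest (mkSide (s.ctrl C) r σ) g k0 k1 k2 = true →
      0 ≤ (k2 : ℝ) * (σ * (1 + v) ^ 2 * vg) - k0 * cubicAt c₀ v - k1 * cubicAt c₁ v := by
    intro k0 k1 k2 h
    simp only [ratioTest, Pk.nn, Bool.and_eq_true, Nat.blt_eq, mkSide, sideW] at h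
    have key := seg_cubic hDv hlt h0 h1
      (c := fun i => (σ : ℝ) * ((k2 : ℝ) * vg) * ![1, 2, 1, 0] i + (-(k0 : ℝ) * c₀ i + -(k1 : ℝ) * c₁ i))
      fun k => by
        have key := RepFour.nonneg hU hX ((spread_rep _ (hg.smul k2)).add
          (((hr₀.ctrl _).smul (ineg k0)).add ((hr₁.ctrl _).smul (ineg k1)))) h.1 h.2 k
        refine key.trans_eq ?_
        fin_cases k <;>
        · simp only [ctrlAt, Matrix.cons_val, V4.app, V4.sq, cast_mul', cast_add', cast_neg']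
          push_cast
          ring
    refine key.trans_eq ?_
    simp only [cubicAt, Matrix.cons_val]
    ring
  refine ⟨test, ?_⟩
  have hD' : (0 : ℝ) < D := Int.cast_pos.2 hD
  intro l
  induction l with
  | nil =>
    intro a h τ hτ
    simp only [ratioChain, Bool.and_eq_true] at h
    have k₀ := test h.1.1
    have k₁ := test h.1.2
    have k₂ := test h.2
    simp only [cast_mul'] at k₀ k₁ k₂
    push_cast at k₀ k₁ k₂
    refine (mul_nonneg_iff_of_pos_left (mul_pos hD' hD')).1 ?_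
    have hz : 0 ≤ τ * D - a := sub_nonneg.2 hτ
    linarith [mul_nonneg hz k₁, mul_nonneg (sq_nonneg (τ * D - a)) k₂]
  | cons b l ih =>
    intro a h τ hτ
    simp only [ratioChain, Bool.and_eq_true, decide_eq_true_eq] at h
    obtain ⟨⟨⟨⟨hab, t0⟩, t1⟩, t2⟩, h4⟩ := h
    rcases le_total (τ * D) (b : ℝ) with hle | hle
    · have k₀ := test t0
      have k₁ := test t1
      have k₂ := test t2
      simp only [cast_mul', cast_add'] at k₀ k₁ k₂
      push_cast at k₀ k₁ k₂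
      have := quad_nonneg (r := τ) (e₀ := -cubicAt c₀ v) (e₁ := -cubicAt c₁ v)
        (e₂ := (σ : ℝ) * (1 + v) ^ 2 * vg) hD' (Int.cast_lt.2 hab) hτ hle
        (by linarith) (by linarith) (by linarith)
      linarith
    · exact ih h4 hle

/-- A passed contact segment: the form is nonnegative at every ratio. -/
theorem ratioOK_sound {C : Cfg} {s : Seg} {U X v vg : ℝ} {D σ : ℤ} {r : R4 × R4}
    {c₀ c₁ : Fin 4 → ℝ} {g : Pk} (hU : 0 ≤ U) (hX : 0 ≤ X) (hDv : 0 < C.Dv)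
    (hlt : s.isTail = true ∨ s.V0 < s.V1) (h0 : (s.V0 : ℝ) / C.Dv ≤ v)
    (h1 : s.isTail = true ∨ v ≤ (s.V1 : ℝ) / C.Dv) (hD : 0 < D)
    (hr₀ : R4Rep U X r.1 c₀) (hr₁ : R4Rep U X r.2 c₁) (hg : Rep U X 7 g vg) {l : List ℤ}
    (h : ratioOK D (mkSide (s.ctrl C) r σ) g l = true) :
    0 ≤ σ * (1 + v) ^ 2 * vg ∧
      ∀ τ : ℝ, 0 ≤ τ ^ 2 * (σ * (1 + v) ^ 2 * vg) - τ * cubicAt c₁ v - cubicAt c₀ v := by
  obtain ⟨test, chain⟩ := ratioChain_sound (σ := σ) hU hX hDv hlt h0 h1 hD hr₀ hr₁ hg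
  rcases l with - | ⟨a, l⟩
  · simp [ratioOK] at h
  simp only [ratioOK, Bool.and_eq_true] at h
  obtain ⟨⟨⟨t0, t1⟩, t2⟩, hl⟩ := h
  have k₀ := test t0
  have k₁ := test t1
  have k₂ := test t2
  simp only [cast_mul', cast_neg'] at k₀ k₁ k₂
  push_cast at k₀ k₁ k₂
  have hD' : (0 : ℝ) < D := Int.cast_pos.2 hD
  refine ⟨by linarith, fun τ => ?_⟩
  rcases le_total (a : ℝ) (τ * D) with hle | hle
  · exact chain hl hle
  · refine (mul_nonneg_iff_of_pos_left (mul_pos hD' hD')).1 ?_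
    have hz : 0 ≤ a - τ * D := sub_nonneg.2 hle
    linarith [mul_nonneg hz k₁, mul_nonneg (sq_nonneg (τ * D - a)) k₂]

theorem Spline.isZero_line {s : Spline} (h : s.isZero = true) (A₀ : ℤ) :
    s.line A₀ = ⟨0, 0, 0⟩ := by
  simp only [Spline.isZero, Bool.and_eq_true, decide_eq_true_eq, List.isEmpty_iff] at h
  obtain ⟨⟨a, b, c⟩, k⟩ := h
  simp only [Spline.line_eq, a, b, c, k, kinkLine]

/-- The form of a contact segment read at the point. -/
theorem ratio_at {v ρ P Q E : ℝ} (hE : 0 ≤ E)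
    (h : ∀ τ : ℝ, 0 ≤ τ ^ 2 * E - τ * Q - P) : v ^ 2 * P + ρ * v * Q ≤ ρ ^ 2 * E := by
  rcases eq_or_ne v 0 with e | e
  · subst e
    linarith [mul_nonneg (sq_nonneg ρ) hE]
  · have h2 := mul_nonneg (sq_nonneg v) (h (ρ / v))
    have e2 : v ^ 2 * ((ρ / v) ^ 2 * E - ρ / v * Q - P) = ρ ^ 2 * E - ρ * v * Q - v ^ 2 * P := by
      field_simp
    linarith

/-- The gain of a contact segment as one quadratic. -/
theorem contact_gain {C : Cfg} {I : Ival} {t A U X x ρ : ℝ} (H : Head C) (h : AtIval C I t A)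
    (hρ : ρ ∈ Icc (-1 : ℝ) 1) (hM : 0 < C.mult A)
    (wl : affVal I.l0 I.l1 C.Dc U X ≤ weightPoly (ballShape t)) :
    x ^ 2 * (((imul (imul (Int.ofNat C.m) (Int.ofNat C.m)) C.th : ℤ) : ℝ) *
      (((imul C.et C.Da : ℤ) : ℝ) * (fS C A * fP C A * (I.l0 * U + I.l1 * X)))) * ρ ^ 2 ≤
      cellGainTerm C t x ρ A := by
  have hm1 : 1 ≤ C.m := by linarith [H.hm]
  have hη0 : 0 ≤ C.η := div_nonneg (Int.cast_nonneg H.et) (Int.cast_nonneg H.Det.le)
  have hp := ball_pos (sub01 h.ht)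
  have hQ' : 2 * ((C.m : ℝ) + 1) * bregPoly C.m t = ballShape t * weightPoly (ballShape t) := by
    rw [bregPoly]; field_simp
  have hg := quad_le_tailGain (Q := bregPoly C.m) (x := x) (η := C.η)
    (l := affVal I.l0 I.l1 C.Dc U X) hm1 hη0 h.ht hρ
    (fun t ht r hr => bregPoly_mul_le hm1 ht hr)
    (by rw [hQ']; exact mul_le_mul_of_nonneg_left wl hp.le)
  have h1 := mult_gain H t x ρ A _ zero_le_one hM.le hg
  rw [one_mul] at h1
  refine le_trans (le_of_eq ?_) (h1.trans_eq (one_mul _))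
  have hDc : (C.Dc : ℝ) ≠ 0 := Int.cast_ne_zero.2 H.Dc.ne'
  have hDet : (C.Det : ℝ) ≠ 0 := Int.cast_ne_zero.2 H.Det.ne'
  simp only [affVal, Cfg.η, cast_mul', cast_ofNat']
  field_simp

/-- A passed contact segment bounds the left side by the gain. -/
theorem contact_pay {C : Cfg} {I : Ival} {s : Seg} {t A U X x ρ : ℝ} (H : Head C)
    (h : AtIval C I t A) (w : Wt C I U X A) (hl : lowerFast C I = true) (hu : upperFast C I = true)
    (hx : 0 < x) (hρ : ρ ∈ Icc (-1 : ℝ) 1) (hs0 : (s.V0 : ℝ) / C.Dv ≤ x - 1)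
    (hslt : s.isTail = true ∨ s.V0 < s.V1) (hs1 : s.isTail = true ∨ x - 1 ≤ (s.V1 : ℝ) / C.Dv)
    (hmaj : s.majOK C = true) (hcok : s.contactOK C = true) (hcon : s.contact = true) {R : Rows}
    (RR : RowsRep U X R (I.rowsR C U X A)) {G : List Gain}
    {E : Pads} (hc : segCells C R G (((I.forms C).SPLl.smul (imul C.et C.Da)).smul
      (imul (imul (Int.ofNat C.m) (Int.ofNat C.m)) C.th)) E s = true) {L L' : ℝ}
    (hLA : 1 ≤ x → C.mult A * L' ≤ C.mult A * L)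
    (hLB : x ≤ 1 → C.mult A * L' ≤
      C.mult A * L + (I.rowsR C U X A).dB * (2 * (x - 1) + (x - 1) ^ 2))
    (hid : C.mult A * L =
      (I.rowsR C U X A).a0 + (x - 1) * (I.rowsR C U X A).a1 + (x - 1) ^ 2 * (I.rowsR C U X A).a2 +
      ρ * ((I.rowsR C U X A).b0 + (x - 1) * (I.rowsR C U X A).b1 +
        (x - 1) ^ 2 * (I.rowsR C U X A).b2) +
      (cubicF C.m x * acoefV C (C.flux.si.line I.A0) A +
        ρ * (2 * C.k1R * C.Da * (fS C A * fP C A * (C.flux.si.line I.A0).val A) *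
          ((C.m : ℝ) / 2 * x * cubicF' C.m x)) +
        C.mult A * (1 + C.τ₃) * (2 / tailExp C.m * tailCubic C.m x))) :
    C.mult A * L' ≤ cellGainTerm C t x ρ A := by
  have hU := w.hU
  have hX := w.hX
  have hM := mult_pos H h
  simp only [Seg.contactOK, hcon, Bool.not_true, Bool.false_or, Bool.and_eq_true,
    decide_eq_true_eq] at hcok
  obtain ⟨⟨⟨za, zb⟩, hr0, hr1, hk, ht⟩, -⟩ := hcok
  have F := forms_val w
  obtain ⟨-, wl⟩ := weight_bounds h H.Da H.Dc hu hl w.hs w.hA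
  have z3 : (I.rowsR C U X A).a0 = 0 ∧ (I.rowsR C U X A).a1 = 0 ∧ (I.rowsR C U X A).b0 = 0 ∧
      (I.rowsR C U X A).dB = 0 := by
    refine ⟨?_, ?_, ?_, ?_⟩ <;>
    simp [Ival.rowsR, acoefV, Cfg.bRow, hk, ht, Spline.isZero_line za, Spline.isZero_line zb,
      Quad.val, Quad.slope]
  obtain ⟨za0, za1, zb0, zdB⟩ := z3
  have hLL : C.mult A * L' ≤ C.mult A * L := by
    rcases le_total x 1 with hle | hle
    · simpa [zdB] using hLB hle
    · exact hLA hle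
  refine hLL.trans ?_
  set EQ : ℝ := ((imul (imul (Int.ofNat C.m) (Int.ofNat C.m)) C.th : ℤ) : ℝ) *
    (((imul C.et C.Da : ℤ) : ℝ) * (fS C A * fP C A * (I.l0 * U + I.l1 * X))) with hEQ
  have hQ : Rep U X 7 (((I.forms C).SPLl.smul (imul C.et C.Da)).smul
      (imul (imul (Int.ofNat C.m) (Int.ofNat C.m)) C.th)) EQ := (F.SPLl.smul _).smul _
  have hgain : x ^ 2 * EQ * ρ ^ 2 ≤ cellGainTerm C t x ρ A := contact_gain H h hρ hM wl
  clear_value EQ
  refine le_trans ?_ hgain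
  generalize hV : I.rowsR C U X A = V at hid RR za0 za1 zb0 zdB
  match hk : s.kind with
  | .below =>
    simp only [segCells, hcon, if_true, hk] at hc
    have h3m : ((imul 3 (Int.ofNat C.m) : ℤ) : ℝ) = 3 * C.m := by
      rw [cast_mul', cast_ofNat']; norm_num
    obtain ⟨hE, hτ⟩ := ratioOK_sound (c₀ := ![3 * (C.m : ℝ) * V.a2, V.C3, 0, 0])
      (c₁ := ![3 * (C.m : ℝ) * V.b1, 3 * C.m * V.b2, 0, 0]) hU hX H.Dv hslt hs0 hs1 H.Dr
      ⟨((RR.a2.add RR.dB).smul _).congr (by rw [h3m, zdB, add_zero]; rfl), RR.C3, Rep.zero, Rep.zero⟩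
      ⟨(RR.b1.smul _).congr (by rw [h3m]; rfl), (RR.b2.smul _).congr (by rw [h3m]; rfl),
        Rep.zero, Rep.zero⟩ hQ hc
    have hxle : x ≤ 1 := by
      have hh1 := hs1.resolve_left (by simp [Seg.isTail, hk])
      simp only [Seg.majOK, Seg.majTop, hk, Bool.and_eq_true, decide_eq_true_eq] at hmaj
      have : (s.V1 : ℝ) / C.Dv ≤ 0 :=
        div_nonpos_of_nonpos_of_nonneg (Int.cast_nonpos.2 hmaj.1) (Int.cast_nonneg H.Dv.le)
      linarith
    have hb := lhs_below H hx hxle hM.le (by subst hV; exact hid)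
    rw [hV, za0, za1, zb0, zdB] at hb
    have key := ratio_at (v := x - 1) (ρ := ρ) hE hτ
    simp only [cubicAt, Matrix.cons_val, h3m, mul_zero, zero_mul, add_zero] at key hb
    refine le_of_mul_le_mul_left (hb.trans ?_)
      (mul_pos three_pos (Nat.cast_pos.2 (by linarith [H.hm] : 0 < C.m)))
    linarith
  | .mid | .tail =>
    simp only [segCells, hcon, if_true, hk, Bool.and_eq_true] at hc
    obtain ⟨hz', hf'⟩ := hc
    obtain ⟨hx1', hmaj'⟩ := seg_majorant (x := x) H.hm H.Dv H.Dc hmaj (by simp [hk]) hs0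
    have hDc' : (0 : ℝ) < C.Dc := Int.cast_pos.2 H.Dc
    have hΦr := (le_div_iff₀ hDc').1 hmaj'
    rw [hr0, hr1] at hΦr
    push_cast at hΦr
    have hfull := lhs_above H hx1' (by subst hV; exact hid)
    rw [hV, za0, za1, zb0] at hfull
    rcases le_total 0 (V.V0 + ρ * V.V1) with hsign | hsign
    · obtain ⟨hE, hτ⟩ := ratioOK_sound (r := R4.contact (R.full C.Dc s))
        (c₀ := ![C.Dc * V.a2 + s.r2 * V.V0, s.r3 * V.V0, 0, 0])
        (c₁ := ![C.Dc * V.b1 + s.r1 * V.V1, C.Dc * (V.b2 + V.b2σ) + s.r2 * V.V1, s.r3 * V.V1, 0])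
        hU hX H.Dv hslt hs0 hs1 H.Dr
        ⟨(RR.a2.smul _).add (RR.V0.smul _), RR.V0.smul _, Rep.zero, Rep.zero⟩
        ⟨(RR.b1.smul _).add (RR.V1.smul _), ((RR.b2.add RR.b2σ).smul _).add (RR.V1.smul _),
          RR.V1.smul _, Rep.zero⟩ hQ hf'
      have key := ratio_at (v := x - 1) (ρ := ρ) hE hτ
      simp only [cubicAt, Matrix.cons_val, hr1, Int.cast_zero] at key
      refine le_of_mul_le_mul_left ?_ hDc'
      rw [hfull]
      linarith [mul_le_mul_of_nonneg_right hΦr hsign]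
    · obtain ⟨hE, hτ⟩ := ratioOK_sound (r := R4.contact R.zero) (c₀ := ![V.a2, 0, 0, 0])
        (c₁ := ![V.b1, V.b2 + V.b2σ, 0, 0]) hU hX H.Dv hslt hs0 hs1 H.Dr
        ⟨RR.a2, Rep.zero, Rep.zero, Rep.zero⟩
        ⟨RR.b1, RR.b2.add RR.b2σ, Rep.zero, Rep.zero⟩ hQ hz'
      have key := ratio_at (v := x - 1) (ρ := ρ) hE hτ
      simp only [cubicAt, Matrix.cons_val, Int.cast_one, one_mul] at key
      rw [hfull]
      linarith [mul_nonpos_of_nonneg_of_nonpos (cubicF_bounds H.hm hx.le).1 hsign]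

theorem Head.far {C : Cfg} (H : Head C) : Head C.far :=
  ⟨H.hm, H.th, H.Dth, H.et, H.et1, H.Det, H.Da, H.Dc, H.Dr, H.Dv, H.Dw, H.b0d, H.cb, H.cbm,
    H.t1, H.t3, H.ratio, H.cover⟩

theorem seg_low_le {C : Cfg} {s : Seg} {x : ℝ} (hDv : 0 < C.Dv) (hlow : s.low C = true)
    (hs1 : s.isTail = true ∨ x - 1 ≤ (s.V1 : ℝ) / C.Dv) : x ≤ 3 := by
  simp only [Seg.low, Bool.and_eq_true, ile_eq, decide_eq_true_eq] at hlow
  have h1 := hs1.resolve_left (by simpa using hlow.1)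
  have h2 : (s.V1 : ℝ) ≤ ((imul 2 C.Dv : ℤ) : ℝ) := Int.cast_le.2 hlow.2
  rw [cast_mul'] at h2
  push_cast at h2
  have hD : (0 : ℝ) < C.Dv := Int.cast_pos.2 hDv
  have := h1.trans (div_le_div_of_nonneg_right h2 hD.le)
  rw [mul_div_assoc, div_self hD.ne'] at this
  linarith

theorem seg_high_le {C : Cfg} {s : Seg} {x : ℝ} (hDv : 0 < C.Dv) (hhi : s.high C = true)
    (hs0 : (s.V0 : ℝ) / C.Dv ≤ x - 1) : 3 ≤ x := by
  simp only [Seg.high, ile_eq, decide_eq_true_eq] at hhi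
  have h2 : ((imul 2 C.Dv : ℤ) : ℝ) ≤ (s.V0 : ℝ) := Int.cast_le.2 hhi
  rw [cast_mul'] at h2
  push_cast at h2
  have hD : (0 : ℝ) < C.Dv := Int.cast_pos.2 hDv
  have := (div_le_div_of_nonneg_right h2 hD.le).trans hs0
  rw [mul_div_assoc, div_self hD.ne'] at this
  linarith

/-- The brackets of the ratio on the two sides. -/
theorem ratio_side {C : Cfg} (H : Head C) :
    0 ≤ ((C.t3 : ℝ) - C.t1) * ((C.rA : ℝ) / C.Dc - ballRatio C.m) ∧
      0 ≤ ((C.t3 : ℝ) - C.t1) * (ballRatio C.m - (C.rB : ℝ) / C.Dc) := by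
  have h := H.ratio
  simp only [Cfg.ratioOK, Bool.or_eq_true, decide_eq_true_eq] at h
  rcases h with h | h
  · simp [h]
  obtain ⟨hlo, hhi⟩ := ballRatio_bracket (m := C.m) H.hm
  rw [← exactRatioHi_eq] at hhi
  rw [← exactRatioLo_eq] at hlo
  by_cases hd : C.t1 ≤ C.t3
  · rw [if_pos hd] at h
    have h1 := (Rat.cast_le (K := ℝ)).2 h.1
    have h2 := (Rat.cast_le (K := ℝ)).2 h.2
    push_cast at h1 h2
    have hd' := (Int.cast_le (R := ℝ)).2 hd
    exact ⟨mul_nonneg (by linarith) (by linarith), mul_nonneg (by linarith) (by linarith)⟩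
  · rw [if_neg hd] at h
    have h1 := (Rat.cast_le (K := ℝ)).2 h.1
    have h2 := (Rat.cast_le (K := ℝ)).2 h.2
    push_cast at h1 h2
    have hd' := (Int.cast_le (R := ℝ)).2 (not_le.1 hd).le
    exact ⟨mul_nonneg_of_nonpos_of_nonpos (by linarith) (by linarith),
      mul_nonneg_of_nonpos_of_nonpos (by linarith) (by linarith)⟩

/-- The multipliers at the true ratio are below their rows on either side of one. -/
theorem mult_side {C : Cfg} {I : Ival} {t A U X x z ρ : ℝ} (H : Head C) (h : AtIval C I t A)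
    (hx : 0 < x) :
    let L := lhsL C I U X t x z ρ
    let L' := L - ((C.τ₃ - C.τ₁) * (2 * (x - 1) + (x - 1) ^ 2) *
        ((C.rA : ℝ) / C.Dc * ballShape t - 1) + C.τ₃ * tailLoss C.m x - C.κ * (x - 1)) +
      multLoss C.m C.κ C.τ₁ C.τ₃ t x
    (1 ≤ x → C.mult A * L' ≤ C.mult A * L) ∧
      (x ≤ 1 → C.mult A * L' ≤
        C.mult A * L + (I.rowsR C U X A).dB * (2 * (x - 1) + (x - 1) ^ 2)) := by
  intro L L'
  obtain ⟨sA, sB⟩ := ratio_side H
  obtain ⟨hA, hA1, -, -, ep⟩ := h.point H.Da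
  have hM := (mult_pos H h).le
  have hp := ball_pos (sub01 h.ht)
  have hDth : (0 : ℝ) < C.Dth := Int.cast_pos.2 H.Dth
  have hDc : (C.Dc : ℝ) ≠ 0 := Int.cast_ne_zero.2 H.Dc.ne'
  have hS : fS C A ≠ 0 := (forms_pos H.Da hA hA1).1.ne'
  set w := 2 * (x - 1) + (x - 1) ^ 2 with hw
  have e : L' = L + (C.τ₃ - C.τ₁) * w * ballShape t * (ballRatio C.m - (C.rA : ℝ) / C.Dc) := by
    simp only [L', multLoss, hw]
    ring
  have hc : 0 ≤ ballShape t / C.Dth := div_nonneg hp.le hDth.le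
  refine ⟨fun h1 => mul_le_mul_of_nonneg_left ?_ hM, fun h1 => ?_⟩
  · have h2 : 0 ≤ w := by rw [hw]; nlinarith
    have h3 := mul_nonneg (mul_nonneg sA h2) hc
    rw [e, Cfg.τ₃, Cfg.τ₁]
    have e2 : ((C.t3 : ℝ) / C.Dth - C.t1 / C.Dth) * w * ballShape t *
        (ballRatio C.m - (C.rA : ℝ) / C.Dc) =
        -(((C.t3 : ℝ) - C.t1) * ((C.rA : ℝ) / C.Dc - ballRatio C.m) * w * (ballShape t / C.Dth)) := by
      ring
    linarith
  · have h2 : w ≤ 0 := by rw [hw]; nlinarith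
    have e3 : (I.rowsR C U X A).dB =
        C.mult A * ((C.τ₃ - C.τ₁) * ballShape t * ((C.rB : ℝ) / C.Dc - (C.rA : ℝ) / C.Dc)) := by
      simp only [Ival.rowsR, Cfg.bRow, Cfg.m2R, Cfg.mult, Cfg.k1R, Cfg.τ₃, Cfg.τ₁,
        (show ballShape t = fP C A / fS C A from ep)]
      field_simp
      ring
    have h3 := mul_nonneg (mul_nonneg (mul_nonneg sB (neg_nonneg.2 h2)) hc) hM
    rw [e, e3, Cfg.τ₃, Cfg.τ₁]
    have e2 : C.mult A * (((C.t3 : ℝ) / C.Dth - C.t1 / C.Dth) * w * ballShape t *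
          (ballRatio C.m - (C.rA : ℝ) / C.Dc)) -
        C.mult A * (((C.t3 : ℝ) / C.Dth - C.t1 / C.Dth) * ballShape t *
          ((C.rB : ℝ) / C.Dc - (C.rA : ℝ) / C.Dc)) * w =
        -(((C.t3 : ℝ) - C.t1) * (ballRatio C.m - (C.rB : ℝ) / C.Dc) * -w *
          (ballShape t / C.Dth) * C.mult A) := by
      ring
    linarith

/-- The pointwise inequality on one segment of one interval, for the flux of that segment. -/
theorem seg_pointwise {C : Cfg} {I : Ival} {s : Seg} {t A : ℝ} (H : Head C) (h : AtIval C I t A)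
    (fa : kinkFree I.A0 I.A1 C.flux.al.kinks = true)
    (fb : kinkFree I.A0 I.A1 C.flux.be.kinks = true)
    (fg : kinkFree I.A0 I.A1 C.flux.ga.kinks = true)
    (fs : kinkFree I.A0 I.A1 C.flux.si.kinks = true) (h0 : 0 ≤ I.A0) (h1 : I.A1 ≤ C.Da)
    (hh : logOK C I = true)
    (hu : upperFast C I = true) (hl : lowerFast C I = true) (hw : potFast C I = true)
    (he : envOK C I = true) (hline : s.lineOK C = true)
    {x z : ℝ} (hx : 0 < x) (hz : z ∈ Icc (0 : ℝ) 1)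
    (h5 : x ≤ 3 ∨ C.flux.k5 = ⟨0, 0, 0, []⟩)
    (hρt : (t - z) / (1 - t * z) ≤ t) (hρ1 : -1 ≤ (t - z) / (1 - t * z))
    (hs0 : (s.V0 : ℝ) / C.Dv ≤ x - 1) (hslt : s.isTail = true ∨ s.V0 < s.V1)
    (hs1 : s.isTail = true ∨ x - 1 ≤ (s.V1 : ℝ) / C.Dv) (hmaj : s.majOK C = true)
    (hcok : s.contact = true → s.contactOK C = true)
    (hcase : s.contact = true ∨ ∃ q ∈ I.pieces, (q.R0 : ℝ) / C.Dr ≤ (t - z) / (1 - t * z) ∧
      (t - z) / (1 - t * z) ≤ (q.R1 : ℝ) / C.Dr ∧ q.R0 ≤ s.R ∧ q.ok C I = true)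
    (hnok : I.node.ok = true) (hN : x ^ 2 * ballShape t ^ C.m ≤ I.node.boundR C.m t)
    (hcentre : (C.b0n : ℝ) / C.b0d * ballShape t ^ C.m ≤
      (1 - t * ((t - z) / (1 - t * z))) ^ C.m * x ^ 2)
    {R : Rows} (hR : ∀ U X, Wt C I U X A → RowsRep U X R (I.rowsR C U X A))
    (hcell : segCells C R (I.pieces.map fun q => q.gain C (I.forms C) R)
      (((I.forms C).SPLl.smul (imul C.et C.Da)).smul
        (imul (imul (Int.ofNat C.m) (Int.ofNat C.m)) C.th)) (I.pads C) s = true) :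
    ballShape t ^ 2 * (C.flux.sep C.Da C.Dc C.m).Dt t x z +
      (C.m : ℝ) / 2 * x * ((t - z) / (1 - t * z)) * (C.flux.sep C.Da C.Dc C.m).Dx t x z -
      ((C.m : ℝ) + 1) * t * (C.flux.sep C.Da C.Dc C.m).D t x z + tailLoss C.m x +
        multLoss C.m C.κ C.τ₁ C.τ₃ t x ≤
    C.W t * (x - 1) ^ 2 + C.θ * tailGain C.m (bregPoly C.m) C.η t x ((t - z) / (1 - t * z)) := by
  obtain ⟨U, X, hU, hX, hs, hA⟩ := h.weights
  have w : Wt C I U X A := ⟨hU, hX, hs, hA⟩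
  have hM := mult_pos H h
  have hid := lhs_rows H h fa fb fg fs x z ((t - z) / (1 - t * z)) (U := U) (X := X) h5
  set ρ₀ := (t - z) / (1 - t * z) with hρ₀
  obtain ⟨hLA, hLB⟩ := mult_side (I := I) (U := U) (X := X) (z := z) (ρ := ρ₀) H h hx
  set L' := lhsL C I U X t x z ρ₀ - ((C.τ₃ - C.τ₁) * (2 * (x - 1) + (x - 1) ^ 2) *
        ((C.rA : ℝ) / C.Dc * ballShape t - 1) + C.τ₃ * tailLoss C.m x - C.κ * (x - 1)) +
      multLoss C.m C.κ C.τ₁ C.τ₃ t x with hL'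
  have key : C.mult A * L' ≤ cellGainTerm C t x ρ₀ A := by
    by_cases hcon : s.contact = true
    · exact contact_pay H h w hl hu hx ⟨hρ1, hρt.trans h.ht.2.le⟩ hs0 hslt hs1 hmaj (hcok hcon)
        hcon (hR U X w) hcell hLA hLB hid
    · obtain ⟨q, hqm, hq0, hq1, hqR, hqok⟩ := hcase.resolve_left hcon
      obtain ⟨e₀, e₁, e₂, hz0, g0, g1, g2, hgain⟩ :=
        piece_gain (x := x) H h w h0 h1 hh hu hl hz hqok rfl hρt hq0 hq1 (R := R)
      obtain ⟨hA0, hA1, -, et, ep⟩ := h.point H.Da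
      obtain ⟨hS, hP⟩ := forms_pos H.Da hA0 hA1
      have hd : 0 ≤ 1 - t * ((t - z) / (1 - t * z)) := by nlinarith [h.ht.1, h.ht.2]
      have hl' := seg_line (by linarith [H.hm]) H.Dc H.cb H.cbm hline
        (ball_pos (sub01 h.ht)).le hd hx hs0 hs1 hcentre
      have P : PadsVal C I U X A (x - 1) ((t - z) / (1 - t * z)) s :=
        { mu := by
            have e1 : fT C A = fS C A * t := by
              rw [et]; unfold fT fS; unfold fS at hS; field_simp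
            have e2 : fP C A = fS C A * ballShape t := by
              rw [ep]; unfold fP fS; unfold fS at hS; field_simp
            rw [e1, e2]
            have := mul_nonneg hS.le hl'
            linarith
          nu := fun e => env_chord_node H hnok he e h0 h1 h w hx hN
          sp := (mul_pos hS hP).le }
      exact cell_pay H w hx hM hs0 hslt hs1 hq0 hq1 (Piece.ok_range H.Dr hqok).2.2 hqR hmaj
        (hR U X w) (by simpa using hcon) hcell P hqm hz0 g0 g1 g2 hgain hLA hLB hid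
  rw [cellGainTerm] at key
  have h2 := le_of_mul_le_mul_left key hM
  rw [hL', lhsL] at h2
  have hwW := mul_le_mul_of_nonneg_right (pot_lower h H.Da H.Dc H.Dw hw hs hA) (sq_nonneg (x - 1))
  linarith

theorem forms_far (C : Cfg) (I : Ival) : I.forms C.far = I.forms C := rfl

theorem pads_far (C : Cfg) (I : Ival) : I.pads C.far = I.pads C := rfl

theorem gain_far (C : Cfg) (I : Ival) (q : Piece) (F : Forms) (R : Rows) :
    q.gain C.far F (I.rowsHigh C R) = q.gain C F R := rfl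

/-- The pointwise inequality on one interval. -/
theorem ival_pointwise {C : Cfg} {I : Ival} (H : Head C) (hside : I.sideOK C = true)
    (hcell : I.cellsOK C = true) {t A : ℝ} (h : AtIval C I t A) {x z : ℝ} (hx : 0 < x)
    (hz : z ∈ Icc (0 : ℝ) 1)
    (hN : (I.node.Tn : ℝ) / I.node.Td ≤ t → x ^ 2 * ballShape t ^ C.m ≤ I.node.boundR C.m t)
    (hb : (C.b0n : ℝ) / C.b0d * (1 - t * z) ^ C.m ≤ ballShape t ^ C.m * x ^ 2) :
    ballShape t ^ 2 * (C.flux.sep C.Da C.Dc C.m).Dt t x z +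
      (C.m : ℝ) / 2 * x * ((t - z) / (1 - t * z)) * (C.flux.sep C.Da C.Dc C.m).Dx t x z -
      ((C.m : ℝ) + 1) * t * (C.flux.sep C.Da C.Dc C.m).D t x z + tailLoss C.m x +
        multLoss C.m C.κ C.τ₁ C.τ₃ t x ≤
    C.W t * (x - 1) ^ 2 + C.θ * tailGain C.m (bregPoly C.m) C.η t x ((t - z) / (1 - t * z)) := by
  obtain ⟨hρt, hρ1, s, hsm, hs0, hslt, hs1, hmaj, hcok, hcentre, hcase⟩ :=
    cell_exists H hside h hx hz rfl hN hb
  simp only [Ival.sideOK, Bool.and_eq_true, QN.le_eq, QN.val_frac, val_timeN,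
    decide_eq_true_eq] at hside
  obtain ⟨⟨⟨⟨⟨⟨⟨⟨⟨⟨⟨⟨⟨⟨⟨⟨⟨⟨⟨h0, -, h1⟩, fa⟩, fb⟩, fg⟩, fs⟩, f5⟩, hh⟩, he⟩, hlines⟩, hu⟩, hl⟩,
    hw⟩, hnok, hTn⟩, -⟩, -⟩, -⟩, -⟩, -⟩, -⟩ := hside
  have hline : s.lineOK C = true := Seg.lineOK_of_fast (List.all_eq_true.1 hlines s hsm)
  replace hh := logOK_of_fast hh
  replace he := envOK_of_fast he
  replace fa := kinkFree_of_outside _ fa
  replace fb := kinkFree_of_outside _ fb
  replace fg := kinkFree_of_outside _ fg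
  replace fs := kinkFree_of_outside _ fs
  replace f5 := kinkFree_of_outside _ f5
  have hT : (I.node.Tn : ℝ) / I.node.Td ≤ t := by
    obtain ⟨⟨-, ht0t⟩, -, -⟩ := h.time_mem H.Da h0 h1
    have := (Rat.cast_le (K := ℝ)).2 hTn
    push_cast at this
    linarith
  have hN' : x ^ 2 * ballShape t ^ C.m ≤ I.node.boundR C.m t := hN hT
  simp only [Ival.cellsOK, List.all_eq_true] at hcell
  have hc := hcell s hsm
  by_cases hhi : s.high C = true
  · simp only [hhi, if_true, Bool.and_eq_true, Bool.not_eq_true'] at hc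
    have h3 := seg_high_le H.Dv hhi hs0
    obtain ⟨e1, e2, e3⟩ := C.flux.high_eq (Da := C.Da) (Dc := C.Dc) (m := C.m) (t := t) (z := z) h3
    have hc2 := hc.2
    rw [← pads_far, ← forms_far] at hc2
    rw [show (I.pieces.map fun q => q.gain C (I.forms C.far) (I.rows C)) =
      I.pieces.map fun q => q.gain C.far (I.forms C.far) (I.rowsHigh C (I.rows C)) from
        List.map_congr_left fun q _ => (gain_far C I q _ _).symm] at hc2
    have key := seg_pointwise (C := C.far) (s := s) H.far ⟨h.ht, h.hA, h.lo, h.hi⟩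
      (Spline.addSmul_free _ _ _ fa f5) (Spline.addSmul_free _ _ _ fb f5)
      (Spline.addSmul_free _ _ _ fg f5) fs h0 h1 hh hu hl hw he hline hx hz
      (.inr rfl) hρt hρ1 hs0 hslt hs1
      hmaj (fun e => absurd e (by simp [hc.1])) hcase hnok hN' hcentre
      (R := I.rowsHigh C (I.rows C)) (fun _ _ w => rowsHigh_val ⟨w.hU, w.hX, w.hs, w.hA⟩) hc2
    simp only [Cfg.far] at key
    rw [e1, e2, e3] at key
    exact key
  · rw [if_neg hhi, Bool.and_eq_true] at hc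
    exact seg_pointwise H h fa fb fg fs h0 h1 hh hu hl hw he hline hx hz
      (.inl (seg_low_le H.Dv hc.1 hs1)) hρt hρ1 hs0 hslt hs1 hmaj (fun _ => hcok) hcase hnok hN' hcentre
      (fun _ _ w => rows_val w) hc.2

/-- The centre on one segment. -/
theorem centre_seg {C : Cfg} (H : Head C) {s : Seg} (hcs' : centreSegFlux C s = true)
    (ka : (C.flux.al.kinks.all fun c => decide (0 ≤ c.1)) = true)
    (kb : (C.flux.be.kinks.all fun c => decide (0 ≤ c.1)) = true)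
    (kg : (C.flux.ga.kinks.all fun c => decide (0 ≤ c.1)) = true)
    (ks : (C.flux.si.kinks.all fun c => decide (0 ≤ c.1)) = true) {x z : ℝ} (hx : 0 < x)
    (hs0 : (s.V0 : ℝ) / C.Dv ≤ x - 1) (hslt : s.isTail = true ∨ s.V0 < s.V1)
    (hs1 : s.isTail = true ∨ x - 1 ≤ (s.V1 : ℝ) / C.Dv)
    (h5 : x ≤ 3 ∨ C.flux.k5 = ⟨0, 0, 0, []⟩) :
    (C.flux.sep C.Da C.Dc C.m).D 0 x z ≤ 0 := by
  have hDv : (0 : ℝ) < C.Dv := Int.cast_pos.2 H.Dv
  have hDc : (0 : ℝ) < C.Dc := Int.cast_pos.2 H.Dc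
  simp only [centreSegFlux, Bool.and_eq_true, decide_eq_true_eq] at hcs'
  obtain ⟨⟨⟨⟨hmaj', c0⟩, c1⟩, c2⟩, c3⟩ := hcs'
  have hmaj := Seg.majOK_of_fast hmaj'
  have z5 : C.flux.k5.val C.Da C.Dc 0 * farSq x = 0 := by
    rcases h5 with e | e
    · simp [farSq_low e]
    · rw [e]; simp [Spline.val, Spline.at_, kinkVal]
  rw [Flux.D_eq, Spline.val_zero ka, Spline.val_zero kb, Spline.val_zero kg, Spline.val_zero ks, z5,
    add_zero]
  match hk : s.kind with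
  | .below =>
    have hxle : x ≤ 1 := by
      have hh1 := hs1.resolve_left (by simp [Seg.isTail, hk])
      simp only [Seg.majOK, Seg.majTop, hk, Bool.and_eq_true, decide_eq_true_eq] at hmaj
      have : (s.V1 : ℝ) / C.Dv ≤ 0 :=
        div_nonpos_of_nonpos_of_nonneg (Int.cast_nonpos.2 hmaj.1) hDv.le
      linarith
    have hF : cubicF C.m x = 0 := by
      rcases hxle.eq_or_lt with e | e
      · simp [cubicF, tailCubicPos, e, (tailCubic_one C.m).1]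
      · simp [cubicF, tailCubicPos, e.not_ge]
    have key := seg_cubic H.Dv hslt hs0 hs1
      (c := ![-(C.flux.al.e0 : ℝ), -(C.flux.be.e0 : ℝ), -(C.flux.ga.e0 : ℝ), 0]) fun k => by
        simp only [hk] at c0 c1 c2 c3
        have d0 := (Int.cast_le (R := ℝ)).2 c0; have d1 := (Int.cast_le (R := ℝ)).2 c1
        have d2 := (Int.cast_le (R := ℝ)).2 c2; have d3 := (Int.cast_le (R := ℝ)).2 c3
        push_cast at d0 d1 d2 d3
        fin_cases k <;> simp only [ctrlAt, Matrix.cons_val, V4.app] <;> push_cast <;> linarith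
    rw [hF]
    simp only [cubicAt, Matrix.cons_val] at key
    rw [show ((C.flux.al.e0 : ℝ) / C.Dc + C.flux.be.e0 / C.Dc * (x - 1) +
      C.flux.ga.e0 / C.Dc * (x - 1) ^ 2 + C.flux.si.e0 / C.Dc * 0) =
      ((C.flux.al.e0 : ℝ) + (x - 1) * C.flux.be.e0 + (x - 1) ^ 2 * C.flux.ga.e0) / C.Dc by ring]
    exact div_nonpos_of_nonpos_of_nonneg (by linarith) hDc.le
  | .mid | .tail =>
    obtain ⟨-, hmaj'⟩ := seg_majorant (x := x) H.hm H.Dv H.Dc hmaj (by simp [hk]) hs0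
    set σ := max C.flux.si.e0 0 with hσ
    have key := seg_cubic H.Dv hslt hs0 hs1
      (c := ![-((C.Dc : ℝ) * C.flux.al.e0 + σ * s.r0), -((C.Dc : ℝ) * C.flux.be.e0 + σ * s.r1),
        -((C.Dc : ℝ) * C.flux.ga.e0 + σ * s.r2), -((σ : ℝ) * s.r3)]) fun k => by
        simp only [hk] at c0 c1 c2 c3
        have d0 := (Int.cast_le (R := ℝ)).2 c0; have d1 := (Int.cast_le (R := ℝ)).2 c1
        have d2 := (Int.cast_le (R := ℝ)).2 c2; have d3 := (Int.cast_le (R := ℝ)).2 c3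
        push_cast at d0 d1 d2 d3
        fin_cases k <;> simp only [ctrlAt, Matrix.cons_val, V4.app] <;> push_cast <;> linarith
    simp only [cubicAt, Matrix.cons_val] at key
    have h1 : (C.flux.si.e0 : ℝ) * cubicF C.m x ≤ (σ : ℝ) * cubicF C.m x :=
      mul_le_mul_of_nonneg_right (Int.cast_le.2 (le_max_left _ _)) (cubicF_bounds H.hm hx.le).1
    have h2 := mul_le_mul_of_nonneg_left hmaj'
      (Int.cast_nonneg (le_max_right C.flux.si.e0 0) : (0 : ℝ) ≤ (σ : ℝ))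
    refine le_of_mul_le_mul_left ?_ (mul_pos hDc hDc)
    rw [mul_zero]
    have e : (C.Dc : ℝ) * C.Dc * (C.flux.al.e0 / C.Dc + C.flux.be.e0 / C.Dc * (x - 1) +
        C.flux.ga.e0 / C.Dc * (x - 1) ^ 2 + C.flux.si.e0 / C.Dc * cubicF C.m x) =
        C.Dc * C.flux.al.e0 + C.Dc * C.flux.be.e0 * (x - 1) +
          C.Dc * C.flux.ga.e0 * (x - 1) ^ 2 + C.Dc * (C.flux.si.e0 * cubicF C.m x) := by
      field_simp
    rw [e]
    have h3 := mul_le_mul_of_nonneg_left (h1.trans h2) hDc.le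
    rw [show (C.Dc : ℝ) * ((σ : ℝ) * (((s.r0 : ℝ) + s.r1 * (x - 1) + s.r2 * (x - 1) ^ 2 +
      s.r3 * (x - 1) ^ 3) / C.Dc)) = (σ : ℝ) * ((s.r0 : ℝ) + s.r1 * (x - 1) + s.r2 * (x - 1) ^ 2 +
      s.r3 * (x - 1) ^ 3) by field_simp] at h3
    linarith


/-- The centre: the flux is nonpositive there. -/
theorem centre_sound {C : Cfg} (H : Head C) (h : C.centreOK = true) {x z : ℝ} (hx : 0 < x)
    (hlo : (C.b0n : ℝ) / C.b0d ≤ x ^ 2) (hhi : x ^ 2 ≤ (C.centre.Kn : ℝ) / C.centre.Kd) :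
    (C.flux.sep C.Da C.Dc C.m).D 0 x z ≤ 0 := by
  simp only [Cfg.centreOK, Bool.and_eq_true] at h
  obtain ⟨⟨⟨⟨⟨⟨⟨ka, kb⟩, kg⟩, ks⟩, k5⟩, hstart⟩, hend⟩, hall⟩ := h
  have hDv : (0 : ℝ) < C.Dv := Int.cast_pos.2 H.Dv
  rcases hcs : C.csegs with - | ⟨s₀, rest⟩
  · simp [hcs, centreStart] at hstart
  rw [hcs] at hstart hend hall
  simp only [centreStart, Bool.and_eq_true, Bool.or_eq_true, decide_eq_true_eq] at hstart
  obtain ⟨hst, hch⟩ := hstart
  obtain ⟨s, hsm, hs0, hslt, hs1'⟩ := segChain_sound H.Dv hch (v := x - 1) (by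
    rcases hst with h1 | h1
    · rw [div_le_iff₀ hDv]
      have : (s₀.V0 : ℝ) ≤ ((-C.Dv : ℤ) : ℝ) := Int.cast_le.2 h1
      push_cast at this
      nlinarith
    · have h1' := (Rat.cast_le (K := ℝ)).2 h1
      push_cast at h1'
      have h2 := h1'.trans hlo
      have h3 := abs_le_abs_of_sq_le h2 hx
      linarith)
  have hs1 : s.isTail = true ∨ x - 1 ≤ (s.V1 : ℝ) / C.Dv := by
    rcases hs1' with h' | h'
    · exact h'
    refine (segEnd_last hend h').imp_right fun ⟨e1, e2⟩ => ?_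
    have e1' := (Rat.cast_nonneg (K := ℝ)).2 e1
    have e2' := (Rat.cast_le (K := ℝ)).2 e2
    push_cast at e1' e2'
    rw [one_pow, mul_one] at e2'
    have := le_of_pow_le_pow_left₀ two_ne_zero e1' (hhi.trans e2')
    linarith
  have hcs' := List.all_eq_true.1 hall s hsm
  by_cases hhi : s.high C = true
  · simp only [centreSeg, hhi, if_true] at hcs'
    have h3 := seg_high_le H.Dv hhi hs0
    have key := centre_seg (z := z) H.far hcs' (Spline.addSmul_zero _ _ _ ka k5)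
      (Spline.addSmul_zero _ _ _ kb k5) (Spline.addSmul_zero _ _ _ kg k5) ks hx hs0 hslt hs1
      (.inr rfl)
    simp only [Cfg.far] at key
    rw [(C.flux.high_eq h3).1] at key
    exact key
  · rw [centreSeg, if_neg hhi, Bool.and_eq_true] at hcs'
    exact centre_seg H hcs'.2 ka kb kg ks hx hs0 hslt hs1 (.inl (seg_low_le H.Dv hcs'.1 hs1))

/-- The tail lemma from a passed check. -/
theorem Cfg.excess_le (C : Cfg) (hC : C.check = true) {φ : ℝ → ℝ} (hφ : IsShape φ)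
    (hx1 : powRatio C.m φ ≤ 1) (hV : convexVal C.m (pureG C.m) φ ≤ 0) {η₀ : ℝ}
    (hη : C.θ₀ * η₀ = C.θ * C.η - C.τ₁) {W : ℝ → ℝ} (hWm : Measurable W) {B : ℝ} (hWb : ∀ t ∈ Ioo (0 : ℝ) 1, |W t| ≤ B)
    (hW : ∀ t ∈ Ioo (0 : ℝ) 1, C.W t ≤ W t)
    (hlo : (C.b0n : ℝ) / C.b0d * specM C.m φ ^ 2 ≤ φ 0 ^ C.m)
    (hhi : φ 0 ^ C.m ≤ (C.centre.Kn : ℝ) / C.centre.Kd * specM C.m φ ^ 2)
    (hN : ∀ I ∈ C.ivals, ∀ t ∈ Ioo (0 : ℝ) 1, (I.node.Tn : ℝ) / I.node.Td ≤ t →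
      specU C.m φ t ^ 2 * ballShape t ^ C.m ≤ I.node.boundR C.m t * specM C.m φ ^ 2) :
    specExcess C.m φ ≤ specQuad C.m W (specV C.m φ) + C.θ₀ * (specSurplus C.m (bregPoly C.m) φ +
      η₀ * specEnergy C.m (bregPoly C.m) (fun t => specU' C.m φ t / specM C.m φ)) := by
  simp only [Cfg.check, Bool.and_eq_true, List.all_eq_true] at hC
  obtain ⟨⟨hhead, hcentre⟩, hI⟩ := hC
  have H := head_of_check hhead
  have hm2 : 2 ≤ C.m := by linarith [H.hm]
  have hm1 : 1 ≤ C.m := by omega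
  have hM := specM_pos hm1 hφ
  have hp0 : (0 : ℝ) ∈ Ioo (-1 : ℝ) 1 := by norm_num
  have hU0 : specU C.m φ 0 ^ 2 = φ 0 ^ C.m := by
    rw [specU_sq hφ hp0]
    simp [ballShape]
  have hx0 : 0 < specU C.m φ 0 / specM C.m φ := div_pos (specU_pos hφ hp0) hM
  have hDth : (0 : ℝ) < C.Dth := Int.cast_pos.2 H.Dth
  refine excess_le_of_sepFlux_mult (S := fun t x z =>
      (∀ I ∈ C.ivals, (I.node.Tn : ℝ) / I.node.Td ≤ t →
        x ^ 2 * ballShape t ^ C.m ≤ I.node.boundR C.m t) ∧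
      (C.b0n : ℝ) / C.b0d * (1 - t * z) ^ C.m ≤ ballShape t ^ C.m * x ^ 2)
    hm2 hφ hx1 hV (fun t _ => bregPoly_nonneg C.m t) (measurable_bregPoly C.m)
    (fun t ht r hr => bregPoly_mul_le hm1 ht hr) hWm hWb C.θ₀ (κ := C.κ) (t₁ := C.τ₁) (t₃ := C.τ₃)
    (div_nonneg (Int.cast_nonneg H.t1) hDth.le) (div_nonneg (Int.cast_nonneg H.t3) hDth.le)
    (C.flux.regular (Dc := C.Dc) H.hm H.Da.le) (fun t _ x _ _ => C.flux.antitone t x) ?_
    (C.flux.lower H.hm) ?_ ?_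
  · refine centre_sound H hcentre hx0 ?_ ?_
    · rw [div_pow, le_div_iff₀ (pow_pos hM 2), hU0]
      exact hlo
    · rw [div_pow, div_le_iff₀ (pow_pos hM 2), hU0]
      exact hhi
  · intro t ht
    have hp := ball_pos (sub01 ht)
    refine ⟨fun I hI' hT => ?_, ?_⟩
    · rw [div_pow, div_mul_eq_mul_div, div_le_iff₀ (pow_pos hM 2)]
      exact hN I hI' t ht hT
    · have hz := shapeZ_mem hφ ht
      have h1 : 0 ≤ 1 - t * shapeZ φ t := by nlinarith [ht.1, ht.2, hz.2]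
      rw [div_pow, specU_sq hφ (sub01 ht), div_pow, ← mul_div_assoc,
        mul_div_cancel₀ _ (pow_ne_zero _ hp.ne'), le_div_iff₀ (pow_pos hM 2)]
      calc (C.b0n : ℝ) / C.b0d * (1 - t * shapeZ φ t) ^ C.m * specM C.m φ ^ 2
          = (1 - t * shapeZ φ t) ^ C.m * ((C.b0n : ℝ) / C.b0d * specM C.m φ ^ 2) := by ring
        _ ≤ (1 - t * shapeZ φ t) ^ C.m * φ 0 ^ C.m :=
            mul_le_mul_of_nonneg_left hlo (pow_nonneg h1 _)
        _ = (φ 0 * (1 - t * shapeZ φ t)) ^ C.m := by rw [mul_pow]; ring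
        _ ≤ φ t ^ C.m := pow_le_pow_left₀ (mul_nonneg hφ.centre.le h1) (centre_chord hφ ht) _
  · intro t ht x hx z hz hS
    have hD : (0 : ℝ) < C.Da := Int.cast_pos.2 H.Da
    obtain ⟨hmem, -, -⟩ := halfAngle_param (t := t) (Ioo_subset_Icc_self ht)
    have hlt : (C.Da : ℝ) * halfAngle t < C.Da := by
      obtain ⟨-, -, e2⟩ := halfAngle_param (t := t) (Ioo_subset_Icc_self ht)
      have : halfAngle t < 1 := lt_of_le_of_ne hmem.2 fun e => by
        rw [e] at e2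
        have := ball_pos (sub01 ht)
        linarith
      nlinarith
    obtain ⟨I, hIm, hI0, hI1⟩ := ivalChain_sound H.cover (A := (C.Da : ℝ) * halfAngle t)
      (by rw [Int.cast_zero]; exact mul_nonneg hD.le hmem.1) hlt
    obtain ⟨hs, hc⟩ := hI I hIm
    refine (ival_pointwise H hs hc ⟨ht, rfl, hI0, hI1⟩ hx hz (hS.1 I hIm) hS.2).trans ?_
    rw [add_assoc]
    refine add_le_add (mul_le_mul_of_nonneg_right (hW t ht) (sq_nonneg _)) (le_of_eq ?_)
    simp only [tailGain]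
    have hθ : C.θ = C.θ₀ + C.τ₁ := by rw [Cfg.θ₀]; ring
    linear_combination
      (C.m / ballShape t * x ^ 2 * (bregPoly C.m t * ((t - z) / (1 - t * z)) ^ 2)) * (-hη) +
        (C.m / ballShape t * x ^ 2 *
          (pureBreg C.m t ((t - z) / (1 - t * z)) - bregPoly C.m t * ((t - z) / (1 - t * z)) ^ 2)) * hθ

end Vale.Agent.P237.Quant.TailCert
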