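import Mathlib.Data.Real.Basic
import Mathlib.Tactic.Ring
import Mathlib.Tactic.Linarith
import Mathlib.Tactic.LinearCombination
import Mathlib.Tactic.Positivity
import Mathlib.Tactic.FieldSimp
import Mathlib.Tactic.NormNum
import Mathlib.Tactic.FinCases
import Mathlib.Data.Fin.VecNotation
import Vale.Agent.P237.Four.Checker

/-!
Homogeneous values of coefficient lists in the two weights of a point of an interval, a one-variable
test on coefficient lists for the side conditions of the tail checker, and the Bernstein criteria in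
two variables for its cells.
-/

namespace Vale.Agent.P237.Quant.TailTuple

open Four.Checker

/-- Nonnegativity of an integer, by constructor. -/
def nneg : ℤ → Bool
  | .ofNat _ => true
  | .negSucc _ => false

theorem nneg_cast {z : ℤ} (h : nneg z = true) : (0 : ℝ) ≤ z := by
  cases z with
  | ofNat n => simp
  | negSucc n => simp [nneg] at h

/-- Weights with sum one for a point of an interval. -/
theorem exists_weights {a b D : ℤ} {t : ℝ} (hab : a < b) (h1 : (a : ℝ) ≤ t * D)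
    (h2 : t * D ≤ b) :
    ∃ U X : ℝ, 0 ≤ U ∧ 0 ≤ X ∧ U + X = 1 ∧ t * D = a * U + b * X := by
  have hd : (0 : ℝ) < b - a := sub_pos.2 (Int.cast_lt.2 hab)
  refine ⟨((b : ℝ) - t * D) / (b - a), (t * D - a) / (b - a), div_nonneg (by linarith) hd.le,
    div_nonneg (by linarith) hd.le, ?_, ?_⟩ <;>
  · field_simp
    ring

/-- The homogeneous value of a coefficient list at degree `d`. -/
noncomputable def evD (U X : ℝ) : ℕ → P1 → ℝ
  | _, [] => 0
  | d, c :: l => c * U ^ d + X * evD U X (d - 1) l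

theorem evD_add (U X : ℝ) : ∀ (d : ℕ) (k l : P1),
    evD U X d (add1 k l) = evD U X d k + evD U X d l
  | d, [], l => by simp [add1, evD]
  | d, a :: k, [] => by simp [add1, evD]
  | d, a :: k, b :: l => by
      simp only [add1, evD, Int.add_def, evD_add U X (d - 1) k l]
      push_cast
      ring

theorem evD_smul (U X : ℝ) (c : ℤ) : ∀ (d : ℕ) (k : P1),
    evD U X d (smul1 c k) = c * evD U X d k
  | d, [] => by simp [smul1, evD]
  | d, a :: k => by
      simp only [smul1, evD, Int.mul_def, evD_smul U X c (d - 1) k]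
      push_cast
      ring

theorem evD_lin1 (U X : ℝ) (a b : ℤ) : ∀ (d : ℕ) (prev : ℤ) (k : P1), k.length ≤ d →
    evD U X d (lin1 a b prev k) = b * prev * U ^ d + (a * U + b * X) * evD U X (d - 1) k
  | d, prev, [], _ => by simp [lin1, evD, Int.mul_def]
  | 0, prev, r :: k, h => by simp at h
  | d + 1, prev, r :: k, h => by
      have hk : k.length ≤ d := by simpa using h
      simp only [lin1, evD, Int.add_def, Int.mul_def, Nat.add_sub_cancel,
        evD_lin1 U X a b d r k hk, pow_succ]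
      push_cast
      ring

theorem length_add1 : ∀ k l : P1, (add1 k l).length = max k.length l.length
  | [], l => by simp [add1]
  | a :: k, [] => by simp [add1]
  | a :: k, b :: l => by simp [add1, length_add1 k l, Nat.succ_max_succ]

theorem length_smul1 (c : ℤ) : ∀ k : P1, (smul1 c k).length = k.length
  | [] => rfl
  | a :: k => by simp [smul1, length_smul1 c k]

theorem length_lin1 (a b : ℤ) : ∀ (p : ℤ) (k : P1), (lin1 a b p k).length = k.length + 1
  | p, [] => by simp [lin1]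
  | p, r :: k => by simp [lin1, length_lin1 a b r k]

theorem length_qpow (D : ℤ) : ∀ n, (qpow D n).length = n + 1
  | 0 => rfl
  | n + 1 => by simp [qpow, length_lin1, length_qpow D n]

theorem evD_qpow (U X : ℝ) (D : ℤ) : ∀ n : ℕ, evD U X n (qpow D n) = ((D : ℝ) * (U + X)) ^ n
  | 0 => by simp [qpow, evD]
  | n + 1 => by
      rw [qpow, evD_lin1 U X D D (n + 1) 0 _ (length_qpow D n).le, Nat.add_sub_cancel,
        evD_qpow U X D n]
      push_cast
      ring

/-- The coefficients of a list on the interval from `a / D` to `b / D`. -/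
def bern (a b D : ℤ) : P1 → P1
  | [] => []
  | c :: l => add1 (smul1 c (qpow D l.length)) (lin1 a b 0 (bern a b D l))

theorem length_bern (a b D : ℤ) : ∀ l : P1, (bern a b D l).length = l.length
  | [] => rfl
  | c :: l => by simp [bern, length_add1, length_smul1, length_qpow, length_lin1, length_bern a b D l]

theorem evD_bern {a b D : ℤ} {U X t : ℝ} (h : t * ((D : ℝ) * (U + X)) = a * U + b * X) :
    ∀ l : P1, (D : ℝ) * (U + X) * evD U X (l.length - 1) (bern a b D l) =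
      ((D : ℝ) * (U + X)) ^ l.length * ev l t
  | [] => by simp [bern, evD, ev]
  | c :: l => by
      simp only [bern, evD_add, evD_smul, evD_qpow U X D _, List.length_cons,
        Nat.add_sub_cancel, evD_lin1 U X a b l.length 0 _ (length_bern a b D l).le, ev,
        Int.cast_zero, mul_zero, zero_mul, zero_add, ← h]
      linear_combination (t * ((D : ℝ) * (U + X))) * evD_bern h l

/-- Nonnegative entries. -/
def nn1 : P1 → Bool
  | [] => true
  | c :: l => nneg c && nn1 l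

theorem evD_nonneg {U X : ℝ} (hU : 0 ≤ U) (hX : 0 ≤ X) : ∀ (d : ℕ) (l : P1), nn1 l = true →
    0 ≤ evD U X d l
  | d, [], _ => le_rfl
  | d, c :: l, h => by
      simp only [nn1, Bool.and_eq_true] at h
      exact add_nonneg (mul_nonneg (nneg_cast h.1) (pow_nonneg hU d))
        (mul_nonneg hX (evD_nonneg hU hX _ l h.2))

/-- Nonnegativity of a polynomial on an interval. -/
def posOn (a b D : ℤ) (l : P1) : Bool := decide (0 < D) && decide (a < b) && nn1 (bern a b D l)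

theorem posOn_sound {a b D : ℤ} {l : P1} (h : posOn a b D l = true) {t : ℝ}
    (h1 : (a : ℝ) ≤ t * D) (h2 : t * D ≤ b) : 0 ≤ ev l t := by
  simp only [posOn, Bool.and_eq_true, decide_eq_true_eq] at h
  obtain ⟨⟨hD, hab⟩, hn⟩ := h
  obtain ⟨U, X, hU, hX, hs, he⟩ := exists_weights hab h1 h2
  have hD' : (0 : ℝ) < D := Int.cast_pos.2 hD
  have h' : t * ((D : ℝ) * (U + X)) = a * U + b * X := by rw [hs, mul_one, he]
  have := evD_bern h' l
  rw [hs, mul_one] at this
  have h0 := mul_nonneg hD'.le (evD_nonneg hU hX (l.length - 1) _ hn)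
  rw [this] at h0
  exact (mul_nonneg_iff_of_pos_left (pow_pos hD' _)).1 h0

/-- A quadratic with nonnegative Bernstein coefficients is nonnegative on its interval. -/
theorem quad_nonneg {a b D r e₀ e₁ e₂ : ℝ} (hD : 0 < D) (hab : a < b) (h1 : a ≤ r * D)
    (h2 : r * D ≤ b) (k₀ : 0 ≤ D ^ 2 * e₀ + D * a * e₁ + a ^ 2 * e₂)
    (k₁ : 0 ≤ 2 * D ^ 2 * e₀ + D * (a + b) * e₁ + 2 * a * b * e₂)
    (k₂ : 0 ≤ D ^ 2 * e₀ + D * b * e₁ + b ^ 2 * e₂) : 0 ≤ e₀ + r * e₁ + r ^ 2 * e₂ := by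
  refine (mul_nonneg_iff_of_pos_left (by positivity : 0 < D ^ 2 * (b - a) ^ 2)).1 ?_
  have e : D ^ 2 * (b - a) ^ 2 * (e₀ + r * e₁ + r ^ 2 * e₂) =
      (b - r * D) ^ 2 * (D ^ 2 * e₀ + D * a * e₁ + a ^ 2 * e₂) +
        (b - r * D) * (r * D - a) * (2 * D ^ 2 * e₀ + D * (a + b) * e₁ + 2 * a * b * e₂) +
        (r * D - a) ^ 2 * (D ^ 2 * e₀ + D * b * e₁ + b ^ 2 * e₂) := by ring
  rw [e]
  exact add_nonneg (add_nonneg (mul_nonneg (sq_nonneg _) k₀)
    (mul_nonneg (mul_nonneg (by linarith) (by linarith)) k₁)) (mul_nonneg (sq_nonneg _) k₂)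

/-- A cubic with nonnegative Bernstein coefficients is nonnegative on its interval. -/
theorem cubic_nonneg {a b D v p₀ p₁ p₂ p₃ : ℝ} (hD : 0 < D) (hab : a < b) (h1 : a ≤ v * D)
    (h2 : v * D ≤ b)
    (k₀ : 0 ≤ D ^ 3 * p₀ + D ^ 2 * a * p₁ + D * a ^ 2 * p₂ + a ^ 3 * p₃)
    (k₁ : 0 ≤ 3 * D ^ 3 * p₀ + D ^ 2 * (2 * a + b) * p₁ + D * (a * a + 2 * a * b) * p₂ +
      3 * a ^ 2 * b * p₃)
    (k₂ : 0 ≤ 3 * D ^ 3 * p₀ + D ^ 2 * (a + 2 * b) * p₁ + D * (2 * a * b + b * b) * p₂ +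
      3 * a * b ^ 2 * p₃)
    (k₃ : 0 ≤ D ^ 3 * p₀ + D ^ 2 * b * p₁ + D * b ^ 2 * p₂ + b ^ 3 * p₃) :
    0 ≤ p₀ + v * p₁ + v ^ 2 * p₂ + v ^ 3 * p₃ := by
  refine (mul_nonneg_iff_of_pos_left
    (mul_pos (pow_pos hD 3) (pow_pos (sub_pos.2 hab) 3))).1 ?_
  have hY : 0 ≤ b - v * D := by linarith
  have hZ : 0 ≤ v * D - a := by linarith
  have e : D ^ 3 * (b - a) ^ 3 * (p₀ + v * p₁ + v ^ 2 * p₂ + v ^ 3 * p₃) =
      (b - v * D) ^ 3 * (D ^ 3 * p₀ + D ^ 2 * a * p₁ + D * a ^ 2 * p₂ + a ^ 3 * p₃) +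
      (b - v * D) ^ 2 * (v * D - a) * (3 * D ^ 3 * p₀ + D ^ 2 * (2 * a + b) * p₁ +
        D * (a * a + 2 * a * b) * p₂ + 3 * a ^ 2 * b * p₃) +
      (b - v * D) * (v * D - a) ^ 2 * (3 * D ^ 3 * p₀ + D ^ 2 * (a + 2 * b) * p₁ +
        D * (2 * a * b + b * b) * p₂ + 3 * a * b ^ 2 * p₃) +
      (v * D - a) ^ 3 * (D ^ 3 * p₀ + D ^ 2 * b * p₁ + D * b ^ 2 * p₂ + b ^ 3 * p₃) := by ring
  rw [e]
  positivity

/-- A cubic with nonnegative Taylor coefficients at `a / D` is nonnegative to the right of it. -/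
theorem cubic_tail_nonneg {a D v p₀ p₁ p₂ p₃ : ℝ} (hD : 0 < D) (h1 : a ≤ v * D)
    (k₀ : 0 ≤ D ^ 3 * p₀ + D ^ 2 * a * p₁ + D * a ^ 2 * p₂ + a ^ 3 * p₃)
    (k₁ : 0 ≤ D ^ 2 * p₁ + 2 * D * a * p₂ + 3 * a ^ 2 * p₃)
    (k₂ : 0 ≤ D * p₂ + 3 * a * p₃) (k₃ : 0 ≤ p₃) :
    0 ≤ p₀ + v * p₁ + v ^ 2 * p₂ + v ^ 3 * p₃ := by
  refine (mul_nonneg_iff_of_pos_left (pow_pos hD 3)).1 ?_
  have hZ : 0 ≤ v * D - a := by linarith
  have e : D ^ 3 * (p₀ + v * p₁ + v ^ 2 * p₂ + v ^ 3 * p₃) =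
      (D ^ 3 * p₀ + D ^ 2 * a * p₁ + D * a ^ 2 * p₂ + a ^ 3 * p₃) +
      (v * D - a) * (D ^ 2 * p₁ + 2 * D * a * p₂ + 3 * a ^ 2 * p₃) +
      (v * D - a) ^ 2 * (D * p₂ + 3 * a * p₃) + (v * D - a) ^ 3 * p₃ := by ring
  rw [e]
  positivity

end Vale.Agent.P237.Quant.TailTuple
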