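import Mathlib
import Vale.Agent.P237.Quant.TailCheck
import Vale.Agent.P237.Quant.EnvelopeCheckDefs

/-!
The Boolean check of a tail calibration on a range `lo ≤ n ≤ hi` of dimensions. With `T = t √n`,
`R = ρ √n`, `ε = 1 / n` and the cubic loss `G = n * cubicF`, the inequality times `n` is affine in
`ε` and in `G`, so it is checked at the ends of both; on a cell it is a form of degree seven in the
weights of the `T` interval with controls in `v` and in `R`. The bound of the slope after a node and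
the chord of the envelope are affine in `ε` too and enter the cells with nonnegative multipliers,
the same at both ends.
-/

namespace Vale.Agent.P237.Quant.TailUniform

open TailCert TailTuple Four.Checker

noncomputable section

/-- What is known from the time `Z / Dt` on: `x ^ 2 p ^ m ≤ K / Dc * exp (-(T Dt / Z - 1) L / Dc)`
and `sig / Dt ≤ z √n`. -/
structure Node where
  Z : ℤ
  K : ℤ
  L : ℤ
  sig : ℤ

/-- A segment of `v = x - 1`: below or above one, the data of the logarithm, a cubic majorant of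
`G`, a bound of `R`, a square for the pieces to the left and to the right of zero (its `tau` grows
by `dtau` along the interval, its shift `sig0`, `sig1` by `dsig`), and the
multipliers of the slope and of the envelope on each piece, for the two values of `G`. -/
structure Seg where
  V0 : ℤ
  V1 : ℤ
  below : Bool
  taylor : Bool
  ll : ℤ
  lu : ℤ
  g0 : ℤ
  g1 : ℤ
  g2 : ℤ
  g3 : ℤ
  R : ℤ
  nu0 : ℕ := 0
  tau0 : ℤ := 0
  nu1 : ℕ := 0
  tau1 : ℤ := 0
  m0 : List (ℕ × ℕ) := []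
  m1 : List (ℕ × ℕ) := []
  dtau : ℤ := 0
  sig0 : ℤ := 0
  sig1 : ℤ := 0
  dsig : ℤ := 0

/-- An interval of `A = Dt * T`: the branch of the potential, bounds of the weight polynomial at
the two ends of `ε`, of `si`, of the profile and of the two quadratic brackets of `n (r p - 1)`,
and the chord of the envelope at the four corners. -/
structure Ival where
  A0 : ℤ
  A1 : ℤ
  wb : Bool
  kl0 : ℤ
  kl1 : ℤ
  sA : ℤ
  ph : ℤ
  pl : ℤ
  uc : ℤ
  uq : ℤ
  dc : ℤ
  dq : ℤ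
  ex00 : ℤ
  ex01 : ℤ
  ex10 : ℤ
  ex11 : ℤ
  node : Node
  cuts : List ℤ
  segs : List Seg

/-- The parameters of a calibration on `lo ≤ n`, and `n ≤ hi` unless `hi = 0`. Beyond `A = Af` the
flux is `E + Aq T`, `2 E`, `E`, `k T`. `et` is the share of the energy plus `t1`. -/
structure Cfg where
  lo : ℕ
  hi : ℕ
  Dt : ℤ
  Dc : ℤ
  Dr : ℤ
  Dv : ℤ
  Dw : ℤ
  a : ℤ
  f : ℤ
  lam : ℤ
  et : ℤ
  K : ℤ
  t1 : ℤ
  t3 : ℤ
  t2 : ℤ
  pen : ℤ
  nn : ℤ
  nd : ℤ
  b0 : ℤ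
  Kc : ℤ
  Af : ℤ
  E : ℤ
  Aq : ℤ
  k : ℤ
  flux : Flux
  ivals : List Ival
  csegs : List Seg

namespace Cfg

variable (C : Cfg)

/-- The lower end of `1 / n`. -/
def e0 : ℚ := if C.hi = 0 then 0 else 1 / (C.hi : ℚ)

/-- The upper end of `1 / n`. -/
def e1 : ℚ := 1 / (C.lo : ℚ)

/-- The lower end of `1 / n` as a fraction. -/
def end0 : ℤ × ℤ := if C.hi = 0 then (0, 1) else (1, Int.ofNat C.hi)

/-- The upper end of `1 / n` as a fraction. -/
def end1 : ℤ × ℤ := (1, Int.ofNat C.lo)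

/-- The common denominator of the parameters times the one of `n / m`. -/
def N : ℤ := imul C.nd C.Dw

end Cfg

/-- A lower bound of `exp (-E)` for `0 ≤ E ≤ 64`. -/
def expNegTwo (E : ℚ) : ℚ := expNegLo (E / 2) ^ 2

/-- The exponent that bounds `p ^ (-m)` at `T`, the upper end of `1 / n` being `e₁`. -/
def ballExp (e₁ T : ℚ) : ℚ := logUp (e₁ * T ^ 2 / (1 - e₁ * T ^ 2)) / (2 * e₁)

/-- An upper bound of `-log (1 - e T ^ 2) / e`. -/
def logEnd (e T : ℚ) : ℚ := if e = 0 then T ^ 2 else logUp (e * T ^ 2 / (1 - e * T ^ 2)) / e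

/-- Twice the exponent of the chord of the envelope at the end `e` and the point `A`. -/
def envExp (C : Cfg) (I : Ival) (e : ℚ) (A : ℤ) : ℚ :=
  let T0 : ℚ := (I.A0 : ℚ) / C.Dt
  let T1 : ℚ := (I.A1 : ℚ) / C.Dt
  let c := (C.e1 - C.e0) / 4 * (logEnd C.e1 T1 - T0 ^ 2)
  max 0 (((1 - e) * logEnd e ((A : ℚ) / C.Dt) + c) / 2 -
    ((A : ℚ) / I.node.Z - 1) * ((I.node.L : ℚ) / C.Dc))

/-- `n ^ (-1) * T ^ 2` stays below one and the exponent in range. -/
def ballExpOK (e₁ T : ℚ) : Bool := decide (e₁ * T ^ 2 < 1 ∧ ballExp e₁ T ≤ 64)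

/-- The weight polynomial. -/
def weightQ (x : ℚ) : ℚ :=
  1 - x ^ 2 * (1 - x / 2 - x * (1 - x) / 4) - 7 / 250 * x ^ 2 * (1 - x) * (1 + 9 * x)

/-! ### Side conditions -/

/-- The affine bound of the weight polynomial in `ε`. -/
def Ival.weightOK (C : Cfg) (I : Ival) : Bool :=
  decide (0 ≤ I.kl0 ∧ I.kl0 ≤ I.kl1) &&
  if I.kl0 = I.kl1 then decide ((I.kl0 : ℚ) / C.Dc ≤ weightQ ((I.ph : ℚ) / C.Dc))
  else
    let lo := Int.ofNat C.lo; let en := C.end0.1; let ed := C.end0.2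
    let AA := imul I.A0 I.A0; let D2 := imul C.Dt C.Dt
    let E := imul AA (isub ed (imul en lo))
    let F := imul 1000 (imul (isub I.kl1 I.kl0) lo)
    posOn I.pl I.ph C.Dc (add1 (smul1 (imul C.Dc E) [1000, 0, -1028, 526, 2])
      [isub (imul F (imul en AA))
          (iadd (imul 1000 (imul I.kl0 E)) (imul F (imul D2 ed))),
        0, imul F (imul D2 ed)])

/-- The bounds of the profile and the brackets on an interval. -/
def Ival.boundsOK (C : Cfg) (I : Ival) : Bool :=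
  let T0 : ℚ := (I.A0 : ℚ) / C.Dt
  let T1 : ℚ := (I.A1 : ℚ) / C.Dt
  let ph : ℚ := (I.ph : ℚ) / C.Dc
  let pl : ℚ := (I.pl : ℚ) / C.Dc
  decide (0 ≤ pl ∧ pl ≤ ph ∧ ph ≤ 1) &&
  decide (1 - C.e0 * T0 ^ 2 ≤ ph ^ 2 ∧ pl ^ 2 ≤ 1 - C.e1 * T1 ^ 2) &&
  decide (ph * (1 / 2 + C.e1 / 8) ≤ (I.uc : ℚ) / C.Dc ∧ (I.uq : ℚ) / C.Dc * (1 + ph) ≤ 1) &&
  decide ((I.dc : ℚ) / C.Dc ≤ pl * (1 / 2) ∧ 1 ≤ (I.dq : ℚ) / C.Dc * (1 + pl)) &&
  decide (0 ≤ I.node.Z ∧ I.node.Z ≤ I.A0 ∧ 0 ≤ I.node.L ∧ 0 ≤ I.node.sig) &&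
  ballExpOK C.e1 T1 && I.weightOK C

/-- The chord of the envelope at one corner. -/
def Ival.envOK1 (C : Cfg) (I : Ival) (e : ℚ) (A ex : ℤ) : Bool :=
  let Q := envExp C I e A
  let y : ℚ := 1 + (ex : ℚ) / C.Dv
  decide (Q ≤ 64 ∧ 0 ≤ y ∧ (I.node.K : ℚ) / C.Dc ≤ y ^ 2 * expNegTwo Q)

/-- The chord of the envelope. -/
def Ival.envOK (C : Cfg) (I : Ival) : Bool :=
  I.envOK1 C C.e0 I.A0 I.ex00 && I.envOK1 C C.e0 I.A1 I.ex01 &&
    I.envOK1 C C.e1 I.A0 I.ex10 && I.envOK1 C C.e1 I.A1 I.ex11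

/-- The form that bounds `si` on an interval from one side. -/
def Ival.siBound (C : Cfg) (I : Ival) (s : ℤ) : Pk :=
  let es := C.flux.si.line I.A0
  let q : Pk :=
    (((Pk.unit.lin 1 1).lin 1 1).smul (isub I.sA (imul s es.e0))).add
      ((((Pk.unit.lin 1 1).lin I.A0 I.A1).smul (ineg (imul s es.e1))).add
        (((Pk.unit.lin I.A0 I.A1).lin I.A0 I.A1).smul (ineg (imul s es.e2))))
  ((((q.lin 1 1).lin 1 1).lin 1 1).lin 1 1).lin 1 1

/-- The majorant of `G` on a segment. -/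
def Seg.majOK (C : Cfg) (s : Seg) : Bool :=
  if s.below then decide (s.V1 ≤ 0)
  else
    let v0 : ℚ := (s.V0 : ℚ) / C.Dv
    let v1 : ℚ := (s.V1 : ℚ) / C.Dv
    let c := 2 / (1 - 2 * C.e1)
    let hm := 1 / ((C.lo : ℚ) - 1)
    let g0 : ℚ := (s.g0 : ℚ) / C.Dc
    let g1 : ℚ := (s.g1 : ℚ) / C.Dc
    let g2 : ℚ := (s.g2 : ℚ) / C.Dc
    let g3 : ℚ := (s.g3 : ℚ) / C.Dc
    decide (0 ≤ s.V0) &&
    if s.taylor then
      decide (0 ≤ g0 ∧ 0 ≤ g1 ∧ 0 ≤ g2 ∧ 2 / 3 ≤ g3)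
    else
      let ll : ℚ := (s.ll : ℚ) / C.Dc
      let lu : ℚ := (s.lu : ℚ) / C.Dc
      let x0 := 1 + v0
      let dl := if C.hi = 0 then 0 else 1 / ((C.hi : ℚ) - 1)
      let lh := lu + (v1 - v0) / x0
      let K2 := dl * max 0 (1 - 2 / ((C.lo : ℚ) - 1) * lh / 3) * ll ^ 2
      let L0 := lu - v0 / x0
      let d0 := g0 - c * (L0 - K2)
      let d1 := g1 - c * (1 / x0 + 2 * L0 - 2 * K2 - 1)
      let d2 := g2 - c * (2 / x0 + L0 - K2 - 3 / 2 + hm)
      let d3 := g3 - c * (1 / x0)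
      let D : ℚ := C.Dv
      let a : ℚ := s.V0
      let b : ℚ := s.V1
      decide (0 ≤ ll ∧ ll ≤ 32 ∧ 1 ≤ expNegLo ll * x0 ∧ 0 ≤ lu ∧ x0 ≤ expLo (lu / 32) ^ 32) &&
      decide (0 ≤ D ^ 3 * d0 + D ^ 2 * a * d1 + D * a ^ 2 * d2 + a ^ 3 * d3 ∧
        0 ≤ 3 * D ^ 3 * d0 + D ^ 2 * (2 * a + b) * d1 + D * (a * a + 2 * a * b) * d2 +
          3 * a ^ 2 * b * d3 ∧
        0 ≤ 3 * D ^ 3 * d0 + D ^ 2 * (a + 2 * b) * d1 + D * (2 * a * b + b * b) * d2 +
          3 * a * b ^ 2 * d3 ∧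
        0 ≤ D ^ 3 * d0 + D ^ 2 * b * d1 + D * b ^ 2 * d2 + b ^ 3 * d3)

/-- The bound of `R` on a segment. -/
def Seg.slopeOK (C : Cfg) (I : Ival) (s : Seg) : Bool :=
  let T0 : ℚ := (I.A0 : ℚ) / C.Dt
  let T1 : ℚ := (I.A1 : ℚ) / C.Dt
  let r : ℚ := (s.R : ℚ) / C.Dr
  let σ : ℚ := (I.node.sig : ℚ) / C.Dt
  let x : ℚ := 1 + (s.V1 : ℚ) / C.Dv
  let b : ℚ := (C.b0 : ℚ) / C.Dc
  let U := ballExp C.e1 T1 - (if 0 ≤ r then T0 else T1) * r
  decide (T1 ≤ r) ||
  decide (σ ≤ T1 ∧ T1 - σ ≤ r * (1 - C.e1 * T1 * σ) ∧ 0 < 1 - C.e1 * T1 * σ) ||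
  (decide (r ≤ T1 ∧ 0 ≤ x) &&
    if 0 ≤ U then decide (U ≤ 64 ∧ x ^ 2 ≤ b * expNegTwo U)
    else decide (x ^ 2 * expNegHi (min 32 (-U * (1 - C.e1))) ≤ b))

/-- A chain of segments from `v` on. -/
def segChain (v : ℤ) : List Seg → Bool
  | [] => false
  | [s] => decide (s.V0 ≤ v) && decide (s.V0 < s.V1)
  | s :: l => decide (s.V0 ≤ v) && decide (s.V0 < s.V1) && segChain s.V1 l

/-- The last segment reaches `w`, a value of `x ^ 2`. -/
def segEnd (C : Cfg) (w : ℚ) : List Seg → Bool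
  | [] => false
  | [s] => decide (0 ≤ 1 + (s.V1 : ℚ) / C.Dv ∧ w ≤ (1 + (s.V1 : ℚ) / C.Dv) ^ 2)
  | _ :: l => segEnd C w l

/-- The last segment reaches `w`, a value of `Dv v`. -/
def segReach (w : ℤ) : List Seg → Bool
  | [] => false
  | [s] => decide (w ≤ s.V1)
  | _ :: l => segReach w l

/-- Increasing cuts that reach every bound of `R`. -/
def cutChain (segs : List Seg) : List ℤ → Bool
  | [] => false
  | [c] => segs.all fun s => decide (s.R ≤ c)
  | c :: d :: l => decide (c < d) && cutChain segs (d :: l)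

/-- The side conditions of an interval. -/
def Ival.sideOK (C : Cfg) (I : Ival) : Bool :=
  decide (0 ≤ I.A0 ∧ I.A0 < I.A1) &&
  kinkFree I.A0 I.A1 C.flux.al.kinks && kinkFree I.A0 I.A1 C.flux.be.kinks &&
  kinkFree I.A0 I.A1 C.flux.ga.kinks && kinkFree I.A0 I.A1 C.flux.si.kinks &&
  I.boundsOK C && I.envOK C && (I.siBound C 1).nn 8 && (I.siBound C (-1)).nn 8 &&
  segChain (-C.Dv) I.segs &&
  segReach I.ex00 I.segs && segReach I.ex01 I.segs &&
  segReach I.ex10 I.segs && segReach I.ex11 I.segs &&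
  cutChain I.segs I.cuts && (I.segs.all fun s => s.majOK C && s.slopeOK C I)

/-! ### The rows -/

/-- A quadratic in `A` as a form of degree two. -/
def quadForm (I : Ival) (e : Quad) : Pk :=
  (((Pk.unit.lin 1 1).lin 1 1).smul e.e0).add
    (((Pk.unit.lin 1 1).lin I.A0 I.A1).smul e.e1 |>.add
      (((Pk.unit.lin I.A0 I.A1).lin I.A0 I.A1).smul e.e2))

/-- From degree two to seven. -/
def up2 (p : Pk) : Pk := ((((p.lin 1 1).lin 1 1).lin 1 1).lin 1 1).lin 1 1

/-- From degree three to seven. -/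
def up3 (p : Pk) : Pk := (((p.lin 1 1).lin 1 1).lin 1 1).lin 1 1

/-- A constant as a form of degree two. -/
def const2 (k : ℤ) : Pk := ((Pk.unit.lin 1 1).lin 1 1).smul k

/-- `A ^ 2` as a form of degree two. -/
def sq2 (I : Ival) : Pk := (Pk.unit.lin I.A0 I.A1).lin I.A0 I.A1

/-- The rows at one end of `1 / n`. -/
structure Rows where
  a0 : Pk
  a1b : Pk
  a1u : Pk
  a2b : Pk
  a2u : Pk
  b0 : Pk
  b1 : Pk
  b2b : Pk
  b2u : Pk
  V0 : Pk
  V1 : Pk
  C3 : Pk
  g : Pk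

/-- `2 N p² Dt σ' - 2 N ed Dt A σ` for one coefficient. -/
def Ival.acoef (C : Cfg) (I : Ival) (e : ℤ × ℤ) (q : Quad) : Pk :=
  let f := slopeEnds I.A0 I.A1 q
  let P := (const2 (imul e.2 (imul C.Dt C.Dt))).add ((sq2 I).smul (ineg e.1))
  let k := imul 2 (imul C.N C.Dt)
  up3 (((P.lin f.1 f.2).smul k).add
    (((quadForm I q).lin I.A0 I.A1).smul (ineg (imul k e.2))))

/-- The rows of an interval at one end of `1 / n`. -/
def Ival.rows (C : Cfg) (I : Ival) (e : ℤ × ℤ) (kl : ℤ) : Rows :=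
  let D2 := imul C.Dt C.Dt
  let ea := C.flux.al.line I.A0; let eb := C.flux.be.line I.A0
  let eg := C.flux.ga.line I.A0; let es := C.flux.si.line I.A0
  let U := isub e.2 e.1
  let V := isub e.2 (imul 2 e.1)
  let M := imul (imul 2 e.2) (imul D2 C.Dc)
  let B := up2 (quadForm I eb)
  let G := up2 (quadForm I eg)
  let bs := (up2 (quadForm I es)).smul (imul 2 (imul C.N (imul D2 V)))
  let et := imul (imul 2 e.2) (imul C.nd (isub C.t3 C.t1))
  let brU := (up2 ((const2 (imul I.uc D2)).add ((sq2 I).smul (ineg I.uq)))).smul et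
  let brB := (up2 ((const2 (imul I.dc D2)).add ((sq2 I).smul (ineg I.dq)))).smul et
  let w := if I.wb then
      ((sq2 I).smul (imul (imul 2 e.2) (imul C.nn (imul C.f kl)))).add
        (const2 (imul M (isub (imul C.nd C.lam) (imul 2 (imul C.nn C.Dw)))))
    else const2 (imul M (iadd (imul C.nn (isub C.a (imul 2 C.Dw)))
      (imul C.nd C.lam)))
  let a1 := (I.acoef C e eb).add (up2 (const2 (ineg (imul M (imul C.nd C.K)))))
  let a2 := (I.acoef C e eg).add (up2 ((w.smul (-1)).add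
    (const2 (imul M (imul C.nd C.t2)))))
  let pen := up2 (const2 (imul (imul (imul 2 e.2) D2)
    (imul C.nd (imul C.pen I.sA))))
  { a0 := I.acoef C e ea
    a1b := a1.add (brB.smul 2)
    a1u := a1.add (brU.smul 2)
    a2b := a2.add brB
    a2u := (a2.add brU).add pen
    b0 := B.smul (imul C.N (imul D2 U))
    b1 := (B.add (G.smul 2)).smul (imul C.N (imul D2 U))
    b2b := G.smul (imul 2 (imul C.N (imul D2 U)))
    b2u := (G.smul (imul 2 (imul C.N (imul D2 U)))).add bs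
    V0 := (I.acoef C e es).add (up2 (const2 (imul M (imul C.nd (iadd C.Dw C.t3)))))
    V1 := bs
    C3 := up2 (const2 (imul (imul 4 (imul C.N (imul D2 C.Dc)))
      (isub e.2 (imul 3 e.1))))
    g := up2 (const2 (imul (imul C.nd C.et) (imul U (imul kl D2)))) }

/-- The functionals of a segment. -/
def Seg.ctrl (C : Cfg) (s : Seg) : V4 × V4 × V4 × V4 :=
  let a := s.V0; let b := s.V1; let D := C.Dv
  let DD := imul D D; let D3 := imul DD D; let aa := imul a a; let bb := imul b b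
  let ab := imul a b
  (⟨D3, imul DD a, imul D aa, imul aa a⟩,
    ⟨imul 3 D3, imul DD (iadd (imul 2 a) b),
      imul D (iadd aa (imul 2 ab)), imul 3 (imul aa b)⟩,
    ⟨imul 3 D3, imul DD (iadd a (imul 2 b)),
      imul D (iadd (imul 2 ab) bb), imul 3 (imul a bb)⟩,
    ⟨D3, imul DD b, imul D bb, imul bb b⟩)

/-- The rows below one, times three. -/
def Rows.below (R : Rows) : R4 × R4 :=
  (⟨R.a0.smul 3, R.a1b.smul 3, R.a2b.smul 3, R.C3⟩,
    ⟨R.b0.smul 3, R.b1.smul 3, R.b2b.smul 3, Pk.zero⟩)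

/-- The rows above one at `G = 0`, with the scale of those at the majorant. -/
def Rows.zero (R : Rows) (Dc : ℤ) : R4 × R4 :=
  (⟨R.a0.smul Dc, R.a1u.smul Dc, R.a2u.smul Dc, Pk.zero⟩,
    ⟨R.b0.smul Dc, R.b1.smul Dc, R.b2u.smul Dc, Pk.zero⟩)

/-- The rows above one at the majorant of `G`. -/
def Rows.full (R : Rows) (Dc : ℤ) (s : Seg) : R4 × R4 :=
  (⟨(R.a0.smul Dc).add (R.V0.smul s.g0), (R.a1u.smul Dc).add (R.V0.smul s.g1),
      (R.a2u.smul Dc).add (R.V0.smul s.g2), R.V0.smul s.g3⟩,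
    ⟨(R.b0.smul Dc).add (R.V1.smul s.g0), (R.b1.smul Dc).add (R.V1.smul s.g1),
      (R.b2u.smul Dc).add (R.V1.smul s.g2), R.V1.smul s.g3⟩)

/-- The three tests left of the first cut. -/
def firstOK (D c : ℤ) (S : Side) (g : Pk) : Bool :=
  ((spread S.W (g.smul (imul c c))).add
    ((S.p.smul (ineg (imul D D))).add (S.q.smul (ineg (imul D c))))).nn 32 &&
  ((spread S.W (g.smul (imul (-2) c))).add (S.q.smul D)).nn 32 &&
  (spread S.W g).nn 32

/-- The three tests between two cuts. -/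
def midOK (D a b : ℤ) (S : Side) (g : Pk) : Bool :=
  let DD := ineg (imul D D)
  ((spread S.W (g.smul (imul a a))).add
    ((S.p.smul DD).add (S.q.smul (ineg (imul D a))))).nn 32 &&
  ((spread S.W (g.smul (imul 2 (imul a b)))).add
    ((S.p.smul (imul 2 DD)).add (S.q.smul (ineg (imul D (iadd a b)))))).nn 32 &&
  ((spread S.W (g.smul (imul b b))).add
    ((S.p.smul DD).add (S.q.smul (ineg (imul D b))))).nn 32

/-- A piece of `R` with the sign of the coefficient of `G` on it. -/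
structure PieceR where
  first : Bool
  R0 : ℤ
  R1 : ℤ
  pos : Bool
  neg : Bool

/-- The first piece, from minus infinity to the cut. -/
def mkFirst (D : ℤ) (R : Rows) (c : ℤ) : PieceR :=
  let v := (R.V0.smul D).add (R.V1.smul c)
  let pos := v.nn 8 && (R.V1.smul (-1)).nn 8
  ⟨true, c, c, pos, !pos && (v.smul (-1)).nn 8 && R.V1.nn 8⟩

/-- A piece between two cuts. -/
def mkPiece (D : ℤ) (R : Rows) (a b : ℤ) : PieceR :=
  let u := (R.V0.smul D).add (R.V1.smul a)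
  let v := (R.V0.smul D).add (R.V1.smul b)
  let pos := u.nn 8 && v.nn 8
  ⟨false, a, b, pos, !pos && (u.smul (-1)).nn 8 && (v.smul (-1)).nn 8⟩

/-- The pieces of the cuts after the first. -/
def midPieces (D : ℤ) (R : Rows) : List ℤ → List PieceR
  | a :: b :: l => mkPiece D R a b :: midPieces D R (b :: l)
  | _ => []

/-- All pieces. -/
def pieces (D : ℤ) (R : Rows) : List ℤ → List PieceR
  | [] => []
  | c :: l => mkFirst D R c :: midPieces D R (c :: l)

/-- The tests of one cell. -/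
def cellOK (D : ℤ) (S : Side) (g : Pk) (q : PieceR) : Bool :=
  if q.first then firstOK D q.R0 S g else midOK D q.R0 q.R1 S g

/-- The weights of `(1 + v) ^ 2` in control coordinates, scaled. -/
def sideW (M : V4 × V4 × V4 × V4) (s : ℤ) : Pk :=
  spreadW ⟨imul s M.1.sq, imul s M.2.1.sq, imul s M.2.2.1.sq, imul s M.2.2.2.sq⟩

/-- The control coordinates of two rows. -/
def mkSide (M : V4 × V4 × V4 × V4) (r : R4 × R4) (s : ℤ) : Side :=
  { p := r.1.ctrl M, q := r.2.ctrl M, W := sideW M s }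

/-- The rows after the square `ed nu (Dr x R - τ v - ς) ^ 2` is taken off, `τ` and `ς` affine on
the interval, from `tau` to `tau + dt` and from `sg` to `sg + ds`. -/
def Rows.square (R : Rows) (Dr ed : ℤ) (nu : ℕ) (tau dt sg ds : ℤ) : Rows :=
  if nu == 0 then R else
    let c := fun k => up2 (const2 k)
    let n := imul ed (Int.ofNat nu)
    let τ := Pk.unit.lin tau (iadd tau dt)
    let t := up2 ((τ.lin tau (iadd tau dt)).smul n)
    let u := up2 ((τ.lin 1 1).smul (imul (-2) (imul n Dr)))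
    let g := R.g.add (c (ineg (imul n (imul Dr Dr))))
    if sg == 0 && ds == 0 then
      { R with
        a2b := R.a2b.add t, a2u := R.a2u.add t
        b1 := R.b1.add u, b2b := R.b2b.add u, b2u := R.b2u.add u
        g := g }
    else
      let ς := Pk.unit.lin sg (iadd sg ds)
      let m := up2 ((τ.lin sg (iadd sg ds)).smul (imul 2 n))
      let w := up2 ((ς.lin 1 1).smul (imul (-2) (imul n Dr)))
      { R with
        a0 := R.a0.add (up2 ((ς.lin sg (iadd sg ds)).smul n))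
        a1b := R.a1b.add m, a1u := R.a1u.add m
        a2b := R.a2b.add t, a2u := R.a2u.add t
        b0 := R.b0.add w, b1 := (R.b1.add u).add w
        b2b := R.b2b.add u, b2u := R.b2u.add u
        g := g }

/-- The constraints: the slope after the node and the chord of the envelope. -/
structure Pads where
  muP : R4
  muQ : R4
  nu : R4

/-- The constraints at one end of `ε`. -/
def Ival.pads (C : Cfg) (I : Ival) (e : ℤ × ℤ) (x0 x1 : ℤ) : Pads :=
  let six := ((((Pk.unit.lin 1 1).lin 1 1).lin 1 1).lin 1 1).lin 1 1 |>.lin 1 1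
  let sg := I.node.sig; let D2 := imul C.Dt C.Dt
  { muP := ⟨((six.lin (isub I.A0 sg) (isub I.A1 sg))).smul (imul C.Dt e.2),
      Pk.zero, Pk.zero, Pk.zero⟩
    muQ := ⟨((six.lin I.A0 I.A1).smul (imul e.1 sg)).add
      ((six.lin 1 1).smul (ineg (imul e.2 D2))), Pk.zero, Pk.zero, Pk.zero⟩
    nu := ⟨(six.lin x0 x1).smul e.2, (six.lin 1 1).smul (ineg (imul e.2 C.Dv)),
      Pk.zero, Pk.zero⟩ }

/-- The constraints in control coordinates. -/
structure Cons where
  muP : Pk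
  muQ : Pk
  nu : Pk

/-- The constraints on a segment. -/
def Pads.cons (E : Pads) (M : V4 × V4 × V4 × V4) : Cons :=
  ⟨E.muP.ctrl M, E.muQ.ctrl M, E.nu.ctrl M⟩

/-- A side plus the constraints with their multipliers. -/
def sideAdj (S : Side) (K : Cons) (M : ℕ × ℕ) : Side :=
  { p := (S.p.add (K.muP.smul (Int.ofNat M.1))).add (K.nu.smul (Int.ofNat M.2))
    q := S.q.add (K.muQ.smul (Int.ofNat M.1))
    W := S.W }

/-- A cell with multipliers. -/
def cellMul (D : ℤ) (S : Side) (g : Pk) (K : Cons) (M : ℕ × ℕ) (q : PieceR) : Bool :=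
  if M.1 == 0 && M.2 == 0 then cellOK D S g q else cellOK D (sideAdj S K M) g q

/-- A test over the pieces with their multipliers; missing multipliers are zero. -/
def piecesWith (f : PieceR → ℕ × ℕ → ℕ × ℕ → Bool) :
    List PieceR → List (ℕ × ℕ) → List (ℕ × ℕ) → Bool
  | [], _, _ => true
  | q :: P, a, b => f q (a.headD (0, 0)) (b.headD (0, 0)) && piecesWith f P a.tail b.tail

/-- The test of one piece of a segment for one choice of the square. -/
def pieceTest (C : Cfg) (R : Rows) (E : Pads) (s : Seg) (q : PieceR) (a b : ℕ × ℕ) : Bool :=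
  let M := s.ctrl C
  if s.below then cellMul C.Dr (mkSide M R.below 3) R.g (E.cons M) a q
  else
    ((q.pos && a == b) || cellMul C.Dr (mkSide M (R.zero C.Dc) C.Dc) R.g (E.cons M) a q) &&
      ((q.neg && a == b) || cellMul C.Dr (mkSide M (R.full C.Dc s) C.Dc) R.g (E.cons M) b q)

/-- Whether a piece takes the right square. -/
def PieceR.right (q : PieceR) : Bool := !q.first && decide (0 ≤ q.R0)

/-- The rows of a piece. -/
def Seg.rowsFor (s : Seg) (Dr ed : ℤ) (R : Rows) (q : PieceR) : Rows :=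
  if q.right then R.square Dr ed s.nu1 s.tau1 s.dtau s.sig1 s.dsig
  else R.square Dr ed s.nu0 s.tau0 s.dtau s.sig0 s.dsig

/-- The cells of a segment. -/
def segCells (C : Cfg) (ed : ℤ) (R : Rows) (E : Pads) (P : List PieceR) (s : Seg) : Bool :=
  piecesWith (fun q a b => (!q.first && decide (s.R < q.R0)) ||
    pieceTest C (s.rowsFor C.Dr ed R q) E s q a b) P s.m0 s.m1

/-- All cells of an interval at one end of `1 / n`. -/
def Ival.cellsAt (C : Cfg) (I : Ival) (e : ℤ × ℤ) (kl x0 x1 : ℤ) : Bool :=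
  let R := I.rows C e kl
  let P := pieces C.Dr R I.cuts
  let E := I.pads C e x0 x1
  I.segs.all fun s => segCells C e.2 R E P s

/-- All cells of an interval. -/
def Ival.cellsOK (C : Cfg) (I : Ival) : Bool :=
  I.cellsAt C C.end0 I.kl0 I.ex00 I.ex01 && I.cellsAt C C.end1 I.kl1 I.ex10 I.ex11

/-! ### The head and the centre -/

/-- The flux is nonpositive at the centre on a segment. -/
def centreSeg (C : Cfg) (s : Seg) : Bool :=
  let M := s.ctrl C
  let a := C.flux.al.e0; let b := C.flux.be.e0; let g := C.flux.ga.e0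
  let k : V4 := if s.below then ⟨a, b, g, 0⟩ else
    let σ := max C.flux.si.e0 0
    ⟨C.Dc * a + σ * s.g0, C.Dc * b + σ * s.g1, C.Dc * g + σ * s.g2, σ * s.g3⟩
  let t := fun v : V4 => decide (v.a * k.a + v.b * k.b + v.c * k.c + v.d * k.d ≤ 0)
  s.majOK C && t M.1 && t M.2.1 && t M.2.2.1 && t M.2.2.2

/-- The check at the centre. -/
def Cfg.centreOK (C : Cfg) : Bool :=
  (C.flux.al.kinks.all fun c => decide (0 ≤ c.1)) &&
  (C.flux.be.kinks.all fun c => decide (0 ≤ c.1)) &&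
  (C.flux.ga.kinks.all fun c => decide (0 ≤ c.1)) &&
  (C.flux.si.kinks.all fun c => decide (0 ≤ c.1)) &&
  (match C.csegs with
    | [] => false
    | s :: _ => decide (s.V0 ≤ -C.Dv) ||
        decide ((1 + (s.V0 : ℚ) / C.Dv) ^ 2 ≤ (C.b0 : ℚ) / C.Dc)) &&
  (match C.csegs with
    | [] => false
    | s :: _ => segChain s.V0 C.csegs) &&
  segEnd C ((C.Kc : ℚ) / C.Dc) C.csegs && C.csegs.all (centreSeg C)

/-- A chain of intervals from `a` up to `b`. -/
def ivalChain (b a : ℤ) : List Ival → Bool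
  | [] => decide (b ≤ a)
  | I :: l => decide (I.A0 ≤ a) && ivalChain b I.A1 l

/-- Beyond `Af` the flux is the one of the far zone. -/
def Cfg.farOK (C : Cfg) : Bool :=
  let ok := fun (s : Spline) (c0 c1 : ℤ) =>
    (s.kinks.all fun c => decide (c.1 ≤ C.Af)) &&
      decide ((s.line C.Af).e0 = c0 ∧ (s.line C.Af).e1 = c1 ∧ (s.line C.Af).e2 = 0)
  ok C.flux.al C.E C.Aq && ok C.flux.be (2 * C.E) 0 && ok C.flux.ga C.E 0 && ok C.flux.si 0 C.k

/-- The parameters. -/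
def Cfg.headOK (C : Cfg) : Bool :=
  decide (7 ≤ C.lo ∧ (C.hi = 0 ∨ C.lo < C.hi)) &&
  decide (0 < C.Dt ∧ 0 < C.Dc ∧ 0 < C.Dr ∧ 0 < C.Dv ∧ 0 < C.Dw ∧ 0 < C.nd) &&
  decide (2 * C.Dw ≤ C.a ∧ 0 ≤ C.f ∧ 0 ≤ C.et ∧ 0 ≤ C.t1 ∧ C.t1 ≤ C.t3 ∧ 0 ≤ C.K ∧ 0 ≤ C.nn) &&
  decide ((C.nn : ℚ) / C.nd * (1 - C.e0) ≤ 1) &&
  decide (2 * ((C.t3 : ℚ) / C.Dw) / (1 - C.e1) ≤ (C.t2 : ℚ) / C.Dw) &&
  decide (0 ≤ C.pen ∧ 4 * C.e1 ^ 3 ≤ ((C.pen : ℚ) / C.Dw * (1 - C.e1)) ^ 2) &&
  decide (0 < C.Af ∧ C.e1 * ((C.Af : ℚ) / C.Dt) ^ 2 < 1 ∧ 0 < C.b0) &&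
  ivalChain C.Af 0 C.ivals && C.farOK

/-- The whole check. -/
def Cfg.check (C : Cfg) : Bool :=
  C.headOK && C.centreOK && C.ivals.all fun I => I.sideOK C && I.cellsOK C

end

end Vale.Agent.P237.Quant.TailUniform
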