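import Mathlib
import Vale.Agent.P237.Quant.Moments
import Vale.Agent.P237.Quant.CertQuad
import Vale.Agent.P237.Quant.TailCases
import Vale.Agent.P237.Quant.PowerWindow
import Vale.Agent.P237.Quant.TailUniformCheck
import Vale.Agent.P237.Quant.TailSide
import Vale.Agent.P237.Quant.EnvelopeCheck

/-!
The real bounds behind the checker on a range of dimensions: the exponent of `p ^ (-m)` is convex
in `T = t √n` and below a chord in `ε = 1 / n`, the brackets of `n (r p - 1)`, and the state after a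
node.
-/

namespace Vale.Agent.P237.Quant.TailUniform

open TailCert Set

theorem expNegTwo_sound {Q : ℚ} (h0 : 0 ≤ Q) (h1 : Q ≤ 64) :
    0 ≤ (expNegTwo Q : ℝ) ∧ (expNegTwo Q : ℝ) ≤ Real.exp (-(Q : ℝ)) := by
  obtain ⟨a, b, -⟩ := expNeg_bounds (l := Q / 2) (by positivity)
    (by rw [div_le_iff₀ (by norm_num)]; linarith)
  push_cast [expNegTwo] at *
  refine ⟨sq_nonneg _, (pow_le_pow_left₀ a b 2).trans_eq ?_⟩
  rw [← Real.exp_nat_mul]
  congr 1
  push_cast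
  ring

/-- `-log (1 - e y) / e`, with its limit `y` at `e = 0`. -/
noncomputable def fE (e y : ℝ) : ℝ := if e = 0 then y else -Real.log (1 - e * y) / e

theorem fE_zero_right (e : ℝ) : fE e 0 = 0 := by
  unfold fE
  split <;> simp

theorem hasDerivAt_fE {e y : ℝ} (h : e * y < 1) : HasDerivAt (fE e) (1 / (1 - e * y)) y := by
  unfold fE
  by_cases he : e = 0
  · subst he
    simp only [if_true, zero_mul, sub_zero, div_one]
    exact hasDerivAt_id' y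
  · simp only [if_neg he]
    refine ((((hasDerivAt_id' y).const_mul e).const_sub 1).log (by linarith)).neg.div_const e
      |>.congr_deriv ?_
    field_simp

/-- A combination of the exponents is nonnegative when its slope is. -/
theorem fE_comb_nonneg {a b c e f g Y : ℝ} (hY : 0 ≤ Y)
    (h : ∀ u ∈ Icc (0 : ℝ) Y, e * u < 1 ∧ f * u < 1 ∧ g * u < 1 ∧
      0 ≤ a / (1 - e * u) + b / (1 - f * u) - c / (1 - g * u)) :
    0 ≤ a * fE e Y + b * fE f Y - c * fE g Y := by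
  have hd : ∀ u ∈ Icc (0 : ℝ) Y, HasDerivAt (fun u => a * fE e u + b * fE f u - c * fE g u)
      (a / (1 - e * u) + b / (1 - f * u) - c / (1 - g * u)) u := fun u hu => by
    obtain ⟨h1, h2, h3, -⟩ := h u hu
    refine ((((hasDerivAt_fE h1).const_mul a).add ((hasDerivAt_fE h2).const_mul b)).sub
      ((hasDerivAt_fE h3).const_mul c)).congr_deriv ?_
    ring
  have := monotoneOn_of_hasDerivWithinAt_nonneg (convex_Icc 0 Y)
    (fun u hu => (hd u hu).continuousAt.continuousWithinAt)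
    (fun u hu => (hd u (interior_subset hu)).hasDerivWithinAt)
    (fun u hu => (h u (interior_subset hu)).2.2.2)
    (left_mem_Icc.2 hY) (right_mem_Icc.2 hY) hY
  simpa [fE_zero_right] using this

theorem mul_lt_one_of_le {e f u Y : ℝ} (he : 0 ≤ e) (hef : e ≤ f) (hu : u ∈ Icc (0 : ℝ) Y)
    (hY : f * Y < 1) : e * u < 1 :=
  (mul_le_mul hef hu.2 hu.1 (he.trans hef)).trans_lt hY

theorem fE_mono {e f y : ℝ} (he : 0 ≤ e) (hef : e ≤ f) (hy : 0 ≤ y) (h1 : f * y < 1) :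
    fE e y ≤ fE f y := by
  have := fE_comb_nonneg (a := 1) (b := 0) (c := 1) (e := f) (f := f) (g := e) hy fun u hu => by
    have h2 := mul_lt_one_of_le (he.trans hef) le_rfl hu h1
    have h3 := mul_lt_one_of_le he hef hu h1
    refine ⟨h2, h2, h3, ?_⟩
    rw [zero_div, add_zero, sub_nonneg]
    exact one_div_le_one_div_of_le (by linarith) (by nlinarith [hu.1])
  linarith

theorem le_fE {f y : ℝ} (hf : 0 ≤ f) (hy : 0 ≤ y) (h1 : f * y < 1) : y ≤ fE f y := by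
  have := fE_mono le_rfl hf hy h1
  simpa [fE] using this

theorem fE_mono_right {e y z : ℝ} (he : 0 ≤ e) (hy : 0 ≤ y) (hyz : y ≤ z) (h1 : e * z < 1) :
    fE e y ≤ fE e z := by
  refine monotoneOn_of_hasDerivWithinAt_nonneg (f := fE e) (f' := fun u => 1 / (1 - e * u))
    (convex_Icc 0 z)
    (fun u hu => (hasDerivAt_fE (mul_lt_one_of_le he le_rfl hu h1)).continuousAt.continuousWithinAt)
    (fun u hu => (hasDerivAt_fE (mul_lt_one_of_le he le_rfl (interior_subset hu) h1)).hasDerivWithinAt)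
    (fun u hu => div_nonneg zero_le_one
      (by linarith [mul_lt_one_of_le he le_rfl (interior_subset hu) h1]))
    ⟨hy, hyz⟩ ⟨hy.trans hyz, le_rfl⟩ hyz

/-- The exponent is below its chord in `e`. -/
theorem fE_interp {e₀ e₁ l y : ℝ} (h0 : 0 ≤ e₀) (h01 : e₀ ≤ e₁) (hl0 : 0 ≤ l) (hl1 : l ≤ 1)
    (hy : 0 ≤ y) (h1 : e₁ * y < 1) :
    fE ((1 - l) * e₀ + l * e₁) y ≤ (1 - l) * fE e₀ y + l * fE e₁ y := by
  have hg : (1 - l) * e₀ + l * e₁ ≤ e₁ := by nlinarith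
  have hg0 : 0 ≤ (1 - l) * e₀ + l * e₁ :=
    add_nonneg (mul_nonneg (by linarith) h0) (mul_nonneg hl0 (h0.trans h01))
  have := fE_comb_nonneg (a := 1 - l) (b := l) (c := 1) (e := e₀) (f := e₁)
    (g := (1 - l) * e₀ + l * e₁) hy fun u hu => by
    have a1 := mul_lt_one_of_le h0 h01 hu h1
    have a2 := mul_lt_one_of_le (h0.trans h01) le_rfl hu h1
    have a3 := mul_lt_one_of_le hg0 hg hu h1
    refine ⟨a1, a2, a3, ?_⟩
    have A : 0 < 1 - e₀ * u := by linarith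
    have B : 0 < 1 - e₁ * u := by linarith
    have G : 0 < 1 - ((1 - l) * e₀ + l * e₁) * u := by linarith
    rw [sub_nonneg, div_add_div _ _ A.ne' B.ne', div_le_div_iff₀ G (mul_pos A B)]
    nlinarith [mul_nonneg (mul_nonneg hl0 (sub_nonneg.2 hl1)) (sq_nonneg ((e₀ - e₁) * u))]
  linarith

theorem logEnd_sound {e T : ℚ} (he : 0 ≤ e) (h : e * T ^ 2 < 1) :
    fE (e : ℝ) ((T : ℝ) ^ 2) ≤ (logEnd e T : ℝ) := by
  unfold logEnd fE
  by_cases h0 : e = 0
  · subst h0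
    simp
  have h0' : (e : ℝ) ≠ 0 := Rat.cast_ne_zero.2 h0
  rw [if_neg h0', if_neg h0]
  push_cast
  refine div_le_div_of_nonneg_right ?_ (Rat.cast_nonneg.2 he)
  have hy : 0 ≤ e * T ^ 2 / (1 - e * T ^ 2) :=
    div_nonneg (mul_nonneg he (sq_nonneg T)) (by linarith)
  refine le_trans (le_of_eq ?_) (logUp_sound hy)
  have hz : (0 : ℝ) < 1 - e * (T : ℝ) ^ 2 := by
    have := (Rat.cast_lt (K := ℝ)).2 h
    push_cast at this
    linarith
  rw [← Real.log_inv]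
  push_cast
  congr 1
  field_simp
  ring

/-- The exponent of `p ^ (-n)` at `t = T / √n`. -/
theorem neg_log_ball {n t T : ℝ} (hn : 0 < n) (hT : T ^ 2 = n * t ^ 2) (ht : t ∈ Ioo (0 : ℝ) 1) :
    -Real.log (ballShape t) * n = fE (1 / n) (T ^ 2) / 2 := by
  have e : 1 / n * T ^ 2 = t ^ 2 := by rw [hT]; field_simp
  have hp := ball_sq (Ioo_subset_Icc_self (sub01 ht))
  rw [fE, if_neg (by positivity : (1 / n : ℝ) ≠ 0), e, ← hp, Real.log_pow]
  push_cast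
  field_simp

/-- The factor of the chord of the envelope at an end of `ε`. -/
noncomputable def envG (e c L Z T : ℝ) : ℝ :=
  (((1 - e) * fE e (T ^ 2) + c) / 2 - (T / Z - 1) * L) / 2

theorem convexOn_fE_sq {e T₁ : ℝ} (he : 0 ≤ e) (h1 : e * T₁ ^ 2 < 1) :
    ConvexOn ℝ (Icc 0 T₁) fun T => fE e (T ^ 2) := by
  have hlt : ∀ u ∈ Icc (0 : ℝ) T₁, e * u ^ 2 < 1 := fun u hu =>
    (mul_le_mul_of_nonneg_left (pow_le_pow_left₀ hu.1 hu.2 2) he).trans_lt h1
  have hd : ∀ u ∈ Icc (0 : ℝ) T₁,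
      HasDerivAt (fun T => fE e (T ^ 2)) (1 / (1 - e * u ^ 2) * (2 * u)) u := fun u hu => by
    have h2 : HasDerivAt (fun T : ℝ => T ^ 2) (2 * u) u := by simpa using hasDerivAt_pow 2 u
    exact HasDerivAt.comp (h := fun T : ℝ => T ^ 2) u (hasDerivAt_fE (hlt u hu)) h2
  refine MonotoneOn.convexOn_of_deriv (convex_Icc 0 T₁)
    (fun u hu => (hd u hu).continuousAt.continuousWithinAt)
    (fun u hu => (hd u (interior_subset hu)).differentiableAt.differentiableWithinAt) ?_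
  intro a ha b hb hab
  have ha' := interior_subset ha
  have hb' := interior_subset hb
  rw [(hd a ha').deriv, (hd b hb').deriv, one_div_mul_eq_div, one_div_mul_eq_div]
  have := mul_le_mul_of_nonneg_left (pow_le_pow_left₀ ha'.1 hab 2) he
  exact div_le_div₀ (by linarith [hb'.1]) (by linarith) (by linarith [hlt b hb']) (by linarith)

theorem envG_chord {e c L Z T₀ T₁ U X : ℝ} (he : 0 ≤ e) (he1 : e ≤ 1) (h0 : 0 ≤ T₀) (h01 : T₀ ≤ T₁)
    (h1 : e * T₁ ^ 2 < 1) (hU : 0 ≤ U) (hX : 0 ≤ X) (hs : U + X = 1) :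
    envG e c L Z (U * T₀ + X * T₁) ≤ U * envG e c L Z T₀ + X * envG e c L Z T₁ := by
  have h := (convexOn_fE_sq he h1).2 (x := T₀) ⟨h0, h01⟩ (y := T₁) ⟨h0.trans h01, le_rfl⟩ hU hX hs
  simp only [smul_eq_mul] at h
  have h' := mul_le_mul_of_nonneg_left h (sub_nonneg.2 he1)
  obtain rfl : U = 1 - X := by linarith
  simp only [envG]
  ring_nf at h' ⊢
  linarith

/-- The exponent of `p ^ (-m)` less the chord of the node, below the ends in `ε`. -/
theorem env_exp {m : ℕ} {t T L Z e₀ e₁ l c T₀ T₁ : ℝ} (ht : t ∈ Ioo (0 : ℝ) 1)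
    (hT : T = t * √((m : ℝ) + 1)) (h0 : 0 ≤ T₀) (hT0 : T₀ ≤ T) (hT1 : T ≤ T₁)
    (he0 : 0 ≤ e₀) (he01 : e₀ ≤ e₁) (he1 : e₁ ≤ 1) (h1 : e₁ * T₁ ^ 2 < 1)
    (hl0 : 0 ≤ l) (hl1 : l ≤ 1) (hε : 1 / ((m : ℝ) + 1) = (1 - l) * e₀ + l * e₁)
    (hc : (e₁ - e₀) / 4 * (fE e₁ (T₁ ^ 2) - T₀ ^ 2) ≤ c) :
    -Real.log (ballShape t) * m - (T / Z - 1) * L ≤
      2 * ((1 - l) * envG e₀ c L Z T + l * envG e₁ c L Z T) := by
  obtain ⟨n, hn⟩ : ∃ n : ℝ, n = (m : ℝ) + 1 := ⟨_, rfl⟩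
  rw [← hn] at hT hε
  have hn0 : 0 < n := by rw [hn]; positivity
  have hT00 : 0 ≤ T := h0.trans hT0
  have he00 : 0 ≤ e₁ := he0.trans he01
  have hy1 : e₁ * T ^ 2 < 1 :=
    (mul_le_mul_of_nonneg_left (pow_le_pow_left₀ hT00 hT1 2) he00).trans_lt h1
  have hlog := neg_log_ball (T := T) hn0 (by rw [hT, mul_pow, Real.sq_sqrt hn0.le]; ring) ht
  have hf := fE_interp he0 he01 hl0 hl1 (sq_nonneg T) hy1
  rw [← hε] at hf
  have a1 := fE_mono_right he00 (sq_nonneg T) (pow_le_pow_left₀ hT00 hT1 2) h1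
  have a2 := le_fE he0 (sq_nonneg T) ((mul_le_mul_of_nonneg_right he01 (sq_nonneg T)).trans_lt hy1)
  have a3 := pow_le_pow_left₀ h0 hT0 2
  have hd0 := fE_mono he0 he01 (sq_nonneg T) hy1
  obtain ⟨A, hA⟩ : ∃ A, A = fE e₀ (T ^ 2) := ⟨_, rfl⟩
  obtain ⟨B, hB⟩ : ∃ B, B = fE e₁ (T ^ 2) := ⟨_, rfl⟩
  simp only [envG, ← hA, ← hB] at hf a1 a2 hd0 ⊢
  have hm : -Real.log (ballShape t) * m = (1 - 1 / n) * (fE (1 / n) (T ^ 2) / 2) := by
    rw [← hlog, show (m : ℝ) = n - 1 by rw [hn]; ring]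
    field_simp
  have h1n : 0 ≤ 1 - 1 / n := by
    rw [hε]
    linarith [mul_le_mul_of_nonneg_left (he01.trans he1) (sub_nonneg.2 hl1),
      mul_le_mul_of_nonneg_left he1 hl0]
  have h2 := mul_le_mul_of_nonneg_left hf h1n
  have hll : l * (1 - l) ≤ 1 / 4 := by linarith [sq_nonneg (2 * l - 1)]
  have h3 : l * (1 - l) * (e₁ - e₀) * (B - A) ≤ c := by
    refine le_trans ?_ hc
    refine (mul_le_mul_of_nonneg_right (mul_le_mul_of_nonneg_right hll (sub_nonneg.2 he01))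
      (sub_nonneg.2 hd0)).trans ?_
    have := mul_le_mul_of_nonneg_left (show B - A ≤ fE e₁ (T₁ ^ 2) - T₀ ^ 2 by linarith)
      (show 0 ≤ (e₁ - e₀) / 4 by linarith)
    linarith
  have e : (1 - 1 / n) * ((1 - l) * A + l * B) = (1 - l) * ((1 - e₀) * A) +
      l * ((1 - e₁) * B) + l * (1 - l) * (e₁ - e₀) * (B - A) := by
    rw [hε]; ring
  rw [hm]
  linarith

/-- The exponential of an affine combination. -/
theorem exp_chord {s a b G A B y z : ℝ} (ha : 0 ≤ a) (hb : 0 ≤ b) (hab : a + b = 1)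
    (hG : G ≤ a * A + b * B) (hA : Real.exp (s + A) ≤ y) (hB : Real.exp (s + B) ≤ z) :
    Real.exp (s + G) ≤ a * y + b * z := by
  have h := convexOn_exp.2 (Set.mem_univ (s + A)) (Set.mem_univ (s + B)) ha hb hab
  simp only [smul_eq_mul] at h
  refine (le_trans (Real.exp_le_exp.2 ?_) h).trans
    (add_le_add (mul_le_mul_of_nonneg_left hA ha) (mul_le_mul_of_nonneg_left hB hb))
  calc s + G ≤ s * (a + b) + (a * A + b * B) := by rw [hab]; linarith
    _ = _ := by ring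

/-- A bound of the square of the exponential. -/
theorem exp_half_le {K G y : ℝ} (hK : 0 < K) (hy : 0 ≤ y) (h : K * Real.exp (2 * G) ≤ y ^ 2) :
    Real.exp (Real.log K / 2 + G) ≤ y := by
  refine le_of_pow_le_pow_left₀ two_ne_zero hy (le_trans (le_of_eq ?_) h)
  rw [← Real.exp_nat_mul]
  push_cast
  rw [mul_add, Real.exp_add, show (2 : ℝ) * (Real.log K / 2) = Real.log K by ring,
    Real.exp_log hK]

/-- The value below the exponential of the envelope. -/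
theorem le_exp_half {m : ℕ} {x p K E G : ℝ} (hx : 0 < x) (hp : 0 < p)
    (h : x ^ 2 * p ^ m ≤ K * Real.exp (-E)) (hG : -Real.log p * m - E ≤ 2 * G) :
    0 < K ∧ x ≤ Real.exp (Real.log K / 2 + G) := by
  have hK : 0 < K := pos_of_mul_pos_left
    ((mul_pos (pow_pos hx 2) (pow_pos hp m)).trans_le h) (Real.exp_pos _).le
  refine ⟨hK, le_of_pow_le_pow_left₀ two_ne_zero (Real.exp_pos _).le ?_⟩
  rw [← le_div_iff₀ (pow_pos hp m)] at h
  refine h.trans (le_trans (le_of_eq ?_) (le_trans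
    (mul_le_mul_of_nonneg_left (Real.exp_le_exp.2 hG) hK.le) (le_of_eq ?_)))
  · rw [sub_eq_add_neg, Real.exp_add, mul_comm (-Real.log p) (m : ℝ), Real.exp_nat_mul,
      Real.exp_neg (Real.log p), Real.exp_log hp, inv_pow]
    ring
  · rw [← Real.exp_nat_mul]
    push_cast
    rw [mul_add, Real.exp_add, show (2 : ℝ) * (Real.log K / 2) = Real.log K by ring,
      Real.exp_log hK]

/-- The chord of the envelope: affine in `ε` and in `T`. -/
theorem env_line {m : ℕ} {t T x K L Z e₀ e₁ l c T₀ T₁ U X y₀₀ y₀₁ y₁₀ y₁₁ : ℝ}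
    (ht : t ∈ Ioo (0 : ℝ) 1) (hT : T = t * √((m : ℝ) + 1)) (h0 : 0 ≤ T₀) (hlt : T₀ ≤ T₁)
    (he0 : 0 ≤ e₀) (he01 : e₀ ≤ e₁) (he1 : e₁ ≤ 1) (h1 : e₁ * T₁ ^ 2 < 1)
    (hl0 : 0 ≤ l) (hl1 : l ≤ 1) (hε : 1 / ((m : ℝ) + 1) = (1 - l) * e₀ + l * e₁)
    (hU : 0 ≤ U) (hX : 0 ≤ X) (hs : U + X = 1) (hTU : T = U * T₀ + X * T₁)
    (hc : (e₁ - e₀) / 4 * (fE e₁ (T₁ ^ 2) - T₀ ^ 2) ≤ c)
    (hy : 0 ≤ y₀₀ ∧ 0 ≤ y₀₁ ∧ 0 ≤ y₁₀ ∧ 0 ≤ y₁₁)
    (k00 : K * Real.exp (2 * envG e₀ c L Z T₀) ≤ y₀₀ ^ 2)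
    (k01 : K * Real.exp (2 * envG e₀ c L Z T₁) ≤ y₀₁ ^ 2)
    (k10 : K * Real.exp (2 * envG e₁ c L Z T₀) ≤ y₁₀ ^ 2)
    (k11 : K * Real.exp (2 * envG e₁ c L Z T₁) ≤ y₁₁ ^ 2)
    (hx : 0 < x) (h : x ^ 2 * ballShape t ^ m ≤ K * Real.exp (-((T / Z - 1) * L))) :
    x ≤ (1 - l) * (U * y₀₀ + X * y₀₁) + l * (U * y₁₀ + X * y₁₁) := by
  have hb : T₀ ≤ T ∧ T ≤ T₁ := by
    rw [hTU, eq_sub_of_add_eq hs]
    constructor <;> nlinarith
  obtain ⟨hK, hx2⟩ := le_exp_half hx (ball_pos (sub01 ht)) h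
    (env_exp (c := c) (L := L) (Z := Z) ht hT h0 hb.1 hb.2 he0 he01 he1 h1 hl0 hl1 hε hc)
  have g0 := envG_chord (c := c) (L := L) (Z := Z) he0 (he01.trans he1) h0 hlt
    ((mul_le_mul_of_nonneg_right he01 (sq_nonneg T₁)).trans_lt h1) hU hX hs
  have g1 := envG_chord (c := c) (L := L) (Z := Z) (he0.trans he01) he1 h0 hlt h1 hU hX hs
  rw [← hTU] at g0 g1
  exact hx2.trans (exp_chord (sub_nonneg.2 hl1) hl0 (by ring) le_rfl
    (exp_chord hU hX hs g0 (exp_half_le hK hy.1 k00) (exp_half_le hK hy.2.1 k01))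
    (exp_chord hU hX hs g1 (exp_half_le hK hy.2.2.1 k10) (exp_half_le hK hy.2.2.2 k11)))

/-- The brackets of `n (r p - 1)`. -/
theorem bracket_bounds {m : ℕ} (hm : 3 ≤ m) {t p T ph pl e₁ : ℝ} (hp : p = ballShape t)
    (ht : t ∈ Ioo (0 : ℝ) 1) (hT : T ^ 2 = ((m : ℝ) + 1) * t ^ 2) (he : 1 / ((m : ℝ) + 1) ≤ e₁)
    (hph : p ≤ ph) (hpl : pl ≤ p) (hpl0 : 0 ≤ pl) :
    ((m : ℝ) + 1) * (ballRatio m * p - 1) ≤ ph * (1 / 2 + e₁ / 8) - T ^ 2 / (1 + ph) ∧
      pl * (1 / 2) - T ^ 2 / (1 + pl) ≤ ((m : ℝ) + 1) * (ballRatio m * p - 1) := by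
  obtain ⟨hlo, hhi⟩ := ballRatio_bracket hm
  set n : ℝ := (m : ℝ) + 1 with hn
  have hn4 : 4 ≤ n := by
    have : (3 : ℝ) ≤ m := by exact_mod_cast hm
    rw [hn]; linarith
  have hp0 : 0 < p := hp ▸ ball_pos (sub01 ht)
  have hp2 : p ^ 2 = 1 - t ^ 2 := hp ▸ ball_sq (Ioo_subset_Icc_self (sub01 ht))
  set s := 1 / n with hs
  have hs0 : 0 ≤ s := by positivity
  have hs1 : s ≤ 1 / 4 := one_div_le_one_div_of_le (by norm_num) hn4
  have hns : n * s = 1 := by rw [hs]; field_simp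
  simp only [ratioCubic, ← hn, ← hs] at hlo hhi
  have hr1 : 1 + s / 2 ≤ ballRatio m := by
    refine le_trans ?_ hlo
    nlinarith [mul_nonneg (sq_nonneg s) (show 0 ≤ 1 / 8 - s / 16 - s ^ 2 / 24 by nlinarith)]
  have hr2 : ballRatio m ≤ 1 + s / 2 + s ^ 2 / 8 := by
    refine hhi.trans ?_
    nlinarith [pow_nonneg hs0 3]
  have e : n * (ballRatio m * p - 1) = n * (ballRatio m - 1) * p - T ^ 2 / (1 + p) := by
    rw [hT, show t ^ 2 = (1 - p) * (1 + p) by linarith, ← mul_assoc,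
      mul_div_cancel_right₀ _ (by linarith : (1 + p) ≠ 0)]
    ring
  rw [e]
  have a1 : n * (ballRatio m - 1) ≤ 1 / 2 + e₁ / 8 := by
    have := mul_le_mul_of_nonneg_left (show ballRatio m - 1 ≤ s / 2 + s ^ 2 / 8 by linarith)
      (show 0 ≤ n by linarith)
    have e2 : n * (s / 2 + s ^ 2 / 8) = 1 / 2 + s / 8 := by rw [hs]; field_simp
    linarith
  have a2 : 1 / 2 ≤ n * (ballRatio m - 1) := by
    have := mul_le_mul_of_nonneg_left (show s / 2 ≤ ballRatio m - 1 by linarith)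
      (show 0 ≤ n by linarith)
    linarith
  constructor
  · refine sub_le_sub ?_ (div_le_div_of_nonneg_left (sq_nonneg T) (by linarith) (by linarith))
    calc n * (ballRatio m - 1) * p ≤ (1 / 2 + e₁ / 8) * p := mul_le_mul_of_nonneg_right a1 hp0.le
      _ ≤ ph * (1 / 2 + e₁ / 8) := by
          rw [mul_comm ph]
          exact mul_le_mul_of_nonneg_left hph (by linarith)
  · refine sub_le_sub ?_ (div_le_div_of_nonneg_left (sq_nonneg T) (by linarith) (by linarith))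
    calc pl * (1 / 2) ≤ p * (1 / 2) := mul_le_mul_of_nonneg_right hpl (by norm_num)
      _ ≤ n * (ballRatio m - 1) * p := by nlinarith [mul_le_mul_of_nonneg_right a2 hp0.le]

/-- The state after a node where the value is a share `X` of the centre. -/
theorem shapeZ_ge_node {φ : ℝ → ℝ} (hφ : IsShape φ) {T t X : ℝ} (hT : 0 < T) (hTt : T ≤ t)
    (ht : t ∈ Ioo (0 : ℝ) 1) (h : φ T ≤ X * φ 0) : (1 - X) / T ≤ shapeZ φ t := by
  have h0 := hφ.centre
  have h3 := shape_three hφ (p := 0) (by norm_num) hT.le hTt ht.2.le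
  simp only [sub_zero] at h3
  have hc := mul_le_mul_of_nonneg_left (centre_chord hφ ht) hT.le
  have h4 := mul_le_mul_of_nonneg_left h ht.1.le
  rw [div_le_iff₀ hT]
  refine le_of_mul_le_mul_left ?_ (mul_pos ht.1 h0)
  linarith

end Vale.Agent.P237.Quant.TailUniform
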