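import Mathlib
import Vale.Agent.P237.Quant.TailSpline
import Vale.Agent.P237.Quant.TailUniformCheck

/-!
The flux of the checker on a range of dimensions: piecewise quadratic coefficients in
`A = Dt t √n` against `n ^ (-3 / 2)` times `1`, `v`, `v ^ 2`, and `n ^ (-1 / 2)` times `cubicF`.
-/

namespace Vale.Agent.P237.Quant.TailUniform

open TailCert MeasureTheory Set Filter Topology

variable {m : ℕ}

/-- The square root of the dimension. -/
noncomputable def rootN (m : ℕ) : ℝ := √((m : ℝ) + 1)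

theorem rootN_pos (m : ℕ) : 0 < rootN m := Real.sqrt_pos.2 (by positivity)

theorem rootN_sq (m : ℕ) : rootN m ^ 2 = (m : ℝ) + 1 := Real.sq_sqrt (by positivity)

variable (Dt Dc : ℤ) (s : Spline)

/-- A coefficient at the time `t`. -/
noncomputable def scaled (m : ℕ) (t : ℝ) : ℝ := s.at_ Dc (Dt * rootN m * t)

/-- Its right derivative. -/
noncomputable def scaled' (m : ℕ) (t : ℝ) : ℝ :=
  ((s.e1 : ℝ) + 2 * s.e2 * (Dt * rootN m * t) + kinkSlope s.kinks (Dt * rootN m * t)) / Dc *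
    (Dt * rootN m)

theorem continuous_scaled : Continuous (scaled Dt Dc s m) := by
  have := continuous_kinkVal s.kinks
  unfold scaled Spline.at_
  fun_prop

theorem measurable_scaled' : Measurable (scaled' Dt Dc s m) := by
  have := (measurable_kinkSlope s.kinks).comp (measurable_id.const_mul ((Dt : ℝ) * rootN m))
  unfold scaled'
  exact ((((measurable_id.const_mul ((Dt : ℝ) * rootN m)).const_mul (2 * (s.e2 : ℝ))).const_add
    (s.e1 : ℝ)).add this).div_const _ |>.mul_const _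

theorem hasDeriv_scaled (hDt : 0 ≤ Dt) (t : ℝ) :
    HasDerivWithinAt (scaled Dt Dc s m) (scaled' Dt Dc s m t) (Ioi t) t := by
  have hc : 0 ≤ (Dt : ℝ) * rootN m := mul_nonneg (Int.cast_nonneg hDt) (rootN_pos m).le
  have hu : HasDerivWithinAt (fun u : ℝ => (Dt : ℝ) * rootN m * u) ((Dt : ℝ) * rootN m)
      (Ioi t) t :=
    ((hasDerivWithinAt_id t _).const_mul _).congr_deriv (mul_one _)
  have hm : ∀ᶠ u in 𝓝[>] t, (Dt : ℝ) * rootN m * t ≤ Dt * rootN m * u :=
    eventually_nhdsWithin_of_forall fun u hu => mul_le_mul_of_nonneg_left (le_of_lt hu) hc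
  refine (((((hu.const_mul (s.e1 : ℝ)).const_add (s.e0 : ℝ)).fun_add
    ((hu.pow 2).const_mul (s.e2 : ℝ))).fun_add
    (hasDeriv_kink hu hm s.kinks)).div_const (Dc : ℝ)).congr_deriv ?_
  rw [scaled']
  push_cast
  ring

theorem bound_scaled' {b : ℝ} (hb : b < 1) :
    ∃ B, ∀ t ∈ Ioo 0 b, |scaled' Dt Dc s m t| ≤ B := by
  obtain ⟨K, hK⟩ := abs_kinkSlope_le |(Dt : ℝ) * rootN m| s.kinks
  refine ⟨(|(s.e1 : ℝ)| + 2 * |(s.e2 : ℝ)| * |(Dt : ℝ) * rootN m| + K) / |(Dc : ℝ)| *
    |(Dt : ℝ) * rootN m|, fun t ht => ?_⟩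
  have ht1 : |t| ≤ 1 := by rw [abs_of_pos ht.1]; linarith [ht.2]
  have hA : |(Dt : ℝ) * rootN m * t| ≤ |(Dt : ℝ) * rootN m| := by
    rw [abs_mul]
    exact mul_le_of_le_one_right (abs_nonneg _) ht1
  rw [scaled', abs_mul, abs_div]
  refine mul_le_mul_of_nonneg_right (div_le_div_of_nonneg_right ?_ (abs_nonneg _)) (abs_nonneg _)
  refine (abs_add_le _ _).trans (add_le_add ((abs_add_le _ _).trans (add_le_add le_rfl ?_))
    (hK _ hA))
  rw [abs_mul, abs_mul, abs_two]
  exact mul_le_mul_of_nonneg_left hA (by positivity)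

theorem scaled_zero (h : (s.kinks.all fun c => decide (0 ≤ c.1)) = true) :
    scaled Dt Dc s m 0 = s.e0 / Dc := by
  simp [scaled, Spline.at_, kink_zero _ h]

/-- Inside an interval free of kinks a coefficient is its quadratic polynomial. -/
theorem scaled_line {A₀ A₁ : ℤ} (h : kinkFree A₀ A₁ s.kinks = true) {t : ℝ}
    (h0 : (A₀ : ℝ) ≤ Dt * rootN m * t) (h1 : Dt * rootN m * t < A₁) :
    scaled Dt Dc s m t = ((s.line A₀).e0 + (s.line A₀).e1 * (Dt * rootN m * t) +
        (s.line A₀).e2 * (Dt * rootN m * t) ^ 2) / Dc ∧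
      scaled' Dt Dc s m t = ((s.line A₀).e1 + 2 * (s.line A₀).e2 * (Dt * rootN m * t)) / Dc *
        (Dt * rootN m) := by
  obtain ⟨e1, e2⟩ := kink_on s.kinks ⟨s.e0, s.e1, s.e2⟩ h h0 h1
  simp only [scaled, scaled', Spline.at_, Spline.line_eq]
  rw [← e1, ← e2]
  exact ⟨rfl, rfl⟩

/-- A list of kinks none of which exceeds `A₀` is free of kinks to its right. -/
theorem kinkFree_of_le {A₀ A₁ : ℤ} : ∀ {l : List (ℤ × ℤ × ℤ)},
    (l.all fun c => decide (c.1 ≤ A₀)) = true → kinkFree A₀ A₁ l = true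
  | [], _ => rfl
  | (c, d, q) :: l, h => by
      simp only [List.all_cons, Bool.and_eq_true, decide_eq_true_eq] at h
      simp [kinkFree, h.1, kinkFree_of_le h.2]

/-- Beyond the last kink a coefficient is its polynomial there. -/
theorem scaled_far {A₀ : ℤ} (h : (s.kinks.all fun c => decide (c.1 ≤ A₀)) = true) {c0 c1 : ℤ}
    (hl : (s.line A₀).e0 = c0 ∧ (s.line A₀).e1 = c1 ∧ (s.line A₀).e2 = 0) {t : ℝ}
    (h0 : (A₀ : ℝ) ≤ Dt * rootN m * t) :
    scaled Dt Dc s m t = (c0 + c1 * (Dt * rootN m * t)) / Dc ∧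
      scaled' Dt Dc s m t = (c1 : ℝ) / Dc * (Dt * rootN m) := by
  obtain ⟨A₁, hA₁⟩ : ∃ A₁ : ℤ, (Dt : ℝ) * rootN m * t < A₁ :=
    ⟨⌊(Dt : ℝ) * rootN m * t⌋ + 1, by push_cast; exact Int.lt_floor_add_one _⟩
  obtain ⟨e1, e2⟩ := scaled_line Dt Dc s (kinkFree_of_le (A₁ := A₁) h) h0 hA₁
  rw [e1, e2, hl.1, hl.2.1, hl.2.2]
  simp

variable (D : Flux)

/-- The flux as a separated flux. -/
noncomputable def sepU (m : ℕ) : SepFlux (Fin 4) where
  σ := ![fun t => scaled Dt Dc D.al m t / rootN m ^ 3, fun t => scaled Dt Dc D.be m t / rootN m ^ 3,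
    fun t => scaled Dt Dc D.ga m t / rootN m ^ 3, fun t => scaled Dt Dc D.si m t / rootN m]
  σ' := ![fun t => scaled' Dt Dc D.al m t / rootN m ^ 3,
    fun t => scaled' Dt Dc D.be m t / rootN m ^ 3, fun t => scaled' Dt Dc D.ga m t / rootN m ^ 3,
    fun t => scaled' Dt Dc D.si m t / rootN m]
  F := ![fun _ => 1, fun x => x - 1, fun x => (x - 1) ^ 2, cubicF m]
  F' := ![fun _ => 0, fun _ => 1, fun x => 2 * (x - 1), cubicF' m]
  g := fun _ _ => 1

theorem regular (hm : 3 ≤ m) (hDt : 0 ≤ Dt) : (sepU Dt Dc D m).Regular where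
  σc i := by fin_cases i <;> exact (continuous_scaled _ _ _).div_const _
  σd i t _ := by fin_cases i <;> exact (hasDeriv_scaled _ _ _ hDt t).div_const _
  σm i := by fin_cases i <;> exact (measurable_scaled' _ _ _).div_const _
  σb i b hb := by
    have key : ∀ (s : Spline) (c : ℝ), ∃ B, ∀ t ∈ Ioo 0 b, |scaled' Dt Dc s m t / c| ≤ B := by
      intro s c
      obtain ⟨B, hB⟩ := bound_scaled' Dt Dc s (m := m) hb
      exact ⟨B / |c|, fun t ht => by
        rw [abs_div]
        exact div_le_div_of_nonneg_right (hB t ht) (abs_nonneg _)⟩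
    fin_cases i <;> exact key _ _
  Fd i x _ := by
    fin_cases i
    · exact hasDerivAt_const x 1
    · exact (hasDerivAt_id' x).sub_const 1
    · refine (((hasDerivAt_id' x).sub_const 1).pow 2).congr_deriv ?_
      simp [sepU]
    · exact hasDerivAt_cubicF hm x
  Fc i := by
    fin_cases i
    · exact continuousOn_const
    · exact continuousOn_const
    · exact (continuous_const.mul (continuous_id.sub continuous_const)).continuousOn
    · exact ((continuous_tailCubicPos' hm).const_mul _).continuousOn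
  Fm i := by
    have h := fun x => hasDerivAt_cubicF hm x
    have hc : Continuous (cubicF m) := continuous_iff_continuousAt.2 fun x => (h x).continuousAt
    fin_cases i
    · exact ⟨measurable_const, measurable_const⟩
    · exact ⟨measurable_id.sub_const 1, measurable_const⟩
    · exact ⟨(measurable_id.sub_const 1).pow_const 2, (measurable_id.sub_const 1).const_mul 2⟩
    · exact ⟨hc.measurable, ((continuous_tailCubicPos' hm).const_mul _).measurable⟩
  gc _ := continuousOn_const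

theorem D_eq (t x z : ℝ) : (sepU Dt Dc D m).D t x z =
    (scaled Dt Dc D.al m t + scaled Dt Dc D.be m t * (x - 1) +
      scaled Dt Dc D.ga m t * (x - 1) ^ 2) / rootN m ^ 3 +
      scaled Dt Dc D.si m t / rootN m * cubicF m x := by
  simp [SepFlux.D, sepU, Fin.sum_univ_four]
  ring

theorem Dt_eq (t x z : ℝ) : (sepU Dt Dc D m).Dt t x z =
    (scaled' Dt Dc D.al m t + scaled' Dt Dc D.be m t * (x - 1) +
      scaled' Dt Dc D.ga m t * (x - 1) ^ 2) / rootN m ^ 3 +
      scaled' Dt Dc D.si m t / rootN m * cubicF m x := by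
  simp [SepFlux.Dt, sepU, Fin.sum_univ_four]
  ring

theorem Dx_eq (t x z : ℝ) : (sepU Dt Dc D m).Dx t x z =
    (scaled Dt Dc D.be m t + scaled Dt Dc D.ga m t * (2 * (x - 1))) / rootN m ^ 3 +
      scaled Dt Dc D.si m t / rootN m * cubicF' m x := by
  simp [SepFlux.Dx, sepU, Fin.sum_univ_four]
  ring

theorem lower (hm : 3 ≤ m) : ∃ K : ℝ, ∀ᶠ b in 𝓝[<] (1 : ℝ), ∀ x, 0 < x → ∀ z ∈ Icc (0 : ℝ) 1,
    -K * (1 + x ^ 2) ≤ (sepU Dt Dc D m).D b x z := by
  choose B hB using fun p : Spline × ℝ => (isCompact_Icc (a := (0 : ℝ)) (b := 1)).exists_bound_of_continuousOn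
    ((continuous_scaled Dt Dc p.1 (m := m)).div_const p.2).continuousOn
  set c := rootN m ^ 3
  set c' := rootN m
  refine ⟨2 * (|B (D.al, c)| + |B (D.be, c)| + |B (D.ga, c)| + |B (D.si, c')|), ?_⟩
  filter_upwards [Ioo_mem_nhdsLT (zero_lt_one (α := ℝ))] with b hb x hx z _
  have hf := cubicF_bounds hm hx.le
  have h : ∀ (s : Spline) (k F : ℝ), |F| ≤ 2 * (1 + x ^ 2) →
      -(2 * |B (s, k)| * (1 + x ^ 2)) ≤ scaled Dt Dc s m b / k * F := fun s k F hF => by
    have h1 : |scaled Dt Dc s m b / k| ≤ |B (s, k)| :=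
      (hB (s, k) b (Ioo_subset_Icc_self hb)).trans (le_abs_self _)
    have h2 := mul_le_mul h1 hF (abs_nonneg _) (abs_nonneg _)
    rw [← abs_mul] at h2
    linarith [neg_abs_le (scaled Dt Dc s m b / k * F)]
  have hv : |(x - 1) ^ 2| ≤ 2 * (1 + x ^ 2) := by
    rw [abs_of_nonneg (sq_nonneg _)]; nlinarith
  have hF : |cubicF m x| ≤ 2 * (1 + x ^ 2) := by
    rw [abs_of_nonneg hf.1]; nlinarith
  have := h D.al c 1 (by rw [abs_one]; nlinarith)
  have := h D.be c (x - 1) (abs_le.2 ⟨by nlinarith, by nlinarith⟩)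
  have := h D.ga c _ hv
  have := h D.si c' _ hF
  rw [D_eq, add_div, add_div, mul_div_right_comm, mul_div_right_comm]
  linarith

end Vale.Agent.P237.Quant.TailUniform
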