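import Mathlib
import Vale.Agent.P237.Quant.TailForms
import Vale.Agent.P237.Quant.TailUniformCheck

/-!
The values of the packed forms of the checker on a range of dimensions: at the end `e` they are
`e.2` times functions that are affine in `ε`, apart from the bound of the gain, which is concave.
-/

namespace Vale.Agent.P237.Quant.TailUniform

open TailCert TailTuple Four.Checker Set

/-- A point of an interval with its two weights. -/
structure Wt (I : Ival) (U X A : ℝ) : Prop where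
  hU : 0 ≤ U
  hX : 0 ≤ X
  hs : U + X = 1
  hA : A = I.A0 * U + I.A1 * X

namespace Wt

variable {I : Ival} {U X A : ℝ} {d : ℕ} {p : Pk} {v : ℝ}

theorem lin_one (h : Wt I U X A) (hp : Rep U X d p v) : Rep U X (d + 1) (p.lin 1 1) v :=
  (hp.lin 1 1).congr (by push_cast; rw [one_mul, one_mul, h.hs, one_mul])

theorem lin_A (h : Wt I U X A) (hp : Rep U X d p v) :
    Rep U X (d + 1) (p.lin I.A0 I.A1) (A * v) :=
  (hp.lin I.A0 I.A1).congr (by rw [h.hA])

theorem quad (h : Wt I U X A) (e : Quad) : Rep U X 2 (quadForm I e) (e.val A) :=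
  (((h.lin_one (h.lin_one Rep.unit)).smul e.e0).add
    (((h.lin_A (h.lin_one Rep.unit)).smul e.e1).add
      ((h.lin_A (h.lin_A Rep.unit)).smul e.e2))).congr (by rw [Quad.val]; ring)

theorem up2 (h : Wt I U X A) (hp : Rep U X 2 p v) : Rep U X 7 (up2 p) v :=
  h.lin_one (h.lin_one (h.lin_one (h.lin_one (h.lin_one hp))))

theorem up3 (h : Wt I U X A) (hp : Rep U X 3 p v) : Rep U X 7 (up3 p) v :=
  h.lin_one (h.lin_one (h.lin_one (h.lin_one hp)))

theorem const2 (h : Wt I U X A) (k : ℤ) : Rep U X 2 (const2 k) (k : ℝ) :=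
  ((h.lin_one (h.lin_one Rep.unit)).smul k).congr (mul_one _)

theorem sq2 (h : Wt I U X A) : Rep U X 2 (sq2 I) (A ^ 2) :=
  (h.lin_A (h.lin_A Rep.unit)).congr (by ring)

end Wt

/-- The values of the rows. -/
structure RV where
  a0 : ℝ
  a1b : ℝ
  a1u : ℝ
  a2b : ℝ
  a2u : ℝ
  b0 : ℝ
  b1 : ℝ
  b2b : ℝ
  b2u : ℝ
  V0 : ℝ
  V1 : ℝ
  C3 : ℝ
  g : ℝ

namespace RV

/-- The sum with the factors `a` and `b`. -/
noncomputable def comb (a b : ℝ) (R S : RV) : RV :=
  ⟨a * R.a0 + b * S.a0, a * R.a1b + b * S.a1b, a * R.a1u + b * S.a1u, a * R.a2b + b * S.a2b,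
    a * R.a2u + b * S.a2u, a * R.b0 + b * S.b0, a * R.b1 + b * S.b1, a * R.b2b + b * S.b2b,
    a * R.b2u + b * S.b2u, a * R.V0 + b * S.V0, a * R.V1 + b * S.V1, a * R.C3 + b * S.C3,
    a * R.g + b * S.g⟩

/-- The inequality below one. -/
noncomputable def below (V : RV) (v R : ℝ) : ℝ :=
  V.a0 + v * V.a1b + v ^ 2 * V.a2b + v ^ 3 * (V.C3 / 3) +
    R * (V.b0 + v * V.b1 + v ^ 2 * V.b2b) - V.g * (1 + v) ^ 2 * R ^ 2

/-- The inequality above one, at the value `G` of the cubic loss. -/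
noncomputable def above (V : RV) (v R G : ℝ) : ℝ :=
  V.a0 + v * V.a1u + v ^ 2 * V.a2u + R * (V.b0 + v * V.b1 + v ^ 2 * V.b2u) +
    G * (V.V0 + R * V.V1) - V.g * (1 + v) ^ 2 * R ^ 2

theorem below_comb (a b : ℝ) (R S : RV) (v r : ℝ) :
    (comb a b R S).below v r = a * R.below v r + b * S.below v r := by
  simp only [below, comb]; ring

theorem above_comb (a b : ℝ) (R S : RV) (v r G : ℝ) :
    (comb a b R S).above v r G = a * R.above v r G + b * S.above v r G := by
  simp only [above, comb]; ring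

end RV

/-- One row from a coefficient. -/
noncomputable def acoefV (C : Cfg) (ε A : ℝ) (q : Quad) : ℝ :=
  2 * C.N * C.Dt * (((C.Dt : ℝ) ^ 2 - ε * A ^ 2) * q.slope A - A * q.val A)

/-- The bracket row. -/
noncomputable def bRow (C : Cfg) (c q : ℤ) (A : ℝ) : ℝ :=
  2 * C.nd * ((C.t3 : ℝ) - C.t1) * ((C.Dt : ℝ) ^ 2 * c - q * A ^ 2)

/-- The row of the potential. -/
noncomputable def wRow (C : Cfg) (wb : Bool) (k A : ℝ) : ℝ :=
  if wb then 2 * C.nn * C.f * k * A ^ 2 +
      2 * (C.Dt : ℝ) ^ 2 * C.Dc * (C.nd * C.lam - 2 * C.nn * C.Dw)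
  else 2 * (C.Dt : ℝ) ^ 2 * C.Dc * (C.nn * (C.a - 2 * C.Dw) + C.nd * C.lam)

/-- The values of the rows at `ε`, with the bound `k / Dc` of the weight. -/
noncomputable def Ival.rowsV (C : Cfg) (I : Ival) (ε k A : ℝ) : RV :=
  let D : ℝ := (C.Dt : ℝ) ^ 2
  let M : ℝ := 2 * D * C.Dc * C.nd
  let eb := (C.flux.be.line I.A0).val A
  let eg := (C.flux.ga.line I.A0).val A
  let es := (C.flux.si.line I.A0).val A
  let a1 := acoefV C ε A (C.flux.be.line I.A0) - M * C.K
  let a2 := acoefV C ε A (C.flux.ga.line I.A0) - wRow C I.wb k A + M * C.t2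
  { a0 := acoefV C ε A (C.flux.al.line I.A0)
    a1b := a1 + 2 * bRow C I.dc I.dq A
    a1u := a1 + 2 * bRow C I.uc I.uq A
    a2b := a2 + bRow C I.dc I.dq A
    a2u := a2 + bRow C I.uc I.uq A + 2 * D * C.nd * C.pen * I.sA
    b0 := C.N * D * (1 - ε) * eb
    b1 := C.N * D * (1 - ε) * (eb + 2 * eg)
    b2b := 2 * C.N * D * (1 - ε) * eg
    b2u := 2 * C.N * D * (1 - ε) * eg + 2 * C.N * D * (1 - 2 * ε) * es
    V0 := acoefV C ε A (C.flux.si.line I.A0) + M * (C.Dw + C.t3)
    V1 := 2 * C.N * D * (1 - 2 * ε) * es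
    C3 := 4 * C.N * D * C.Dc * (1 - 3 * ε)
    g := C.nd * C.et * (1 - ε) * k * D }

/-- Affine in `ε` with the weight, but for the gain, which is concave. -/
theorem rowsV_comb {C : Cfg} {I : Ival} {e₀ e₁ k₀ k₁ l A : ℝ} :
    let ε := (1 - l) * e₀ + l * e₁
    let k := (1 - l) * k₀ + l * k₁
    RV.comb (1 - l) l (I.rowsV C e₀ k₀ A) (I.rowsV C e₁ k₁ A) =
      { I.rowsV C ε k A with g := (1 - l) * (I.rowsV C e₀ k₀ A).g + l * (I.rowsV C e₁ k₁ A).g } ∧
    ((1 - l) * (I.rowsV C e₀ k₀ A).g + l * (I.rowsV C e₁ k₁ A).g =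
      (I.rowsV C ε k A).g - C.nd * C.et * (C.Dt : ℝ) ^ 2 * (l * (1 - l) * (e₁ - e₀) * (k₁ - k₀))) := by
  intro ε k
  constructor
  · simp only [RV.comb, Ival.rowsV, RV.mk.injEq, acoefV, bRow, wRow, ε, k]
    refine ⟨?_, ?_, ?_, ?_, ?_, ?_, ?_, ?_, ?_, ?_, ?_, ?_, trivial⟩ <;> (try split) <;> ring
  · simp only [Ival.rowsV, ε, k]
    ring

/-- Every row has its value, times `d`. -/
structure RowsRep (U X d : ℝ) (R : Rows) (V : RV) : Prop where
  a0 : Rep U X 7 R.a0 (d * V.a0)
  a1b : Rep U X 7 R.a1b (d * V.a1b)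
  a1u : Rep U X 7 R.a1u (d * V.a1u)
  a2b : Rep U X 7 R.a2b (d * V.a2b)
  a2u : Rep U X 7 R.a2u (d * V.a2u)
  b0 : Rep U X 7 R.b0 (d * V.b0)
  b1 : Rep U X 7 R.b1 (d * V.b1)
  b2b : Rep U X 7 R.b2b (d * V.b2b)
  b2u : Rep U X 7 R.b2u (d * V.b2u)
  V0 : Rep U X 7 R.V0 (d * V.V0)
  V1 : Rep U X 7 R.V1 (d * V.V1)
  C3 : Rep U X 7 R.C3 (d * V.C3)
  g : Rep U X 7 R.g (d * V.g)

theorem acoef_rep {C : Cfg} {I : Ival} {U X A ε : ℝ} (h : Wt I U X A) {e : ℤ × ℤ}
    (he : (e.1 : ℝ) = e.2 * ε) (q : Quad) :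
    Rep U X 7 (I.acoef C e q) (e.2 * acoefV C ε A q) := by
  have hs : Rep U X 1 (Pk.unit.lin (slopeEnds I.A0 I.A1 q).1 (slopeEnds I.A0 I.A1 q).2)
      (q.slope A) := (Rep.unit.lin _ _).congr (by
    simp only [slopeEnds, cast_add', cast_mul', Quad.slope, h.hA]
    push_cast
    linear_combination (q.e1 : ℝ) * h.hs)
  have hP := (h.const2 (imul e.2 (imul C.Dt C.Dt))).add (h.sq2.smul (ineg e.1))
  have hPs : Rep U X 3 (((const2 (imul e.2 (imul C.Dt C.Dt))).add
      ((sq2 I).smul (ineg e.1))).lin (slopeEnds I.A0 I.A1 q).1 (slopeEnds I.A0 I.A1 q).2)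
      (q.slope A * (e.2 * ((C.Dt : ℝ) ^ 2 - ε * A ^ 2))) := by
    refine (hP.lin _ _).congr ?_
    simp only [slopeEnds, cast_add', cast_mul', cast_neg', Quad.slope, h.hA, he]
    push_cast
    linear_combination (q.e1 : ℝ) *
      ((e.2 : ℝ) * ((C.Dt : ℝ) ^ 2 - ε * (I.A0 * U + I.A1 * X) ^ 2)) * h.hs
  refine (h.up3 ((hPs.smul _).add ((h.lin_A (h.quad q)).smul _))).congr ?_
  simp only [acoefV, cast_mul', cast_neg']
  push_cast
  ring

theorem rows_rep {C : Cfg} {I : Ival} {U X A ε : ℝ} (h : Wt I U X A) {e : ℤ × ℤ}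
    (he : (e.1 : ℝ) = e.2 * ε) (kl : ℤ) :
    RowsRep U X e.2 (I.rows C e kl) (I.rowsV C ε kl A) := by
  have ac := fun q => acoef_rep (C := C) h he q
  have br : ∀ c q : ℤ, Rep U X 7 ((up2 ((const2 (imul c (imul C.Dt C.Dt))).add
      ((sq2 I).smul (ineg q)))).smul (imul (imul 2 e.2) (imul C.nd (isub C.t3 C.t1))))
      (e.2 * bRow C c q A) := fun c q =>
    ((h.up2 ((h.const2 _).add (h.sq2.smul _))).smul _).congr (by
      simp only [bRow, cast_mul', cast_neg', cast_sub']
      push_cast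
      ring)
  have hw : Rep U X 2 (if I.wb then
      ((sq2 I).smul (imul (imul 2 e.2) (imul C.nn (imul C.f kl)))).add
        (const2 (imul (imul (imul 2 e.2) (imul (imul C.Dt C.Dt) C.Dc))
          (isub (imul C.nd C.lam) (imul 2 (imul C.nn C.Dw)))))
    else const2 (imul (imul (imul 2 e.2) (imul (imul C.Dt C.Dt) C.Dc))
      (iadd (imul C.nn (isub C.a (imul 2 C.Dw))) (imul C.nd C.lam))))
      (e.2 * wRow C I.wb kl A) := by
    unfold wRow
    by_cases hb : I.wb = true
    · rw [if_pos hb, if_pos hb]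
      refine ((h.sq2.smul _).add (h.const2 _)).congr ?_
      simp only [cast_mul', cast_sub']
      push_cast
      ring
    · rw [if_neg hb, if_neg hb]
      refine (h.const2 _).congr ?_
      simp only [cast_mul', cast_sub', cast_add']
      push_cast
      ring
  have hb := h.up2 (h.quad (C.flux.be.line I.A0))
  have hg := h.up2 (h.quad (C.flux.ga.line I.A0))
  have hbs := fun k => (h.up2 (h.quad (C.flux.si.line I.A0))).smul k
  have a1 := (ac (C.flux.be.line I.A0)).add (h.up2 (h.const2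
    (ineg (imul (imul (imul 2 e.2) (imul (imul C.Dt C.Dt) C.Dc))
      (imul C.nd C.K)))))
  have a2 := (ac (C.flux.ga.line I.A0)).add (h.up2 ((hw.smul (-1)).add (h.const2
    (imul (imul (imul 2 e.2) (imul (imul C.Dt C.Dt) C.Dc)) (imul C.nd C.t2)))))
  constructor
  · exact ac _
  · refine (a1.add ((br I.dc I.dq).smul 2)).congr ?_
    simp only [Ival.rowsV, cast_mul', cast_neg']; push_cast; ring
  · refine (a1.add ((br I.uc I.uq).smul 2)).congr ?_
    simp only [Ival.rowsV, cast_mul', cast_neg']; push_cast; ring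
  · refine (a2.add (br I.dc I.dq)).congr ?_
    simp only [Ival.rowsV, cast_mul']; push_cast; ring
  · refine ((a2.add (br I.uc I.uq)).add (h.up2 (h.const2 _))).congr ?_
    simp only [Ival.rowsV, cast_mul']; push_cast; ring
  · refine (hb.smul _).congr ?_
    simp only [Ival.rowsV, cast_mul', cast_sub', he]; push_cast; ring
  · refine ((hb.add (hg.smul 2)).smul _).congr ?_
    simp only [Ival.rowsV, cast_mul', cast_sub', he]; push_cast; ring
  · refine (hg.smul _).congr ?_
    simp only [Ival.rowsV, cast_mul', cast_sub', he]; push_cast; ring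
  · refine ((hg.smul _).add (hbs _)).congr ?_
    simp only [Ival.rowsV, cast_mul', cast_sub', he]; push_cast; ring
  · refine ((ac _).add (h.up2 (h.const2 _))).congr ?_
    simp only [Ival.rowsV, cast_mul', cast_add']; push_cast; ring
  · refine (hbs _).congr ?_
    simp only [Ival.rowsV, cast_mul', cast_sub', he]; push_cast; ring
  · refine (h.up2 (h.const2 _)).congr ?_
    simp only [Ival.rowsV, cast_mul', cast_sub', he]; push_cast; ring
  · refine (h.up2 (h.const2 _)).congr ?_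
    simp only [Ival.rowsV, cast_mul', cast_sub', he]; push_cast; ring

/-- The rows after the square. -/
theorem square_rep {U X A ε d : ℝ} {I : Ival} {R : Rows} {V : RV} (h : Wt I U X A)
    (hR : RowsRep U X d R V) {Dr ed : ℤ} (hd : (ed : ℝ) = d) (nu : ℕ) (tau dt sg ds : ℤ) {τ ς : ℝ}
    (hτ : τ = tau * U + (tau + dt) * X) (hς : ς = sg * U + (sg + ds) * X) :
    RowsRep U X d (R.square Dr ed nu tau dt sg ds)
      { V with
        a0 := V.a0 + nu * ς ^ 2
        a1b := V.a1b + 2 * nu * τ * ς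
        a1u := V.a1u + 2 * nu * τ * ς
        b0 := V.b0 - 2 * nu * ς * Dr
        a2b := V.a2b + nu * τ ^ 2
        a2u := V.a2u + nu * τ ^ 2
        b1 := V.b1 - 2 * nu * τ * Dr - 2 * nu * ς * Dr
        b2b := V.b2b - 2 * nu * τ * Dr
        b2u := V.b2u - 2 * nu * τ * Dr
        g := V.g - nu * (Dr : ℝ) ^ 2 } := by
  subst hd
  unfold Rows.square
  by_cases h0 : nu = 0
  · subst h0
    simp only [beq_self_eq_true, if_true, Nat.cast_zero, zero_mul, add_zero, mul_zero, sub_zero]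
    exact hR
  rw [if_neg (by simpa using h0)]
  have hτ' : ((tau : ℝ) * U + ((iadd tau dt : ℤ) : ℝ) * X) = τ := by rw [cast_add', hτ]
  have t := h.up2 (((((Rep.unit (U := U) (X := X)).lin tau (iadd tau dt)).lin tau
    (iadd tau dt)).smul (imul ed (Int.ofNat nu))).congr (w := ed * nu * τ ^ 2)
      (by simp only [cast_mul', cast_ofNat', hτ']; push_cast; ring))
  have u := h.up2 (((h.lin_one ((Rep.unit (U := U) (X := X)).lin tau (iadd tau dt)))
    |>.smul (imul (-2) (imul (imul ed (Int.ofNat nu)) Dr))).congr (w := -2 * ed * nu * τ * Dr)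
      (by simp only [cast_mul', cast_ofNat', hτ']; push_cast; ring))
  by_cases hz : sg = 0 ∧ ds = 0
  · obtain ⟨rfl, rfl⟩ := hz
    obtain rfl : ς = 0 := by rw [hς]; simp
    simp only [beq_self_eq_true, Bool.and_self, if_true, mul_zero, add_zero, sub_zero, zero_mul,
      zero_pow two_ne_zero]
    exact
      { hR with
        a2b := (hR.a2b.add t).congr (by simp only [cast_mul', cast_ofNat']; ring)
        a2u := (hR.a2u.add t).congr (by simp only [cast_mul', cast_ofNat']; ring)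
        b1 := (hR.b1.add u).congr (by simp only [cast_mul', cast_ofNat']; push_cast; ring)
        b2b := (hR.b2b.add u).congr (by simp only [cast_mul', cast_ofNat']; push_cast; ring)
        b2u := (hR.b2u.add u).congr (by simp only [cast_mul', cast_ofNat']; push_cast; ring)
        g := (hR.g.add (h.up2 (h.const2 _))).congr
          (by simp only [cast_mul', cast_neg', cast_ofNat']; push_cast; ring) }
  rw [if_neg (by simpa using hz)]
  have hς' : ((sg : ℝ) * U + ((iadd sg ds : ℤ) : ℝ) * X) = ς := by rw [cast_add', hς]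
  have z := h.up2 (((((Rep.unit (U := U) (X := X)).lin sg (iadd sg ds)).lin sg
    (iadd sg ds)).smul (imul ed (Int.ofNat nu))).congr (w := ed * nu * ς ^ 2)
      (by simp only [cast_mul', cast_ofNat', hς']; push_cast; ring))
  have m := h.up2 (((((Rep.unit (U := U) (X := X)).lin tau (iadd tau dt)).lin sg
    (iadd sg ds)).smul (imul 2 (imul ed (Int.ofNat nu)))).congr (w := 2 * ed * nu * τ * ς)
      (by simp only [cast_mul', cast_ofNat', hτ', hς']; push_cast; ring))
  have w := h.up2 (((h.lin_one ((Rep.unit (U := U) (X := X)).lin sg (iadd sg ds)))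
    |>.smul (imul (-2) (imul (imul ed (Int.ofNat nu)) Dr))).congr (w := -2 * ed * nu * ς * Dr)
      (by simp only [cast_mul', cast_ofNat', hς']; push_cast; ring))
  exact
    { hR with
      a0 := (hR.a0.add z).congr (by ring)
      a1b := (hR.a1b.add m).congr (by ring)
      a1u := (hR.a1u.add m).congr (by ring)
      a2b := (hR.a2b.add t).congr (by ring)
      a2u := (hR.a2u.add t).congr (by ring)
      b0 := (hR.b0.add w).congr (by ring)
      b1 := ((hR.b1.add u).add w).congr (by ring)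
      b2b := (hR.b2b.add u).congr (by ring)
      b2u := (hR.b2u.add u).congr (by ring)
      g := (hR.g.add (h.up2 (h.const2 _))).congr
        (by simp only [cast_mul', cast_neg', cast_ofNat']; push_cast; ring) }

/-- The square comes off below one. -/
theorem square_below (V : RV) (nu : ℕ) (τ ς : ℝ) (Dr : ℤ) (v R : ℝ) :
    ({ V with
        a0 := V.a0 + nu * ς ^ 2
        a1b := V.a1b + 2 * nu * τ * ς
        a1u := V.a1u + 2 * nu * τ * ς
        b0 := V.b0 - 2 * nu * ς * Dr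
        a2b := V.a2b + nu * τ ^ 2
        a2u := V.a2u + nu * τ ^ 2
        b1 := V.b1 - 2 * nu * τ * Dr - 2 * nu * ς * Dr
        b2b := V.b2b - 2 * nu * τ * Dr
        b2u := V.b2u - 2 * nu * τ * Dr
        g := V.g - nu * (Dr : ℝ) ^ 2 } : RV).below v R =
      V.below v R + nu * ((Dr : ℝ) * (1 + v) * R - τ * v - ς) ^ 2 := by
  simp only [RV.below]; ring

/-- The square comes off above one. -/
theorem square_above (V : RV) (nu : ℕ) (τ ς : ℝ) (Dr : ℤ) (v R G : ℝ) :
    ({ V with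
        a0 := V.a0 + nu * ς ^ 2
        a1b := V.a1b + 2 * nu * τ * ς
        a1u := V.a1u + 2 * nu * τ * ς
        b0 := V.b0 - 2 * nu * ς * Dr
        a2b := V.a2b + nu * τ ^ 2
        a2u := V.a2u + nu * τ ^ 2
        b1 := V.b1 - 2 * nu * τ * Dr - 2 * nu * ς * Dr
        b2b := V.b2b - 2 * nu * τ * Dr
        b2u := V.b2u - 2 * nu * τ * Dr
        g := V.g - nu * (Dr : ℝ) ^ 2 } : RV).above v R G =
      V.above v R G + nu * ((Dr : ℝ) * (1 + v) * R - τ * v - ς) ^ 2 := by
  simp only [RV.above]; ring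

end Vale.Agent.P237.Quant.TailUniform
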