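import Mathlib
import Vale.Agent.P237.Quant.ChordEnvelope
import Vale.Agent.P237.Quant.EnvelopeRange
import Vale.Agent.P237.Quant.TailUniformBound
import Vale.Agent.P237.Quant.TailSound
import Vale.Agent.P237.Quant.TailUniformFlux
import Vale.Agent.P237.Quant.TailUniformForms

/-!
Soundness of the side conditions on a range of dimensions: the weight, the profile, the brackets, the
majorant of `G = n cubicF`, the bound of the slope, the chord of the envelope and the chains.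
-/

namespace Vale.Agent.P237.Quant.TailUniform

open TailCert TailTuple Four.Checker Set

/-- The head conditions in the reals. -/
structure Head (C : Cfg) : Prop where
  lo : 7 ≤ C.lo
  hhi : C.hi = 0 ∨ C.lo < C.hi
  Dt : (0 : ℝ) < C.Dt
  Dc : (0 : ℝ) < C.Dc
  Dr : (0 : ℝ) < C.Dr
  Dv : (0 : ℝ) < C.Dv
  Dw : (0 : ℝ) < C.Dw
  nd : (0 : ℝ) < C.nd
  a : 2 * (C.Dw : ℝ) ≤ C.a
  f : (0 : ℝ) ≤ C.f
  et : (0 : ℝ) ≤ C.et
  t1 : (0 : ℝ) ≤ C.t1
  t13 : (C.t1 : ℝ) ≤ C.t3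
  K : (0 : ℝ) ≤ C.K
  nn : (0 : ℝ) ≤ C.nn
  nnd : (C.nn : ℝ) / C.nd * (1 - (C.e0 : ℝ)) ≤ 1
  t2 : 2 * ((C.t3 : ℝ) / C.Dw) / (1 - (C.e1 : ℝ)) ≤ (C.t2 : ℝ) / C.Dw
  pen0 : (0 : ℝ) ≤ C.pen
  pen : 4 * (C.e1 : ℝ) ^ 3 ≤ ((C.pen : ℝ) / C.Dw * (1 - (C.e1 : ℝ))) ^ 2
  Af : (0 : ℝ) < C.Af
  b0 : (0 : ℝ) < C.b0
  cover : ivalChain C.Af 0 C.ivals = true
  far : C.farOK = true

theorem head_of_check {C : Cfg} (h : C.headOK = true) : Head C := by
  simp only [Cfg.headOK, Bool.and_eq_true, decide_eq_true_eq] at h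
  obtain ⟨⟨⟨⟨⟨⟨⟨⟨⟨h1, h2⟩, d1, d2, d3, d4, d5, d6⟩, a1, a2, a3, a4, a5, a6, a7⟩, n1⟩, t2⟩, p0, p1⟩,
    f0, -, b0⟩, cov⟩, far⟩ := h
  have c : ∀ {a b : ℤ}, a ≤ b → (a : ℝ) ≤ b := fun h => Int.cast_le.2 h
  have n1' := (Rat.cast_le (K := ℝ)).2 n1
  have t2' := (Rat.cast_le (K := ℝ)).2 t2
  have p1' := (Rat.cast_le (K := ℝ)).2 p1
  push_cast at n1' t2' p1'
  exact ⟨h1, h2, Int.cast_pos.2 d1, Int.cast_pos.2 d2, Int.cast_pos.2 d3, Int.cast_pos.2 d4,
    Int.cast_pos.2 d5, Int.cast_pos.2 d6, by exact_mod_cast a1, by exact_mod_cast a2,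
    by exact_mod_cast a3, by exact_mod_cast a4, c a5, by exact_mod_cast a6, by exact_mod_cast a7,
    n1', t2', by exact_mod_cast p0, p1', Int.cast_pos.2 f0, Int.cast_pos.2 b0, cov, far⟩

/-- The dimension `m + 1` lies in the range. -/
def Cfg.Mem (C : Cfg) (m : ℕ) : Prop := C.lo ≤ m + 1 ∧ (C.hi = 0 ∨ m + 1 ≤ C.hi)

/-- The position of `1 / n` between the two ends. -/
structure Pos (C : Cfg) (m : ℕ) (l : ℝ) : Prop where
  m3 : 3 ≤ m
  e0 : 0 ≤ (C.e0 : ℝ)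
  e01 : (C.e0 : ℝ) < C.e1
  e1 : (C.e1 : ℝ) ≤ 1 / 7
  l0 : 0 ≤ l
  l1 : l ≤ 1
  eps : 1 / ((m : ℝ) + 1) = (1 - l) * C.e0 + l * C.e1
  lo : (C.lo : ℝ) ≤ (m : ℝ) + 1

theorem pos_of_mem {C : Cfg} (H : Head C) {m : ℕ} (hm : C.Mem m) : ∃ l, Pos C m l := by
  have hlo : (7 : ℝ) ≤ C.lo := by exact_mod_cast H.lo
  have hn : (C.lo : ℝ) ≤ (m : ℝ) + 1 := by exact_mod_cast hm.1
  have e1 : (C.e1 : ℝ) = 1 / (C.lo : ℝ) := by rw [Cfg.e1]; push_cast; rfl
  obtain ⟨h0, h01, hle⟩ : 0 ≤ (C.e0 : ℝ) ∧ (C.e0 : ℝ) < C.e1 ∧ (C.e0 : ℝ) ≤ 1 / ((m : ℝ) + 1) := by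
    rw [e1, Cfg.e0]
    by_cases h : C.hi = 0
    · rw [if_pos h, Rat.cast_zero]
      exact ⟨le_rfl, by positivity, by positivity⟩
    · rw [if_neg h]
      push_cast
      have a : (C.lo : ℝ) < C.hi := by exact_mod_cast H.hhi.resolve_left h
      have b : (m : ℝ) + 1 ≤ C.hi := by exact_mod_cast hm.2.resolve_left h
      exact ⟨by positivity, one_div_lt_one_div_of_lt (by linarith) a,
        one_div_le_one_div_of_le (by positivity) b⟩
  have hhi : 1 / ((m : ℝ) + 1) ≤ C.e1 := e1 ▸ one_div_le_one_div_of_le (by linarith) hn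
  have hd : 0 < (C.e1 : ℝ) - C.e0 := sub_pos.2 h01
  have := hm.1
  have := H.lo
  exact ⟨(1 / ((m : ℝ) + 1) - C.e0) / (C.e1 - C.e0), by omega, h0, h01,
    e1 ▸ one_div_le_one_div_of_le (by norm_num) hlo, div_nonneg (by linarith) hd.le,
    (div_le_one hd).2 (by linarith), by field_simp; ring, hn⟩

theorem Pos.mem {C : Cfg} {m : ℕ} {l : ℝ} (P : Pos C m l) :
    (C.e0 : ℝ) ≤ 1 / ((m : ℝ) + 1) ∧ 1 / ((m : ℝ) + 1) ≤ C.e1 := by
  rw [P.eps]
  constructor <;> nlinarith [P.l0, P.l1, P.e01]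

/-- The facts about a time in an interval. -/
structure At (C : Cfg) (I : Ival) (m : ℕ) (t : ℝ) : Prop where
  ht : t ∈ Ioo (0 : ℝ) 1
  lo : (I.A0 : ℝ) ≤ C.Dt * rootN m * t
  hi : C.Dt * rootN m * t < I.A1

theorem At.time {C : Cfg} {I : Ival} {m : ℕ} {t : ℝ} (H : Head C) (h : At C I m t) :
    (I.A0 : ℝ) / C.Dt ≤ rootN m * t ∧ rootN m * t ≤ (I.A1 : ℝ) / C.Dt ∧
      (rootN m * t) ^ 2 = ((m : ℝ) + 1) * t ^ 2 ∧ 0 < rootN m * t ∧
      t ^ 2 = 1 / ((m : ℝ) + 1) * (rootN m * t) ^ 2 := by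
  have e : (rootN m * t) ^ 2 = ((m : ℝ) + 1) * t ^ 2 := by rw [mul_pow, rootN_sq]
  have h1 := h.lo
  have h2 := h.hi.le
  rw [mul_assoc] at h1 h2
  refine ⟨by rw [div_le_iff₀ H.Dt]; linarith, by rw [le_div_iff₀ H.Dt]; linarith, e,
    mul_pos (rootN_pos m) h.ht.1, ?_⟩
  rw [e]
  field_simp

/-- The bounds of the profile. -/
theorem profile_bounds {C : Cfg} {I : Ival} {m : ℕ} {t l : ℝ} (H : Head C) (P : Pos C m l)
    (h : At C I m t) (h0 : 0 ≤ I.A0) (hb : I.boundsOK C = true) :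
    0 ≤ (I.pl : ℝ) / C.Dc ∧ (I.pl : ℝ) / C.Dc ≤ ballShape t ∧ ballShape t ≤ (I.ph : ℝ) / C.Dc ∧
      (I.ph : ℝ) / C.Dc ≤ 1 := by
  simp only [Ival.boundsOK, Bool.and_eq_true, decide_eq_true_eq] at hb
  obtain ⟨⟨⟨⟨⟨⟨⟨q0, q01, q1⟩, r0, r1⟩, -⟩, -⟩, -⟩, -⟩, -⟩ := hb
  have q0' := (Rat.cast_le (K := ℝ)).2 q0
  have q01' := (Rat.cast_le (K := ℝ)).2 q01
  have q1' := (Rat.cast_le (K := ℝ)).2 q1
  have r0' := (Rat.cast_le (K := ℝ)).2 r0
  have r1' := (Rat.cast_le (K := ℝ)).2 r1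
  push_cast at q0' q01' q1' r0' r1'
  obtain ⟨hT0, hT1, -, hT, ht⟩ := h.time H
  have hA : (0 : ℝ) ≤ (I.A0 : ℝ) / C.Dt := div_nonneg (Int.cast_nonneg h0) H.Dt.le
  have hp := ball_pos (sub01 h.ht)
  have hp2 := ball_sq (Ioo_subset_Icc_self (sub01 h.ht))
  rw [ht] at hp2
  have a := mul_le_mul P.mem.1 (pow_le_pow_left₀ hA hT0 2) (sq_nonneg _) (P.e0.trans P.mem.1)
  have b := mul_le_mul P.mem.2 (pow_le_pow_left₀ hT.le hT1 2) (sq_nonneg _) (P.e0.trans P.e01.le)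
  exact ⟨q0', le_of_pow_le_pow_left₀ two_ne_zero hp.le (by linarith),
    le_of_pow_le_pow_left₀ two_ne_zero (by linarith) (by linarith), q1'⟩

/-- The brackets on an interval. -/
theorem brackets {C : Cfg} {I : Ival} {m : ℕ} {t l : ℝ} (H : Head C) (P : Pos C m l)
    (h : At C I m t) (h0 : 0 ≤ I.A0) (hb : I.boundsOK C = true) :
    ((m : ℝ) + 1) * (ballRatio m * ballShape t - 1) ≤
        (I.uc : ℝ) / C.Dc - (I.uq : ℝ) / C.Dc * (rootN m * t) ^ 2 ∧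
      (I.dc : ℝ) / C.Dc - (I.dq : ℝ) / C.Dc * (rootN m * t) ^ 2 ≤
        ((m : ℝ) + 1) * (ballRatio m * ballShape t - 1) := by
  obtain ⟨pl0, plp, pph, ph1⟩ := profile_bounds H P h h0 hb
  simp only [Ival.boundsOK, Bool.and_eq_true, decide_eq_true_eq] at hb
  obtain ⟨⟨⟨⟨⟨-, uc, uq⟩, dc, dq⟩, -⟩, -⟩, -⟩ := hb
  have uc' := (Rat.cast_le (K := ℝ)).2 uc
  have uq' := (Rat.cast_le (K := ℝ)).2 uq
  have dc' := (Rat.cast_le (K := ℝ)).2 dc
  have dq' := (Rat.cast_le (K := ℝ)).2 dq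
  push_cast at uc' uq' dc' dq'
  obtain ⟨-, -, e, -, -⟩ := h.time H
  obtain ⟨a, b⟩ := bracket_bounds P.m3 rfl h.ht e P.mem.2 pph plp pl0
  have hp := ball_pos (sub01 h.ht)
  have u : (I.uq : ℝ) / C.Dc ≤ 1 / (1 + (I.ph : ℝ) / C.Dc) := (le_div_iff₀ (by linarith)).2 uq'
  have d : 1 / (1 + (I.pl : ℝ) / C.Dc) ≤ (I.dq : ℝ) / C.Dc := (div_le_iff₀ (by linarith)).2 dq'
  have hu := mul_le_mul_of_nonneg_left u (sq_nonneg (rootN m * t))
  have hd := mul_le_mul_of_nonneg_left d (sq_nonneg (rootN m * t))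
  rw [mul_one_div] at hu hd
  constructor <;> linarith

/-- The line in `ε` below the weight. -/
theorem weight_line {C : Cfg} {I : Ival} {m : ℕ} {t l : ℝ} (H : Head C) (P : Pos C m l)
    (h : At C I m t) (h0 : 0 ≤ I.A0) (hb : I.boundsOK C = true) :
    0 ≤ (1 - l) * (I.kl0 : ℝ) + l * I.kl1 ∧ (I.kl0 : ℝ) ≤ I.kl1 ∧
      ((1 - l) * (I.kl0 : ℝ) + l * I.kl1) / C.Dc ≤ weightPoly (ballShape t) := by
  obtain ⟨pl0, plp, pph, ph1⟩ := profile_bounds H P h h0 hb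
  simp only [Ival.boundsOK, Bool.and_eq_true, decide_eq_true_eq] at hb
  obtain ⟨⟨⟨⟨⟨⟨-, r0, -⟩, -⟩, -⟩, -⟩, -⟩, hw⟩ := hb
  simp only [Ival.weightOK, Bool.and_eq_true, decide_eq_true_eq] at hw
  obtain ⟨⟨k0, k01⟩, hw⟩ := hw
  have k0' : (0 : ℝ) ≤ I.kl0 := Int.cast_nonneg k0
  have k01' : (I.kl0 : ℝ) ≤ I.kl1 := Int.cast_le.2 k01
  have hp := ball_pos (sub01 h.ht)
  refine ⟨by nlinarith [mul_le_mul_of_nonneg_left k01' P.l0], k01', ?_⟩
  by_cases he : I.kl0 = I.kl1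
  · rw [if_pos he, decide_eq_true_eq] at hw
    have hw' := (Rat.cast_le (K := ℝ)).2 hw
    simp only [weightQ] at hw'
    push_cast at hw'
    rw [← he]
    refine le_trans (le_trans (le_of_eq (by ring)) hw') ?_
    exact weightPoly_anti hp.le pph ph1
  rw [if_neg he] at hw
  have r0' := (Rat.cast_le (K := ℝ)).2 r0
  push_cast at r0'
  obtain ⟨hT0, hT1, -, hT, ht⟩ := h.time H
  have hA : (0 : ℝ) ≤ (I.A0 : ℝ) / C.Dt := div_nonneg (Int.cast_nonneg h0) H.Dt.le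
  have hp2 := ball_sq (Ioo_subset_Icc_self (sub01 h.ht))
  rw [ht] at hp2
  set ε := 1 / ((m : ℝ) + 1) with hε
  set T₀ := (I.A0 : ℝ) / C.Dt with hT₀
  have hpq : ballShape t ^ 2 ≤ 1 - ε * T₀ ^ 2 := by
    linarith [mul_le_mul_of_nonneg_left (pow_le_pow_left₀ hA hT0 2) (P.e0.trans P.mem.1)]
  set q := √(1 - ε * T₀ ^ 2) with hq
  have hy : 0 ≤ 1 - ε * T₀ ^ 2 := (sq_nonneg _).trans hpq
  have hq2 : q ^ 2 = 1 - ε * T₀ ^ 2 := Real.sq_sqrt hy
  have hpq' : ballShape t ≤ q := Real.le_sqrt_of_sq_le hpq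
  have hqh : q ≤ (I.ph : ℝ) / C.Dc := Real.sqrt_le_iff.2 ⟨by linarith, by
    linarith [mul_le_mul_of_nonneg_right P.mem.1 (sq_nonneg T₀)]⟩
  have key := posOn_sound hw (t := q) ((div_le_iff₀ H.Dc).1 (plp.trans hpq'))
    ((le_div_iff₀ H.Dc).1 hqh)
  have hmono := weightPoly_anti hp.le hpq' (hqh.trans ph1)
  refine le_trans ?_ hmono
  simp only [posOn, Bool.and_eq_true, decide_eq_true_eq] at hw
  have hlt : (I.pl : ℝ) < I.ph := Int.cast_lt.2 hw.1.2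
  have ek : ev [1000, 0, -1028, 526, 2] q = 1000 * weightPoly q := by
    simp only [ev, weightPoly]; push_cast; ring
  simp only [ev_add1, ev_smul1, ek, cast_mul', cast_sub', cast_add', cast_ofNat'] at key
  simp only [ev, cast_mul', cast_sub', cast_add', cast_ofNat', Int.cast_zero] at key
  push_cast at key
  have hlo : (7 : ℝ) ≤ C.lo := by exact_mod_cast H.lo
  obtain ⟨en, ed, hend, hed, hG, hlε⟩ : ∃ en ed : ℤ, C.end0 = (en, ed) ∧ (0 : ℝ) ≤ ed ∧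
      0 < (ed : ℝ) - en * C.lo ∧ ((ed : ℝ) - en * C.lo) * l = (ε * ed - en) * C.lo := by
    have eps := P.eps
    rw [← hε, Cfg.e1, Cfg.e0] at eps
    by_cases hh : C.hi = 0
    · refine ⟨0, 1, by rw [Cfg.end0, if_pos hh], by norm_num, by norm_num, ?_⟩
      rw [if_pos hh] at eps
      push_cast at eps
      rw [eps]
      field_simp
      push_cast
      ring
    · refine ⟨1, Int.ofNat C.hi, by rw [Cfg.end0, if_neg hh], by simp, ?_, ?_⟩
      · have : (C.lo : ℝ) < C.hi := by exact_mod_cast H.hhi.resolve_left hh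
        simp only [cast_ofNat', Int.cast_one, one_mul]
        linarith
      · rw [if_neg hh] at eps
        push_cast at eps
        have : (C.hi : ℝ) ≠ 0 := Nat.cast_ne_zero.2 hh
        rw [eps, cast_ofNat']
        field_simp
        push_cast
        ring
  rw [hend] at key
  simp only [] at key
  have e0 : (C.Dt : ℝ) ^ 2 * (1 - q ^ 2) = ε * (I.A0 : ℝ) ^ 2 := by
    rw [hq2, hT₀]
    have := H.Dt.ne'
    field_simp
    ring
  have hF : 0 < ((I.kl1 : ℝ) - I.kl0) := sub_pos.2 (lt_of_le_of_ne k01' (by exact_mod_cast he))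
  rcases eq_or_ne I.A0 0 with ha | ha
  · exfalso
    have hq0 := posOn_sound (t := (I.pl : ℝ) / C.Dc) (show posOn I.pl I.ph C.Dc _ = true by
      simp only [posOn, Bool.and_eq_true, decide_eq_true_eq]; exact hw)
      (by rw [div_mul_cancel₀ _ H.Dc.ne']) (by rw [div_mul_cancel₀ _ H.Dc.ne']; exact hlt.le)
    simp only [ha, ev_add1, ev_smul1, cast_mul', cast_sub', cast_add', cast_ofNat'] at hq0
    simp only [ev, cast_mul', cast_sub', cast_add', cast_ofNat', Int.cast_zero] at hq0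
    push_cast at hq0
    rw [hend] at hq0
    simp only [] at hq0
    have hed' : (0 : ℝ) < ed := by
      rcases hed.lt_or_eq with h' | h'
      · exact h'
      · rw [← h'] at hG hlε
        simp only [Cfg.end0] at hend
        split at hend <;> simp only [Prod.mk.injEq] at hend <;> obtain ⟨-, rfl⟩ := hend
        · norm_num at h'
        · simp only [cast_ofNat'] at h'
          have := H.hhi
          have : C.hi = 0 := by exact_mod_cast h'.symm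
          contradiction
    have h1 : (I.pl : ℝ) / C.Dc < 1 := by
      rw [div_lt_one H.Dc]
      have := (div_le_one H.Dc).1 ph1
      linarith
    have h2 : 0 < 1 - ((I.pl : ℝ) / C.Dc) ^ 2 := sub_pos.2 (pow_lt_one₀ pl0 h1 two_ne_zero)
    have h3 : 0 < 1000 * ((I.kl1 : ℝ) - I.kl0) * C.lo * ((C.Dt : ℝ) ^ 2 * ed) *
        (1 - ((I.pl : ℝ) / C.Dc) ^ 2) := by
      have := H.Dt
      positivity
    ring_nf at hq0 h3
    linarith
  have hA2 : 0 < (I.A0 : ℝ) ^ 2 := by positivity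
  rw [div_le_iff₀ H.Dc]
  refine le_of_mul_le_mul_left ?_ (show 0 < 1000 * ((I.A0 : ℝ) ^ 2 * ((ed : ℝ) - en * C.lo)) by
    positivity)
  linear_combination key + (-(1000 * ((I.kl1 : ℝ) - I.kl0) * C.lo * ed)) * e0 +
    (1000 * ((I.kl1 : ℝ) - I.kl0) * (I.A0 : ℝ) ^ 2) * hlε

/-- The bound of `si`. -/
theorem si_bound {C : Cfg} {I : Ival} {U X A : ℝ} (w : Wt I U X A)
    (h1 : (I.siBound C 1).nn 8 = true) (h2 : (I.siBound C (-1)).nn 8 = true) :
    |(C.flux.si.line I.A0).val A| ≤ I.sA := by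
  have key : ∀ s : ℤ, (I.siBound C s).nn 8 = true →
      0 ≤ (I.sA : ℝ) - s * (C.flux.si.line I.A0).val A := fun s hs => by
    refine TailCert.pk_nonneg w.hU w.hX (Rep.congr (w.up2 ((((w.lin_one (w.lin_one Rep.unit)).smul _).add
      (((w.lin_A (w.lin_one Rep.unit)).smul _).add ((w.lin_A (w.lin_A Rep.unit)).smul _))))) ?_) hs
    simp only [cast_sub', cast_neg', cast_mul', Quad.val]
    ring
  have a := key 1 h1
  have b := key (-1) h2
  push_cast at a b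
  exact abs_le.2 ⟨by linarith, by linarith⟩

/-- `n cubicF` against its second order part: `K` is what the second order of `exp` gains. -/
theorem scaled_cubicF_le {m : ℕ} {v L lh K : ℝ} (hm : 6 ≤ m) (hv : 0 ≤ v)
    (hL : L = Real.log (1 + v)) (hlh : L ≤ lh)
    (hK : K = 0 ∨ 0 ≤ K ∧ K ≤ 1 / (m : ℝ) * ((1 - 2 / (m : ℝ) * lh / 3) * L ^ 2)) :
    ((m : ℝ) + 1) * cubicF m (1 + v) ≤ 2 * ((m : ℝ) + 1) / ((m : ℝ) - 1) *
      ((1 + v) ^ 2 * L - v - 3 / 2 * v ^ 2 + 1 / (m : ℝ) * v ^ 2 - K * (1 + v) ^ 2) := by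
  have hm' : (6 : ℝ) ≤ m := by exact_mod_cast hm
  have hm0 : (0 : ℝ) < m := by linarith
  have hx : (0 : ℝ) < 1 + v := by linarith
  have hL0 : 0 ≤ L := hL ▸ Real.log_nonneg (by linarith)
  set h := 2 / (m : ℝ) with hh
  have hh0 : 0 ≤ h := by positivity
  set y := h * L with hy
  have hy0 : 0 ≤ y := mul_nonneg hh0 hL0
  have hlow : (1 + v) ^ 2 * (1 - y + h * K) ≤ (1 + v) ^ tailExp m := by
    rw [Real.rpow_def_of_pos hx, ← hL, tailExp, ← hh,
      show L * (2 - h) = ((2 : ℕ) : ℝ) * L + -y by rw [hy]; push_cast; ring, Real.exp_add,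
      Real.exp_nat_mul, hL, Real.exp_log hx]
    refine mul_le_mul_of_nonneg_left ?_ (sq_nonneg _)
    rcases hK with rfl | ⟨hK0, hK⟩
    · have := Real.add_one_le_exp (-y)
      linarith
    · have h2 := exp_neg_le_quad hy0
      have e : h * (1 / (m : ℝ) * ((1 - 2 / (m : ℝ) * lh / 3) * L ^ 2)) =
          y ^ 2 / 2 * (1 - h * lh / 3) := by rw [hy, hh]; field_simp
      have h3 := mul_le_mul_of_nonneg_left hK hh0
      rw [e] at h3
      have h4 : y ^ 2 / 2 * (1 - h * lh / 3) ≤ y ^ 2 / 2 * (1 - y / 3) :=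
        mul_le_mul_of_nonneg_left (by
          have := mul_le_mul_of_nonneg_left hlh hh0
          rw [hy]; linarith) (by positivity)
      linarith
  obtain ⟨hq, -⟩ := tailExp_mem (m := m) (by omega)
  have hfac : 2 * ((m : ℝ) + 1) / ((m : ℝ) - 1) = ((m : ℝ) + 1) * (2 / tailExp m) * h := by
    rw [tailExp, hh]
    have : (m : ℝ) - 1 ≠ 0 := by linarith
    field_simp
  rw [cubicF, tailCubicPos, if_pos (by linarith), hfac, tailCubic, mul_assoc _ h, ← mul_assoc]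
  refine mul_le_mul_of_nonneg_left ?_ (mul_nonneg (by linarith) (div_nonneg two_pos.le (by linarith)))
  rw [hy] at hlow
  have e1 : 1 / (m : ℝ) = h / 2 := by rw [hh]; ring
  rw [e1, show tailExp m = 2 - h from rfl, add_sub_cancel_left] at *
  nlinarith

theorem cubicFactor_le {m : ℕ} (hm : 6 ≤ m) {e₁ : ℝ} (he : 1 / ((m : ℝ) + 1) ≤ e₁) (he1 : e₁ ≤ 1 / 7)
    {G B B' : ℝ} (hG : 0 ≤ G) (hB : G ≤ 2 * ((m : ℝ) + 1) / ((m : ℝ) - 1) * B) (hBB : B ≤ B') :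
    G ≤ 2 / (1 - 2 * e₁) * B' := by
  have hm' : (6 : ℝ) ≤ m := by exact_mod_cast hm
  have hc0 : 0 < 2 * ((m : ℝ) + 1) / ((m : ℝ) - 1) := div_pos (by linarith) (by linarith)
  have hcc : 2 * ((m : ℝ) + 1) / ((m : ℝ) - 1) ≤ 2 / (1 - 2 * e₁) := by
    have e : 1 - 2 * (1 / ((m : ℝ) + 1)) = ((m : ℝ) - 1) / ((m : ℝ) + 1) := by field_simp; ring
    rw [← div_div_eq_mul_div, ← e]
    exact div_le_div_of_nonneg_left two_pos.le (by linarith) (by linarith)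
  have hB0 : 0 ≤ B := nonneg_of_mul_nonneg_right (hG.trans hB) hc0
  exact (hB.trans (mul_le_mul_of_nonneg_right hcc hB0)).trans
    (mul_le_mul_of_nonneg_left hBB (hc0.le.trans hcc))

/-- The bracket of the majorant by the tangent of the logarithm at `x₀`. -/
theorem bracket_tangent {v L a x₀ lu K h hm : ℝ} (hx : x₀ = 1 + a)
    (hL : L ≤ lu + ((1 + v) - x₀) / x₀) (hh : h ≤ hm) :
    (1 + v) ^ 2 * L - v - 3 / 2 * v ^ 2 + h * v ^ 2 - K * (1 + v) ^ 2 ≤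
      (lu - a / x₀ - K) + (1 / x₀ + 2 * (lu - a / x₀) - 2 * K - 1) * v +
        (2 / x₀ + (lu - a / x₀) - K - 3 / 2 + hm) * v ^ 2 + 1 / x₀ * v ^ 3 := by
  have e : lu + ((1 + v) - x₀) / x₀ = (lu - a / x₀) + v / x₀ := by subst hx; ring
  have h1 := mul_le_mul_of_nonneg_left (e ▸ hL) (sq_nonneg (1 + v))
  have h2 := mul_le_mul_of_nonneg_right hh (sq_nonneg v)
  ring_nf at h1 h2 ⊢
  linarith

/-- The two bounds of the logarithm at the left end of a segment. -/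
theorem log_ends {ll lu : ℚ} {x₀ : ℝ} (hx : 1 ≤ x₀) (h0 : 0 ≤ ll) (h32 : ll ≤ 32)
    (hll : 1 ≤ (expNegLo ll : ℝ) * x₀) (hu0 : 0 ≤ lu) (hlu : x₀ ≤ (expLo (lu / 32) : ℝ) ^ 32) :
    (ll : ℝ) ≤ Real.log x₀ ∧ Real.log x₀ ≤ (lu : ℝ) := by
  obtain ⟨-, e1, -⟩ := expNeg_bounds h0 h32
  constructor
  · rw [Real.le_log_iff_exp_le (by linarith)]
    have h2 := hll.trans (mul_le_mul_of_nonneg_right e1 (by linarith : (0 : ℝ) ≤ x₀))
    rw [Real.exp_neg, inv_mul_eq_div, le_div_iff₀ (Real.exp_pos _), one_mul] at h2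
    exact h2
  · rw [Real.log_le_iff_le_exp (by linarith)]
    refine hlu.trans ?_
    have hy : (0 : ℚ) ≤ lu / 32 := by positivity
    have h3 := expLo_le_exp hy
    refine (pow_le_pow_left₀ ?_ h3 32).trans_eq ?_
    · have : (0 : ℚ) ≤ expLo (lu / 32) := by unfold expLo; positivity
      exact_mod_cast this
    · rw [← Real.exp_nat_mul]
      congr 1
      push_cast
      ring

/-- The cubic majorant of `G = n cubicF`: the factor of `(x - 1) ^ 3` is below two thirds. -/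
theorem major_taylor {m : ℕ} (hm : 6 ≤ m) {v g0 g1 g2 g3 : ℝ} (hv : 0 ≤ v)
    (hg0 : 0 ≤ g0) (hg1 : 0 ≤ g1) (hg2 : 0 ≤ g2) (hg3 : 2 / 3 ≤ g3) :
    ((m : ℝ) + 1) * cubicF m (1 + v) ≤ g0 + g1 * v + g2 * v ^ 2 + g3 * v ^ 3 := by
  have hm' : (6 : ℝ) ≤ m := by exact_mod_cast hm
  have hcube := tailCubic_le_cube (m := m) (by omega) (show (0 : ℝ) < 1 + v by linarith)
  rw [add_sub_cancel_left] at hcube
  rw [cubicF, tailCubicPos, if_pos (by linarith)]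
  have hfac : ((m : ℝ) + 1) * (2 * ((m : ℝ) - 2) / (3 * (m : ℝ) ^ 2)) ≤ g3 := by
    refine le_trans ?_ hg3
    rw [mul_div_assoc', div_le_iff₀ (by positivity)]
    nlinarith
  have a := mul_le_mul_of_nonneg_left hcube (by positivity : (0 : ℝ) ≤ (m : ℝ) + 1)
  have b := mul_le_mul_of_nonneg_right hfac (pow_nonneg hv 3)
  have c := mul_nonneg hg1 hv
  have d := mul_nonneg hg2 (sq_nonneg v)
  linarith

/-- The majorant of a segment away from one. -/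
theorem major_mid {C : Cfg} {m : ℕ} {l : ℝ} (P : Pos C m l) (hm : 6 ≤ m) (hmem : C.Mem m)
    {v a b x₀ ll lu dl lh : ℝ} (hlo : (7 : ℝ) ≤ C.lo) (ha : 0 ≤ a) (h0 : a ≤ v) (h1 : v ≤ b)
    (hx₀ : x₀ = 1 + a) (hlh : lh = lu + (b - a) / x₀) (hll : 0 ≤ ll) (hl : ll ≤ Real.log x₀)
    (hu : Real.log x₀ ≤ lu) (hdl : dl = if C.hi = 0 then 0 else 1 / ((C.hi : ℝ) - 1)) :
    let K := dl * max 0 (1 - 2 / ((C.lo : ℝ) - 1) * lh / 3) * ll ^ 2
    let L0 := lu - a / x₀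
    ((m : ℝ) + 1) * cubicF m (1 + v) ≤ 2 / (1 - 2 * (C.e1 : ℝ)) *
      ((L0 - K) + (1 / x₀ + 2 * L0 - 2 * K - 1) * v +
        (2 / x₀ + L0 - K - 3 / 2 + 1 / ((C.lo : ℝ) - 1)) * v ^ 2 + 1 / x₀ * v ^ 3) := by
  intro K L0
  have hv : 0 ≤ v := ha.trans h0
  have hm' : (6 : ℝ) ≤ m := by exact_mod_cast hm
  have hx00 : 1 ≤ x₀ := by linarith
  have hG0 : 0 ≤ ((m : ℝ) + 1) * cubicF m (1 + v) :=
    mul_nonneg (by positivity) (cubicF_bounds P.m3 (by linarith)).1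
  have hLlo : ll ≤ Real.log (1 + v) := hl.trans (Real.log_le_log (by linarith) (by linarith))
  have hLhi : Real.log (1 + v) ≤ lu + ((1 + v) - x₀) / x₀ := by
    have h4 := Real.log_le_sub_one_of_pos (show 0 < (1 + v) / x₀ by positivity)
    rw [Real.log_div (by linarith) (by linarith), div_sub_one (by linarith)] at h4
    linarith
  have hLlh : Real.log (1 + v) ≤ lh := hLhi.trans (by
    have : ((1 + v) - x₀) / x₀ ≤ (b - a) / x₀ :=
      div_le_div_of_nonneg_right (by linarith) (by linarith)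
    linarith)
  have hdl' : 0 ≤ dl ∧ dl ≤ 1 / (m : ℝ) := by
    rw [hdl]
    split
    · exact ⟨le_rfl, by positivity⟩
    · next hh =>
      have : (m : ℝ) + 1 ≤ C.hi := by exact_mod_cast hmem.2.resolve_left hh
      exact ⟨div_nonneg zero_le_one (by linarith),
        one_div_le_one_div_of_le (by linarith) (by linarith)⟩
  have hlh0 : 0 ≤ lh := (Real.log_nonneg (by linarith)).trans hLlh
  have hm1 : 0 < (C.lo : ℝ) - 1 := by linarith
  have hK : K = 0 ∨ 0 ≤ K ∧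
      K ≤ 1 / (m : ℝ) * ((1 - 2 / (m : ℝ) * lh / 3) * Real.log (1 + v) ^ 2) := by
    rcases le_total (1 - 2 / ((C.lo : ℝ) - 1) * lh / 3) 0 with hz | hz
    · left; simp only [K, max_eq_left hz]; ring
    · right
      simp only [K, max_eq_right hz]
      refine ⟨mul_nonneg (mul_nonneg hdl'.1 hz) (sq_nonneg _), ?_⟩
      rw [mul_assoc]
      have h2 : 2 / (m : ℝ) * lh ≤ 2 / ((C.lo : ℝ) - 1) * lh :=
        mul_le_mul_of_nonneg_right
          (div_le_div_of_nonneg_left two_pos.le hm1 (by linarith [P.lo])) hlh0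
      have h3 : 1 - 2 / ((C.lo : ℝ) - 1) * lh / 3 ≤ 1 - 2 / (m : ℝ) * lh / 3 := by linarith
      exact mul_le_mul hdl'.2 (mul_le_mul h3 (pow_le_pow_left₀ hll hLlo 2) (sq_nonneg _)
        (hz.trans h3)) (mul_nonneg hz (sq_nonneg _)) (by positivity)
  exact cubicFactor_le hm P.mem.2 P.e1 hG0 (scaled_cubicF_le hm hv rfl hLlh hK)
    (bracket_tangent hx₀ hLhi (one_div_le_one_div_of_le hm1 (by linarith [P.lo])))

/-- The majorant of `G = n cubicF` on a segment. -/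
theorem seg_major {C : Cfg} {m : ℕ} {l : ℝ} (H : Head C) (P : Pos C m l) (hmem : C.Mem m) {s : Seg}
    (h : s.majOK C = true) (hb : s.below = false) (hlt : s.V0 < s.V1) {x : ℝ}
    (h0 : (s.V0 : ℝ) / C.Dv ≤ x - 1) (h1 : x - 1 ≤ (s.V1 : ℝ) / C.Dv) :
    1 ≤ x ∧ 0 ≤ ((m : ℝ) + 1) * cubicF m x ∧
      ((m : ℝ) + 1) * cubicF m x ≤ ((s.g0 : ℝ) + s.g1 * (x - 1) + s.g2 * (x - 1) ^ 2 +
        s.g3 * (x - 1) ^ 3) / C.Dc := by
  simp only [Seg.majOK, hb, Bool.false_eq_true, if_false, Bool.and_eq_true, decide_eq_true_eq] at h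
  obtain ⟨hV, h⟩ := h
  have hV' : (0 : ℝ) ≤ (s.V0 : ℝ) / C.Dv := div_nonneg (Int.cast_nonneg hV) H.Dv.le
  obtain ⟨v, rfl⟩ : ∃ v, x = 1 + v := ⟨x - 1, by ring⟩
  rw [add_sub_cancel_left] at h0 h1 ⊢
  have hv : 0 ≤ v := hV'.trans h0
  have hlo : (7 : ℝ) ≤ C.lo := by exact_mod_cast H.lo
  have hm6 : 6 ≤ m := by have := hmem.1; have := H.lo; omega
  refine ⟨by linarith, mul_nonneg (by positivity) (cubicF_bounds P.m3 (by linarith)).1, ?_⟩
  rw [add_div, add_div, add_div, mul_div_right_comm (s.g1 : ℝ), mul_div_right_comm (s.g2 : ℝ),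
    mul_div_right_comm (s.g3 : ℝ)]
  by_cases ht : s.taylor = true
  · rw [if_pos ht, decide_eq_true_eq] at h
    obtain ⟨g0, g1, g2, g3⟩ := h
    have g0' := (Rat.cast_le (K := ℝ)).2 g0
    have g1' := (Rat.cast_le (K := ℝ)).2 g1
    have g2' := (Rat.cast_le (K := ℝ)).2 g2
    have g3' := (Rat.cast_le (K := ℝ)).2 g3
    push_cast at g0' g1' g2' g3'
    exact major_taylor hm6 hv g0' g1' g2' g3'
  rw [if_neg ht] at h
  simp only [Bool.and_eq_true, decide_eq_true_eq] at h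
  obtain ⟨⟨ll0, ll32, hll, lu0, hlu⟩, d0, d1, d2, d3⟩ := h
  have hlu' := (Rat.cast_le (K := ℝ)).2 hlu
  have hll' := (Rat.cast_le (K := ℝ)).2 hll
  have ll0' := (Rat.cast_le (K := ℝ)).2 ll0
  have d0' := (Rat.cast_le (K := ℝ)).2 d0
  have d1' := (Rat.cast_le (K := ℝ)).2 d1
  have d2' := (Rat.cast_le (K := ℝ)).2 d2
  have d3' := (Rat.cast_le (K := ℝ)).2 d3
  push_cast at hlu' hll' ll0' d0' d1' d2' d3'
  obtain ⟨hl, hu⟩ := log_ends (by linarith) ll0 ll32 hll' lu0 hlu'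
  push_cast at hl hu
  have key := cubic_nonneg H.Dv (Int.cast_lt.2 hlt) ((div_le_iff₀ H.Dv).1 h0)
    ((le_div_iff₀ H.Dv).1 h1) d0' d1' d2' d3'
  have hG := major_mid P hm6 hmem hlo hV' h0 h1 rfl rfl ll0' hl hu
    (dl := ((if C.hi = 0 then 0 else 1 / ((C.hi : ℚ) - 1) : ℚ) : ℝ)) (by split <;> push_cast <;> rfl)
  linear_combination hG + key

/-- The centre against the exponent of a slope above `r`. -/
theorem slope_centre {m : ℕ} (hm : 1 ≤ m) {t z x r ρ b U : ℝ} (ht : t ∈ Ioo (0 : ℝ) 1)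
    (hz : z ∈ Icc (0 : ℝ) 1) (hx : 0 < x) (hρ : ρ = (t - z) / (1 - t * z)) (hr : r < rootN m * ρ)
    (hc : b * (1 - t * z) ^ m ≤ ballShape t ^ m * x ^ 2)
    (hU : fE (1 / ((m : ℝ) + 1)) ((rootN m * t) ^ 2) / 2 - rootN m * t * r ≤ U) :
    b < x ^ 2 * Real.exp ((1 - 1 / ((m : ℝ) + 1)) * U) := by
  obtain ⟨ht0, ht1⟩ := ht
  set w := rootN m
  have hw0 : 0 < w := rootN_pos m
  have hw2 : w ^ 2 = (m : ℝ) + 1 := rootN_sq m
  have hden : 0 < 1 - t * z := by nlinarith [hz.2]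
  have hp := ball_pos (sub01 ⟨ht0, ht1⟩)
  have hp2 := ball_sq (Ioo_subset_Icc_self (sub01 ⟨ht0, ht1⟩))
  have e : 1 - t * ρ = ballShape t ^ 2 / (1 - t * z) := by
    rw [hρ, hp2]; field_simp; ring
  have hρden : 0 < 1 - t * ρ := e ▸ div_pos (pow_pos hp 2) hden
  set q := (1 - t * ρ) / ballShape t with hq
  have hcq : b ≤ q ^ m * x ^ 2 := by
    rw [hq, e, show ballShape t ^ 2 / (1 - t * z) / ballShape t = ballShape t / (1 - t * z) by
      field_simp, div_pow, div_mul_eq_mul_div, le_div_iff₀ (pow_pos hden _)]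
    exact hc
  set r' := r / w with hr'd
  have hr' : r' < ρ := (div_lt_iff₀ hw0).2 (by linarith)
  have hden2 : 0 < 1 - t * r' := by nlinarith
  set q' := (1 - t * r') / ballShape t with hq'
  have hqq : q ^ m < q' ^ m := pow_lt_pow_left₀
    (div_lt_div_of_pos_right (by nlinarith) hp) (div_pos hρden hp).le (by omega)
  have hlogq : Real.log q' * m ≤ (1 - 1 / ((m : ℝ) + 1)) * U := by
    rw [hq', Real.log_div hden2.ne' hp.ne']
    have a := Real.log_le_sub_one_of_pos hden2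
    have hn := neg_log_ball (n := (m : ℝ) + 1) (T := w * t) (by positivity)
      (by rw [mul_pow, hw2]) ⟨ht0, ht1⟩
    have em : 1 - 1 / ((m : ℝ) + 1) = (m : ℝ) * (1 / ((m : ℝ) + 1)) := by field_simp; ring
    have e3 : w * t * r = ((m : ℝ) + 1) * (t * r') := by rw [hr'd, ← hw2]; field_simp
    refine le_trans ?_ (mul_le_mul_of_nonneg_left hU (em ▸ by positivity))
    rw [← hn, e3, em]
    have b := mul_le_mul_of_nonneg_right (show Real.log (1 - t * r') - Real.log (ballShape t) ≤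
      -(t * r') - Real.log (ballShape t) by linarith) (Nat.cast_nonneg m)
    refine b.trans (le_of_eq ?_)
    field_simp
    ring
  have hqm : q' ^ m ≤ Real.exp ((1 - 1 / ((m : ℝ) + 1)) * U) := by
    refine le_trans (le_of_eq ?_) (Real.exp_le_exp.2 hlogq)
    rw [mul_comm, Real.exp_nat_mul, Real.exp_log (div_pos hden2 hp)]
  calc b ≤ q ^ m * x ^ 2 := hcq
    _ < q' ^ m * x ^ 2 := mul_lt_mul_of_pos_right hqq (pow_pos hx 2)
    _ ≤ Real.exp ((1 - 1 / ((m : ℝ) + 1)) * U) * x ^ 2 :=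
        mul_le_mul_of_nonneg_right hqm (sq_nonneg _)
    _ = _ := mul_comm _ _

/-- A bound of the exponent at the times of an interval. -/
theorem ball_exp_le {C : Cfg} {I : Ival} {m : ℕ} {t l : ℝ} (H : Head C) (P : Pos C m l)
    (h : At C I m t) (hb : C.e1 * ((I.A1 : ℚ) / C.Dt) ^ 2 < 1) :
    fE (1 / ((m : ℝ) + 1)) ((rootN m * t) ^ 2) / 2 ≤
      (ballExp C.e1 ((I.A1 : ℚ) / C.Dt) : ℝ) := by
  obtain ⟨-, hT1, -, hT, -⟩ := h.time H
  have he10 : (0 : ℝ) < C.e1 := P.e0.trans_lt P.e01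
  have he1T' := (Rat.cast_lt (K := ℝ)).2 hb
  push_cast at he1T'
  have a := fE_mono (P.e0.trans P.mem.1) P.mem.2 (sq_nonneg _)
    ((mul_le_mul_of_nonneg_left (pow_le_pow_left₀ hT.le hT1 2) he10.le).trans_lt he1T')
  have b := fE_mono_right he10.le (sq_nonneg _) (pow_le_pow_left₀ hT.le hT1 2) he1T'
  have c := logEnd_sound (e := C.e1) (T := (I.A1 : ℚ) / C.Dt) (by exact_mod_cast he10.le) hb
  push_cast at c
  refine (div_le_div_of_nonneg_right (a.trans (b.trans c)) two_pos.le).trans (le_of_eq ?_)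
  have hne : C.e1 ≠ 0 := fun h => by rw [h, Rat.cast_zero] at he10; exact lt_irrefl _ he10
  rw [logEnd, if_neg hne, ballExp]
  push_cast
  ring

/-- The test of the centre against the exponent. -/
theorem slope_exp {C : Cfg} {m : ℕ} {l : ℝ} (H : Head C) (P : Pos C m l) {U y : ℚ}
    (hs : (if 0 ≤ U then decide (U ≤ 64 ∧ y ^ 2 ≤ (C.b0 : ℚ) / C.Dc * expNegTwo U)
      else decide (y ^ 2 * expNegHi (min 32 (-U * (1 - C.e1))) ≤ (C.b0 : ℚ) / C.Dc)) = true) :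
    (y : ℝ) ^ 2 * Real.exp ((1 - 1 / ((m : ℝ) + 1)) * (U : ℝ)) ≤ (C.b0 : ℝ) / C.Dc := by
  have hε0 : 0 ≤ 1 / ((m : ℝ) + 1) := by positivity
  have hb0 : (0 : ℝ) ≤ (C.b0 : ℝ) / C.Dc := div_nonneg H.b0.le H.Dc.le
  split at hs <;> rename_i hU0
  · simp only [decide_eq_true_eq] at hs
    obtain ⟨hU64, hle⟩ := hs
    have hle' := (Rat.cast_le (K := ℝ)).2 hle
    push_cast at hle'
    obtain ⟨-, hexp⟩ := expNegTwo_sound hU0 hU64
    have h5 : Real.exp ((1 - 1 / ((m : ℝ) + 1)) * (U : ℝ)) ≤ Real.exp (U : ℝ) :=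
      Real.exp_le_exp.2 (mul_le_of_le_one_left (Rat.cast_nonneg.2 hU0) (by linarith))
    have h6 := hle'.trans (mul_le_mul_of_nonneg_left hexp hb0)
    rw [Real.exp_neg, ← div_eq_mul_inv, le_div_iff₀ (Real.exp_pos _)] at h6
    exact (mul_le_mul_of_nonneg_left h5 (sq_nonneg _)).trans h6
  · simp only [decide_eq_true_eq] at hs
    have hU0' := (Rat.cast_lt (K := ℝ)).2 (not_le.1 hU0)
    push_cast at hU0'
    have he1 : C.e1 ≤ 1 := by
      have : (C.e1 : ℝ) ≤ 1 := by linarith [P.e1]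
      exact_mod_cast this
    have hy0 : (0 : ℚ) ≤ min 32 (-U * (1 - C.e1)) :=
      le_min (by norm_num) (mul_nonneg (by linarith [not_le.1 hU0]) (by linarith))
    obtain ⟨-, -, hexp⟩ := expNeg_bounds hy0 (min_le_left _ _)
    have hle' := (Rat.cast_le (K := ℝ)).2 hs
    push_cast at hle' hexp
    refine (mul_le_mul_of_nonneg_left ((Real.exp_le_exp.2 ?_).trans hexp) (sq_nonneg _)).trans hle'
    have h6 := min_le_right (32 : ℝ) (-(U : ℝ) * (1 - (C.e1 : ℝ)))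
    have h7 := mul_le_mul_of_nonpos_right (show 1 - (C.e1 : ℝ) ≤ 1 - 1 / ((m : ℝ) + 1) by
      linarith [P.mem.2]) hU0'.le
    linarith

/-- The bound of the slope on a segment. -/
theorem seg_slope {C : Cfg} {I : Ival} {m : ℕ} {t l : ℝ} (H : Head C) (P : Pos C m l)
    (h : At C I m t) (h0 : 0 ≤ I.A0) (hb : I.boundsOK C = true) {s : Seg}
    (hs : s.slopeOK C I = true) {x z ρ : ℝ} (hx : 0 < x) (hz : z ∈ Icc (0 : ℝ) 1)
    (hρ : ρ = (t - z) / (1 - t * z)) (hhi : x - 1 ≤ (s.V1 : ℝ) / C.Dv)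
    (hσ : (I.node.sig : ℝ) / C.Dt ≤ z * rootN m)
    (hc : (C.b0 : ℝ) / C.Dc * (1 - t * z) ^ m ≤ ballShape t ^ m * x ^ 2) :
    rootN m * ρ ≤ (s.R : ℝ) / C.Dr := by
  obtain ⟨hT0, hT1, hTsq, hT, ht2⟩ := h.time H
  obtain ⟨ht, ht1⟩ := h.ht
  set w := rootN m with hw
  have hw0 : 0 < w := rootN_pos m
  have hw2 : w ^ 2 = (m : ℝ) + 1 := rootN_sq m
  have hden : 0 < 1 - t * z := by nlinarith [hz.2]
  have hρt : ρ ≤ t := by
    rw [hρ, div_le_iff₀ hden]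
    nlinarith [mul_nonneg hz.1 (show 0 ≤ 1 - t * t by nlinarith)]
  simp only [Ival.boundsOK, Bool.and_eq_true, decide_eq_true_eq] at hb
  obtain ⟨⟨⟨-, -, -, -, sg0⟩, hball⟩, -⟩ := hb
  simp only [ballExpOK, decide_eq_true_eq] at hball
  obtain ⟨he1T, -⟩ := hball
  simp only [Seg.slopeOK, Bool.or_eq_true, Bool.and_eq_true, decide_eq_true_eq] at hs
  rcases hs with (hs | ⟨hσT, hnum, hd⟩) | ⟨⟨hrT, hx0⟩, hs⟩
  · have hs' := (Rat.cast_le (K := ℝ)).2 hs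
    push_cast at hs'
    linarith [mul_le_mul_of_nonneg_left hρt hw0.le]
  · have hσT' := (Rat.cast_le (K := ℝ)).2 hσT
    have hnum' := (Rat.cast_le (K := ℝ)).2 hnum
    have hd' := (Rat.cast_lt (K := ℝ)).2 hd
    push_cast at hσT' hnum' hd'
    set σ := (I.node.sig : ℝ) / C.Dt with hσd
    have hσ0 : 0 ≤ σ := div_nonneg (Int.cast_nonneg sg0) H.Dt.le
    set s' := σ / w with hs'd
    have hs0 : 0 ≤ s' := div_nonneg hσ0 hw0.le
    have hsz : s' ≤ z := (div_le_iff₀ hw0).2 hσ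
    have h1 : ρ ≤ (t - s') / (1 - t * s') :=
      hρ ▸ shift_anti h.ht ⟨hs0, hsz.trans hz.2⟩ hz hsz
    have hden' : 0 < 1 - t * s' := by nlinarith [hz.2]
    have e : 1 / ((m : ℝ) + 1) * (w * t) * σ = t * s' := by
      rw [hs'd, ← hw2]; field_simp
    have hle : t * s' ≤ C.e1 * ((I.A1 : ℝ) / C.Dt) * σ := by
      rw [← e]
      exact mul_le_mul_of_nonneg_right
        (mul_le_mul P.mem.2 hT1 hT.le (P.e0.trans P.e01.le)) hσ0
    refine (mul_le_mul_of_nonneg_left h1 hw0.le).trans ?_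
    rw [mul_div_assoc', div_le_iff₀ hden']
    have e2 : w * (t - s') = w * t - σ := by rw [hs'd]; field_simp
    rw [e2]
    have hr : 0 ≤ (s.R : ℝ) / C.Dr := nonneg_of_mul_nonneg_left
      ((sub_nonneg.2 hσT').trans hnum') hd'
    linarith [mul_le_mul_of_nonneg_left hle hr]
  by_contra hlt
  rw [not_le] at hlt
  have hrT' := (Rat.cast_le (K := ℝ)).2 hrT
  have hx0' := (Rat.cast_le (K := ℝ)).2 hx0
  push_cast at hrT' hx0'
  set U : ℚ := ballExp C.e1 ((I.A1 : ℚ) / C.Dt) -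
    (if 0 ≤ (s.R : ℚ) / C.Dr then (I.A0 : ℚ) / C.Dt else (I.A1 : ℚ) / C.Dt) *
      ((s.R : ℚ) / C.Dr) with hU
  have hUT : fE (1 / ((m : ℝ) + 1)) ((w * t) ^ 2) / 2 - w * t * ((s.R : ℝ) / C.Dr) ≤ (U : ℝ) := by
    have hB := ball_exp_le H P h he1T
    rw [hU]
    push_cast
    split <;> rename_i hsg
    · have hsg' := (Rat.cast_le (K := ℝ)).2 hsg
      push_cast at hsg' ⊢
      linarith [mul_le_mul_of_nonneg_right hT0 hsg']
    · have hsg' := (Rat.cast_lt (K := ℝ)).2 (not_le.1 hsg)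
      push_cast at hsg' ⊢
      linarith [mul_le_mul_of_nonpos_right hT1 hsg'.le]
  have hlt2 := slope_centre (b := (C.b0 : ℝ) / C.Dc) (by linarith [P.m3]) h.ht hz hx hρ hlt hc hUT
  have hx2 := mul_le_mul_of_nonneg_right
    (pow_le_pow_left₀ hx.le (show x ≤ 1 + (s.V1 : ℝ) / C.Dv by linarith) 2)
    (Real.exp_pos ((1 - 1 / ((m : ℝ) + 1)) * (U : ℝ))).le
  have hfin := slope_exp (y := 1 + (s.V1 : ℚ) / C.Dv) H P (m := m) hs
  push_cast at hfin
  exact (hlt2.trans_le hx2).not_ge hfin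

/-- The chord of the envelope above the value. -/
theorem env_chord {C : Cfg} {I : Ival} {m : ℕ} {t l U X : ℝ} (H : Head C) (P : Pos C m l)
    (h : At C I m t) (h0 : 0 ≤ I.A0) (hlt : I.A0 < I.A1) (hb : I.boundsOK C = true)
    (he : I.envOK C = true) (w : Wt I U X (C.Dt * rootN m * t)) {x : ℝ} (hx : 0 < x)
    (hN : x ^ 2 * ballShape t ^ m ≤ (I.node.K : ℝ) / C.Dc *
      Real.exp (-((C.Dt * rootN m * t / I.node.Z - 1) * ((I.node.L : ℝ) / C.Dc)))) :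
    x - 1 ≤ (1 - l) * ((U * I.ex00 + X * I.ex01) / C.Dv) +
      l * ((U * I.ex10 + X * I.ex11) / C.Dv) := by
  simp only [Ival.boundsOK, Bool.and_eq_true, decide_eq_true_eq] at hb
  obtain ⟨⟨-, hball⟩, -⟩ := hb
  simp only [ballExpOK, decide_eq_true_eq] at hball
  obtain ⟨he1T, -⟩ := hball
  simp only [Ival.envOK, Ival.envOK1, Bool.and_eq_true, decide_eq_true_eq] at he
  obtain ⟨⟨⟨k00, k01⟩, k10⟩, k11⟩ := he
  have hK : (0 : ℝ) ≤ (I.node.K : ℝ) / C.Dc := by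
    by_contra hn
    have := mul_neg_of_neg_of_pos (not_le.1 hn) (Real.exp_pos
      (-((C.Dt * rootN m * t / I.node.Z - 1) * ((I.node.L : ℝ) / C.Dc))))
    have := mul_pos (pow_pos hx 2) (pow_pos (ball_pos (sub01 h.ht)) m)
    linarith
  have he01 : C.e0 ≤ C.e1 := by exact_mod_cast P.e01.le
  have he00 : (0 : ℚ) ≤ C.e0 := by exact_mod_cast P.e0
  have he11 : C.e1 ≤ 1 := by
    have : (C.e1 : ℝ) ≤ 1 := by linarith [P.e1]
    exact_mod_cast this
  set c : ℝ := (((C.e1 - C.e0) / 4 *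
    (logEnd C.e1 ((I.A1 : ℚ) / C.Dt) - ((I.A0 : ℚ) / C.Dt) ^ 2) : ℚ) : ℝ) with hcd
  have hA01 : (I.A0 : ℚ) / C.Dt ≤ (I.A1 : ℚ) / C.Dt :=
    div_le_div_of_nonneg_right (by exact_mod_cast hlt.le) (by exact_mod_cast H.Dt.le)
  have hA00 : (0 : ℚ) ≤ (I.A0 : ℚ) / C.Dt :=
    div_nonneg (by exact_mod_cast h0) (by exact_mod_cast H.Dt.le)
  have corner : ∀ (e : ℚ) (A ex : ℤ), 0 ≤ e → e ≤ C.e1 →
      ((A : ℚ) / C.Dt) ^ 2 ≤ ((I.A1 : ℚ) / C.Dt) ^ 2 →
      envExp C I e A ≤ 64 ∧ 0 ≤ 1 + (ex : ℚ) / C.Dv ∧ (I.node.K : ℚ) / C.Dc ≤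
        (1 + (ex : ℚ) / C.Dv) ^ 2 * expNegTwo (envExp C I e A) →
      0 ≤ 1 + (ex : ℝ) / C.Dv ∧ (I.node.K : ℝ) / C.Dc * Real.exp (2 * envG (e : ℝ) c
        ((I.node.L : ℝ) / C.Dc) ((I.node.Z : ℝ) / C.Dt) ((A : ℝ) / C.Dt)) ≤
          (1 + (ex : ℝ) / C.Dv) ^ 2 := by
    intro e A ex he0 he1 hA hk
    obtain ⟨hQ, hy, hk⟩ := hk
    have hy' := (Rat.cast_le (K := ℝ)).2 hy
    have hk' := (Rat.cast_le (K := ℝ)).2 hk
    push_cast at hy' hk'
    refine ⟨hy', ?_⟩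
    have hQ0 : 0 ≤ envExp C I e A := le_max_left _ _
    obtain ⟨-, hexp⟩ := expNegTwo_sound hQ0 hQ
    have h1 := hk'.trans (mul_le_mul_of_nonneg_left hexp (sq_nonneg _))
    rw [Real.exp_neg, ← div_eq_mul_inv, le_div_iff₀ (Real.exp_pos _)] at h1
    refine le_trans (mul_le_mul_of_nonneg_left (Real.exp_le_exp.2 ?_) hK) h1
    have heT : e * ((A : ℚ) / C.Dt) ^ 2 < 1 :=
      (mul_le_mul he1 hA (sq_nonneg _) (he0.trans he1)).trans_lt he1T
    have hf := mul_le_mul_of_nonneg_left (logEnd_sound he0 heT)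
      (show (0 : ℝ) ≤ 1 - (e : ℝ) by
        have : (e : ℝ) ≤ 1 := by exact_mod_cast he1.trans he11
        linarith)
    push_cast at hf
    have hd : ((A : ℝ) / C.Dt) / ((I.node.Z : ℝ) / C.Dt) = (A : ℝ) / I.node.Z :=
      div_div_div_cancel_right₀ H.Dt.ne' _ _
    rw [envExp, Rat.cast_max]
    refine le_trans ?_ (le_max_right _ _)
    rw [hcd]
    push_cast
    simp only [envG, hd]
    linarith
  have hsq0 := pow_le_pow_left₀ hA00 hA01 2
  obtain ⟨y00, c00⟩ := corner C.e0 I.A0 I.ex00 he00 he01 hsq0 k00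
  obtain ⟨y01, c01⟩ := corner C.e0 I.A1 I.ex01 he00 he01 le_rfl k01
  obtain ⟨y10, c10⟩ := corner C.e1 I.A0 I.ex10 (he00.trans he01) le_rfl hsq0 k10
  obtain ⟨y11, c11⟩ := corner C.e1 I.A1 I.ex11 (he00.trans he01) le_rfl le_rfl k11
  obtain ⟨hT0, hT1, -, hT, -⟩ := h.time H
  have he1T' := (Rat.cast_lt (K := ℝ)).2 he1T
  push_cast at he1T'
  have hlt' : (I.A0 : ℝ) / C.Dt ≤ (I.A1 : ℝ) / C.Dt := hT0.trans hT1
  have he1' : (C.e1 : ℝ) ≤ 1 := by linarith [P.e1]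
  have eT : rootN m * t = U * ((I.A0 : ℝ) / C.Dt) + X * ((I.A1 : ℝ) / C.Dt) := by
    have := w.hA
    have := H.Dt.ne'
    field_simp
    linarith
  have hcc : ((C.e1 : ℝ) - C.e0) / 4 *
      (fE C.e1 (((I.A1 : ℝ) / C.Dt) ^ 2) - ((I.A0 : ℝ) / C.Dt) ^ 2) ≤ c := by
    have hf := logEnd_sound (he00.trans he01) he1T
    push_cast at hf
    rw [hcd]
    push_cast
    exact mul_le_mul_of_nonneg_left (sub_le_sub_right hf _) (by linarith [P.e01])
  have hd : rootN m * t / ((I.node.Z : ℝ) / C.Dt) = C.Dt * rootN m * t / I.node.Z := by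
    rw [div_div_eq_mul_div]; ring
  have key := env_line (T := rootN m * t) (K := (I.node.K : ℝ) / C.Dc) h.ht (mul_comm _ _)
    (div_nonneg (Int.cast_nonneg h0) H.Dt.le) hlt' P.e0 P.e01.le he1' he1T' P.l0 P.l1 P.eps
    w.hU w.hX w.hs eT hcc ⟨y00, y01, y10, y11⟩ c00 c01 c10 c11 hx (hd ▸ hN)
  have e : (1 - l) * (U * (1 + (I.ex00 : ℝ) / C.Dv) + X * (1 + (I.ex01 : ℝ) / C.Dv)) +
      l * (U * (1 + (I.ex10 : ℝ) / C.Dv) + X * (1 + (I.ex11 : ℝ) / C.Dv)) - 1 =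
      (1 - l) * ((U * I.ex00 + X * I.ex01) / C.Dv) + l * ((U * I.ex10 + X * I.ex11) / C.Dv) := by
    linear_combination w.hs
  linarith

/-! ### The chains -/

theorem segChain_sound {Dv : ℤ} (hD : (0 : ℝ) < Dv) : ∀ {L : List Seg} {a : ℤ},
    segChain a L = true → ∀ {v : ℝ}, (a : ℝ) / Dv ≤ v → (∀ s, L.getLast? = some s → v ≤ (s.V1 : ℝ) / Dv) →
    ∃ s ∈ L, s.V0 < s.V1 ∧ (s.V0 : ℝ) / Dv ≤ v ∧ v ≤ (s.V1 : ℝ) / Dv
  | [], _, h, _, _, _ => by simp [segChain] at h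
  | [s], a, h, v, hv, hl => by
      simp only [segChain, Bool.and_eq_true, decide_eq_true_eq] at h
      exact ⟨s, List.mem_cons_self .., h.2,
        (div_le_div_of_nonneg_right (Int.cast_le.2 h.1) hD.le).trans hv, hl s rfl⟩
  | s :: r :: L, a, h, v, hv, hl => by
      simp only [segChain, Bool.and_eq_true, decide_eq_true_eq] at h
      by_cases hc : v ≤ (s.V1 : ℝ) / Dv
      · exact ⟨s, List.mem_cons_self .., h.1.2,
          (div_le_div_of_nonneg_right (Int.cast_le.2 h.1.1) hD.le).trans hv, hc⟩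
      · obtain ⟨q, hq, hq'⟩ := segChain_sound hD h.2 (not_le.1 hc).le
          (fun q hq => hl q (by rw [List.getLast?_cons_cons]; exact hq))
        exact ⟨q, List.mem_cons_of_mem _ hq, hq'⟩

theorem segReach_last {w : ℤ} : ∀ {L : List Seg} {s : Seg}, segReach w L = true →
    L.getLast? = some s → w ≤ s.V1
  | [], _, h, _ => by simp [segReach] at h
  | [q], s, h, e => by
      simp only [List.getLast?_singleton, Option.some.injEq] at e
      simpa [segReach, e] using h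
  | q :: r :: L, s, h, e => by
      rw [List.getLast?_cons_cons] at e
      exact segReach_last (by simpa [segReach] using h) e

theorem segEnd_last {C : Cfg} {w : ℚ} : ∀ {L : List Seg} {s : Seg}, segEnd C w L = true →
    L.getLast? = some s → 0 ≤ 1 + (s.V1 : ℚ) / C.Dv ∧ w ≤ (1 + (s.V1 : ℚ) / C.Dv) ^ 2
  | [], _, h, _ => by simp [segEnd] at h
  | [q], s, h, e => by
      simp only [List.getLast?_singleton, Option.some.injEq] at e
      simpa [segEnd, e] using h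
  | q :: r :: L, s, h, e => by
      rw [List.getLast?_cons_cons] at e
      exact segEnd_last (by simpa [segEnd] using h) e

/-- Some piece not skipped holds every `R` below the bound of a segment. -/
theorem pieces_sound {segs : List Seg} {s : Seg} (hs : s ∈ segs) {D : ℤ} (hD : (0 : ℝ) < D)
    {R : ℝ} (hR : R ≤ (s.R : ℝ) / D) : ∀ {c : ℤ} {L : List ℤ}, cutChain segs (c :: L) = true →
      R ≤ (c : ℝ) / D ∨ ∃ a b, (a, b) ∈ List.zip (c :: L) L ∧ a < b ∧ a < s.R ∧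
        (a : ℝ) / D ≤ R ∧ R ≤ (b : ℝ) / D
  | c, [], h => by
      simp only [cutChain, List.all_eq_true, decide_eq_true_eq] at h
      exact .inl (hR.trans (div_le_div_of_nonneg_right (Int.cast_le.2 (h s hs)) hD.le))
  | c, d :: L, h => by
      simp only [cutChain, Bool.and_eq_true, decide_eq_true_eq] at h
      rcases pieces_sound hs hD hR h.2 with hd | ⟨a, b, hab, hab'⟩
      · by_cases hc : R ≤ (c : ℝ) / D
        · exact .inl hc
        · refine .inr ⟨c, d, by simp, h.1, ?_, (not_le.1 hc).le, hd⟩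
          exact Int.cast_lt.1 ((div_lt_div_iff_of_pos_right hD).1 ((not_le.1 hc).trans_le hR))
      · exact .inr ⟨a, b, by simp [hab], hab'⟩

theorem mem_midPieces {D : ℤ} {R : Rows} : ∀ {c : ℤ} {L : List ℤ} {a b : ℤ},
    (a, b) ∈ List.zip (c :: L) L → mkPiece D R a b ∈ midPieces D R (c :: L)
  | c, [], a, b, h => by simp at h
  | c, d :: L, a, b, h => by
      simp only [List.zip_cons_cons, List.mem_cons, Prod.mk.injEq] at h
      simp only [midPieces, List.mem_cons]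
      rcases h with ⟨rfl, rfl⟩ | h
      · exact .inl rfl
      · exact .inr (mem_midPieces h)

theorem ivalChain_sound {Af : ℤ} : ∀ {L : List Ival} {a : ℤ}, ivalChain Af a L = true →
    ∀ {A : ℝ}, (a : ℝ) ≤ A → A < Af → ∃ I ∈ L, (I.A0 : ℝ) ≤ A ∧ A < I.A1
  | [], a, h, A, h0, h1 => by
      simp only [ivalChain, decide_eq_true_eq] at h
      have : (Af : ℝ) ≤ a := Int.cast_le.2 h
      linarith
  | I :: L, a, h, A, h0, h1 => by
      simp only [ivalChain, Bool.and_eq_true, decide_eq_true_eq] at h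
      by_cases hlt : A < I.A1
      · exact ⟨I, List.mem_cons_self .., le_trans (Int.cast_le.2 h.1) h0, hlt⟩
      · obtain ⟨J, hJ, hJ'⟩ := ivalChain_sound h.2 (not_lt.1 hlt) h1
        exact ⟨J, List.mem_cons_of_mem _ hJ, hJ'⟩

end Vale.Agent.P237.Quant.TailUniform
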