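import Mathlib
import Vale.Agent.P237.Quant.TailUniformSide

/-!
Soundness of the cells on a range of dimensions: at both ends of `1 / n` a passed cell bounds the
form plus the constraints with the same multipliers, so the form is nonpositive in between.
-/

namespace Vale.Agent.P237.Quant.TailUniform

open TailCert TailTuple Four.Checker Set

attribute [local irreducible] Pk.smul Pk.lin Pk.add spread spreadW R4.ctrl imul iadd

/-- Four Bernstein coefficients on a segment. -/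
theorem seg_cubic {C : Cfg} {s : Seg} {v : ℝ} (hD : (0 : ℝ) < C.Dv) (hlt : s.V0 < s.V1)
    (h0 : (s.V0 : ℝ) / C.Dv ≤ v) (h1 : v ≤ (s.V1 : ℝ) / C.Dv) {c : Fin 4 → ℝ}
    (h : ∀ k, 0 ≤ (ctrlAt (s.ctrl C) k).app c) : 0 ≤ cubicAt c v := by
  have k0 := h 0; have k1 := h 1; have k2 := h 2; have k3 := h 3
  simp only [ctrlAt, Seg.ctrl, Matrix.cons_val, V4.app, cast_mul', cast_add'] at k0 k1 k2 k3
  push_cast at k0 k1 k2 k3
  refine cubic_nonneg hD (Int.cast_lt.2 hlt) ((div_le_iff₀ hD).1 h0) ((le_div_iff₀ hD).1 h1)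
    ?_ ?_ ?_ ?_ <;> linarith

/-- A form in control coordinates is the one of a cubic. -/
def CtrlRep (C : Cfg) (s : Seg) (U X : ℝ) (p : Pk) (c : Fin 4 → ℝ) : Prop :=
  RepFour U X p fun k => (ctrlAt (s.ctrl C) k).app c

namespace CtrlRep

variable {C : Cfg} {s : Seg} {U X : ℝ} {p q : Pk} {a b : Fin 4 → ℝ}

theorem add (hp : CtrlRep C s U X p a) (hq : CtrlRep C s U X q b) :
    CtrlRep C s U X (p.add q) (a + b) :=
  (RepFour.add hp hq).congr fun k => by simp only [V4.app, Pi.add_apply]; ring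

theorem smul (hp : CtrlRep C s U X p a) (k : ℤ) : CtrlRep C s U X (p.smul k) ((k : ℝ) • a) :=
  (RepFour.smul hp k).congr fun i => by simp only [V4.app, Pi.smul_apply, smul_eq_mul]; ring

theorem spreadW {g : ℝ} (hp : TailCert.Rep U X 7 p g) {σ : ℤ} :
    CtrlRep C s U X (spread (sideW (s.ctrl C) σ) p) ![σ * g, 2 * (σ * g), σ * g, 0] :=
  (spread_rep _ hp).congr fun k => by
    fin_cases k <;>
    · simp only [ctrlAt, Matrix.cons_val, V4.app, V4.sq, cast_mul', cast_add']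
      push_cast
      ring

theorem nonneg (hp : CtrlRep C s U X p a) (hU : 0 ≤ U) (hX : 0 ≤ X) (hD : (0 : ℝ) < C.Dv)
    (hlt : s.V0 < s.V1) {v : ℝ} (h0 : (s.V0 : ℝ) / C.Dv ≤ v) (h1 : v ≤ (s.V1 : ℝ) / C.Dv)
    (hn : p.nn 32 = true) : 0 ≤ cubicAt a v := by
  simp only [Pk.nn, Bool.and_eq_true, Nat.blt_eq] at hn
  exact seg_cubic hD hlt h0 h1 fun k => RepFour.nonneg hU hX hp hn.1 hn.2 k

end CtrlRep

theorem cubicAt_add (a b : Fin 4 → ℝ) (v : ℝ) : cubicAt (a + b) v = cubicAt a v + cubicAt b v := by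
  simp only [cubicAt, Pi.add_apply]; ring

theorem cubicAt_smul (k : ℝ) (a : Fin 4 → ℝ) (v : ℝ) :
    cubicAt (k • a) v = k * cubicAt a v := by
  simp only [cubicAt, Pi.smul_apply, smul_eq_mul]; ring

theorem cubicAt_sq (g v : ℝ) : cubicAt ![g, 2 * g, g, 0] v = g * (1 + v) ^ 2 := by
  simp only [cubicAt, Matrix.cons_val]; ring

/-- A slope lies in a piece. -/
def PieceR.Holds (q : PieceR) (D : ℤ) (R : ℝ) : Prop :=
  if q.first then R ≤ (q.R0 : ℝ) / D else q.R0 < q.R1 ∧ (q.R0 : ℝ) / D ≤ R ∧ R ≤ (q.R1 : ℝ) / D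

/-- A passed cell: the rows against the gain. -/
theorem cell_sound {C : Cfg} {s : Seg} {U X v R g : ℝ} {D σ : ℤ} {S : Side} {Q : Pk}
    {c₀ c₁ : Fin 4 → ℝ} {q : PieceR} (hU : 0 ≤ U) (hX : 0 ≤ X) (hDv : (0 : ℝ) < C.Dv)
    (hlt : s.V0 < s.V1) (h0 : (s.V0 : ℝ) / C.Dv ≤ v) (h1 : v ≤ (s.V1 : ℝ) / C.Dv)
    (hD : (0 : ℝ) < D) (hR : q.Holds D R) (hW : S.W = sideW (s.ctrl C) σ)
    (hp : CtrlRep C s U X S.p c₀) (hq : CtrlRep C s U X S.q c₁) (hg : Rep U X 7 Q g)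
    (h : cellOK D S Q q = true) :
    cubicAt c₀ v + R * cubicAt c₁ v ≤ σ * g * (1 + v) ^ 2 * R ^ 2 := by
  have ev : ∀ {p : Pk} {a : Fin 4 → ℝ}, CtrlRep C s U X p a → p.nn 32 = true → 0 ≤ cubicAt a v :=
    fun hp hn => hp.nonneg hU hX hDv hlt h0 h1 hn
  rw [PieceR.Holds] at hR
  unfold cellOK at h
  by_cases hf : q.first = true
  · rw [if_pos hf] at h hR
    simp only [firstOK, Bool.and_eq_true, hW] at h
    obtain ⟨⟨a, b⟩, c⟩ := h
    have a' := ev ((CtrlRep.spreadW (hg.smul _)).add ((hp.smul _).add (hq.smul _))) a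
    have b' := ev ((CtrlRep.spreadW (hg.smul _)).add (hq.smul _)) b
    have c' := ev (CtrlRep.spreadW hg) c
    simp only [cubicAt_add, cubicAt_smul, cubicAt_sq, cast_mul', cast_neg'] at a' b' c'
    push_cast at a' b'
    rw [le_div_iff₀ hD] at hR
    have hu : 0 ≤ (q.R0 : ℝ) - R * D := by linarith
    refine le_of_mul_le_mul_left ?_ (pow_pos hD 2)
    linarith [mul_nonneg hu b', mul_nonneg (sq_nonneg ((q.R0 : ℝ) - R * D)) c']
  · rw [if_neg hf] at h hR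
    obtain ⟨hlt', hR0, hR1⟩ := hR
    simp only [midOK, Bool.and_eq_true, hW] at h
    obtain ⟨⟨a, b⟩, c⟩ := h
    have a' := ev ((CtrlRep.spreadW (hg.smul _)).add ((hp.smul _).add (hq.smul _))) a
    have b' := ev ((CtrlRep.spreadW (hg.smul _)).add ((hp.smul _).add (hq.smul _))) b
    have c' := ev ((CtrlRep.spreadW (hg.smul _)).add ((hp.smul _).add (hq.smul _))) c
    simp only [cubicAt_add, cubicAt_smul, cubicAt_sq, cast_mul', cast_neg', cast_add'] at a' b' c'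
    push_cast at a' b' c'
    have key := TailTuple.quad_nonneg (r := R) (e₀ := -cubicAt c₀ v) (e₁ := -cubicAt c₁ v)
      (e₂ := (σ : ℝ) * g * (1 + v) ^ 2) hD (Int.cast_lt.2 hlt') ((div_le_iff₀ hD).1 hR0)
      ((le_div_iff₀ hD).1 hR1) (by linarith) (by linarith) (by linarith)
    linarith

/-- The slope constraint at the end `ε`. -/
noncomputable def slopeCons (C : Cfg) (I : Ival) (ε A R : ℝ) : ℝ :=
  (C.Dt : ℝ) * (A - I.node.sig) + R * (ε * I.node.sig * A - (C.Dt : ℝ) ^ 2)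

/-- The chord constraint at one end. -/
noncomputable def chordCons (C : Cfg) (x₀ x₁ : ℤ) (U X v : ℝ) : ℝ :=
  U * x₀ + X * x₁ - C.Dv * v

/-- A row of four forms in control coordinates. -/
theorem ctrl_of {C : Cfg} {s : Seg} {U X : ℝ} {r : R4} {c : Fin 4 → ℝ} (h : R4Rep U X r c) :
    CtrlRep C s U X (r.ctrl (s.ctrl C)) c := h.ctrl _

/-- A passed cell with multipliers. -/
theorem cellMul_sound {C : Cfg} {I : Ival} {s : Seg} {U X A v R g ε : ℝ} {σ : ℤ} {Q : Pk}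
    {r : R4 × R4} {c₀ c₁ : Fin 4 → ℝ} {q : PieceR} {M : ℕ × ℕ} {e : ℤ × ℤ} {x₀ x₁ : ℤ}
    (w : Wt I U X A) (he : (e.1 : ℝ) = e.2 * ε) (hDv : (0 : ℝ) < C.Dv) (hlt : s.V0 < s.V1)
    (h0 : (s.V0 : ℝ) / C.Dv ≤ v) (h1 : v ≤ (s.V1 : ℝ) / C.Dv) (hD : (0 : ℝ) < C.Dr)
    (hR : q.Holds C.Dr R) (hr₀ : R4Rep U X r.1 c₀) (hr₁ : R4Rep U X r.2 c₁)
    (hg : Rep U X 7 Q g)
    (h : cellMul C.Dr (mkSide (s.ctrl C) r σ) Q ((I.pads C e x₀ x₁).cons (s.ctrl C)) M q = true) :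
    cubicAt c₀ v + R * cubicAt c₁ v + M.1 * (e.2 * slopeCons C I ε A R) +
      M.2 * (e.2 * chordCons C x₀ x₁ U X v) ≤ σ * g * (1 + v) ^ 2 * R ^ 2 := by
  by_cases hM : M.1 = 0 ∧ M.2 = 0
  · simp only [cellMul, hM, beq_self_eq_true, Bool.and_self, if_true] at h
    have := cell_sound (S := mkSide (s.ctrl C) r σ) w.hU w.hX hDv hlt h0 h1 hD hR rfl
      (ctrl_of hr₀) (ctrl_of hr₁) hg h
    simp only [hM.1, hM.2, Nat.cast_zero, zero_mul, add_zero]
    exact this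
  rw [cellMul, if_neg (by simpa using hM)] at h
  set six := ((((Pk.unit.lin 1 1).lin 1 1).lin 1 1).lin 1 1).lin 1 1 |>.lin 1 1 with hsix
  have r6 : Rep U X 6 six 1 := w.lin_one (w.lin_one (w.lin_one (w.lin_one
    (w.lin_one (w.lin_one Rep.unit)))))
  have mP : R4Rep U X (I.pads C e x₀ x₁).muP ![C.Dt * e.2 * (A - I.node.sig), 0, 0, 0] :=
    ⟨((r6.lin _ _).smul _).congr (by
      simp only [cast_mul', cast_sub', w.hA, Matrix.cons_val]
      linear_combination (-((C.Dt : ℝ) * e.2 * I.node.sig)) * w.hs),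
      Rep.zero, Rep.zero, Rep.zero⟩
  have mQ : R4Rep U X (I.pads C e x₀ x₁).muQ
      ![e.2 * (ε * I.node.sig * A - (C.Dt : ℝ) ^ 2), 0, 0, 0] :=
    ⟨(((r6.lin _ _).smul _).add ((w.lin_one r6).smul _)).congr (by
      simp only [cast_mul', cast_neg', he, w.hA, Matrix.cons_val]
      ring),
      Rep.zero, Rep.zero, Rep.zero⟩
  have mN : R4Rep U X (I.pads C e x₀ x₁).nu
      ![e.2 * (U * x₀ + X * x₁), -(e.2 * (C.Dv : ℝ)), 0, 0] :=
    ⟨((r6.lin _ _).smul _).congr (by simp only [Matrix.cons_val]; ring),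
      ((w.lin_one r6).smul _).congr (by simp only [cast_neg', cast_mul', Matrix.cons_val]; ring),
      Rep.zero, Rep.zero⟩
  have key := cell_sound (S := sideAdj (mkSide (s.ctrl C) r σ) ((I.pads C e x₀ x₁).cons (s.ctrl C)) M)
    w.hU w.hX hDv hlt h0 h1 hD hR rfl
    (((ctrl_of hr₀).add ((ctrl_of mP).smul _)).add ((ctrl_of mN).smul _))
    ((ctrl_of hr₁).add ((ctrl_of mQ).smul _)) hg h
  simp only [cubicAt_add, cubicAt_smul, cast_ofNat'] at key
  simp only [cubicAt, Matrix.cons_val, mul_zero, add_zero] at key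
  simp only [slopeCons, chordCons, cubicAt]
  linarith

/-- The sign of the coefficient of `G` on a piece. -/
def PieceR.Signed (q : PieceR) (V : RV) (R : ℝ) : Prop :=
  (q.pos = true → 0 ≤ V.V0 + R * V.V1) ∧ (q.neg = true → V.V0 + R * V.V1 ≤ 0) ∧
    (q.pos = true → q.neg = false)

theorem first_signed {U X d R : ℝ} {Rw : Rows} {V : RV} (hU : 0 ≤ U) (hX : 0 ≤ X)
    (hr : RowsRep U X d Rw V) (hd : 0 < d) {D c : ℤ} (hD : (0 : ℝ) < D) (hR : R ≤ (c : ℝ) / D) :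
    (mkFirst D Rw c).Signed V R := by
  rw [le_div_iff₀ hD] at hR
  refine ⟨?_, ?_, fun h => ?_⟩ <;> [intro h; intro h; skip] <;>
    simp only [mkFirst, Bool.and_eq_true, Bool.not_eq_true'] at h ⊢
  · have a := pk_nonneg hU hX ((hr.V0.smul D).add (hr.V1.smul c)) h.1
    have b := pk_nonneg hU hX (hr.V1.smul (-1)) h.2
    push_cast at b
    refine nonneg_of_mul_nonneg_right ?_ (mul_pos hd hD)
    linarith [mul_nonneg (show 0 ≤ (c : ℝ) - R * D by linarith) b]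
  · have a := pk_nonneg hU hX (((hr.V0.smul D).add (hr.V1.smul c)).smul (-1)) h.1.2
    have b := pk_nonneg hU hX hr.V1 h.2
    push_cast at a
    refine le_of_mul_le_mul_left ?_ (mul_pos hd hD)
    linarith [mul_nonneg (show 0 ≤ (c : ℝ) - R * D by linarith) b]
  · simp [h]

theorem mid_signed {U X d R : ℝ} {Rw : Rows} {V : RV} (hU : 0 ≤ U) (hX : 0 ≤ X)
    (hr : RowsRep U X d Rw V) (hd : 0 < d) {D a b : ℤ} (hD : (0 : ℝ) < D)
    (h0 : (a : ℝ) / D ≤ R) (h1 : R ≤ (b : ℝ) / D) : (mkPiece D Rw a b).Signed V R := by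
  refine ⟨?_, ?_, fun h => ?_⟩ <;> [intro h; intro h; skip] <;>
    simp only [mkPiece, Bool.and_eq_true, Bool.not_eq_true'] at h ⊢
  · have u := pk_nonneg hU hX ((hr.V0.smul D).add (hr.V1.smul a)) h.1
    have v := pk_nonneg hU hX ((hr.V0.smul D).add (hr.V1.smul b)) h.2
    have := linear_nonneg hD h0 h1 (a := d * V.V0) (b := d * V.V1) u v
    refine nonneg_of_mul_nonneg_right ?_ hd
    linarith
  · have u := pk_nonneg hU hX (((hr.V0.smul D).add (hr.V1.smul a)).smul (-1)) h.1.2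
    have v := pk_nonneg hU hX (((hr.V0.smul D).add (hr.V1.smul b)).smul (-1)) h.2
    push_cast at u v
    have := linear_nonneg hD h0 h1 (a := -(d * V.V0)) (b := -(d * V.V1)) (by linarith) (by linarith)
    refine le_of_mul_le_mul_left ?_ hd
    linarith
  · simp [h]

/-- The constraints with multipliers. -/
noncomputable def padVal (C : Cfg) (I : Ival) (ε A R U X v : ℝ) (x₀ x₁ : ℤ) (M : ℕ × ℕ) : ℝ :=
  M.1 * slopeCons C I ε A R + M.2 * chordCons C x₀ x₁ U X v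

/-- The majorant of a segment, times `Dc`. -/
noncomputable def Seg.major (s : Seg) (v : ℝ) : ℝ :=
  (s.g0 : ℝ) + s.g1 * v + s.g2 * v ^ 2 + s.g3 * v ^ 3

/-- A passed piece above one without the cubic loss. -/
theorem zero_sound {C : Cfg} {I : Ival} {s : Seg} {U X A v R ε : ℝ} {Rw : Rows} {V : RV}
    {q : PieceR} {M : ℕ × ℕ} {e : ℤ × ℤ} {x₀ x₁ : ℤ} (H : Head C) (w : Wt I U X A)
    (he : (e.1 : ℝ) = e.2 * ε) (hed : (0 : ℝ) < e.2) (hr : RowsRep U X e.2 Rw V)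
    (hlt : s.V0 < s.V1) (h0 : (s.V0 : ℝ) / C.Dv ≤ v) (h1 : v ≤ (s.V1 : ℝ) / C.Dv)
    (hR : q.Holds C.Dr R)
    (hc : cellMul C.Dr (mkSide (s.ctrl C) (Rw.zero C.Dc) C.Dc) Rw.g
      ((I.pads C e x₀ x₁).cons (s.ctrl C)) M q = true) :
    (C.Dc : ℝ) * V.above v R 0 + padVal C I ε A R U X v x₀ x₁ M ≤ 0 := by
  have Dc0 := H.Dc
  have key := cellMul_sound
    (c₀ := ![C.Dc * (e.2 * V.a0), C.Dc * (e.2 * V.a1u), C.Dc * (e.2 * V.a2u), 0])
    (c₁ := ![C.Dc * (e.2 * V.b0), C.Dc * (e.2 * V.b1), C.Dc * (e.2 * V.b2u), 0])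
    w he H.Dv hlt h0 h1 H.Dr hR
    ⟨hr.a0.smul _, hr.a1u.smul _, hr.a2u.smul _, Rep.zero⟩
    ⟨hr.b0.smul _, hr.b1.smul _, hr.b2u.smul _, Rep.zero⟩ hr.g hc
  simp only [cubicAt, Matrix.cons_val] at key
  refine le_of_mul_le_mul_left ?_ hed
  simp only [RV.above, padVal]
  linarith

/-- A passed piece above one at the majorant. -/
theorem full_sound {C : Cfg} {I : Ival} {s : Seg} {U X A v R ε : ℝ} {Rw : Rows} {V : RV}
    {q : PieceR} {N : ℕ × ℕ} {e : ℤ × ℤ} {x₀ x₁ : ℤ} (H : Head C) (w : Wt I U X A)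
    (he : (e.1 : ℝ) = e.2 * ε) (hed : (0 : ℝ) < e.2) (hr : RowsRep U X e.2 Rw V)
    (hlt : s.V0 < s.V1) (h0 : (s.V0 : ℝ) / C.Dv ≤ v) (h1 : v ≤ (s.V1 : ℝ) / C.Dv)
    (hR : q.Holds C.Dr R)
    (hc : cellMul C.Dr (mkSide (s.ctrl C) (Rw.full C.Dc s) C.Dc) Rw.g
      ((I.pads C e x₀ x₁).cons (s.ctrl C)) N q = true) :
    (C.Dc : ℝ) * V.above v R (s.major v / C.Dc) + padVal C I ε A R U X v x₀ x₁ N ≤ 0 := by
  have Dc0 := H.Dc
  have key := cellMul_sound
    (c₀ := ![C.Dc * (e.2 * V.a0) + s.g0 * (e.2 * V.V0), C.Dc * (e.2 * V.a1u) + s.g1 * (e.2 * V.V0),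
      C.Dc * (e.2 * V.a2u) + s.g2 * (e.2 * V.V0), s.g3 * (e.2 * V.V0)])
    (c₁ := ![C.Dc * (e.2 * V.b0) + s.g0 * (e.2 * V.V1), C.Dc * (e.2 * V.b1) + s.g1 * (e.2 * V.V1),
      C.Dc * (e.2 * V.b2u) + s.g2 * (e.2 * V.V1), s.g3 * (e.2 * V.V1)])
    w he H.Dv hlt h0 h1 H.Dr hR
    ⟨(hr.a0.smul _).add (hr.V0.smul _), (hr.a1u.smul _).add (hr.V0.smul _),
      (hr.a2u.smul _).add (hr.V0.smul _), hr.V0.smul _⟩
    ⟨(hr.b0.smul _).add (hr.V1.smul _), (hr.b1.smul _).add (hr.V1.smul _),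
      (hr.b2u.smul _).add (hr.V1.smul _), hr.V1.smul _⟩ hr.g hc
  simp only [cubicAt, Matrix.cons_val] at key
  have e1 : (C.Dc : ℝ) * V.above v R (s.major v / C.Dc) =
      C.Dc * V.above v R 0 + s.major v * (V.V0 + R * V.V1) := by
    simp only [RV.above]; field_simp; ring
  rw [e1]
  refine le_of_mul_le_mul_left ?_ hed
  simp only [RV.above, padVal, Seg.major]
  linarith

/-- A passed piece at one end of `1 / n`. -/
theorem piece_sound {C : Cfg} {I : Ival} {s : Seg} {U X A v R ε : ℝ} {Rw : Rows} {V : RV}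
    {q : PieceR} {M N : ℕ × ℕ} {e : ℤ × ℤ} {x₀ x₁ : ℤ} (H : Head C) (w : Wt I U X A)
    (he : (e.1 : ℝ) = e.2 * ε) (hed : (0 : ℝ) < e.2) (hr : RowsRep U X e.2 Rw V)
    (hlt : s.V0 < s.V1) (h0 : (s.V0 : ℝ) / C.Dv ≤ v) (h1 : v ≤ (s.V1 : ℝ) / C.Dv)
    (hR : q.Holds C.Dr R) (hsign : q.Signed V R)
    (h : pieceTest C Rw (I.pads C e x₀ x₁) s q M N = true) :
    (s.below = true → 3 * V.below v R + padVal C I ε A R U X v x₀ x₁ M ≤ 0) ∧
      (s.below = false → 0 ≤ s.major v →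
        (C.Dc : ℝ) * V.above v R 0 + padVal C I ε A R U X v x₀ x₁ M ≤ 0 ∧
        (C.Dc : ℝ) * V.above v R (s.major v / C.Dc) + padVal C I ε A R U X v x₀ x₁ N ≤ 0) := by
  constructor
  · intro hb
    simp only [pieceTest, hb, if_true] at h
    have key := cellMul_sound (σ := 3) (c₀ := ![3 * (e.2 * V.a0), 3 * (e.2 * V.a1b), 3 * (e.2 * V.a2b),
        e.2 * V.C3]) (c₁ := ![3 * (e.2 * V.b0), 3 * (e.2 * V.b1), 3 * (e.2 * V.b2b), 0])
      w he H.Dv hlt h0 h1 H.Dr hR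
      ⟨hr.a0.smul 3, hr.a1b.smul 3, hr.a2b.smul 3, hr.C3⟩
      ⟨hr.b0.smul 3, hr.b1.smul 3, hr.b2b.smul 3, Rep.zero⟩ hr.g h
    simp only [cubicAt, Matrix.cons_val] at key
    push_cast at key
    refine le_of_mul_le_mul_left ?_ hed
    simp only [RV.below, padVal]
    linarith
  intro hb hmaj
  simp only [pieceTest, hb, Bool.false_eq_true, if_false, Bool.and_eq_true, Bool.or_eq_true] at h
  obtain ⟨hz, hf⟩ := h
  have Dc0 := H.Dc
  have zero := zero_sound (C := C) (I := I) (s := s) (M := M) (q := q) (x₀ := x₀) (x₁ := x₁) H w he hed hr hlt h0 h1 hR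
  have full := full_sound (C := C) (I := I) (s := s) (N := N) (q := q) (x₀ := x₀) (x₁ := x₁) H w he hed hr hlt h0 h1 hR
  have hd : (C.Dc : ℝ) * V.above v R (s.major v / C.Dc) =
      C.Dc * V.above v R 0 + s.major v * (V.V0 + R * V.V1) := by
    simp only [RV.above]; field_simp; ring
  rcases hz with ⟨hpos, hab⟩ | hz
  · obtain rfl : M = N := by simpa using hab
    rcases hf with ⟨hneg, -⟩ | hf
    · rw [hsign.2.2 hpos] at hneg
      exact absurd hneg Bool.false_ne_true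
    · have := full hf
      exact ⟨by linarith [mul_nonneg hmaj (hsign.1 hpos)], this⟩
  · rcases hf with ⟨hneg, hab⟩ | hf
    · obtain rfl : M = N := by simpa using hab
      have := zero hz
      exact ⟨this, by linarith [mul_nonpos_of_nonneg_of_nonpos hmaj (hsign.2.1 hneg)]⟩
    · exact ⟨zero hz, full hf⟩

end Vale.Agent.P237.Quant.TailUniform
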