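import Mathlib
import Vale.Agent.P237.Quant.TailSound
import Vale.Agent.P237.Quant.TailLagrange

/-!
The far zone `t √n ≥ 8` of the tail inequality of a whole range of dimensions, for a flux
`(E x ^ 2 + A t √n) / (n √n) + k t F (x)`. After the bounds of `F` by `1 - x ^ (-2 / m)`, the bound
of the centre and the envelope, the inequality is linear in `F`; in `t ρ` it is affine next to the
end of the range, where the surplus pays, and convex elsewhere, so finitely many inequalities in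
`p` remain.
-/

namespace Vale.Agent.P237.Quant.TailFar

open Set

/-- A row of constants of the far zone, with the auxiliary numbers of the proof. -/
structure FarRow where
  k : ℝ
  E : ℝ
  A : ℝ
  fw : ℝ
  eta : ℝ
  th : ℝ
  K : ℝ
  t3 : ℝ
  N : ℝ
  cT : ℝ
  kap : ℝ
  P0 : ℝ
  sg : ℝ
  dl : ℝ
  es : ℝ

/-- A line below the surplus in `y = t ρ`. -/
def SurLine (p α β : ℝ) : Prop :=
  (α = 1 / (p * (1 + p)) ∧ β = (1 - p) / (p * (1 + p))) ∨
    ∃ a, 0 < a ∧ α = (1 + a) / (1 + p) ∧ β = (a + 1 / (2 * a)) / (1 + p)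

namespace FarRow

variable (R : FarRow)

/-- The terms of order `1 / n`. -/
noncomputable def rest : ℝ := (2 + 2 * R.t3 + 2 * R.dl) * (R.N / (R.N - 1))

/-- The conditions where the surplus pays. -/
def SurplusOK (p : ℝ) : Prop :=
  ∃ α β : ℝ, SurLine p α β ∧ 0 ≤ α ∧
    R.th * α ≤ (1 - p) * R.k * (R.N - 2) ∧ R.k ≤ R.th * ((R.N - 1) / R.N) * α ∧
    0 ≤ α * (1 - R.kap * p ^ 2) - β ∧
    (let M := (1 - p + p / (R.N - 1)) * (1 + R.t3 + R.k * p ^ 2 - 2 * R.k * (1 - R.kap * p ^ 2) -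
          R.sg * R.k * R.cT * (1 - 3 / 5 * p ^ 2) * p ^ 2) +
        R.k * (1 - R.kap * p ^ 2) -
        R.th * ((R.N - 1) / R.N) * (α * (1 - R.kap * p ^ 2) - β) +
        (R.th - R.es) / 2 * weightPoly p * (1 - p ^ 2) - R.fw * weightPoly p * (1 - p ^ 2)
     M ≤ 0 ∧
      M + (R.rest - R.sg * R.E * p ^ 2 - 2 * R.k * (1 - R.kap * p ^ 2)) / R.N ≤ 0)

/-- The conditions at the two ends of the convex part, from `t √n ≥ T₀`. -/
def EndsOK (p T₀ : ℝ) : Prop :=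
  8 ≤ T₀ ∧ (T₀ = 8 ∨ T₀ ^ 2 ≤ R.N * (1 - p ^ 2)) ∧
  (let C₀ := 1 + R.t3 - 2 * R.k - R.k * p ^ 2 * (R.sg * T₀ - 3)
   let U := (1 / (1 + p) - R.sg / T₀ - 53 / 100 * p / T₀ ^ 2) /
      (1 - R.sg / T₀ * (1 - p ^ 2))
   let c₅ := R.k / (1 + p) - R.fw * weightPoly p
   let M₆ := (R.N - 3) / (R.N - 1) / 3 * U * C₀ + R.k - R.fw * weightPoly p -
      R.eta / 2 * ((R.N - 1) / R.N) * (1 - R.sg / T₀) ^ 2 * weightPoly p
   C₀ ≤ 0 ∧ 0 ≤ U ∧ c₅ ≤ 0 ∧
    c₅ * T₀ ^ 2 + (R.rest + 53 / 100 * R.k * p + 53 / 800 * R.E * p) -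
      R.E * T₀ * p / (1 + p) ≤ 0 ∧
    M₆ ≤ 0 ∧
    M₆ * T₀ ^ 2 + (R.rest - R.sg * R.E * p ^ 2 - 2 * R.k * (1 - p ^ 2)) ≤ 0)

/-- All conditions of a row, each in one variable. -/
structure Good : Prop where
  k0 : 0 ≤ R.k
  E0 : 0 ≤ R.E
  A0 : 0 ≤ R.A
  fw0 : 0 ≤ R.fw
  eta0 : 0 ≤ R.eta
  etath : R.es ≤ R.th
  etaes : R.eta ≤ R.es
  th0 : 0 < R.th
  etak : R.eta ≤ (R.N - 3) / (R.N - 1) * R.k
  K0 : 0 ≤ R.K
  t30 : 0 ≤ R.t3
  dl0 : 0 ≤ R.dl
  sg0 : 1 ≤ R.sg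
  sg1 : R.sg ≤ 2
  N0 : 80 ≤ R.N
  cT0 : 0 < R.cT
  cTN : R.cT ^ 2 ≤ R.N
  cT8 : 8 ≤ R.cT
  big : 1 + R.t3 + R.k ≤ 64 * R.k
  kap0 : 1 ≤ R.kap * (1 - R.sg / R.cT)
  P0r : R.P0 ≤ 7 / 10
  low : ∀ w ∈ Icc (0 : ℝ) 1, R.dl * (2 * w - w ^ 2) + R.K * w / 64 +
    2 * (1 + R.t3) * (R.N / (R.N - 1)) / 64 * w ^ 2 ≤ R.A * (63 / 64) + R.fw / 2 * w ^ 2
  flat : ∀ p ∈ Ioc (0 : ℝ) R.P0,
    R.k ≤ weightPoly p * (R.fw + R.eta / 2 * ((R.N - 1) / R.N)) ∧
      R.k * (1 - p ^ 2) + (R.rest - R.sg * R.E * p ^ 2 - 2 * R.k * (1 - p ^ 2)) / R.N ≤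
        weightPoly p * (R.fw + R.eta / 2 * ((R.N - 1) / R.N)) * (1 - p ^ 2)
  surplus : ∀ p ∈ Ioc (0 : ℝ) R.P0, R.SurplusOK p
  ends : ∀ p ∈ Ico R.P0 1, 0 < p → ∃ T₀, R.EndsOK p T₀

end FarRow

/-- A term of order `1 / n` against the margin, at the least `n`. -/
theorem over_n {M X n N : ℝ} (hN : 0 < N) (hn : N ≤ n) (h0 : M ≤ 0) (h1 : M + X / N ≤ 0) :
    M + X / n ≤ 0 := by
  have hn0 : 0 < n := hN.trans_le hn
  rcases le_total X 0 with h | h
  · linarith [div_nonpos_of_nonpos_of_nonneg h hn0.le]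
  · linarith [div_le_div_of_nonneg_left h hN hn]

/-- A quadratic with a nonnegative leading coefficient is below its ends. -/
theorem quad_le {a b c y₀ y₁ y : ℝ} (ha : 0 ≤ a) (h₀ : a * y₀ ^ 2 + b * y₀ + c ≤ 0)
    (h₁ : a * y₁ ^ 2 + b * y₁ + c ≤ 0) (l : y₀ ≤ y) (u : y ≤ y₁) : a * y ^ 2 + b * y + c ≤ 0 := by
  rcases l.eq_or_lt with rfl | l
  · exact h₀
  refine nonpos_of_mul_nonpos_right ?_ (show 0 < y₁ - y₀ by linarith)
  have k0 := mul_nonpos_of_nonneg_of_nonpos (sub_nonneg.2 u) h₀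
  have k1 := mul_nonpos_of_nonneg_of_nonpos (sub_nonneg.2 l.le) h₁
  have k2 : 0 ≤ a * ((y - y₀) * (y₁ - y) * (y₁ - y₀)) := mul_nonneg ha
    (mul_nonneg (mul_nonneg (by linarith) (by linarith)) (by linarith))
  linarith

theorem weightPoly_le_one {x : ℝ} (hx : x ∈ Icc (0 : ℝ) 1) : weightPoly x ≤ 1 := by
  obtain ⟨h0, h1⟩ := hx
  have hd : 0 ≤ x ^ 2 * (1 - x / 2 - x * (1 - x) / 4) := by
    refine mul_nonneg (sq_nonneg x) ?_
    nlinarith
  have he : 0 ≤ 7 / 250 * x ^ 2 * (1 - x) * (1 + 9 * x) :=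
    mul_nonneg (mul_nonneg (by positivity) (by linarith)) (by linarith)
  unfold weightPoly
  linarith

/-- Where the factor of `G` is nonpositive and the centre is high, the share of the energy closes. -/
theorem flat_part {a c t y X gain : ℝ} (ht : 0 < t) (hc : 2 * c ≤ a) (hc0 : 0 ≤ c)
    (hy : y ≤ t ^ 2) (hX : (a - c) * t ^ 2 + X ≤ 0) (g0 : 0 ≤ gain)
    (g1 : c * (y / t) ^ 2 ≤ gain) : a * y + X ≤ gain := by
  rcases le_or_gt y 0 with h | h
  · linarith [mul_nonpos_of_nonneg_of_nonpos (show 0 ≤ a by linarith) h,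
      mul_nonneg (show 0 ≤ a - c by linarith) (sq_nonneg t)]
  · have e : a * y - c * (y / t) ^ 2 = (a - c) * t ^ 2 - (t ^ 2 - y) * (a - c - c * y / t ^ 2) := by
      field_simp
      ring
    have : c * y / t ^ 2 ≤ c := by
      rw [div_le_iff₀ (by positivity)]
      exact mul_le_mul_of_nonneg_left hy hc0
    linarith [mul_nonneg (sub_nonneg.2 hy) (show 0 ≤ a - c - c * y / t ^ 2 by linarith)]

/-- The line of the surplus is largest against the flux at the end of the range. -/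
theorem surplus_part {G Gm C Cc b a y yc yl α β θ ζ t Y gain : ℝ} (hC : 0 ≤ C) (hG : G ≤ Gm)
    (hy : y ≤ yc) (hCy : C = Cc - b * (yc - y)) (hslope : θ * α ≤ Gm * b + a)
    (hyl : yl ≤ yc) (hdec : a ≤ θ * α) (hy0 : 0 ≤ y) (ht : 0 < t) (hyt : yc ≤ t ^ 2)
    (hζ : 0 ≤ ζ) (hend : Gm * Cc + a * yl - θ * (α * yl - β) + ζ * t ^ 2 + Y ≤ 0)
    (g2 : θ * (α * y - β) - ζ * (y / t) ^ 2 ≤ gain) : G * C + a * y + Y ≤ gain := by
  have h1 := mul_le_mul_of_nonneg_right hG hC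
  have h2 := mul_le_mul_of_nonneg_right hslope (sub_nonneg.2 hy)
  have h3 := mul_le_mul_of_nonneg_right hdec (sub_nonneg.2 hyl)
  have h4 : ζ * (y / t) ^ 2 ≤ ζ * t ^ 2 := by
    refine mul_le_mul_of_nonneg_left (pow_le_pow_left₀ (div_nonneg hy0 ht.le) ?_ 2) hζ
    rw [div_le_iff₀ ht]
    linarith
  subst hCy
  linarith

/-- Below the root of the lower bound of `G`, and at it. -/
theorem root_part {k fw f E O c T₀ T t p n : ℝ} (hn : 0 < n) (hT₀ : 8 ≤ T₀) (hT : T₀ ≤ T)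
    (hnT : n * t ^ 2 = T ^ 2) (hp0 : 0 ≤ p) (hE : 0 ≤ E)
    (hc : c = k / (1 + p) - fw * f) (hc0 : c ≤ 0)
    (h : c * T₀ ^ 2 + (O + 53 / 100 * k * p + 53 / 800 * E * p) - E * T₀ * p / (1 + p) ≤ 0) :
    k * (t ^ 2 / (1 + p) + 53 / 100 * p / n) + O / n -
      E * (p * t ^ 2 / (1 + p) - 53 / 100 * p / n) / T - fw * f * t ^ 2 ≤ 0 := by
  have hT0 : 0 < T := by linarith
  have hp1 : 0 ≤ p / (1 + p) := div_nonneg hp0 (by linarith)
  have e1 : T₀ ^ 2 ≤ T ^ 2 := pow_le_pow_left₀ (by linarith) hT 2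
  have e2 := mul_le_mul_of_nonpos_left e1 hc0
  have e3 := mul_le_mul_of_nonneg_left hT (mul_nonneg hE hp1)
  have e4 : E * (53 / 100 * p) / T ≤ E * (53 / 100 * p) / 8 :=
    div_le_div_of_nonneg_left (mul_nonneg hE (by linarith)) (by norm_num) (by linarith)
  have key : c * T ^ 2 + (O + 53 / 100 * k * p + 53 / 800 * E * p) - E * T * (p / (1 + p)) ≤ 0 := by
    rw [mul_div_assoc] at h
    linarith
  have e : k * (t ^ 2 / (1 + p) + 53 / 100 * p / n) + O / n -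
      E * (p * t ^ 2 / (1 + p) - 53 / 100 * p / n) / T - fw * f * t ^ 2 =
      (c * T ^ 2 + (O + 53 / 100 * k * p + E * (53 / 100 * p) / T) -
        E * T * (p / (1 + p))) / n := by
    have ht : t ^ 2 = T ^ 2 / n := by rw [← hnT]; field_simp
    rw [hc, ht]
    field_simp
    ring
  rw [e]
  exact div_nonpos_of_nonpos_of_nonneg (by linarith) hn.le

/-- Between the root and the end of the range the bound is convex. -/
theorem convex_part {r3 b C₀ a e d η t y y₀ yc : ℝ} {u : ℝ → ℝ} {u₁ C₁ : ℝ}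
    (hu : ∀ s, u s = u₁ * (s - y₀)) (hu1 : 0 ≤ u₁) (hr : 0 ≤ r3) (hb : 0 ≤ b)
    (hC₁ : C₁ = C₀ + b * yc) (l : y₀ ≤ y) (r : y ≤ yc)
    (h₀ : a * y₀ + e + d * y₀ - η * (2 * (yc / t) * (y₀ / t) - (yc / t) ^ 2) ≤ 0)
    (h₁ : r3 * u yc * C₁ + a * yc + e + d * yc - η * (yc / t) ^ 2 ≤ 0) (hη : 0 ≤ η) :
    r3 * u y * (C₀ + b * y) + a * y + e + d * y - η * (y / t) ^ 2 ≤ 0 := by
  set L := fun s => r3 * u s * (C₀ + b * s) + a * s + e + d * s -
    η * (2 * (yc / t) * (s / t) - (yc / t) ^ 2) with hL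
  have hquad : ∀ s, L s = r3 * u₁ * b * s ^ 2 +
      (r3 * u₁ * (C₀ - b * y₀) + a + d - η * (2 * (yc / t) / t)) * s +
      (-(r3 * u₁ * C₀ * y₀) + e + η * (yc / t) ^ 2) := fun s => by
    simp only [hL, hu]; ring
  have k₀ : L y₀ ≤ 0 := by simp only [hL, hu, sub_self, mul_zero, zero_mul]; linarith
  have k₁ : L yc ≤ 0 := by
    have e' : L yc = r3 * u yc * C₁ + a * yc + e + d * yc - η * (yc / t) ^ 2 := by
      simp only [hL, hC₁]; ring
    linarith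
  rw [hquad] at k₀ k₁
  have hq := quad_le (mul_nonneg (mul_nonneg hr hu1) hb) k₀ k₁ l r
  rw [← hquad] at hq
  have := mul_le_mul_of_nonneg_left (two_mul_le_add_sq (yc / t) (y / t)) hη
  simp only [hL] at hq
  linarith

/-- The end of the range. -/
theorem end_part {sg q qN T₀ T t p n z σ C₀ Cc U k fw f η O : ℝ} (hsg0 : 0 ≤ sg) (hsg : sg ≤ 4) (hq : qN ≤ q) (hqN : 0 ≤ qN)
    (hq2 : q ≤ 1 - 2 / n) (hn : 0 < n) (hT₀ : 8 ≤ T₀) (hT : T₀ ≤ T) (hnT : n * t ^ 2 = T ^ 2)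
    (ht1 : t ^ 2 < 1) (hk : 0 ≤ k) (hp : p ^ 2 = 1 - t ^ 2) (hp0 : 0 < p) (hp1 : p ≤ 1)
    (hσ : σ ≤ sg / T₀ * t ^ 2) (hz : z * (1 - σ) = p ^ 2) (hzp : p ^ 2 ≤ z)
    (hCc : Cc ≤ C₀) (hC₀ : C₀ ≤ 0) (hU0 : 0 ≤ U)
    (hU : U = (1 / (1 + p) - sg / T₀ - 53 / 100 * p / T₀ ^ 2) /
      (1 - sg / T₀ * (1 - p ^ 2)))
    (hyc0 : 0 ≤ 1 - z)
    (h : qN / 3 * U * C₀ + k - fw * f - η * (1 - sg / T₀) ^ 2 ≤ 0)
    (h' : (qN / 3 * U * C₀ + k - fw * f - η * (1 - sg / T₀) ^ 2) * T₀ ^ 2 +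
      (O - 2 * k * (1 - p ^ 2)) ≤ 0) :
    q / 3 * (1 - (1 + 53 / 100 / n) * z / p) * Cc + q * k * (1 - z) + O / n -
      fw * f * t ^ 2 - η * (1 - sg / T₀) ^ 2 * t ^ 2 ≤ 0 := by
  set a := sg / T₀ with ha
  have ha1 : a ≤ 1 / 2 := by rw [ha, div_le_iff₀ (by linarith)]; linarith
  have ha0 : 0 ≤ a := div_nonneg hsg0 (by linarith)
  have hat : a * t ^ 2 < 1 := by nlinarith
  have e1 : 1 / n ≤ t ^ 2 / T₀ ^ 2 := by
    rw [div_le_div_iff₀ hn (by positivity), one_mul, mul_comm, hnT]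
    exact pow_le_pow_left₀ (by linarith) hT 2
  have eU : U * t ^ 2 = (1 - a * t ^ 2 - p - 53 / 100 * p * (t ^ 2 / T₀ ^ 2)) / (1 - a * t ^ 2) := by
    rw [hU, show (1 : ℝ) - p ^ 2 = t ^ 2 by rw [hp]; ring, div_mul_eq_mul_div]
    congr 1
    have : t ^ 2 = (1 - p) * (1 + p) := by linarith [hp]
    field_simp
    linear_combination (100 * T₀ ^ 2) * this
  have hu : U * t ^ 2 ≤ 1 - (1 + 53 / 100 / n) * z / p := by
    rw [eU, div_le_iff₀ (by linarith)]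
    have ez : z * (1 - a * t ^ 2) ≤ p ^ 2 := by
      rw [← hz]; exact mul_le_mul_of_nonneg_left (by linarith) (le_trans (sq_nonneg p) hzp)
    have e2 : (1 + 53 / 100 / n) * z / p * (1 - a * t ^ 2) ≤ (1 + 53 / 100 / n) * p := by
      rw [div_mul_eq_mul_div, div_le_iff₀ hp0, mul_assoc, mul_assoc]
      exact mul_le_mul_of_nonneg_left (by linarith) (by positivity)
    have e3 : 53 / 100 / n * p ≤ 53 / 100 * p * (t ^ 2 / T₀ ^ 2) := by
      rw [show 53 / 100 / n * p = 53 / 100 * p * (1 / n) by ring]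
      exact mul_le_mul_of_nonneg_left e1 (by linarith)
    linarith
  have h1 : q / 3 * (1 - (1 + 53 / 100 / n) * z / p) * Cc ≤ qN / 3 * U * C₀ * t ^ 2 := by
    have hut : 0 ≤ U * t ^ 2 := mul_nonneg hU0 (sq_nonneg t)
    have e : qN / 3 * (U * t ^ 2) ≤ q / 3 * (1 - (1 + 53 / 100 / n) * z / p) :=
      mul_le_mul (by linarith) hu hut (by linarith)
    refine (mul_le_mul_of_nonpos_right e (hCc.trans hC₀)).trans ?_
    linarith [mul_le_mul_of_nonneg_left hCc (mul_nonneg (show 0 ≤ qN / 3 by linarith) hut)]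
  have h2 : q * k * (1 - z) ≤ (1 - 2 / n) * k * t ^ 2 := by
    have e := mul_le_mul (mul_le_mul_of_nonneg_right hq2 hk)
      (show 1 - z ≤ t ^ 2 by linarith) hyc0
      (mul_nonneg (le_trans hqN (hq.trans hq2)) hk)
    exact e
  set M := qN / 3 * U * C₀ + k - fw * f - η * (1 - a) ^ 2 with hM
  have key : M * t ^ 2 + (O - 2 * k * t ^ 2) / n ≤ 0 := by
    rw [show (1 : ℝ) - p ^ 2 = t ^ 2 by rw [hp]; ring] at h'
    have e : M * t ^ 2 + (O - 2 * k * t ^ 2) / n = (M * T ^ 2 + (O - 2 * k * t ^ 2)) / n := by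
      rw [← hnT]; field_simp
    rw [e]
    refine div_nonpos_of_nonpos_of_nonneg ?_ hn.le
    linarith [mul_le_mul_of_nonpos_left (pow_le_pow_left₀ (by linarith) hT 2) h]
  rw [sub_div] at key
  have : 2 * k * t ^ 2 / n = 2 / n * k * t ^ 2 := by ring
  rw [hM] at key
  linarith

theorem point_lower {t p : ℝ} (ht : 0 ≤ t) (hp : p ^ 2 = 1 - t ^ 2) (hp0 : 0 ≤ p)
    (hp7 : p ≤ 7 / 10) : 0 ≤ 1 - 3 / 5 * p ^ 2 ∧ 1 - 3 / 5 * p ^ 2 ≤ t := by
  have h2 : p ^ 2 ≤ 49 / 100 := (pow_le_pow_left₀ hp0 hp7 2).trans_eq (by norm_num)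
  refine ⟨by linarith, le_of_pow_le_pow_left₀ two_ne_zero ht ?_⟩
  nlinarith [sq_nonneg p]

theorem root_lower {t p c : ℝ} (hp : p ^ 2 = 1 - t ^ 2) (hp0 : 0 ≤ p) (hp1 : p ≤ 1) (hc : 1 ≤ c) :
    t ^ 2 / 2 ≤ 1 - p / c := by
  nlinarith [div_le_self hp0 hc, mul_nonneg (sub_nonneg.2 hp1) (sub_nonneg.2 hp1)]

theorem chord_end {t a s σ yc : ℝ} (ht : 0 < t) (ha : a ≤ 1) (hσ : σ = t * s) (hσ0 : 0 ≤ σ)
    (h1σ : 0 < 1 - σ) (hs : s ≤ a * t) (eyc : yc * (1 - σ) = t * (t - s)) :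
    (1 - a) ^ 2 * t ^ 2 ≤ (yc / t) ^ 2 := by
  rw [← mul_pow]
  refine pow_le_pow_left₀ (mul_nonneg (sub_nonneg.2 ha) ht.le) ?_ 2
  rw [le_div_iff₀ ht]
  refine le_of_mul_le_mul_right ?_ h1σ
  rw [eyc]
  have := mul_nonneg (mul_nonneg (sub_nonneg.2 ha) (sq_nonneg t)) hσ0
  have := mul_le_mul_of_nonneg_left hs ht.le
  linarith

theorem surLine_beta {p α β : ℝ} (h : SurLine p α β) (hp : 0 < p) (hp1 : p < 1) : 0 < β := by
  rcases h with ⟨-, rfl⟩ | ⟨a, ha, -, rfl⟩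
  · exact div_pos (by linarith) (mul_pos hp (by linarith))
  · positivity

/-- Where the factor of `G` is nonpositive and the centre is high. -/
theorem FarRow.Good.case_flat {R : FarRow} (h : R.Good) {n mm q t p y o G C gain : ℝ} (hn : R.N ≤ n)
    (hmm0 : (R.N - 1) / R.N ≤ mm) (hmm1 : mm ≤ 1) (hq0 : (R.N - 3) / (R.N - 1) ≤ q)
    (hqe : q ≤ 1 - 2 / n) (ht0 : 0 < t) (hp : p ^ 2 = 1 - t ^ 2) (hp0 : 0 < p) (hp1 : p < 1)
    (hP : p ≤ R.P0) (hy : y ≤ t ^ 2)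
    (ho : o ≤ (R.rest - R.sg * R.E * p ^ 2) / n) (hG0 : 0 ≤ G) (hC0 : C ≤ 0)
    (g0 : 0 ≤ gain) (g1 : R.eta * mm * weightPoly p / 2 * (y / t) ^ 2 ≤ gain) :
    G * C + q * R.k * y + o ≤ R.fw * weightPoly p * t ^ 2 + gain := by
  have hk := h.k0
  have hN := h.N0
  have hf0 := (weightPoly_mem (x := p) ⟨hp0.le, hp1.le⟩).1
  have hf1 := weightPoly_le_one (x := p) ⟨hp0.le, hp1.le⟩
  set f := weightPoly p with hf
  set O := R.rest - R.sg * R.E * p ^ 2 with hO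
  have hmmn : 0 ≤ mm := le_trans (div_nonneg (by linarith) (by linarith)) hmm0
  obtain ⟨hflat, hflat'⟩ := h.flat p ⟨hp0, hP⟩
  have hGC : G * C ≤ 0 := mul_nonpos_of_nonneg_of_nonpos hG0 hC0
  have hmf : mm * f ≤ 1 := mul_le_one₀ hmm1 hf0 hf1
  have hce : 2 * (R.eta * mm * f / 2) ≤ q * R.k := by
    linarith [h.etak, mul_le_mul_of_nonneg_right hq0 hk,
      mul_le_mul_of_nonneg_left hmf h.eta0]
  have hov := over_n (M := (R.k - f * (R.fw + R.eta / 2 * ((R.N - 1) / R.N))) * t ^ 2)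
    (X := O - 2 * R.k * t ^ 2) (by linarith) hn
    (mul_nonpos_of_nonpos_of_nonneg (by linarith) (sq_nonneg t))
    (by rw [show (1 : ℝ) - p ^ 2 = t ^ 2 by rw [hp]; ring] at hflat'
        rw [hO]; linarith)
  have e1 := mul_le_mul_of_nonneg_right hqe (mul_nonneg hk (sq_nonneg t))
  have e2 := mul_le_mul_of_nonneg_left hmm0
    (mul_nonneg (mul_nonneg h.eta0 hf0) (sq_nonneg t))
  rw [sub_div O] at hov
  have e3 : 2 * R.k * t ^ 2 / n = 2 / n * (R.k * t ^ 2) := by ring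
  have := flat_part (a := q * R.k) (c := R.eta * mm * f / 2)
    (X := O / n - R.fw * f * t ^ 2) ht0 hce
    (div_nonneg (mul_nonneg (mul_nonneg h.eta0 hmmn) hf0) two_pos.le)
    hy (by linarith) g0 g1
  linarith

/-- Where the surplus pays. -/
theorem FarRow.Good.case_surplus {R : FarRow} (h : R.Good) {n w mm q t p y yc z σ T o G C Cc gain : ℝ}
    (hn : R.N ≤ n) (hw : w ^ 2 = n) (hw0 : 0 < w) (hmm0 : (R.N - 1) / R.N ≤ mm) (hmm1 : mm ≤ 1)
    (hqn : 0 ≤ q) (hq1 : q ≤ 1) (hqe : q ≤ 1 - 2 / n) (ht0 : 0 < t) (ht1 : t < 1)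
    (hp : p ^ 2 = 1 - t ^ 2) (hp0 : 0 < p) (hp1 : p < 1) (hP : p ≤ R.P0)
    (hσ : σ = t * (R.sg / w)) (hz : z * (1 - σ) = p ^ 2) (h1σ : 0 < 1 - σ)
    (hzp : p ^ 2 ≤ z) (hyc : yc = 1 - z) (hy' : y ≤ yc) (hTd : T = t * w) (hT : 8 ≤ T)
    (hnT : n * t ^ 2 = T ^ 2)
    (hC : C = 1 + R.t3 + R.k * p ^ 2 + R.k * (n - 2) * y - R.k * n * t ^ 2)
    (hCeq : C = Cc - R.k * (n - 2) * (yc - y))
    (hCc : Cc = 1 + R.t3 + R.k * p ^ 2 - 2 * R.k * yc - R.sg * R.k * T * z)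
    (ho : o ≤ (R.rest - R.sg * R.E * p ^ 2) / n) (hG0 : 0 ≤ G)
    (hG1 : G ≤ 1 - p + p / (n - 1)) (hC0 : 0 < C)
    (g2 : ∀ α β, SurLine p α β → R.th * mm * (α * y - β) -
      (R.th - R.es) * mm * weightPoly p / 2 * (y / t) ^ 2 ≤ gain) :
    G * C + q * R.k * y + o ≤ R.fw * weightPoly p * t ^ 2 + gain := by
  have hk := h.k0
  have hN := h.N0
  have hsg : 0 < R.sg := zero_lt_one.trans_le h.sg0
  have hsg1 := h.sg1
  have hT0 : 0 < T := by linarith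
  have hn0 : 0 < n := by linarith
  have hkn : 0 ≤ R.k * (n - 2) := mul_nonneg hk (by linarith)
  have hyct : yc ≤ t ^ 2 := by linarith
  have hf0 := (weightPoly_mem (x := p) ⟨hp0.le, hp1.le⟩).1
  set f := weightPoly p with hf
  have hmmn : 0 ≤ mm := le_trans (div_nonneg (by linarith) (by linarith)) hmm0
  obtain ⟨α, β, hl, hα, hs1, hs2, hs3, hM, hMN⟩ := h.surplus p ⟨hp0, hP⟩
  have hth : 0 ≤ R.th := (h.eta0.trans h.etaes).trans h.etath
  have hy0 : 0 ≤ y := by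
    by_contra hneg
    have e1 := mul_nonpos_of_nonneg_of_nonpos hkn (not_le.1 hneg).le
    have e2 : R.k * 64 ≤ R.k * n * t ^ 2 := by
      rw [mul_assoc, hnT]
      exact mul_le_mul_of_nonneg_left
        ((show (64 : ℝ) = 8 ^ 2 by norm_num) ▸ pow_le_pow_left₀ (by norm_num) hT 2) hk
    have e3 : R.k * p ^ 2 ≤ R.k := mul_le_of_le_one_right hk (pow_le_one₀ hp0.le hp1.le)
    linarith [h.big]
  have hkap : R.kap * p ^ 2 ≥ z := by
    have hσ' : σ ≤ R.sg / R.cT := by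
      have hwT : R.cT ≤ w := by
        refine le_of_pow_le_pow_left₀ two_ne_zero hw0.le ?_
        rw [hw]; linarith [h.cTN]
      calc σ ≤ 1 * (R.sg / w) := by rw [hσ]; gcongr
        _ ≤ _ := by rw [one_mul]; exact div_le_div_of_nonneg_left hsg.le h.cT0 hwT
    have hk0 : 0 < R.kap := by
      refine pos_of_mul_pos_left (lt_of_lt_of_le one_pos h.kap0) ?_
      rw [sub_nonneg, div_le_one h.cT0]; linarith [h.cT8]
    refine le_of_mul_le_mul_right ?_ h1σ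
    rw [hz]
    have e1 := mul_le_mul_of_nonneg_left hσ' (mul_nonneg hk0.le (sq_nonneg p))
    have e2 := mul_le_mul_of_nonneg_left h.kap0 (sq_nonneg p)
    linarith
  set yl := 1 - R.kap * p ^ 2 with hyl
  set Gm := 1 - p + p / (R.N - 1) with hGm
  have hG : G ≤ Gm := hG1.trans (by
    rw [hGm]; linarith [div_le_div_of_nonneg_left hp0.le (by linarith) (by linarith :
      R.N - 1 ≤ n - 1)])
  have hGm0 : 0 ≤ Gm := le_trans hG0 hG
  have hTt : R.cT * (1 - 3 / 5 * p ^ 2) ≤ T := by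
    obtain ⟨e0, e⟩ := point_lower ht0.le hp hp0.le (hP.trans h.P0r)
    have : R.cT ≤ w := by
      refine le_of_pow_le_pow_left₀ two_ne_zero hw0.le ?_
      rw [hw]; linarith [h.cTN]
    rw [hTd, mul_comm t]
    exact mul_le_mul this e e0 hw0.le
  have hTz : R.cT * (1 - 3 / 5 * p ^ 2) * p ^ 2 ≤ T * z :=
    mul_le_mul hTt hzp (sq_nonneg p) hT0.le
  have hov := over_n (by linarith) hn hM hMN
  have hζ0 : 0 ≤ (R.th - R.es) * mm * f / 2 :=
    div_nonneg (mul_nonneg (mul_nonneg (sub_nonneg.2 h.etath) hmmn) hf0) two_pos.le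
  have hkp : R.kap * p ^ 2 ≤ 1 := by
    by_contra hbad
    have := mul_nonpos_of_nonneg_of_nonpos hα (show yl ≤ 0 by rw [hyl]; linarith)
    have := surLine_beta hl hp0 hp1
    linarith
  have hyl0 : 0 ≤ yl := by rw [hyl]; linarith
  have e2 : (1 - p) * R.k * (R.N - 2) ≤ Gm * (R.k * (n - 2)) := by
    rw [mul_assoc]
    exact mul_le_mul (by rw [hGm]; linarith [div_nonneg hp0.le (show 0 ≤ R.N - 1 by linarith)])
      (mul_le_mul_of_nonneg_left (by linarith) hk) (mul_nonneg hk (by linarith)) hGm0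
  have e1 : R.th * mm * α ≤ R.th * α :=
    mul_le_mul_of_nonneg_right (mul_le_of_le_one_right hth hmm1) hα
  have e3 : Gm * Cc ≤ Gm * (1 + R.t3 + R.k * p ^ 2 - 2 * R.k * yl -
      R.sg * R.k * R.cT * (1 - 3 / 5 * p ^ 2) * p ^ 2) := by
    refine mul_le_mul_of_nonneg_left ?_ hGm0
    rw [hCc]
    linarith [mul_le_mul_of_nonneg_left hTz (mul_nonneg hsg.le hk),
      mul_le_mul_of_nonneg_left (show yl ≤ yc by rw [hyl, hyc]; linarith) hk]
  have e4 := mul_le_mul_of_nonneg_right hmm0 (mul_nonneg hth hs3)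
  have e5 := mul_le_mul_of_nonneg_right (mul_le_of_le_one_right (sub_nonneg.2 h.etath) hmm1)
    (mul_nonneg hf0 (sq_nonneg t))
  have e6 : q * R.k * yl ≤ (1 - 2 / n) * R.k * yl :=
    mul_le_mul_of_nonneg_right (mul_le_mul_of_nonneg_right hqe hk) hyl0
  have e7 : 2 * R.k * yl / n = 2 / n * R.k * yl := by ring
  rw [show (1 : ℝ) - p ^ 2 = t ^ 2 by rw [hp]; ring] at hov
  rw [sub_div (R.rest - R.sg * R.E * p ^ 2)] at hov
  have key := surplus_part (G := G) (Gm := Gm) (C := C) (Cc := Cc) (b := R.k * (n - 2))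
    (a := q * R.k) (y := y) (yc := yc) (yl := yl) (α := α) (β := β) (θ := R.th * mm)
    (ζ := (R.th - R.es) * mm * f / 2) (t := t) (Y := o - R.fw * f * t ^ 2)
    hC0.le hG hy' hCeq (by linarith [mul_nonneg hqn hk]) (by rw [hyl, hyc]; linarith)
    (by linarith [mul_le_mul_of_nonneg_right hq1 hk,
      mul_le_mul_of_nonneg_right (mul_le_mul_of_nonneg_left hmm0 hth) hα])
    hy0 ht0 hyct hζ0 (by linarith) (g2 α β hl)
  linarith

/-- The value at the end of the range. -/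
theorem FarRow.end_case {R : FarRow} {n w mm q t p z yc σ s T T₀ f C0 Cc : ℝ} (hN : 80 ≤ R.N)
    (hn0 : 0 < n) (hw0 : 0 < w) (hmm0 : (R.N - 1) / R.N ≤ mm)
    (hq0 : (R.N - 3) / (R.N - 1) ≤ q) (hqe : q ≤ 1 - 2 / n) (heta : 0 ≤ R.eta) (hf0 : 0 ≤ f)
    (hk : 0 ≤ R.k) (ht0 : 0 < t) (ht2 : t ^ 2 < 1) (hp : p ^ 2 = 1 - t ^ 2) (hp0 : 0 < p)
    (hp1 : p ≤ 1) (hσ : σ = t * s) (hσ0 : 0 ≤ σ) (h1σ : 0 < 1 - σ) (hz1 : z * (1 - σ) = p ^ 2)
    (hzp : p ^ 2 ≤ z) (hyc : yc = 1 - z) (hyc0 : 0 ≤ yc) (eyc : yc * (1 - σ) = t * (t - s))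
    (hT₀ : 8 ≤ T₀) (hTT : T₀ ≤ T) (hnT : n * t ^ 2 = T ^ 2)
    (hσT : σ ≤ R.sg / T₀ * t ^ 2) (hCC0 : Cc ≤ C0) (hC₀ : C0 ≤ 0)
    (hU : 0 ≤ (1 / (1 + p) - R.sg / T₀ - 53 / 100 * p / T₀ ^ 2) /
      (1 - R.sg / T₀ * (1 - p ^ 2)))
    (h6a : (R.N - 3) / (R.N - 1) / 3 * ((1 / (1 + p) - R.sg / T₀ -
      53 / 100 * p / T₀ ^ 2) / (1 - R.sg / T₀ * (1 - p ^ 2))) * C0 + R.k - R.fw * f -
      R.eta / 2 * ((R.N - 1) / R.N) * (1 - R.sg / T₀) ^ 2 * f ≤ 0)
    (h6b : ((R.N - 3) / (R.N - 1) / 3 * ((1 / (1 + p) - R.sg / T₀ -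
      53 / 100 * p / T₀ ^ 2) / (1 - R.sg / T₀ * (1 - p ^ 2))) * C0 + R.k - R.fw * f -
      R.eta / 2 * ((R.N - 1) / R.N) * (1 - R.sg / T₀) ^ 2 * f) * T₀ ^ 2 +
      (R.rest - R.sg * R.E * p ^ 2 - 2 * R.k * (1 - p ^ 2)) ≤ 0)
    (hEyc : R.sg * R.E * p ^ 2 / n ≤ R.E * (t - mm * (yc / t)) / w) (hsg0 : 0 < R.sg)
    (hsg1 : R.sg ≤ 2) :
    q / 3 * (1 - (1 + 53 / 100 / n) * z / p) * Cc + q * R.k * yc +
      (R.rest / n - R.E * t / w - R.fw * f * t ^ 2) + R.E * mm / (t * w) * yc -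
      R.eta * mm * f / 2 * (yc / t) ^ 2 ≤ 0 := by
  have hmmn : 0 ≤ mm := le_trans (div_nonneg (by linarith) (by linarith)) hmm0
  have hη0 : 0 ≤ R.eta * mm * f / 2 :=
    div_nonneg (mul_nonneg (mul_nonneg heta hmmn) hf0) two_pos.le
  have eE : R.E * (t - mm * (yc / t)) / w = R.E * t / w - R.E * mm / (t * w) * yc := by
    field_simp
  rw [eE] at hEyc
  have ha : R.sg / T₀ ≤ 1 := by rw [div_le_one (by linarith)]; linarith
  have hs' : s ≤ R.sg / T₀ * t := by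
    refine le_of_mul_le_mul_left ?_ ht0
    linarith [hσT, hσ]
  have e3 := mul_le_mul_of_nonneg_left (chord_end ht0 ha hσ hσ0 h1σ hs' eyc) hη0
  have hsame : R.eta * ((R.N - 1) / R.N) * f / 2 * ((1 - R.sg / T₀) ^ 2 * t ^ 2) ≤
      R.eta * mm * f / 2 * ((1 - R.sg / T₀) ^ 2 * t ^ 2) := by
    gcongr
  have h6' := end_part (η := R.eta * ((R.N - 1) / R.N) * f / 2)
    (O := R.rest - R.sg * R.E * p ^ 2) (fw := R.fw) (f := f) (k := R.k)
    hsg0.le (by linarith) hq0 (div_nonneg (by linarith) (by linarith)) hqe hn0 hT₀ hTT hnT ht2 hk hp hp0 hp1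
    hσT hz1 hzp hCC0 hC₀ hU rfl (hyc ▸ hyc0) (by linarith only [h6a]) (by linarith only [h6b])
  rw [sub_div R.rest] at h6'
  subst hyc
  linarith

/-- Where the bound is convex up to the end of the range. -/
theorem FarRow.Good.case_convex {R : FarRow} (h : R.Good)
    {n w mm q t p y yc z σ s T o G C Cc gain : ℝ} (hn : R.N ≤ n) (hn0 : 0 < n) (hw0 : 0 < w)
    (hmm0 : (R.N - 1) / R.N ≤ mm) (hmm1 : mm ≤ 1)
    (hq0 : (R.N - 3) / (R.N - 1) ≤ q) (hqn : 0 ≤ q) (hq1 : q ≤ 1) (hqe : q ≤ 1 - 2 / n)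
    (ht0 : 0 < t) (ht2 : t ^ 2 < 1) (hp : p ^ 2 = 1 - t ^ 2) (hp0 : 0 < p) (hp1 : p < 1)
    (hP : R.P0 < p) (hs : s = R.sg / w) (hσ : σ = t * s) (hσ0 : 0 < σ) (h1σ : 0 < 1 - σ)
    (hz1 : z * (1 - σ) = p ^ 2) (hzp : p ^ 2 ≤ z) (hyc : yc = 1 - z) (hyc0 : 0 < yc)
    (eyc : yc * (1 - σ) = t * (t - s)) (hy' : y ≤ yc) (hTd : T = t * w) (hT : 8 ≤ T)
    (hnT : n * t ^ 2 = T ^ 2)
    (hC : C = 1 + R.t3 + R.k * p ^ 2 + R.k * (n - 2) * y - R.k * n * t ^ 2)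
    (hCle : C ≤ Cc) (hCeq' : Cc = (1 + R.t3 + R.k * p ^ 2 - R.k * n * t ^ 2) + R.k * (n - 2) * yc)
    (hCc : Cc = 1 + R.t3 + R.k * p ^ 2 - 2 * R.k * yc - R.sg * R.k * T * z)
    (hrest : o + R.E * (t - mm * (y / t)) / w ≤ R.rest / n)
    (hEyc : R.sg * R.E * p ^ 2 / n ≤ R.E * (t - mm * (yc / t)) / w)
    (hG0 : 0 ≤ G) (hG2 : q / 3 * (1 - (1 + 53 / 100 / n) * (1 - y) / p) ≤ G)
    (g0 : 0 ≤ gain) (g1 : R.eta * mm * weightPoly p / 2 * (y / t) ^ 2 ≤ gain) :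
    G * C + q * R.k * y + o ≤ R.fw * weightPoly p * t ^ 2 + gain := by
  have hk := h.k0
  have hE := h.E0
  have hN := h.N0
  have hsg : 0 < R.sg := zero_lt_one.trans_le h.sg0
  have hsg1 := h.sg1
  have hT0 : 0 < T := by linarith
  have hkn : 0 ≤ R.k * (n - 2) := mul_nonneg hk (by linarith)
  have hyct : yc ≤ t ^ 2 := by linarith
  have hf0 := (weightPoly_mem (x := p) ⟨hp0.le, hp1.le⟩).1
  set f := weightPoly p with hf
  set O := R.rest - R.sg * R.E * p ^ 2 with hO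
  have hmmn : 0 ≤ mm := le_trans (div_nonneg (by linarith) (by linarith)) hmm0
  obtain ⟨T₀, hT₀, hT₀', hC₀, hU, hc5, h5, hM6, h6⟩ := h.ends p ⟨hP.le, hp1⟩ hp0
  set C0 := 1 + R.t3 - 2 * R.k - R.k * p ^ 2 * (R.sg * T₀ - 3) with hC0d
  have hTT : T₀ ≤ T := by
    rcases hT₀' with e | e
    · rw [e]; exact hT
    · refine le_of_pow_le_pow_left₀ two_ne_zero hT0.le (e.trans ?_)
      rw [← hnT, show (1 : ℝ) - p ^ 2 = t ^ 2 by rw [hp]; ring]
      exact mul_le_mul_of_nonneg_right hn (sq_nonneg t)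
  have hσT : σ ≤ R.sg / T₀ * t ^ 2 := by
    have e : σ = R.sg / T * t ^ 2 := by rw [hσ, hs, hTd]; field_simp
    rw [e]
    gcongr
  have hCC0 : Cc ≤ C0 := by
    have e : Cc = 1 + R.t3 - 2 * R.k + R.k * p ^ 2 - R.k * z * (R.sg * T - 2) := by
      rw [hCc, hyc]; ring
    have hTs := mul_le_mul_of_nonneg_left hTT hsg.le
    have := mul_le_mul hzp (show R.sg * T₀ - 2 ≤ R.sg * T - 2 by linarith)
      (by linarith [mul_le_mul_of_nonneg_left hT₀ hsg.le, h.sg0]) (le_trans (sq_nonneg p) hzp)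
    rw [e, hC0d]
    linarith [mul_le_mul_of_nonneg_left this hk]
  set c := 1 + 53 / 100 / n with hc
  have hc1' : 1 ≤ c := by rw [hc]; linarith [div_nonneg (show (0:ℝ) ≤ 53 / 100 by norm_num) hn0.le]
  set y₀ := 1 - p / c with hy₀
  have hy₀0 : 0 ≤ y₀ := by
    rw [hy₀, sub_nonneg, div_le_one (by linarith)]; linarith
  have hy₀l : t ^ 2 / 2 ≤ y₀ := root_lower hp hp0.le hp1.le hc1'
  have hy₀u : y₀ ≤ t ^ 2 / (1 + p) + 53 / 100 * p / n := by
    have e : t ^ 2 / (1 + p) = 1 - p := by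
      rw [div_eq_iff (by linarith)]; linarith [hp]
    have : p - p / c ≤ 53 / 100 * p / n := by
      rw [show p - p / c = 53 / 100 * p / n / c by rw [hc]; field_simp; ring]
      exact div_le_self (by positivity) hc1'
    rw [hy₀, e]; linarith
  have hroot : q * R.k * y₀ + R.rest / n - R.E * (t - y₀ / t) / w - R.fw * f * t ^ 2 ≤ 0 := by
    have h0 := root_part hn0 hT₀ hTT hnT hp0.le hE rfl hc5 h5
    have e1 : q * R.k * y₀ ≤ R.k * (t ^ 2 / (1 + p) + 53 / 100 * p / n) := by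
      refine mul_le_mul (mul_le_of_le_one_left hk hq1) hy₀u hy₀0 hk
    have e2 : R.E * (p * t ^ 2 / (1 + p) - 53 / 100 * p / n) / T ≤
        R.E * (t - y₀ / t) / w := by
      have e : t - y₀ / t = (t ^ 2 - y₀) / t := by field_simp
      rw [e, mul_div_assoc', div_div, ← hTd]
      refine div_le_div_of_nonneg_right (mul_le_mul_of_nonneg_left ?_ hE) hT0.le
      have : t ^ 2 - t ^ 2 / (1 + p) = p * t ^ 2 / (1 + p) := by field_simp; ring
      linarith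
    linarith
  rcases le_or_gt y y₀ with hl | hl
  · have hGC : G * C ≤ 0 :=
      mul_nonpos_of_nonneg_of_nonpos hG0 (hCle.trans (hCC0.trans hC₀))
    have e1 : q * R.k * y ≤ q * R.k * y₀ := mul_le_mul_of_nonneg_left hl (mul_nonneg hqn hk)
    have e2 : R.E * (t - y₀ / t) / w ≤ R.E * (t - mm * (y / t)) / w := by
      have : mm * y ≤ y₀ := by
        rcases le_total y 0 with h0 | h0
        · linarith [mul_nonpos_of_nonneg_of_nonpos hmmn h0]
        · exact (mul_le_of_le_one_left h0 hmm1).trans hl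
      gcongr
      rw [mul_div_assoc']
      exact div_le_div_of_nonneg_right this ht0.le
    linarith
  · have hη0 : 0 ≤ R.eta * mm * f / 2 :=
      div_nonneg (mul_nonneg (mul_nonneg h.eta0 hmmn) hf0) two_pos.le
    have hb : q / 3 * (1 - c * (1 - y) / p) * C ≥ G * C := by
      exact mul_le_mul_of_nonpos_right hG2 (hCle.trans (hCC0.trans hC₀))
    have h₀c : q * R.k * y₀ + (R.rest / n - R.E * t / w - R.fw * f * t ^ 2) +
        R.E * mm / (t * w) * y₀ -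
        R.eta * mm * f / 2 * (2 * (yc / t) * (y₀ / t) - (yc / t) ^ 2) ≤ 0 := by
      have e2 : 0 ≤ 2 * (yc / t) * (y₀ / t) - (yc / t) ^ 2 := by
        have : 0 ≤ yc / t * (2 * y₀ - yc) / t := by
          refine div_nonneg (mul_nonneg (div_nonneg hyc0.le ht0.le) ?_) ht0.le
          linarith
        linarith [show 2 * (yc / t) * (y₀ / t) - (yc / t) ^ 2 =
          yc / t * (2 * y₀ - yc) / t by ring]
      have e3 : R.E * (t - y₀ / t) / w ≤ R.E * (t - mm * (y₀ / t)) / w := by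
        gcongr
        exact mul_le_of_le_one_left (div_nonneg hy₀0 ht0.le) hmm1
      have : R.E * (t - mm * (y₀ / t)) / w = R.E * t / w - R.E * mm / (t * w) * y₀ := by
        field_simp
      linarith [mul_nonneg hη0 e2]
    have h₁c := FarRow.end_case (Cc := Cc) (f := f) hN hn0 hw0 hmm0 hq0 hqe h.eta0 hf0 hk ht0 ht2
      hp hp0 hp1.le hσ hσ0.le h1σ hz1 hzp hyc hyc0.le eyc hT₀ hTT hnT hσT hCC0 hC₀ hU hM6 h6 hEyc hsg hsg1
    have hconv := convex_part (r3 := q / 3) (b := R.k * (n - 2))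
      (C₀ := 1 + R.t3 + R.k * p ^ 2 - R.k * n * t ^ 2) (a := q * R.k)
      (e := R.rest / n - R.E * t / w - R.fw * f * t ^ 2)
      (d := R.E * mm / (t * w)) (η := R.eta * mm * f / 2) (t := t) (y := y) (y₀ := y₀) (yc := yc)
      (u := fun s => 1 - c * (1 - s) / p) (u₁ := c / p) (C₁ := Cc)
      (fun s => by rw [hy₀]; field_simp; ring) (div_nonneg (by linarith) hp0.le)
      (by linarith) hkn hCeq' hl.le hy' h₀c
      (by simp only [show 1 - yc = z by rw [hyc]; ring]; exact h₁c) hη0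
    have : R.E * (t - mm * (y / t)) / w = R.E * t / w - R.E * mm / (t * w) * y := by
      field_simp
    rw [hC] at hb ⊢
    linarith

/-- The scalar inequality above one, per square of `x - 1`. -/
theorem FarRow.core {R : FarRow} (h : R.Good) {n w t p y G gain : ℝ} (hn : R.N ≤ n)
    (hw : w ^ 2 = n) (hw0 : 0 < w) (ht : t ∈ Ioo (0 : ℝ) 1) (hp : p ^ 2 = 1 - t ^ 2) (hp0 : 0 < p)
    (hT : 8 ≤ t * w) (hy : y * (1 - t * (R.sg / w)) ≤ t * (t - R.sg / w))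
    (hG0 : 0 ≤ G) (hG1 : G ≤ 1 - p + p / (n - 1))
    (hG2 : (n - 3) / (n - 1) / 3 * (1 - (1 + 53 / 100 / n) * (1 - y) / p) ≤ G) (g0 : 0 ≤ gain)
    (g1 : R.eta * ((n - 1) / n) * weightPoly p / 2 * (y / t) ^ 2 ≤ gain)
    (g2 : ∀ α β, SurLine p α β → R.th * ((n - 1) / n) * (α * y - β) -
      (R.th - R.es) * ((n - 1) / n) * weightPoly p / 2 * (y / t) ^ 2 ≤ gain) :
    G * (1 + R.t3 + R.k * p ^ 2 + R.k * (n - 2) * y - R.k * n * t ^ 2) +
        (n - 3) / (n - 1) * R.k * y + (2 + 2 * R.t3 + 2 * R.dl) / (n - 1) -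
        R.E * (t - (n - 1) / n * (y / t)) / w ≤
      R.fw * weightPoly p * t ^ 2 + gain := by
  obtain ⟨ht0, ht1⟩ := ht
  have hN := h.N0
  have hn0 : 0 < n := by linarith
  have hk := h.k0
  have hE := h.E0
  have hsg : 0 < R.sg := zero_lt_one.trans_le h.sg0
  have hsg1 := h.sg1
  have hp1 : p < 1 := by nlinarith
  have hf0 := (weightPoly_mem (x := p) ⟨hp0.le, hp1.le⟩).1
  have hf1 := weightPoly_le_one (x := p) ⟨hp0.le, hp1.le⟩
  set f := weightPoly p with hf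
  set mm := (n - 1) / n with hmm
  have hmm1 : mm ≤ 1 := by rw [hmm, div_le_one hn0]; linarith
  have hmm0 : (R.N - 1) / R.N ≤ mm := by
    rw [hmm, div_le_div_iff₀ (by linarith) hn0]; linarith
  have hmmn : 0 ≤ mm := le_trans (div_nonneg (by linarith) (by linarith)) hmm0
  set q := (n - 3) / (n - 1) with hq
  have hq1 : q ≤ 1 := by rw [hq, div_le_one (by linarith)]; linarith
  have hq0 : (R.N - 3) / (R.N - 1) ≤ q := by
    rw [hq, div_le_div_iff₀ (by linarith) (by linarith)]; linarith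
  have hqn : 0 ≤ q := le_trans (div_nonneg (by linarith) (by linarith)) hq0
  have hqe : q ≤ 1 - 2 / n := by
    rw [hq, show (1 : ℝ) - 2 / n = (n - 2) / n by field_simp,
      div_le_div_iff₀ (by linarith) hn0]
    linarith
  set s := R.sg / w with hs
  set σ := t * s with hσ
  have hs0 : 0 < s := by rw [hs]; positivity
  have hσ0 : 0 < σ := mul_pos ht0 hs0
  have hst : s ≤ R.sg / 8 * t := by
    rw [hs, div_le_iff₀ hw0]
    linarith [mul_le_mul_of_nonneg_left hT hsg.le]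
  have hσ2 : σ ≤ R.sg / 8 * t ^ 2 := by
    rw [hσ]; linarith [mul_le_mul_of_nonneg_left hst ht0.le]
  have ht2 : t ^ 2 < 1 := by nlinarith
  have hs8 := mul_le_mul_of_nonneg_right hsg1 (sq_nonneg t)
  have h1σ : 0 < 1 - σ := by linarith
  set z := p ^ 2 / (1 - σ) with hz
  have hz1 : z * (1 - σ) = p ^ 2 := by rw [hz]; field_simp
  have hzp : p ^ 2 ≤ z := by
    rw [hz, le_div_iff₀ h1σ]; linarith [mul_nonneg (sq_nonneg p) hσ0.le]
  set yc := 1 - z with hyc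
  have eyc : yc * (1 - σ) = t * (t - s) := by rw [hyc, sub_mul, hz1, hp, hσ]; ring
  have hy' : y ≤ yc := le_of_mul_le_mul_right (hy.trans_eq eyc.symm) h1σ
  have hyct : yc ≤ t ^ 2 := by rw [hyc]; linarith
  have hyc0 : 0 < yc :=
    pos_of_mul_pos_left (eyc ▸ mul_pos ht0
      (by linarith [mul_le_mul_of_nonneg_right hsg1 ht0.le])) h1σ.le
  have hzσ : z - p ^ 2 = z * σ := by linarith [hz1]
  set T := t * w with hTd
  have hT0 : 0 < T := by linarith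
  have hnT : n * t ^ 2 = T ^ 2 := by rw [hTd, ← hw]; ring
  have hnz : n * (z * σ) = R.sg * T * z := by
    rw [hσ, hs, hTd, ← hw]; field_simp
  -- the two parts of order `1 / n`
  have hrest : (2 + 2 * R.t3 + 2 * R.dl) / (n - 1) ≤ R.rest / n := by
    rw [FarRow.rest, div_le_div_iff₀ (by linarith) hn0]
    have : n ≤ R.N / (R.N - 1) * (n - 1) := by
      rw [div_mul_eq_mul_div, le_div_iff₀ (by linarith)]; linarith
    linarith [mul_le_mul_of_nonneg_left this (show 0 ≤ 2 + 2 * R.t3 + 2 * R.dl by linarith [h.t30, h.dl0])]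
  have hEgen : ∀ v, v ≤ yc → 0 ≤ yc →
      R.sg * R.E * p ^ 2 / n ≤ R.E * (t - mm * (v / t)) / w := fun v hv hv0 => by
    have hmv : mm * v ≤ yc := by
      rcases le_total v 0 with h0 | h0
      · linarith [mul_nonpos_of_nonneg_of_nonpos hmmn h0]
      · exact (mul_le_of_le_one_left h0 hmm1).trans hv
    have e1 : t - yc / t ≤ t - mm * (v / t) := by
      rw [mul_div_assoc']; linarith [div_le_div_of_nonneg_right hmv ht0.le]
    have e2 : t - yc / t = z * s := by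
      have : t ^ 2 - yc = z * σ := by rw [hyc, ← hzσ, hp]; ring
      rw [hσ] at this
      field_simp
      linarith
    calc R.sg * R.E * p ^ 2 / n = R.E * (p ^ 2 * s) / w := by
          rw [hs, ← hw]; field_simp
      _ ≤ R.E * (z * s) / w := by gcongr
      _ ≤ _ := by rw [← e2]; gcongr
  have hEt := hEgen y hy' hyc0.le
  set O := R.rest - R.sg * R.E * p ^ 2 with hO
  have hoE : (2 + 2 * R.t3 + 2 * R.dl) / (n - 1) - R.E * (t - mm * (y / t)) / w ≤ O / n := by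
    rw [hO, sub_div]; linarith
  set c1 := 1 + R.t3 with hc1
  set C := c1 + R.k * p ^ 2 + R.k * (n - 2) * y - R.k * n * t ^ 2 with hC
  have hkn : 0 ≤ R.k * (n - 2) := mul_nonneg hk (by linarith)
  set Cc := c1 + R.k * p ^ 2 - 2 * R.k * yc - R.sg * R.k * T * z with hCc
  have hCle : C ≤ Cc := by
    have e : c1 + R.k * p ^ 2 + R.k * (n - 2) * yc - R.k * n * t ^ 2 = Cc := by
      have : n * (t ^ 2 - yc) = R.sg * T * z := by
        rw [← hnz, ← hzσ, hyc, hp]; ring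
      rw [hCc]; linear_combination (-R.k) * this
    rw [← e, hC]
    linarith [mul_le_mul_of_nonneg_left hy' hkn]
  have hCeq' : Cc = (c1 + R.k * p ^ 2 - R.k * n * t ^ 2) + R.k * (n - 2) * yc := by
    have : n * (t ^ 2 - yc) = R.sg * T * z := by
      rw [← hnz, ← hzσ, hyc, hp]; ring
    rw [hCc]; linear_combination R.k * this
  have hCeq : C = Cc - R.k * (n - 2) * (yc - y) := by rw [hCeq', hC]; ring
  have hEyc : R.sg * R.E * p ^ 2 / n ≤ R.E * (t - mm * (yc / t)) / w := hEgen yc le_rfl hyc0.le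
  rcases le_or_gt p R.P0 with hP | hP
  · rcases le_or_gt C 0 with hC0 | hC0
    · exact le_trans (le_of_eq (by ring)) (h.case_flat hn hmm0 hmm1 hq0 hqe ht0 hp hp0 hp1 hP
        (hy'.trans hyct) hoE hG0 hC0 g0 g1)
    · exact le_trans (le_of_eq (by ring)) (h.case_surplus hn hw hw0 hmm0 hmm1 hqn hq1 hqe ht0 ht1
        hp hp0 hp1 hP rfl hz1 h1σ hzp rfl hy' rfl hT hnT rfl hCeq rfl hoE hG0 hG1 hC0 g2)
  · exact le_trans (le_of_eq (by ring)) (h.case_convex (o := (2 + 2 * R.t3 + 2 * R.dl) / (n - 1) -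
      R.E * (t - mm * (y / t)) / w) hn hn0 hw0 hmm0 hmm1 hq0 hqn hq1 hqe ht0 ht2 hp hp0 hp1 hP rfl
      rfl hσ0 h1σ hz1 hzp rfl hyc0 eyc hy' rfl hT hnT rfl hCle hCeq' rfl (by linarith) hEyc hG0 hG2
      g0 g1)

/-- The power `x ^ (-2 / m)` below its chord from one to `x`. -/
theorem rpow_neg_chord {x y a : ℝ} (hx : 1 < x) (hy : y ∈ Icc 1 x) (ha : 0 ≤ a) :
    y ^ (-a) ≤ 1 - (1 - x ^ (-a)) * ((y - 1) / (x - 1)) := by
  set l := (y - 1) / (x - 1) with hl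
  have hl0 : 0 ≤ l := div_nonneg (by linarith [hy.1]) (by linarith)
  have hl1 : 0 ≤ 1 - l := by rw [sub_nonneg, hl, div_le_one (by linarith)]; linarith [hy.2]
  have ey : y = (1 - l) * 1 + l * x := by
    rw [hl]; field_simp [show x - 1 ≠ 0 by linarith]; ring
  have hx0 : 0 < x := by linarith
  have h1 : x ^ l ≤ y := by
    have := Real.geom_mean_le_arith_mean2_weighted hl1 hl0 zero_le_one hx0.le (by ring)
    rwa [Real.one_rpow, one_mul, ← ey] at this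
  have h2 : (x ^ (-a)) ^ l ≤ (1 - l) * 1 + l * x ^ (-a) := by
    have := Real.geom_mean_le_arith_mean2_weighted hl1 hl0 zero_le_one
      (Real.rpow_nonneg hx0.le (-a)) (by ring)
    rwa [Real.one_rpow, one_mul] at this
  have h3 : y ^ (-a) ≤ (x ^ (-a)) ^ l := by
    rw [← Real.rpow_mul hx0.le, mul_comm, Real.rpow_mul hx0.le]
    exact Real.rpow_le_rpow_of_nonpos (Real.rpow_pos_of_pos hx0 _) h1 (by linarith)
  linarith

/-- The cubic loss between a third and the whole of its bound by `1 - x ^ (-2 / m)`. -/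
theorem cubicF_between {m : ℕ} (hm : 3 ≤ m) {x : ℝ} (hx : 1 ≤ x) :
    (tailExp m - 1) * (1 - x ^ (-(2 / (m : ℝ)))) / 3 * (x - 1) ^ 2 ≤ TailCert.cubicF m x ∧
      TailCert.cubicF m x ≤ (tailExp m - 1) * (1 - x ^ (-(2 / (m : ℝ)))) * (x - 1) ^ 2 := by
  obtain ⟨hq, hq2⟩ := tailExp_mem hm
  rcases hx.eq_or_lt with rfl | hx1
  · simp [TailCert.cubicF, tailCubicPos, (tailCubic_one m).1]
  rw [TailCert.cubicF, tailCubicPos, if_pos hx]
  set q := tailExp m with hqd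
  set X := x ^ (-(2 / (m : ℝ))) with hX
  have hq0 : 0 < q := by linarith
  have hqq : 0 ≤ q * (q - 1) := mul_nonneg hq0.le (by linarith)
  have hexp : q - 1 - 1 = -(2 / (m : ℝ)) := by rw [hqd, tailExp]; ring
  have ha : 0 ≤ 2 / (m : ℝ) := by positivity
  have main : ∀ h h' h'' : ℝ → ℝ, (∀ y, 1 ≤ y → HasDerivAt h (h' y) y) →
      (∀ y, 1 ≤ y → HasDerivAt h' (h'' y) y) → (∀ y ∈ Icc 1 x, 0 ≤ h'' y) →
      h 1 = 0 → h' 1 = 0 → 0 ≤ h x := by
    intro h h' h'' d0 d1 h2 z0 z1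
    have m1 : MonotoneOn h' (Icc 1 x) := monotoneOn_of_deriv_nonneg (convex_Icc 1 x)
      (fun y hy => (d1 y hy.1).continuousAt.continuousWithinAt)
      (fun y hy => (d1 y (interior_subset hy).1).differentiableAt.differentiableWithinAt)
      fun y hy => by
        rw [(d1 y (interior_subset hy).1).deriv]
        exact h2 y (interior_subset hy)
    have m0 : MonotoneOn h (Icc 1 x) := monotoneOn_of_deriv_nonneg (convex_Icc 1 x)
      (fun y hy => (d0 y hy.1).continuousAt.continuousWithinAt)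
      (fun y hy => (d0 y (interior_subset hy).1).differentiableAt.differentiableWithinAt)
      fun y hy => by
        have hy' := interior_subset hy
        rw [(d0 y hy'.1).deriv, ← z1]
        exact m1 (left_mem_Icc.2 hx) hy' hy'.1
    rw [← z0]
    exact m0 (left_mem_Icc.2 hx) (right_mem_Icc.2 hx) hx
  have dpow : ∀ y : ℝ, 1 ≤ y →
      HasDerivAt (fun s : ℝ => s ^ (q - 1)) ((q - 1) * y ^ (-(2 / (m : ℝ)))) y := fun y hy => by
    rw [← hexp]; exact Real.hasDerivAt_rpow_const (Or.inl (by linarith))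
  have hup : 0 ≤ x ^ q - 1 - q * (x - 1) - q * (q - 1) / 2 * X * (x - 1) ^ 2 := by
    refine main (fun y => y ^ q - 1 - q * (y - 1) - q * (q - 1) / 2 * X * (y - 1) ^ 2)
      (fun y => q * y ^ (q - 1) - q - q * (q - 1) * X * (y - 1))
      (fun y => q * (q - 1) * (y ^ (-(2 / (m : ℝ))) - X))
      (fun y hy => ?_) (fun y hy => ?_) (fun y hy => ?_) (by simp) (by simp)
    · refine ((((Real.hasDerivAt_rpow_const (p := q) (Or.inl (by linarith : y ≠ 0))).sub_const 1).sub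
        (((hasDerivAt_id' y).sub_const 1).const_mul q)).sub
        ((((hasDerivAt_id' y).sub_const 1).pow 2).const_mul
          (q * (q - 1) / 2 * X))).congr_deriv ?_
      push_cast; ring
    · refine ((((dpow y hy).const_mul q).sub_const q).sub
        (((hasDerivAt_id' y).sub_const 1).const_mul (q * (q - 1) * X))).congr_deriv ?_
      ring
    · exact mul_nonneg hqq (sub_nonneg.2
        (Real.rpow_le_rpow_of_nonpos (by linarith [hy.1]) hy.2 (by linarith)))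
  have hlow : 0 ≤ q * (q - 1) / 2 * (x - 1) ^ 2 -
      q * (q - 1) * ((1 - X) / (x - 1)) / 6 * (x - 1) ^ 3 - (x ^ q - 1 - q * (x - 1)) := by
    refine main (fun y => q * (q - 1) / 2 * (y - 1) ^ 2 -
        q * (q - 1) * ((1 - X) / (x - 1)) / 6 * (y - 1) ^ 3 - (y ^ q - 1 - q * (y - 1)))
      (fun y => q * (q - 1) * (y - 1) - q * (q - 1) * ((1 - X) / (x - 1)) / 2 * (y - 1) ^ 2 -
        (q * y ^ (q - 1) - q))
      (fun y => q * (q - 1) * (1 - (1 - X) / (x - 1) * (y - 1) - y ^ (-(2 / (m : ℝ)))))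
      (fun y hy => ?_) (fun y hy => ?_) (fun y hy => ?_) (by simp) (by simp)
    · refine ((((((hasDerivAt_id' y).sub_const 1).pow 2).const_mul (q * (q - 1) / 2)).sub
        ((((hasDerivAt_id' y).sub_const 1).pow 3).const_mul
          (q * (q - 1) * ((1 - X) / (x - 1)) / 6))).sub
        (((Real.hasDerivAt_rpow_const (p := q) (Or.inl (by linarith : y ≠ 0))).sub_const 1).sub
          (((hasDerivAt_id' y).sub_const 1).const_mul q))).congr_deriv ?_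
      push_cast; ring
    · refine (((((hasDerivAt_id' y).sub_const 1).const_mul (q * (q - 1))).sub
        ((((hasDerivAt_id' y).sub_const 1).pow 2).const_mul
          (q * (q - 1) * ((1 - X) / (x - 1)) / 2))).sub
        (((dpow y hy).const_mul q).sub_const q)).congr_deriv ?_
      push_cast; ring
    · refine mul_nonneg hqq (sub_nonneg.2 ?_)
      rw [div_mul_eq_mul_div, mul_div_assoc]
      exact rpow_neg_chord hx1 hy ha
  have e : tailCubic m x = q * (q - 1) / 2 * (x - 1) ^ 2 - (x ^ q - 1 - q * (x - 1)) := rfl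
  have e3 : q * (q - 1) * ((1 - X) / (x - 1)) / 6 * (x - 1) ^ 3 =
      q * (q - 1) * (1 - X) / 6 * (x - 1) ^ 2 := by
    field_simp [show x - 1 ≠ 0 by linarith]
  rw [e3] at hlow
  constructor
  · calc (q - 1) * (1 - X) / 3 * (x - 1) ^ 2 = 2 / q * (q * (q - 1) * (1 - X) / 6 * (x - 1) ^ 2) := by
          field_simp; ring
      _ ≤ _ := mul_le_mul_of_nonneg_left (by rw [e]; linarith) (by positivity)
  · calc 2 / q * tailCubic m x ≤ 2 / q * (q * (q - 1) * (1 - X) / 2 * (x - 1) ^ 2) :=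
          mul_le_mul_of_nonneg_left (by rw [e]; linarith) (by positivity)
      _ = _ := by field_simp

/-- What the centre and the envelope say about `x ^ (-2 / m)`. -/
theorem power_range {m : ℕ} (hm : 79 ≤ m) {p x y : ℝ} (hp : 0 < p) (hx : 0 < x) (hy : 0 < 1 - y)
    (hcentre : 3 / 5 * (p / (1 - y)) ^ m ≤ x ^ 2) (henv : x ^ 2 * p ^ m ≤ 267 / 100) :
    x ^ (-(2 / (m : ℝ))) ≤ (1 + 53 / 100 / ((m : ℝ) + 1)) * (1 - y) / p ∧
      p * (1 - 1 / (m : ℝ)) ≤ x ^ (-(2 / (m : ℝ))) := by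
  have hmR : (79 : ℝ) ≤ m := by exact_mod_cast hm
  set Y := x ^ (2 / (m : ℝ)) with hY
  have hY0 : 0 < Y := Real.rpow_pos_of_pos hx _
  have hpow : Y ^ m = x ^ 2 := by
    rw [hY, ← Real.rpow_natCast, ← Real.rpow_mul hx.le, div_mul_cancel₀ _ (by linarith),
      Real.rpow_two]
  have hX : x ^ (-(2 / (m : ℝ))) = 1 / Y := by rw [Real.rpow_neg hx.le, one_div]
  set d := 53 / 100 / ((m : ℝ) + 1) with hd
  have hd0 : 0 < d := by positivity
  have hc : 5 / 3 ≤ (1 + d) ^ m := by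
    have h1 : Real.exp (d / (1 + d)) ≤ 1 + d := by
      have e := Real.add_one_le_exp (-(d / (1 + d)))
      rw [Real.exp_neg, ← one_div, le_div_iff₀ (Real.exp_pos _),
        show -(d / (1 + d)) + 1 = 1 / (1 + d) by field_simp; ring, div_mul_eq_mul_div,
        div_le_iff₀ (by linarith)] at e
      linarith
    refine le_trans ?_ (pow_le_pow_left₀ (Real.exp_pos _).le h1 m)
    rw [← Real.exp_nat_mul]
    have h2 : (519 : ℝ) / 1000 ≤ (m : ℝ) * (d / (1 + d)) := by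
      rw [hd]; field_simp; linarith
    refine le_trans ?_ (Real.exp_le_exp.2 h2)
    refine le_trans ?_ (Real.sum_le_exp_of_nonneg (by norm_num) 4)
    norm_num [Finset.sum_range_succ, Nat.factorial]
  constructor
  · rw [hX, div_le_div_iff₀ hY0 hp, one_mul]
    have hq : p / ((1 + d) * (1 - y)) ≤ Y := by
      refine le_of_pow_le_pow_left₀ (by omega : m ≠ 0) hY0.le ?_
      rw [hpow, mul_comm, ← div_div, div_pow]
      refine le_trans ?_ hcentre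
      rw [div_le_iff₀ (by positivity)]
      have := mul_le_mul_of_nonneg_left hc
        (show 0 ≤ 3 / 5 * (p / (1 - y)) ^ m by positivity)
      linarith
    rw [div_le_iff₀ (by positivity)] at hq
    linarith
  · rw [hX, le_div_iff₀ hY0]
    have h1 : Y * p ≤ Real.exp (1 / (m : ℝ)) := by
      refine le_of_pow_le_pow_left₀ (by omega : m ≠ 0) (Real.exp_pos _).le ?_
      rw [mul_pow, hpow, ← Real.exp_nat_mul, mul_one_div_cancel (by linarith)]
      linarith [Real.exp_one_gt_d9]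
    have h2 : (1 - 1 / (m : ℝ)) * Real.exp (1 / (m : ℝ)) ≤ 1 := by
      have e := Real.add_one_le_exp (-(1 / (m : ℝ)))
      rw [Real.exp_neg, ← one_div, le_div_iff₀ (Real.exp_pos _)] at e
      linarith
    have := mul_le_mul_of_nonneg_left h1
      (show 0 ≤ 1 - 1 / (m : ℝ) by rw [sub_nonneg, div_le_one (by linarith)]; linarith)
    linarith

/-- The lines are below the gain of the cell. -/
theorem surLine_le_cellGain {t z α β : ℝ} (ht : t ∈ Ioo (0 : ℝ) 1) (hz : z ∈ Icc (0 : ℝ) 1)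
    (h : SurLine (ballShape t) α β) :
    α * (t * ((t - z) / (1 - t * z))) - β ≤ cellGain t z := by
  have hI : t ∈ Ioo (-1 : ℝ) 1 := sub01 ht
  have hp := ball_pos hI
  have hp2 := ball_sq (Ioo_subset_Icc_self hI)
  have hden : 0 < 1 - t * z := by nlinarith [mul_le_mul_of_nonneg_left hz.2 ht.1.le, ht.2]
  set p := ballShape t with hpd
  set y := t * ((t - z) / (1 - t * z)) with hy
  set pz := ballShape z with hpz
  have hpz0 : 0 ≤ pz := Real.sqrt_nonneg _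
  have hpz2 : pz ^ 2 = 1 - z ^ 2 := ball_sq ⟨by linarith [hz.1], hz.2⟩
  have e1 : 1 - y = p ^ 2 / (1 - t * z) := by rw [hy, hp2]; field_simp; ring
  set D := p * (pz - p) / (1 - t * z) with hD
  have hlog : (y - D) / (1 + p) ≤ cellGain t z := by
    have hl := Real.log_le_sub_one_of_pos (show 0 < (1 + pz) / (1 + p) by positivity)
    have : Real.log ((1 + p) / (1 + pz)) = -Real.log ((1 + pz) / (1 + p)) := by
      rw [← Real.log_inv, inv_div]
    rw [cellGain, logBreg, ← hpd, ← hpz, this]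
    have h0 : 0 ≤ p / (1 - t * z) := by positivity
    refine le_trans (le_of_eq ?_) (mul_le_mul_of_nonneg_left (add_le_add
      (neg_le_neg hl) le_rfl) h0)
    rw [hD, hy]
    field_simp
    ring
  have h1p : 0 < 1 + p := by linarith
  rcases h with ⟨rfl, rfl⟩ | ⟨a, ha, rfl, rfl⟩
  · refine le_trans ?_ hlog
    have hD1 : D * p ≤ (1 - y) * (1 - p) := by
      rw [hD, e1, div_mul_eq_mul_div, div_mul_eq_mul_div]
      refine div_le_div_of_nonneg_right ?_ hden.le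
      have := mul_le_mul_of_nonneg_left (show pz - p ≤ 1 - p by linarith [ball_le_one z])
        (sq_nonneg p)
      linarith
    rw [div_mul_eq_mul_div, one_mul, ← sub_div, div_le_div_iff₀ (mul_pos hp h1p) h1p]
    nlinarith [mul_le_mul_of_nonneg_right hD1 h1p.le]
  · refine le_trans ?_ hlog
    rw [div_mul_eq_mul_div, ← sub_div]
    refine div_le_div_of_nonneg_right ?_ h1p.le
    set X := p * pz / (1 - t * z) with hX
    have hDX : D ≤ X := div_le_div_of_nonneg_right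
      (mul_le_mul_of_nonneg_left (by linarith) hp.le) hden.le
    have hX2 : X ^ 2 ≤ 2 * (1 - y) := by
      rw [hX, div_pow, e1, ← mul_div_assoc, div_le_div_iff₀ (by positivity) hden, mul_pow, hpz2]
      have hz1 : 1 - z ^ 2 ≤ 2 * (1 - t * z) := by
        nlinarith [mul_le_mul_of_nonneg_right ht.2.le hz.1, hz.2, hz.1]
      have := mul_le_mul_of_nonneg_left (mul_le_mul_of_nonneg_right hz1 hden.le) (sq_nonneg p)
      linarith
    have hq : X ≤ a / 2 * X ^ 2 + 1 / (2 * a) := by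
      rw [show a / 2 * X ^ 2 + 1 / (2 * a) = ((a * X) ^ 2 + 1) / (2 * a) by field_simp,
        le_div_iff₀ (by positivity)]
      linarith [two_mul_le_add_sq (a * X) 1]
    linarith [mul_le_mul_of_nonneg_left hX2 (show 0 ≤ a / 2 by linarith)]

/-- The left side of the tail inequality for the flux of the far zone. -/
noncomputable def farLHS (R : FarRow) (m : ℕ) (κ t₁ t₃ t x ρ : ℝ) : ℝ :=
  ballShape t ^ 2 * (R.A / ((m : ℝ) + 1) + R.k * TailCert.cubicF m x) +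
    (m : ℝ) / 2 * x * ρ * (2 * R.E * x / (((m : ℝ) + 1) * √((m : ℝ) + 1)) +
      R.k * t * TailCert.cubicF' m x) -
    ((m : ℝ) + 1) * t * ((R.E * x ^ 2 + R.A * t * √((m : ℝ) + 1)) /
      (((m : ℝ) + 1) * √((m : ℝ) + 1)) + R.k * t * TailCert.cubicF m x) +
    tailLoss m x + multLoss m κ t₁ t₃ t x

theorem half_le_weightPoly {x : ℝ} (hx : x ∈ Icc (0 : ℝ) 1) : 1 / 2 ≤ weightPoly x := by
  obtain ⟨h0, h1⟩ := hx
  unfold weightPoly
  nlinarith [mul_nonneg h0 (sub_nonneg.2 h1), sq_nonneg (x - 1), sq_nonneg (x - 9 / 10),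
    mul_nonneg (mul_nonneg h0 h0) (mul_nonneg (sub_nonneg.2 h1) (sub_nonneg.2 h1))]

/-- The two bounds of the surplus over `x ^ 2`. -/
theorem gain_lower {R : FarRow} (h : R.Good) {m : ℕ} (hm : 1 ≤ m) {t x ρ : ℝ}
    (ht : t ∈ Ioo (0 : ℝ) 1) (hx : 0 < x) (hρ : ρ ∈ Icc (-1 : ℝ) t) :
    0 ≤ R.th * tailGain m (bregPoly m) (R.es / R.th) t x ρ / x ^ 2 ∧
      R.eta * ((m : ℝ) / ((m : ℝ) + 1)) * weightPoly (ballShape t) / 2 * ρ ^ 2 ≤
        R.th * tailGain m (bregPoly m) (R.es / R.th) t x ρ / x ^ 2 ∧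
      ∀ α β, SurLine (ballShape t) α β →
        R.th * ((m : ℝ) / ((m : ℝ) + 1)) * (α * (t * ρ) - β) -
          (R.th - R.es) * ((m : ℝ) / ((m : ℝ) + 1)) * weightPoly (ballShape t) / 2 * ρ ^ 2 ≤
        R.th * tailGain m (bregPoly m) (R.es / R.th) t x ρ / x ^ 2 := by
  have hth := h.th0
  have hη : 0 ≤ R.es / R.th := div_nonneg (h.eta0.trans h.etaes) hth.le
  have hη1 : R.es / R.th ≤ 1 := (div_le_one hth).2 h.etath
  have hp := ball_pos (sub01 ht)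
  have hρ' : ρ ∈ Icc (-1 : ℝ) 1 := ⟨hρ.1, hρ.2.trans ht.2.le⟩
  have hQ : 2 * ((m : ℝ) + 1) * bregPoly m t = ballShape t * weightPoly (ballShape t) := by
    rw [bregPoly]; field_simp
  have hf0 := (weightPoly_mem (ball_mem_Icc t)).1
  have hx2 : 0 < x ^ 2 := pow_pos hx 2
  have g1 : R.eta * ((m : ℝ) / ((m : ℝ) + 1)) * weightPoly (ballShape t) / 2 * ρ ^ 2 ≤
      R.th * tailGain m (bregPoly m) (R.es / R.th) t x ρ / x ^ 2 := by
    refine le_trans (b := R.es * ((m : ℝ) / ((m : ℝ) + 1)) * weightPoly (ballShape t) / 2 * ρ ^ 2)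
      (by gcongr; exact h.etaes) ?_
    have := quad_le_tailGain hm hη ht hρ' (x := x) (Q := bregPoly m)
      (l := weightPoly (ballShape t)) (fun t ht r hr => bregPoly_mul_le hm ht hr) (le_of_eq hQ.symm)
    rw [le_div_iff₀ hx2]
    refine le_trans (le_of_eq ?_) (mul_le_mul_of_nonneg_left this hth.le)
    field_simp
  refine ⟨le_trans ?_ g1, g1, fun α β hl => ?_⟩
  · exact mul_nonneg (div_nonneg (mul_nonneg (mul_nonneg h.eta0 (by positivity)) hf0) two_pos.le)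
      (sq_nonneg ρ)
  have hden : 0 < 1 - t * ρ := by nlinarith [mul_le_mul_of_nonneg_left hρ'.2 ht.1.le, ht.2]
  set z := (t - ρ) / (1 - t * ρ) with hz
  have hz0 : 0 ≤ z := div_nonneg (by linarith [hρ.2]) hden.le
  have hz1 : z ≤ 1 := by
    rw [hz, div_le_one hden]
    nlinarith [mul_nonneg (sub_nonneg.2 ht.2.le) (show 0 ≤ 1 + ρ by linarith [hρ.1])]
  have einv : (t - z) / (1 - t * z) = ρ := by
    rw [hz]
    exact TailCert.shift_inv (by nlinarith [ht.1, ht.2]) hden.ne'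
  have hcell := surLine_le_cellGain ht ⟨hz0, hz1⟩ hl
  have hgain := cellGain_le_tailGain (Q := bregPoly m) (x := x) (η := R.es / R.th)
    (u := weightPoly (ballShape t)) hm ht ⟨by linarith, hz1⟩ hη1 hQ.le
  rw [einv] at hgain hcell
  rw [le_div_iff₀ hx2]
  refine le_trans (le_trans ?_ (mul_le_mul_of_nonneg_left
    (mul_le_mul_of_nonneg_left (sub_le_sub_right hcell
      ((1 - R.es / R.th) * weightPoly (ballShape t) / 2 * ρ ^ 2))
      (show 0 ≤ (m : ℝ) / ((m : ℝ) + 1) * x ^ 2 by positivity)) hth.le))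
    (mul_le_mul_of_nonneg_left hgain hth.le)
  refine le_of_eq ?_
  field_simp


/-- Below one the linear part of the flux pays. -/
theorem below_one {R : FarRow} (h : R.Good) {n mR κ t₁ t₃ t x W p b AT ET C gain : ℝ}
    (hn0 : 0 < n) (hm : R.N ≤ n) (hκ : 0 ≤ κ) (hκ' : κ * n ≤ R.K) (h₁ : 0 ≤ t₁) (h₁₃ : t₁ ≤ t₃)
    (h₃ : t₃ ≤ R.t3) (hd : t₃ - t₁ ≤ R.dl) (hx : 0 < x) (hx1 : x < 1) (hW : R.fw * weightPoly p * t ^ 2 ≤ W)
    (hb : b ≤ 0) (hN : 80 ≤ R.N) (hb' : p - 1 ≤ b) (h64 : 64 ≤ n * t ^ 2)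
    (_hp1 : p ≤ 1 - t ^ 2 / 2) (hp : 0 ≤ p) (hp2 : 1 - t ^ 2 ≤ p ^ 2)
    (hA : AT ≤ -(R.A * (63 / 64) * t ^ 2)) (hE : 0 ≤ ET) (hmR : mR = n - 1) (hC : C ≤ 0)
    (g0 : 0 ≤ gain) (hp1 : p ≤ 1) {a₁ a₂ : ℝ} :
    AT - ET + R.k * 0 * a₁ + a₂ * (mR / 2 * x * 0) + (2 / mR * (x - 1) ^ 2 + C) +
        ((t₃ - t₁) * (2 * b * (x - 1) + b * (x - 1) ^ 2) +
          t₃ * (2 / mR * (x - 1) ^ 2 + C) - κ * (x - 1)) ≤
      W * (x - 1) ^ 2 + gain * x ^ 2 := by
  set v := 1 - x with hv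
  have hv0 : 0 ≤ v := by linarith
  have hv1 : v ≤ 1 := by linarith
  have hq : 0 ≤ 2 * v - v ^ 2 := by nlinarith
  have hbt : -b ≤ t ^ 2 := by nlinarith
  have e1 : (t₃ - t₁) * (2 * b * (x - 1) + b * (x - 1) ^ 2) ≤
      R.dl * (2 * v - v ^ 2) * t ^ 2 := by
    have e : 2 * b * (x - 1) + b * (x - 1) ^ 2 = -b * (2 * v - v ^ 2) := by rw [hv]; ring
    rw [e]
    have := mul_le_mul hd (mul_le_mul_of_nonneg_right hbt hq)
      (mul_nonneg (by linarith) hq) h.dl0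
    linarith
  have hsm : 1 / n ≤ t ^ 2 / 64 := by rw [div_le_div_iff₀ hn0 (by norm_num)]; linarith
  have e2 : κ * v ≤ R.K * v / 64 * t ^ 2 := by
    have e : κ ≤ R.K * (1 / n) := by rw [mul_one_div, le_div_iff₀ hn0]; exact hκ'
    have := mul_le_mul_of_nonneg_right (e.trans (mul_le_mul_of_nonneg_left hsm h.K0)) hv0
    linarith
  have e3 : (1 + t₃) * (2 / mR * (x - 1) ^ 2) ≤
      2 * (1 + R.t3) * (R.N / (R.N - 1)) / 64 * v ^ 2 * t ^ 2 := by
    have e : 2 / mR ≤ 2 * (R.N / (R.N - 1)) * (t ^ 2 / 64) := by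
      refine le_trans ?_ (mul_le_mul_of_nonneg_left hsm
        (mul_nonneg two_pos.le (div_nonneg (by linarith) (by linarith))))
      rw [hmR, mul_one_div, div_le_div_iff₀ (by linarith) hn0,
        show 2 * (R.N / (R.N - 1)) * (n - 1) = 2 * ((R.N * (n - 1)) / (R.N - 1)) by ring]
      refine mul_le_mul_of_nonneg_left ?_ two_pos.le
      rw [le_div_iff₀ (by linarith)]
      linarith
    have := mul_le_mul (show 1 + t₃ ≤ 1 + R.t3 by linarith)
      (mul_le_mul_of_nonneg_right e (sq_nonneg v))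
      (mul_nonneg (div_nonneg two_pos.le (by linarith)) (sq_nonneg v)) (by linarith [h.t30])
    rw [show (x - 1) ^ 2 = v ^ 2 by rw [hv]; ring]
    linarith
  have low := mul_le_mul_of_nonneg_right (h.low v ⟨hv0, hv1⟩) (sq_nonneg t)
  have hfw := mul_le_mul_of_nonneg_right
    (mul_le_mul_of_nonneg_right (mul_le_mul_of_nonneg_left (half_le_weightPoly ⟨hp, hp1⟩) h.fw0)
      (sq_nonneg t)) (sq_nonneg v)
  have hW' := mul_le_mul_of_nonneg_right hW (sq_nonneg v)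
  have hC' := mul_nonpos_of_nonneg_of_nonpos (show 0 ≤ 1 + t₃ by linarith) hC
  have hg := mul_nonneg g0 (sq_nonneg x)
  rw [show x - 1 = -v by rw [hv]; ring] at e1 e3 ⊢
  linarith

/-- What the zone says about the ball. -/
theorem zone_facts {m : ℕ} (hm : 1 ≤ m) {t w : ℝ} (ht : t ∈ Ioo (0 : ℝ) 1)
    (hw : w ^ 2 = (m : ℝ) + 1) (hw0 : 0 < w) (hT : 8 ≤ t * w) :
    64 ≤ ((m : ℝ) + 1) * t ^ 2 ∧ ballShape t ≤ 1 - t ^ 2 / 2 ∧
      ballRatio m * ballShape t ≤ 1 ∧ ballShape t - 1 ≤ ballRatio m * ballShape t - 1 ∧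
      ballRatio m ≤ 1 + 1 / ((m : ℝ) + 1) := by
  obtain ⟨ht0, ht1⟩ := ht
  set n := (m : ℝ) + 1 with hn
  have hn0 : 0 < n := by positivity
  have hp := ball_pos (sub01 ⟨ht0, ht1⟩)
  have hp2 := ball_sq (Ioo_subset_Icc_self (sub01 ⟨ht0, ht1⟩))
  have h64 : 64 ≤ n * t ^ 2 := by
    rw [← hw, ← mul_pow, mul_comm]
    linarith [pow_le_pow_left₀ (by norm_num : (0 : ℝ) ≤ 8) hT 2]
  have hr2 : ballRatio m ≤ 1 + 1 / n := by
    refine (ballRatio_le hm).trans (le_of_eq ?_)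
    rw [hn]; field_simp; ring
  have hp1 : ballShape t ≤ 1 - t ^ 2 / 2 := by
    have e : ballShape t ^ 2 ≤ (1 - t ^ 2 / 2) ^ 2 := by rw [hp2]; linarith [sq_nonneg (t ^ 2)]
    have : t ^ 2 ≤ 1 := pow_le_one₀ ht0.le ht1.le
    exact le_of_pow_le_pow_left₀ two_ne_zero (by linarith) e
  refine ⟨h64, hp1, ?_, ?_, hr2⟩
  · have e1 := mul_le_mul hr2 hp1 hp.le (by positivity)
    have e2 : 1 / n ≤ t ^ 2 / 64 := by rw [div_le_div_iff₀ hn0 (by norm_num)]; linarith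
    linarith [mul_nonneg (show 0 ≤ 1 / n by positivity) (sq_nonneg t), sq_nonneg t]
  · linarith [le_mul_of_one_le_left hp.le (one_le_ballRatio m)]

/-- The left side with the flux written out. -/
theorem farLHS_eq (R : FarRow) (m : ℕ) (κ t₁ t₃ t x ρ : ℝ) {n w : ℝ} (hn : n = (m : ℝ) + 1)
    (hw : w = √n) :
    farLHS R m κ t₁ t₃ t x ρ = R.A * (ballShape t ^ 2 / n - t ^ 2) -
      R.E * x ^ 2 * (t - (n - 1) / n * ρ) / w +
      R.k * TailCert.cubicF m x * (ballShape t ^ 2 - n * t ^ 2) +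
      R.k * t * ρ * ((m : ℝ) / 2 * x * TailCert.cubicF' m x) +
      tailLoss m x + multLoss m κ t₁ t₃ t x := by
  have hn0 : 0 < n := by rw [hn]; positivity
  have hw0 : 0 < w := by rw [hw]; exact Real.sqrt_pos.2 hn0
  have hw2 : w ^ 2 = n := by rw [hw]; exact Real.sq_sqrt hn0.le
  rw [farLHS, ← hn, ← hw, show (m : ℝ) = n - 1 by rw [hn]; ring]
  field_simp
  rw [← hw2]
  ring

/-- The quotient of the cubic loss by the square, with its bounds. -/
theorem cubic_quotient {m : ℕ} (hm : 79 ≤ m) {n p x y : ℝ} (hmn : (m : ℝ) = n - 1) (hp : 0 < p)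
    (hp1 : p ≤ 1) (hx1 : 1 ≤ x) (hy : 0 < 1 - y)
    (hcentre : 3 / 5 * (p / (1 - y)) ^ m ≤ x ^ 2) (henv : x ^ 2 * p ^ m ≤ 267 / 100) :
    ∃ G, TailCert.cubicF m x = G * (x - 1) ^ 2 ∧ 0 ≤ G ∧ G ≤ 1 - p + p / (n - 1) ∧
      (n - 3) / (n - 1) / 3 * (1 - (1 + 53 / 100 / n) * (1 - y) / p) ≤ G := by
  have hmR : (79 : ℝ) ≤ m := by exact_mod_cast hm
  obtain ⟨hl, hu⟩ := cubicF_between (by omega : 3 ≤ m) hx1
  obtain ⟨hX1, hX2⟩ := power_range hm hp (by linarith : 0 < x) hy hcentre henv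
  set X := x ^ (-(2 / (m : ℝ))) with hX
  set q := tailExp m - 1 with hqd
  have hq : q = (n - 3) / (n - 1) := by
    rw [hqd, tailExp, ← hmn, show n - 3 = (m : ℝ) - 2 by linarith]
    field_simp
    ring
  have hq0 : 0 ≤ q := by rw [hq]; exact div_nonneg (by linarith) (by linarith)
  have hq1 : q ≤ 1 := by rw [hq, div_le_one (by linarith)]; linarith
  have hX01 : X ≤ 1 := Real.rpow_le_one_of_one_le_of_nonpos hx1 (neg_nonpos.2 (by positivity))
  rw [show (m : ℝ) + 1 = n by linarith] at hX1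
  rw [hmn] at hX2
  have e2 : p * (1 - 1 / (n - 1)) = p - p / (n - 1) := by ring
  obtain ⟨G, hG, hG0, hG1⟩ : ∃ G, TailCert.cubicF m x = G * (x - 1) ^ 2 ∧
      q * (1 - X) / 3 ≤ G ∧ G ≤ q * (1 - X) := by
    rcases hx1.eq_or_lt with rfl | hlt
    · exact ⟨0, by simp [TailCert.cubicF, tailCubicPos, (tailCubic_one m).1], by simp [hX],
        by simp [hX]⟩
    · have hv : 0 < (x - 1) ^ 2 := pow_pos (by linarith) 2
      exact ⟨_, (div_mul_cancel₀ _ hv.ne').symm, (le_div_iff₀ hv).2 hl, (div_le_iff₀ hv).2 hu⟩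
  refine ⟨G, hG, le_trans (div_nonneg (mul_nonneg hq0 (by linarith)) (by norm_num)) hG0,
    hG1.trans ((mul_le_of_le_one_left (by linarith) hq1).trans (by linarith)), le_trans ?_ hG0⟩
  rw [← hq]
  have e3 : 1 - (1 + 53 / 100 / n) * (1 - y) / p ≤ 1 - X := by linarith
  have := mul_le_mul_of_nonneg_left e3 (div_nonneg hq0 (by norm_num : (0 : ℝ) ≤ 3))
  exact this.trans_eq (by ring)

/-- The scalar inequality times the square, with the other terms put back. -/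
theorem combine {A E k T3 D3 t₁ t₃ κ n w t x ρ p b G q W Wf gain : ℝ} (hn : 0 ≤ n - 1)
    (hA : A ≤ 0) (hE : 0 ≤ E) (hw : 0 < w) (hsg : 0 ≤ t - (n - 1) / n * ρ) (hκ : 0 ≤ κ)
    (h₁ : 0 ≤ t₁) (h₁₃ : t₁ ≤ t₃) (h₃ : t₃ ≤ T3) (hd : t₃ - t₁ ≤ D3) (hx : 1 ≤ x) (g0 : 0 ≤ gain) (hG0 : 0 ≤ G)
    (hb : b ≤ 0) (hbG : b + G ≤ 2 / (n - 1)) (hW : Wf ≤ W)
    (key : G * (1 + T3 + k * p ^ 2 + k * (n - 2) * (t * ρ) - k * n * t ^ 2) +
      q * k * (t * ρ) + (2 + 2 * T3 + 2 * D3) / (n - 1) - E * (t - (n - 1) / n * ρ) / w ≤ Wf + gain) :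
    A - E * x ^ 2 * (t - (n - 1) / n * ρ) / w + k * (G * (x - 1) ^ 2) * (p ^ 2 - n * t ^ 2) +
      k * t * ρ * ((n - 2) * (G * (x - 1) ^ 2) + q * (x - 1) ^ 2) +
      (2 / (n - 1) * (x - 1) ^ 2 + G * (x - 1) ^ 2) +
      ((t₃ - t₁) * (2 * b * (x - 1) + b * (x - 1) ^ 2) +
        t₃ * (2 / (n - 1) * (x - 1) ^ 2 + G * (x - 1) ^ 2) - κ * (x - 1)) ≤
      W * (x - 1) ^ 2 + gain * x ^ 2 := by
  have hv := sq_nonneg (x - 1)
  have key' := mul_le_mul_of_nonneg_right key hv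
  have hvx : (x - 1) ^ 2 ≤ x ^ 2 := pow_le_pow_left₀ (by linarith) (by linarith) 2
  have e1 := mul_le_mul_of_nonneg_left hvx g0
  have e2 : E * (x - 1) ^ 2 * (t - (n - 1) / n * ρ) / w ≤
      E * x ^ 2 * (t - (n - 1) / n * ρ) / w := by
    gcongr
  have e3 : (t₃ - t₁) * (2 * b * (x - 1) + b * (x - 1) ^ 2) ≤
      (t₃ - t₁) * ((2 / (n - 1) - G) * (x - 1) ^ 2) := by
    refine mul_le_mul_of_nonneg_left ?_ (by linarith)
    have := mul_nonpos_of_nonpos_of_nonneg hb (sub_nonneg.2 hx)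
    linarith [mul_le_mul_of_nonneg_right (show b ≤ 2 / (n - 1) - G by linarith) hv]
  have e4 := mul_nonneg hκ (sub_nonneg.2 hx)
  have e5 := mul_le_mul_of_nonneg_right hW hv
  have e6 : (2 + 4 * t₃ - 2 * t₁) / (n - 1) * (x - 1) ^ 2 ≤
      (2 + 2 * T3 + 2 * D3) / (n - 1) * (x - 1) ^ 2 := by
    gcongr
    linarith
  have e7 := mul_le_mul_of_nonneg_right (show t₁ ≤ T3 by linarith) (mul_nonneg hG0 hv)
  linear_combination hA + key' + e1 + e2 + e3 + e4 + e5 + e6 + e7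

/-- Above one. -/
theorem above_one {R : FarRow} (h : R.Good) {m : ℕ} {n w κ t₁ t₃ t x ρ W p b gain : ℝ}
    (hmn : (m : ℝ) = n - 1) (hm : R.N ≤ n) (hm79 : 79 ≤ m) (hκ : 0 ≤ κ) (h₁ : 0 ≤ t₁)
    (h₁₃ : t₁ ≤ t₃) (h₃ : t₃ ≤ R.t3) (hd : t₃ - t₁ ≤ R.dl) (ht0 : 0 < t) (ht1 : t < 1) (hw2 : w ^ 2 = n) (hw0 : 0 < w)
    (hT : 8 ≤ t * w) (hx1 : 1 ≤ x) (hρ : ρ ∈ Icc (-1 : ℝ) t) (hp : 0 < p)
    (hp2 : p ^ 2 = 1 - t ^ 2) (hp1 : p ≤ 1) (hy1 : 0 < 1 - t * ρ)
    (hcentre : 3 / 5 * (p / (1 - t * ρ)) ^ m ≤ x ^ 2) (henv : x ^ 2 * p ^ m ≤ 267 / 100)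
    (hchord : ρ ≤ (t - R.sg / w) / (1 - t * (R.sg / w)))
    (hW : R.fw * weightPoly p * t ^ 2 ≤ W) (hb : b ≤ 0) (hbu : b ≤ p - 1 + p / n)
    (hA : R.A * (p ^ 2 / n - t ^ 2) ≤ 0) (g0 : 0 ≤ gain)
    (g1 : R.eta * ((m : ℝ) / n) * weightPoly p / 2 * ρ ^ 2 ≤ gain)
    (g2 : ∀ α β, SurLine p α β → R.th * ((m : ℝ) / n) * (α * (t * ρ) - β) -
      (R.th - R.es) * ((m : ℝ) / n) * weightPoly p / 2 * ρ ^ 2 ≤ gain) :
    R.A * (p ^ 2 / n - t ^ 2) - R.E * x ^ 2 * (t - (n - 1) / n * ρ) / w +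
      R.k * TailCert.cubicF m x * (p ^ 2 - n * t ^ 2) +
      R.k * t * ρ * ((m : ℝ) / 2 * x * TailCert.cubicF' m x) +
      (2 / (m : ℝ) * (x - 1) ^ 2 + 2 / tailExp m * tailCubic m x) +
      ((t₃ - t₁) * (2 * b * (x - 1) + b * (x - 1) ^ 2) +
        t₃ * (2 / (m : ℝ) * (x - 1) ^ 2 + 2 / tailExp m * tailCubic m x) - κ * (x - 1)) ≤
      W * (x - 1) ^ 2 + gain * x ^ 2 := by
  have hN := h.N0
  have hn0 : 0 < n := by linarith
  have hm3 : 3 ≤ m := by omega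
  have hx : 0 < x := by linarith
  have hF : 2 / tailExp m * tailCubic m x = TailCert.cubicF m x := by
    rw [TailCert.cubicF, tailCubicPos, if_pos hx1]
  rw [TailCert.cubic_deriv hm3 hx1, hF]
  obtain ⟨G, hG, hG0, hG1, hG2⟩ := cubic_quotient hm79 hmn hp hp1 hx1 hy1 hcentre henv
  have hwt : t * (R.sg / w) < 1 := by
    rw [mul_div_assoc', div_lt_one hw0]
    have := mul_le_mul ht1.le h.sg1 (zero_le_one.trans h.sg0) zero_le_one
    have := mul_le_mul_of_nonneg_right ht1.le hw0.le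
    linarith
  have hy : t * ρ * (1 - t * (R.sg / w)) ≤ t * (t - R.sg / w) := by
    rw [mul_assoc]
    exact mul_le_mul_of_nonneg_left ((le_div_iff₀ (by linarith)).1 hchord) ht0.le
  have hdiv : t * ρ / t = ρ := by field_simp
  have key := FarRow.core h (n := n) (w := w) (t := t) (p := p) (y := t * ρ) (G := G)
    (gain := gain) hm hw2 hw0 ⟨ht0, ht1⟩ hp2 hp hT hy hG0 hG1 hG2 g0
    (by rw [hdiv, ← hmn]; exact g1)
    (fun α β hl' => by rw [hdiv, ← hmn]; exact g2 α β hl')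
  rw [hdiv] at key
  have hsg : 0 ≤ t - (n - 1) / n * ρ := by
    have hmm : (n - 1) / n ≤ 1 := (div_le_one hn0).2 (by linarith)
    rcases le_total ρ 0 with h0 | h0
    · linarith [mul_nonpos_of_nonneg_of_nonpos (div_nonneg (by linarith : 0 ≤ n - 1) hn0.le) h0]
    · linarith [mul_le_of_le_one_left h0 hmm, hρ.2]
  have hbG : b + G ≤ 2 / (n - 1) := by
    have : p / n ≤ p / (n - 1) := div_le_div_of_nonneg_left hp.le (by linarith) (by linarith)
    have : p / (n - 1) ≤ 1 / (n - 1) := div_le_div_of_nonneg_right hp1 (by linarith)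
    have : 2 / (n - 1) = 1 / (n - 1) + 1 / (n - 1) := by ring
    linarith
  rw [hG, hmn, show n - 1 - 1 = n - 2 by ring, show n - 1 - 2 = n - 3 by ring]
  exact combine (by linarith) hA h.E0 hw0 hsg hκ h₁ h₁₃ h₃ hd hx1 g0 hG0 hb hbG hW key

/-- The tail inequality in the far zone. -/
theorem FarRow.Good.le {R : FarRow} (h : R.Good) {m : ℕ} (hm : R.N ≤ (m : ℝ) + 1)
    {κ t₁ t₃ t x ρ W : ℝ} (hκ : 0 ≤ κ) (hκ' : κ * ((m : ℝ) + 1) ≤ R.K) (h₁ : 0 ≤ t₁)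
    (h₁₃ : t₁ ≤ t₃) (h₃ : t₃ ≤ R.t3) (hd : t₃ - t₁ ≤ R.dl) (ht : t ∈ Ioo (0 : ℝ) 1) (hT : 8 ≤ t * √((m : ℝ) + 1))
    (hx : 0 < x) (hρ : ρ ∈ Icc (-1 : ℝ) t)
    (hcentre : 3 / 5 * (ballShape t / (1 - t * ρ)) ^ m ≤ x ^ 2)
    (henv : x ^ 2 * ballShape t ^ m ≤ 267 / 100)
    (hchord : ρ ≤ (t - R.sg / √((m : ℝ) + 1)) / (1 - t * (R.sg / √((m : ℝ) + 1))))
    (hW : R.fw * weightPoly (ballShape t) * t ^ 2 ≤ W) :
    farLHS R m κ t₁ t₃ t x ρ ≤
      W * (x - 1) ^ 2 + R.th * tailGain m (bregPoly m) (R.es / R.th) t x ρ := by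
  obtain ⟨ht0, ht1⟩ := ht
  have hN := h.N0
  have hm79 : 79 ≤ m := by
    have : ((79 : ℕ) : ℝ) ≤ m := by push_cast; linarith
    exact_mod_cast this
  set n := (m : ℝ) + 1 with hn
  have hmn : (m : ℝ) = n - 1 := by rw [hn]; ring
  have hn0 : 0 < n := by linarith
  have hw0 : 0 < √n := Real.sqrt_pos.2 hn0
  have hw2 : √n ^ 2 = n := Real.sq_sqrt hn0.le
  have hp := ball_pos (sub01 ⟨ht0, ht1⟩)
  have hp2 := ball_sq (Ioo_subset_Icc_self (sub01 ⟨ht0, ht1⟩))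
  obtain ⟨h64, hp1, hb, hb', hr2⟩ := zone_facts (m := m) (by omega) ⟨ht0, ht1⟩ hw2 hw0 hT
  obtain ⟨g0, g1, g2⟩ := gain_lower h (m := m) (by omega) ⟨ht0, ht1⟩ hx hρ
  rw [← div_mul_cancel₀ (R.th * tailGain m (bregPoly m) (R.es / R.th) t x ρ)
    (pow_ne_zero 2 hx.ne')]
  rw [farLHS_eq R m κ t₁ t₃ t x ρ hn rfl, multLoss, tailLoss_eq (by omega)]
  have hA : R.A * (ballShape t ^ 2 / n - t ^ 2) ≤ -(R.A * (63 / 64) * t ^ 2) := by
    have e : ballShape t ^ 2 / n ≤ t ^ 2 / 64 := by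
      rw [div_le_div_iff₀ hn0 (by norm_num)]
      linarith [hp2, sq_nonneg t]
    linarith [mul_le_mul_of_nonneg_left e h.A0]
  rcases le_or_gt 1 x with hx1 | hx1
  · have hy1 : 0 < 1 - t * ρ := by
      nlinarith [mul_le_mul_of_nonneg_left (hρ.2.trans ht1.le) ht0.le]
    refine above_one h hmn hm hm79 hκ h₁ h₁₃ h₃ hd ht0 ht1 hw2 hw0 hT hx1 hρ hp hp2 (ball_le_one t)
      hy1 hcentre henv hchord hW (by linarith) ?_
      (hA.trans (neg_nonpos.2 (mul_nonneg (mul_nonneg h.A0 (by norm_num)) (sq_nonneg t)))) g0 g1 g2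
    have := mul_le_mul_of_nonneg_right hr2 hp.le
    linarith [show (1 + 1 / n) * ballShape t = ballShape t + ballShape t / n by ring]
  · have hF : TailCert.cubicF m x = 0 ∧ TailCert.cubicF' m x = 0 := by
      simp [TailCert.cubicF, TailCert.cubicF', tailCubicPos, tailCubicPos', hx1.not_ge]
    have hE : 0 ≤ R.E * x ^ 2 * (t - (n - 1) / n * ρ) / √n := by
      refine div_nonneg (mul_nonneg (mul_nonneg h.E0 (sq_nonneg x)) ?_) hw0.le
      have hmm : (n - 1) / n ≤ 1 := (div_le_one hn0).2 (by linarith)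
      rcases le_total ρ 0 with h0 | h0
      · linarith [mul_nonpos_of_nonneg_of_nonpos (div_nonneg (by linarith : 0 ≤ n - 1) hn0.le) h0]
      · linarith [mul_le_of_le_one_left h0 hmm, hρ.2]
    have htc := mul_nonpos_of_nonneg_of_nonpos
      (div_nonneg zero_le_two (by linarith [(tailExp_mem (m := m) (by omega)).1] :
        0 ≤ tailExp m))
      (tailCubic_nonpos (m := m) (by omega) hx hx1.le)
    rw [hF.1, hF.2]
    exact below_one h hn0 hm hκ hκ' h₁ h₁₃ h₃ hd hx hx1 hW (by linarith) hN hb' h64 hp1 hp.le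
      (le_of_eq hp2.symm) hA hE hmn htc g0 (ball_le_one t)

/-- More weight on the surplus or a larger share only helps. -/
theorem gain_mono {R : FarRow} (h : R.Good) {m : ℕ} (hm : 1 ≤ m) {θ η t x ρ : ℝ}
    (hθ : R.th ≤ θ) (hη : R.es ≤ η) (ht : t ∈ Ioo (0 : ℝ) 1) (hρ : ρ ∈ Icc (-1 : ℝ) t) :
    R.th * tailGain m (bregPoly m) (R.es / R.th) t x ρ ≤
      θ * tailGain m (bregPoly m) (η / θ) t x ρ := by
  have hθ0 : 0 < θ := h.th0.trans_le hθ
  have hρ' : ρ ∈ Icc (-1 : ℝ) 1 := ⟨hρ.1, hρ.2.trans ht.2.le⟩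
  have hQ := bregPoly_mul_le hm ht hρ'
  have hQ0 := mul_nonneg (bregPoly_nonneg m t) (sq_nonneg ρ)
  have hc : 0 ≤ (m : ℝ) / ballShape t * x ^ 2 :=
    mul_nonneg (div_nonneg (Nat.cast_nonneg m) (Real.sqrt_nonneg _)) (sq_nonneg x)
  simp only [tailGain]
  rw [mul_left_comm R.th, mul_left_comm θ]
  refine mul_le_mul_of_nonneg_left ?_ hc
  have e : ∀ a b : ℝ, b ≠ 0 → b * (pureBreg m t ρ - (1 - a / b) * (bregPoly m t * ρ ^ 2)) =
      b * pureBreg m t ρ - (b - a) * (bregPoly m t * ρ ^ 2) := fun a b hb => by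
    field_simp
  rw [e _ _ h.th0.ne', e _ _ hθ0.ne']
  have := mul_nonneg (sub_nonneg.2 hθ) (sub_nonneg.2 hQ)
  linarith [mul_nonneg (sub_nonneg.2 hη) hQ0]

end Vale.Agent.P237.Quant.TailFar
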