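import Mathlib
import Vale.Agent.P237.Quant.TailUniformFar
import Vale.Agent.P237.Quant.CertNeg
import Vale.Agent.P237.Quant.CertQuad
import Vale.Agent.P237.Quant.FluxBound
import Vale.Agent.P237.Quant.GeneralAssembly

/-!
The four rows of the far zone for `n ≥ 100`, by side and by whether the bin holds the ball: every condition of `FarRow.Good` is an inequality in
one variable, proved here by hand.
-/

namespace Vale.Agent.P237.Quant.TailFar

open Set

/-- The row of the positive side on the bin of the ball. -/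
noncomputable def farPosLow : FarRow where
  k := 3 / 10
  E := 0
  A := 0
  fw := 31 / 80
  eta := 29 / 100
  th := 129 / 100
  K := 0
  t3 := 11 / 50
  N := 100
  cT := 10
  kap := 23 / 20
  P0 := 14 / 25
  sg := 13 / 10
  dl := 0
  es := 63 / 200

/-- The row of the positive side above the ball. -/
noncomputable def farPosUp : FarRow where
  k := 67 / 200
  E := 1 / 2
  A := 1 / 100
  fw := 31 / 80
  eta := 27 / 100
  th := 5 / 4
  K := 1 / 10
  t3 := 11 / 50
  N := 100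
  cT := 10
  kap := 57 / 50
  P0 := 14 / 25
  sg := 61 / 50
  dl := 1 / 25
  es := 27 / 100

/-- The row of the negative side on the bin of the ball. -/
noncomputable def farNegLow : FarRow where
  k := 3 / 10
  E := 0
  A := 0
  fw := 977 / 2000
  eta := 1 / 50
  th := 3 / 4
  K := 0
  t3 := 3 / 50
  N := 100
  cT := 10
  kap := 23 / 20
  P0 := 14 / 25
  sg := 13 / 10
  dl := 0
  es := 1 / 50

/-- The row of the negative side above the ball. -/
noncomputable def farNegUp : FarRow where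
  k := 31 / 100
  E := 1 / 2
  A := 1 / 100
  fw := 977 / 2000
  eta := 1 / 50
  th := 3 / 4
  K := 1 / 20
  t3 := 7 / 100
  N := 100
  cT := 10
  kap := 57 / 50
  P0 := 14 / 25
  sg := 61 / 50
  dl := 1 / 40
  es := 1 / 50

theorem weightPoly_eq (p : ℝ) :
    weightPoly p = 1 - 257 / 250 * p ^ 2 + 263 / 500 * p ^ 3 + 1 / 500 * p ^ 4 := by
  unfold weightPoly
  ring

/-- The conditions at the ends from a line below the quotient of the root. -/
theorem ends_ok {R : FarRow} {p T₀ L : ℝ} (hp : p ∈ Icc (0 : ℝ) 1) (hT : 8 ≤ T₀)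
    (hT' : T₀ = 8 ∨ T₀ ^ 2 ≤ R.N * (1 - p ^ 2)) (hN : 80 ≤ R.N) (hfw : 0 ≤ R.fw)
    (hkf : R.k ≤ R.fw) (hs0 : 0 ≤ R.sg) (hs1 : R.sg ≤ 2)
    (hC : 1 + R.t3 - 2 * R.k - R.k * p ^ 2 * (R.sg * T₀ - 3) ≤ 0) (hL0 : 0 ≤ L)
    (hL : L * (1 - R.sg / T₀ * (1 - p ^ 2)) * (1 + p) ≤
      1 - (R.sg / T₀ + 53 / 100 * p / T₀ ^ 2) * (1 + p))
    (h5 : (R.k - R.fw) * T₀ ^ 2 + (R.rest + 53 / 100 * R.k * p + 53 / 800 * R.E * p) * (1 + p) -
      R.E * T₀ * p ≤ 0)
    (h6a : (R.N - 3) / (R.N - 1) / 3 * L *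
      (1 + R.t3 - 2 * R.k - R.k * p ^ 2 * (R.sg * T₀ - 3)) + R.k - R.fw * weightPoly p -
      R.eta / 2 * ((R.N - 1) / R.N) * (1 - R.sg / T₀) ^ 2 * weightPoly p ≤ 0)
    (h6b : ((R.N - 3) / (R.N - 1) / 3 * L *
      (1 + R.t3 - 2 * R.k - R.k * p ^ 2 * (R.sg * T₀ - 3)) + R.k - R.fw * weightPoly p -
      R.eta / 2 * ((R.N - 1) / R.N) * (1 - R.sg / T₀) ^ 2 * weightPoly p) * T₀ ^ 2 +
      (R.rest - R.sg * R.E * p ^ 2 - 2 * R.k * (1 - p ^ 2)) ≤ 0) :
    R.EndsOK p T₀ := by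
  have hp1 : 0 < 1 + p := by linarith [hp.1]
  have ha : R.sg / T₀ ≤ 1 / 4 := by rw [div_le_iff₀ (by linarith)]; linarith
  have ha0 : 0 ≤ R.sg / T₀ := div_nonneg hs0 (by linarith)
  have hden : 0 < 1 - R.sg / T₀ * (1 - p ^ 2) := by nlinarith [sq_nonneg p]
  have hU : L ≤ (1 / (1 + p) - R.sg / T₀ - 53 / 100 * p / T₀ ^ 2) /
      (1 - R.sg / T₀ * (1 - p ^ 2)) := by
    rw [le_div_iff₀ hden, show 1 / (1 + p) - R.sg / T₀ - 53 / 100 * p / T₀ ^ 2 =
      (1 - (R.sg / T₀ + 53 / 100 * p / T₀ ^ 2) * (1 + p)) / (1 + p) by field_simp; ring,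
      le_div_iff₀ hp1]
    exact hL
  have hf := one_le_weightPoly_mul hp
  have hc : (R.k / (1 + p) - R.fw * weightPoly p) * (1 + p) ≤ R.k - R.fw := by
    rw [sub_mul, div_mul_cancel₀ _ hp1.ne', mul_assoc]
    linarith [mul_le_mul_of_nonneg_left hf hfw]
  have hc0 : R.k / (1 + p) - R.fw * weightPoly p ≤ 0 :=
    nonpos_of_mul_nonpos_left (hc.trans (sub_nonpos.2 hkf)) hp1
  have hq : 0 ≤ (R.N - 3) / (R.N - 1) / 3 :=
    div_nonneg (div_nonneg (by linarith) (by linarith)) (by norm_num)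
  have hmono := mul_le_mul_of_nonpos_right (mul_le_mul_of_nonneg_left hU hq) hC
  refine ⟨hT, hT', hC, hL0.trans hU, hc0, ?_, ?_, ?_⟩
  · refine nonpos_of_mul_nonpos_left ?_ hp1
    have e : R.E * T₀ * p / (1 + p) * (1 + p) = R.E * T₀ * p := div_mul_cancel₀ _ hp1.ne'
    linarith [mul_le_mul_of_nonneg_right hc (sq_nonneg T₀)]
  · linarith
  · have := mul_le_mul_of_nonneg_right hmono (sq_nonneg T₀)
    linarith

theorem farPosLow_rest : farPosLow.rest = 244 / 99 := by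
  norm_num [FarRow.rest, farPosLow]

theorem farPosLow_flat {p : ℝ} (hp : p ∈ Ioc (0 : ℝ) farPosLow.P0) :
    farPosLow.k ≤ weightPoly p * (farPosLow.fw + farPosLow.eta / 2 * ((farPosLow.N - 1) / farPosLow.N)) ∧
      farPosLow.k * (1 - p ^ 2) +
          (farPosLow.rest - farPosLow.sg * farPosLow.E * p ^ 2 - 2 * farPosLow.k * (1 - p ^ 2)) / farPosLow.N ≤
        weightPoly p * (farPosLow.fw + farPosLow.eta / 2 * ((farPosLow.N - 1) / farPosLow.N)) * (1 - p ^ 2) := by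
  rw [farPosLow_rest]
  simp only [farPosLow] at hp ⊢
  obtain ⟨h0, h1⟩ := hp
  have hf := weightPoly_anti h0.le h1 (by norm_num)
  have hv : weightPoly (14 / 25 : ℝ) ≥ 76 / 100 := by norm_num [weightPoly_eq]
  have h2 : p ^ 2 ≤ 196 / 625 := (pow_le_pow_left₀ h0.le h1 2).trans_eq (by norm_num)
  refine ⟨by linarith, ?_⟩
  have := mul_le_mul_of_nonneg_right (hv.le.trans hf) (show 0 ≤ 1 - p ^ 2 by linarith)
  linarith [sq_nonneg p]

theorem farPosLow_surplus {p : ℝ} (hp : p ∈ Ioc (0 : ℝ) farPosLow.P0) : farPosLow.SurplusOK p := by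
  unfold FarRow.SurplusOK
  rw [farPosLow_rest]
  simp only [farPosLow] at hp ⊢
  obtain ⟨h0, h1⟩ := hp
  have hp1 : 0 < 1 + p := by linarith
  have h2 : p ^ 2 ≤ 196 / 625 := (pow_le_pow_left₀ h0.le h1 2).trans_eq (by norm_num)
  rw [weightPoly_eq]
  rcases le_or_gt p (1 / 20) with h | h
  · refine ⟨9 / (1 + p), (129 / 16) / (1 + p), Or.inr ⟨8, by norm_num, by norm_num, by norm_num⟩,
      by positivity, ?_, ?_, ?_, ?_, ?_⟩
    · rw [mul_div_assoc', div_le_iff₀ hp1]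
      nlinarith
    · rw [mul_div_assoc', le_div_iff₀ hp1]
      nlinarith
    · rw [show 9 / (1 + p) * (1 - 23 / 20 * p ^ 2) - 129 / 16 / (1 + p) =
        (9 * (1 - 23 / 20 * p ^ 2) - 129 / 16) / (1 + p) by ring]
      exact div_nonneg (by nlinarith) hp1.le
    all_goals
      rw [show 9 / (1 + p) * (1 - 23 / 20 * p ^ 2) - 129 / 16 / (1 + p) =
        (9 * (1 - 23 / 20 * p ^ 2) - 129 / 16) / (1 + p) by ring]
      refine nonpos_of_mul_nonpos_left ?_ hp1
      field_simp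
      nlinarith [mul_nonneg h0.le (sub_nonneg.2 h), mul_nonneg (sq_nonneg p) (sub_nonneg.2 h),
        mul_nonneg (pow_nonneg h0.le 3) (sub_nonneg.2 h),
        mul_nonneg (pow_nonneg h0.le 4) (sub_nonneg.2 h),
        mul_nonneg (pow_nonneg h0.le 5) (sub_nonneg.2 h),
        mul_nonneg (pow_nonneg h0.le 6) (sub_nonneg.2 h)]
  · have hd : 0 < p * (1 + p) := mul_pos h0 hp1
    have eS : 1 / (p * (1 + p)) * (1 - 23 / 20 * p ^ 2) - (1 - p) / (p * (1 + p)) =
        (1 - 23 / 20 * p) / (1 + p) := by field_simp; ring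
    refine ⟨1 / (p * (1 + p)), (1 - p) / (p * (1 + p)), Or.inl ⟨rfl, rfl⟩, by positivity,
      ?_, ?_, ?_, ?_, ?_⟩
    · rw [mul_one_div, div_le_iff₀ hd]
      nlinarith [mul_nonneg (sub_nonneg.2 h.le) (sub_nonneg.2 h1)]
    · rw [mul_one_div, le_div_iff₀ hd]
      nlinarith
    · rw [eS]; exact div_nonneg (by linarith) hp1.le
    all_goals
      rw [eS]
      refine nonpos_of_mul_nonpos_left ?_ hp1
      field_simp
      nlinarith [mul_nonneg (sub_nonneg.2 h.le) (sub_nonneg.2 h1),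
        mul_nonneg h0.le (mul_nonneg (sub_nonneg.2 h.le) (sub_nonneg.2 h1)),
        mul_nonneg (sq_nonneg p) (mul_nonneg (sub_nonneg.2 h.le) (sub_nonneg.2 h1)),
        sq_nonneg (p - 27 / 100), mul_nonneg h0.le (sq_nonneg (p - 27 / 100)),
        mul_nonneg (sq_nonneg p) (sq_nonneg (p - 27 / 100)),
        mul_nonneg (pow_nonneg h0.le 3) (sq_nonneg (p - 27 / 100)),
        mul_nonneg (pow_nonneg h0.le 4) (sq_nonneg (p - 27 / 100)),
        mul_nonneg (sub_nonneg.2 h1) (sq_nonneg (p - 27 / 100)),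
        mul_nonneg (mul_nonneg h0.le (sub_nonneg.2 h1)) (sq_nonneg (p - 27 / 100))]

theorem farPosLow_ends {p : ℝ} (hp : p ∈ Ico farPosLow.P0 1) (hp0 : 0 < p) :
    ∃ T₀, farPosLow.EndsOK p T₀ := by
  simp only [farPosLow] at hp
  obtain ⟨h0, h1⟩ := hp
  refine ⟨8, ends_ok (L := 792 / 1000 - 480 / 1000 * p) ⟨hp0.le, h1.le⟩ le_rfl (Or.inl rfl)
    ?_ ?_ ?_ ?_ ?_ ?_ ?_ ?_ ?_ ?_ ?_⟩ <;>
    (try simp only [FarRow.rest, weightPoly_eq, farPosLow]) <;>
    nlinarith [mul_nonneg (sub_nonneg.2 h0) (sub_nonneg.2 h1.le), sq_nonneg (p - 37 / 50),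
      mul_nonneg hp0.le (mul_nonneg (sub_nonneg.2 h0) (sub_nonneg.2 h1.le)),
      mul_nonneg hp0.le (sq_nonneg (p - 37 / 50))]

/-- The conditions of the row. -/
theorem farPosLow_good : farPosLow.Good where
  k0 := by norm_num [farPosLow]
  E0 := by norm_num [farPosLow]
  A0 := by norm_num [farPosLow]
  fw0 := by norm_num [farPosLow]
  eta0 := by norm_num [farPosLow]
  etath := by norm_num [farPosLow]
  etaes := by norm_num [farPosLow]
  th0 := by norm_num [farPosLow]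
  etak := by norm_num [farPosLow]
  K0 := by norm_num [farPosLow]
  t30 := by norm_num [farPosLow]
  dl0 := by norm_num [farPosLow]
  sg0 := by norm_num [farPosLow]
  sg1 := by norm_num [farPosLow]
  N0 := by norm_num [farPosLow]
  cT0 := by norm_num [farPosLow]
  cTN := by norm_num [farPosLow]
  cT8 := by norm_num [farPosLow]
  big := by norm_num [farPosLow]
  kap0 := by norm_num [farPosLow]
  P0r := by norm_num [farPosLow]
  low := fun w hw => by
    simp only [farPosLow]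
    nlinarith [sq_nonneg (w - 1 / 4), hw.1, hw.2]
  flat := fun _ hp => farPosLow_flat hp
  surplus := fun _ hp => farPosLow_surplus hp
  ends := fun _ hp hp0 => farPosLow_ends hp hp0

theorem farPosUp_rest : farPosUp.rest = 28 / 11 := by
  norm_num [FarRow.rest, farPosUp]

theorem farPosUp_flat {p : ℝ} (hp : p ∈ Ioc (0 : ℝ) farPosUp.P0) :
    farPosUp.k ≤ weightPoly p * (farPosUp.fw + farPosUp.eta / 2 * ((farPosUp.N - 1) / farPosUp.N)) ∧
      farPosUp.k * (1 - p ^ 2) +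
          (farPosUp.rest - farPosUp.sg * farPosUp.E * p ^ 2 - 2 * farPosUp.k * (1 - p ^ 2)) / farPosUp.N ≤
        weightPoly p * (farPosUp.fw + farPosUp.eta / 2 * ((farPosUp.N - 1) / farPosUp.N)) * (1 - p ^ 2) := by
  rw [farPosUp_rest]
  simp only [farPosUp] at hp ⊢
  obtain ⟨h0, h1⟩ := hp
  have hf := weightPoly_anti h0.le h1 (by norm_num)
  have hv : weightPoly (14 / 25 : ℝ) ≥ 76 / 100 := by norm_num [weightPoly_eq]
  have h2 : p ^ 2 ≤ 196 / 625 := (pow_le_pow_left₀ h0.le h1 2).trans_eq (by norm_num)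
  refine ⟨by linarith, ?_⟩
  have := mul_le_mul_of_nonneg_right (hv.le.trans hf) (show 0 ≤ 1 - p ^ 2 by linarith)
  linarith [sq_nonneg p]

theorem farPosUp_surplus {p : ℝ} (hp : p ∈ Ioc (0 : ℝ) farPosUp.P0) : farPosUp.SurplusOK p := by
  unfold FarRow.SurplusOK
  rw [farPosUp_rest]
  simp only [farPosUp] at hp ⊢
  obtain ⟨h0, h1⟩ := hp
  have hp1 : 0 < 1 + p := by linarith
  have h2 : p ^ 2 ≤ 196 / 625 := (pow_le_pow_left₀ h0.le h1 2).trans_eq (by norm_num)
  rw [weightPoly_eq]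
  rcases le_or_gt p (1 / 20) with h | h
  · refine ⟨9 / (1 + p), (129 / 16) / (1 + p), Or.inr ⟨8, by norm_num, by norm_num, by norm_num⟩,
      by positivity, ?_, ?_, ?_, ?_, ?_⟩
    · rw [mul_div_assoc', div_le_iff₀ hp1]
      nlinarith
    · rw [mul_div_assoc', le_div_iff₀ hp1]
      nlinarith
    · rw [show 9 / (1 + p) * (1 - 57 / 50 * p ^ 2) - 129 / 16 / (1 + p) =
        (9 * (1 - 57 / 50 * p ^ 2) - 129 / 16) / (1 + p) by ring]
      exact div_nonneg (by nlinarith) hp1.le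
    all_goals
      rw [show 9 / (1 + p) * (1 - 57 / 50 * p ^ 2) - 129 / 16 / (1 + p) =
        (9 * (1 - 57 / 50 * p ^ 2) - 129 / 16) / (1 + p) by ring]
      refine nonpos_of_mul_nonpos_left ?_ hp1
      field_simp
      nlinarith [mul_nonneg h0.le (sub_nonneg.2 h), mul_nonneg (sq_nonneg p) (sub_nonneg.2 h),
        mul_nonneg (pow_nonneg h0.le 3) (sub_nonneg.2 h),
        mul_nonneg (pow_nonneg h0.le 4) (sub_nonneg.2 h),
        mul_nonneg (pow_nonneg h0.le 5) (sub_nonneg.2 h),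
        mul_nonneg (pow_nonneg h0.le 6) (sub_nonneg.2 h)]
  · have hd : 0 < p * (1 + p) := mul_pos h0 hp1
    have eS : 1 / (p * (1 + p)) * (1 - 57 / 50 * p ^ 2) - (1 - p) / (p * (1 + p)) =
        (1 - 57 / 50 * p) / (1 + p) := by field_simp; ring
    refine ⟨1 / (p * (1 + p)), (1 - p) / (p * (1 + p)), Or.inl ⟨rfl, rfl⟩, by positivity,
      ?_, ?_, ?_, ?_, ?_⟩
    · rw [mul_one_div, div_le_iff₀ hd]
      nlinarith [mul_nonneg (sub_nonneg.2 h.le) (sub_nonneg.2 h1)]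
    · rw [mul_one_div, le_div_iff₀ hd]
      nlinarith
    · rw [eS]; exact div_nonneg (by linarith) hp1.le
    all_goals
      rw [eS]
      refine nonpos_of_mul_nonpos_left ?_ hp1
      field_simp
      nlinarith [mul_nonneg (sub_nonneg.2 h.le) (sub_nonneg.2 h1),
        mul_nonneg h0.le (mul_nonneg (sub_nonneg.2 h.le) (sub_nonneg.2 h1)),
        mul_nonneg (sq_nonneg p) (mul_nonneg (sub_nonneg.2 h.le) (sub_nonneg.2 h1)),
        sq_nonneg (p - 27 / 100), mul_nonneg h0.le (sq_nonneg (p - 27 / 100)),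
        mul_nonneg (sq_nonneg p) (sq_nonneg (p - 27 / 100)),
        mul_nonneg (pow_nonneg h0.le 3) (sq_nonneg (p - 27 / 100)),
        mul_nonneg (pow_nonneg h0.le 4) (sq_nonneg (p - 27 / 100)),
        mul_nonneg (sub_nonneg.2 h1) (sq_nonneg (p - 27 / 100)),
        mul_nonneg (mul_nonneg h0.le (sub_nonneg.2 h1)) (sq_nonneg (p - 27 / 100))]

theorem farPosUp_ends {p : ℝ} (hp : p ∈ Ico farPosUp.P0 1) (hp0 : 0 < p) :
    ∃ T₀, farPosUp.EndsOK p T₀ := by
  simp only [farPosUp] at hp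
  obtain ⟨h0, h1⟩ := hp
  refine ⟨8, ends_ok (L := 796 / 1000 - 473 / 1000 * p) ⟨hp0.le, h1.le⟩ le_rfl (Or.inl rfl)
    ?_ ?_ ?_ ?_ ?_ ?_ ?_ ?_ ?_ ?_ ?_⟩ <;>
    (try simp only [FarRow.rest, weightPoly_eq, farPosUp]) <;>
    nlinarith [mul_nonneg (sub_nonneg.2 h0) (sub_nonneg.2 h1.le), sq_nonneg (p - 37 / 50),
      mul_nonneg hp0.le (mul_nonneg (sub_nonneg.2 h0) (sub_nonneg.2 h1.le)),
      mul_nonneg hp0.le (sq_nonneg (p - 37 / 50))]

/-- The conditions of the row. -/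
theorem farPosUp_good : farPosUp.Good where
  k0 := by norm_num [farPosUp]
  E0 := by norm_num [farPosUp]
  A0 := by norm_num [farPosUp]
  fw0 := by norm_num [farPosUp]
  eta0 := by norm_num [farPosUp]
  etath := by norm_num [farPosUp]
  etaes := by norm_num [farPosUp]
  th0 := by norm_num [farPosUp]
  etak := by norm_num [farPosUp]
  K0 := by norm_num [farPosUp]
  t30 := by norm_num [farPosUp]
  dl0 := by norm_num [farPosUp]
  sg0 := by norm_num [farPosUp]
  sg1 := by norm_num [farPosUp]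
  N0 := by norm_num [farPosUp]
  cT0 := by norm_num [farPosUp]
  cTN := by norm_num [farPosUp]
  cT8 := by norm_num [farPosUp]
  big := by norm_num [farPosUp]
  kap0 := by norm_num [farPosUp]
  P0r := by norm_num [farPosUp]
  low := fun w hw => by
    simp only [farPosUp]
    nlinarith [sq_nonneg (w - 1 / 4), hw.1, hw.2]
  flat := fun _ hp => farPosUp_flat hp
  surplus := fun _ hp => farPosUp_surplus hp
  ends := fun _ hp hp0 => farPosUp_ends hp hp0

theorem farNegLow_rest : farNegLow.rest = 212 / 99 := by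
  norm_num [FarRow.rest, farNegLow]

theorem farNegLow_flat {p : ℝ} (hp : p ∈ Ioc (0 : ℝ) farNegLow.P0) :
    farNegLow.k ≤ weightPoly p * (farNegLow.fw + farNegLow.eta / 2 * ((farNegLow.N - 1) / farNegLow.N)) ∧
      farNegLow.k * (1 - p ^ 2) +
          (farNegLow.rest - farNegLow.sg * farNegLow.E * p ^ 2 - 2 * farNegLow.k * (1 - p ^ 2)) / farNegLow.N ≤
        weightPoly p * (farNegLow.fw + farNegLow.eta / 2 * ((farNegLow.N - 1) / farNegLow.N)) * (1 - p ^ 2) := by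
  rw [farNegLow_rest]
  simp only [farNegLow] at hp ⊢
  obtain ⟨h0, h1⟩ := hp
  have hf := weightPoly_anti h0.le h1 (by norm_num)
  have hv : weightPoly (14 / 25 : ℝ) ≥ 76 / 100 := by norm_num [weightPoly_eq]
  have h2 : p ^ 2 ≤ 196 / 625 := (pow_le_pow_left₀ h0.le h1 2).trans_eq (by norm_num)
  refine ⟨by linarith, ?_⟩
  have := mul_le_mul_of_nonneg_right (hv.le.trans hf) (show 0 ≤ 1 - p ^ 2 by linarith)
  linarith [sq_nonneg p]

theorem farNegLow_surplus {p : ℝ} (hp : p ∈ Ioc (0 : ℝ) farNegLow.P0) : farNegLow.SurplusOK p := by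
  unfold FarRow.SurplusOK
  rw [farNegLow_rest]
  simp only [farNegLow] at hp ⊢
  obtain ⟨h0, h1⟩ := hp
  have hp1 : 0 < 1 + p := by linarith
  have h2 : p ^ 2 ≤ 196 / 625 := (pow_le_pow_left₀ h0.le h1 2).trans_eq (by norm_num)
  rw [weightPoly_eq]
  rcases le_or_gt p (1 / 20) with h | h
  · refine ⟨9 / (1 + p), (129 / 16) / (1 + p), Or.inr ⟨8, by norm_num, by norm_num, by norm_num⟩,
      by positivity, ?_, ?_, ?_, ?_, ?_⟩
    · rw [mul_div_assoc', div_le_iff₀ hp1]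
      nlinarith
    · rw [mul_div_assoc', le_div_iff₀ hp1]
      nlinarith
    · rw [show 9 / (1 + p) * (1 - 23 / 20 * p ^ 2) - 129 / 16 / (1 + p) =
        (9 * (1 - 23 / 20 * p ^ 2) - 129 / 16) / (1 + p) by ring]
      exact div_nonneg (by nlinarith) hp1.le
    all_goals
      rw [show 9 / (1 + p) * (1 - 23 / 20 * p ^ 2) - 129 / 16 / (1 + p) =
        (9 * (1 - 23 / 20 * p ^ 2) - 129 / 16) / (1 + p) by ring]
      refine nonpos_of_mul_nonpos_left ?_ hp1
      field_simp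
      nlinarith [mul_nonneg h0.le (sub_nonneg.2 h), mul_nonneg (sq_nonneg p) (sub_nonneg.2 h),
        mul_nonneg (pow_nonneg h0.le 3) (sub_nonneg.2 h),
        mul_nonneg (pow_nonneg h0.le 4) (sub_nonneg.2 h),
        mul_nonneg (pow_nonneg h0.le 5) (sub_nonneg.2 h),
        mul_nonneg (pow_nonneg h0.le 6) (sub_nonneg.2 h)]
  · have hd : 0 < p * (1 + p) := mul_pos h0 hp1
    have eS : 1 / (p * (1 + p)) * (1 - 23 / 20 * p ^ 2) - (1 - p) / (p * (1 + p)) =
        (1 - 23 / 20 * p) / (1 + p) := by field_simp; ring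
    refine ⟨1 / (p * (1 + p)), (1 - p) / (p * (1 + p)), Or.inl ⟨rfl, rfl⟩, by positivity,
      ?_, ?_, ?_, ?_, ?_⟩
    · rw [mul_one_div, div_le_iff₀ hd]
      nlinarith [mul_nonneg (sub_nonneg.2 h.le) (sub_nonneg.2 h1)]
    · rw [mul_one_div, le_div_iff₀ hd]
      nlinarith
    · rw [eS]; exact div_nonneg (by linarith) hp1.le
    all_goals
      rw [eS]
      refine nonpos_of_mul_nonpos_left ?_ hp1
      field_simp
      nlinarith [mul_nonneg (sub_nonneg.2 h.le) (sub_nonneg.2 h1),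
        mul_nonneg h0.le (mul_nonneg (sub_nonneg.2 h.le) (sub_nonneg.2 h1)),
        mul_nonneg (sq_nonneg p) (mul_nonneg (sub_nonneg.2 h.le) (sub_nonneg.2 h1)),
        sq_nonneg (p - 17 / 100), mul_nonneg h0.le (sq_nonneg (p - 17 / 100)),
        mul_nonneg (sq_nonneg p) (sq_nonneg (p - 17 / 100)),
        mul_nonneg (pow_nonneg h0.le 3) (sq_nonneg (p - 17 / 100)),
        mul_nonneg (pow_nonneg h0.le 4) (sq_nonneg (p - 17 / 100)),
        mul_nonneg (sub_nonneg.2 h1) (sq_nonneg (p - 17 / 100)),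
        mul_nonneg (mul_nonneg h0.le (sub_nonneg.2 h1)) (sq_nonneg (p - 17 / 100))]

theorem farNegLow_ends {p : ℝ} (hp : p ∈ Ico farNegLow.P0 1) (hp0 : 0 < p) :
    ∃ T₀, farNegLow.EndsOK p T₀ := by
  simp only [farNegLow] at hp
  obtain ⟨h0, h1⟩ := hp
  refine ⟨8, ends_ok (L := 792 / 1000 - 480 / 1000 * p) ⟨hp0.le, h1.le⟩ le_rfl (Or.inl rfl)
    ?_ ?_ ?_ ?_ ?_ ?_ ?_ ?_ ?_ ?_ ?_⟩ <;>
    (try simp only [FarRow.rest, weightPoly_eq, farNegLow]) <;>
    nlinarith [mul_nonneg (sub_nonneg.2 h0) (sub_nonneg.2 h1.le), sq_nonneg (p - 37 / 50),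
      mul_nonneg hp0.le (mul_nonneg (sub_nonneg.2 h0) (sub_nonneg.2 h1.le)),
      mul_nonneg hp0.le (sq_nonneg (p - 37 / 50))]

/-- The conditions of the row. -/
theorem farNegLow_good : farNegLow.Good where
  k0 := by norm_num [farNegLow]
  E0 := by norm_num [farNegLow]
  A0 := by norm_num [farNegLow]
  fw0 := by norm_num [farNegLow]
  eta0 := by norm_num [farNegLow]
  etath := by norm_num [farNegLow]
  etaes := by norm_num [farNegLow]
  th0 := by norm_num [farNegLow]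
  etak := by norm_num [farNegLow]
  K0 := by norm_num [farNegLow]
  t30 := by norm_num [farNegLow]
  dl0 := by norm_num [farNegLow]
  sg0 := by norm_num [farNegLow]
  sg1 := by norm_num [farNegLow]
  N0 := by norm_num [farNegLow]
  cT0 := by norm_num [farNegLow]
  cTN := by norm_num [farNegLow]
  cT8 := by norm_num [farNegLow]
  big := by norm_num [farNegLow]
  kap0 := by norm_num [farNegLow]
  P0r := by norm_num [farNegLow]
  low := fun w hw => by
    simp only [farNegLow]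
    nlinarith [sq_nonneg (w - 1 / 4), hw.1, hw.2]
  flat := fun _ hp => farNegLow_flat hp
  surplus := fun _ hp => farNegLow_surplus hp
  ends := fun _ hp hp0 => farNegLow_ends hp hp0

theorem farNegUp_rest : farNegUp.rest = 73 / 33 := by
  norm_num [FarRow.rest, farNegUp]

theorem farNegUp_flat {p : ℝ} (hp : p ∈ Ioc (0 : ℝ) farNegUp.P0) :
    farNegUp.k ≤ weightPoly p * (farNegUp.fw + farNegUp.eta / 2 * ((farNegUp.N - 1) / farNegUp.N)) ∧
      farNegUp.k * (1 - p ^ 2) +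
          (farNegUp.rest - farNegUp.sg * farNegUp.E * p ^ 2 - 2 * farNegUp.k * (1 - p ^ 2)) / farNegUp.N ≤
        weightPoly p * (farNegUp.fw + farNegUp.eta / 2 * ((farNegUp.N - 1) / farNegUp.N)) * (1 - p ^ 2) := by
  rw [farNegUp_rest]
  simp only [farNegUp] at hp ⊢
  obtain ⟨h0, h1⟩ := hp
  have hf := weightPoly_anti h0.le h1 (by norm_num)
  have hv : weightPoly (14 / 25 : ℝ) ≥ 76 / 100 := by norm_num [weightPoly_eq]
  have h2 : p ^ 2 ≤ 196 / 625 := (pow_le_pow_left₀ h0.le h1 2).trans_eq (by norm_num)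
  refine ⟨by linarith, ?_⟩
  have := mul_le_mul_of_nonneg_right (hv.le.trans hf) (show 0 ≤ 1 - p ^ 2 by linarith)
  linarith [sq_nonneg p]

theorem farNegUp_surplus {p : ℝ} (hp : p ∈ Ioc (0 : ℝ) farNegUp.P0) : farNegUp.SurplusOK p := by
  unfold FarRow.SurplusOK
  rw [farNegUp_rest]
  simp only [farNegUp] at hp ⊢
  obtain ⟨h0, h1⟩ := hp
  have hp1 : 0 < 1 + p := by linarith
  have h2 : p ^ 2 ≤ 196 / 625 := (pow_le_pow_left₀ h0.le h1 2).trans_eq (by norm_num)
  rw [weightPoly_eq]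
  rcases le_or_gt p (1 / 20) with h | h
  · refine ⟨9 / (1 + p), (129 / 16) / (1 + p), Or.inr ⟨8, by norm_num, by norm_num, by norm_num⟩,
      by positivity, ?_, ?_, ?_, ?_, ?_⟩
    · rw [mul_div_assoc', div_le_iff₀ hp1]
      nlinarith
    · rw [mul_div_assoc', le_div_iff₀ hp1]
      nlinarith
    · rw [show 9 / (1 + p) * (1 - 57 / 50 * p ^ 2) - 129 / 16 / (1 + p) =
        (9 * (1 - 57 / 50 * p ^ 2) - 129 / 16) / (1 + p) by ring]
      exact div_nonneg (by nlinarith) hp1.le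
    all_goals
      rw [show 9 / (1 + p) * (1 - 57 / 50 * p ^ 2) - 129 / 16 / (1 + p) =
        (9 * (1 - 57 / 50 * p ^ 2) - 129 / 16) / (1 + p) by ring]
      refine nonpos_of_mul_nonpos_left ?_ hp1
      field_simp
      nlinarith [mul_nonneg h0.le (sub_nonneg.2 h), mul_nonneg (sq_nonneg p) (sub_nonneg.2 h),
        mul_nonneg (pow_nonneg h0.le 3) (sub_nonneg.2 h),
        mul_nonneg (pow_nonneg h0.le 4) (sub_nonneg.2 h),
        mul_nonneg (pow_nonneg h0.le 5) (sub_nonneg.2 h),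
        mul_nonneg (pow_nonneg h0.le 6) (sub_nonneg.2 h)]
  · have hd : 0 < p * (1 + p) := mul_pos h0 hp1
    have eS : 1 / (p * (1 + p)) * (1 - 57 / 50 * p ^ 2) - (1 - p) / (p * (1 + p)) =
        (1 - 57 / 50 * p) / (1 + p) := by field_simp; ring
    refine ⟨1 / (p * (1 + p)), (1 - p) / (p * (1 + p)), Or.inl ⟨rfl, rfl⟩, by positivity,
      ?_, ?_, ?_, ?_, ?_⟩
    · rw [mul_one_div, div_le_iff₀ hd]
      nlinarith [mul_nonneg (sub_nonneg.2 h.le) (sub_nonneg.2 h1)]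
    · rw [mul_one_div, le_div_iff₀ hd]
      nlinarith
    · rw [eS]; exact div_nonneg (by linarith) hp1.le
    all_goals
      rw [eS]
      refine nonpos_of_mul_nonpos_left ?_ hp1
      field_simp
      nlinarith [mul_nonneg (sub_nonneg.2 h.le) (sub_nonneg.2 h1),
        mul_nonneg h0.le (mul_nonneg (sub_nonneg.2 h.le) (sub_nonneg.2 h1)),
        mul_nonneg (sq_nonneg p) (mul_nonneg (sub_nonneg.2 h.le) (sub_nonneg.2 h1)),
        sq_nonneg (p - 1 / 5), mul_nonneg h0.le (sq_nonneg (p - 1 / 5)),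
        mul_nonneg (sq_nonneg p) (sq_nonneg (p - 1 / 5)),
        mul_nonneg (pow_nonneg h0.le 3) (sq_nonneg (p - 1 / 5)),
        mul_nonneg (pow_nonneg h0.le 4) (sq_nonneg (p - 1 / 5)),
        mul_nonneg (sub_nonneg.2 h1) (sq_nonneg (p - 1 / 5)),
        mul_nonneg (mul_nonneg h0.le (sub_nonneg.2 h1)) (sq_nonneg (p - 1 / 5))]

theorem farNegUp_ends {p : ℝ} (hp : p ∈ Ico farNegUp.P0 1) (hp0 : 0 < p) :
    ∃ T₀, farNegUp.EndsOK p T₀ := by
  simp only [farNegUp] at hp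
  obtain ⟨h0, h1⟩ := hp
  refine ⟨8, ends_ok (L := 796 / 1000 - 473 / 1000 * p) ⟨hp0.le, h1.le⟩ le_rfl (Or.inl rfl)
    ?_ ?_ ?_ ?_ ?_ ?_ ?_ ?_ ?_ ?_ ?_⟩ <;>
    (try simp only [FarRow.rest, weightPoly_eq, farNegUp]) <;>
    nlinarith [mul_nonneg (sub_nonneg.2 h0) (sub_nonneg.2 h1.le), sq_nonneg (p - 37 / 50),
      mul_nonneg hp0.le (mul_nonneg (sub_nonneg.2 h0) (sub_nonneg.2 h1.le)),
      mul_nonneg hp0.le (sq_nonneg (p - 37 / 50))]

/-- The conditions of the row. -/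
theorem farNegUp_good : farNegUp.Good where
  k0 := by norm_num [farNegUp]
  E0 := by norm_num [farNegUp]
  A0 := by norm_num [farNegUp]
  fw0 := by norm_num [farNegUp]
  eta0 := by norm_num [farNegUp]
  etath := by norm_num [farNegUp]
  etaes := by norm_num [farNegUp]
  th0 := by norm_num [farNegUp]
  etak := by norm_num [farNegUp]
  K0 := by norm_num [farNegUp]
  t30 := by norm_num [farNegUp]
  dl0 := by norm_num [farNegUp]
  sg0 := by norm_num [farNegUp]
  sg1 := by norm_num [farNegUp]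
  N0 := by norm_num [farNegUp]
  cT0 := by norm_num [farNegUp]
  cTN := by norm_num [farNegUp]
  cT8 := by norm_num [farNegUp]
  big := by norm_num [farNegUp]
  kap0 := by norm_num [farNegUp]
  P0r := by norm_num [farNegUp]
  low := fun w hw => by
    simp only [farNegUp]
    nlinarith [sq_nonneg (w - 1 / 4), hw.1, hw.2]
  flat := fun _ hp => farNegUp_flat hp
  surplus := fun _ hp => farNegUp_surplus hp
  ends := fun _ hp hp0 => farNegUp_ends hp hp0

/-- A potential of the positive side pays the share `fw`. -/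
theorem farPos_weight {R : PosRow} (hlam : 0 ≤ R.lam) (hcy : 0 ≤ R.cy)
    (hf : (31 / 40 : ℚ) ≤ R.f) {m : ℕ} (hm : 1 ≤ m) (t : ℝ) :
    farPosUp.fw * weightPoly (ballShape t) * t ^ 2 ≤ R.W m t := by
  have hm0 : (0 : ℝ) < m := by exact_mod_cast hm
  have h1 : (0 : ℝ) ≤ R.lam := by exact_mod_cast hlam
  have h2 : (0 : ℝ) ≤ R.cy := by exact_mod_cast hcy
  have h3 : (31 / 40 : ℝ) ≤ R.f := by
    have := (Rat.cast_le (K := ℝ)).2 hf
    push_cast at this
    exact this
  have hw := (weightPoly_mem (ball_mem_Icc t)).1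
  have hb : 0 ≤ 1 - ballShape t := sub_nonneg.2 (ball_le_one t)
  have e : (farPosUp.fw * weightPoly (ballShape t) * t ^ 2) * m ≤
      max (R.a : ℝ) ((R.f : ℝ) / 2 * weightPoly (ballShape t) * (((m : ℝ) + 1) * t ^ 2)) := by
    refine le_trans ?_ (le_max_right _ _)
    have hs : 0 ≤ weightPoly (ballShape t) * t ^ 2 := mul_nonneg hw (sq_nonneg t)
    simp only [farPosUp]
    nlinarith [mul_le_mul_of_nonneg_right h3 (mul_nonneg hs hm0.le),
      mul_nonneg (show (0 : ℝ) ≤ R.f by linarith) hs]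
  have : 0 ≤ ((R.lam : ℝ) + (R.cy : ℝ) * (((m : ℝ) + 1) * (1 - ballShape t))) / ((m : ℝ) + 1) :=
    div_nonneg (add_nonneg h1 (mul_nonneg h2 (mul_nonneg (by positivity) hb))) (by positivity)
  unfold PosRow.W
  linarith [(le_div_iff₀ hm0).2 e]

/-- The potential of the negative side pays the share `fw`. -/
theorem farNeg_weight {m : ℕ} (hm : 1 ≤ m) (t : ℝ) :
    farNegUp.fw * weightPoly (ballShape t) * t ^ 2 ≤ negW m t := by
  have hm0 : (0 : ℝ) < m := by exact_mod_cast hm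
  have hw := (weightPoly_mem (ball_mem_Icc t)).1
  have e : (farNegUp.fw * weightPoly (ballShape t) * t ^ 2) * m ≤
      max (49 / 20 : ℝ) (977 / 2000 * weightPoly (ballShape t) * (((m : ℝ) + 1) * t ^ 2)) := by
    refine le_trans ?_ (le_max_right _ _)
    simp only [farNegUp]
    nlinarith [mul_nonneg hw (sq_nonneg t)]
  have : 0 ≤ 21 / (100 * ((m : ℝ) + 1)) := by positivity
  unfold negW
  linarith [(le_div_iff₀ hm0).2 e]

end Vale.Agent.P237.Quant.TailFar
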