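import Mathlib
import Vale.Agent.P237.Quant.TailLagrange
import Vale.Agent.P237.Quant.TailUniformCell

/-!
The pointwise inequality on an interval of a range of dimensions: it is below the rows at `1 / n`,
and these are nonpositive by the cells at both ends.
-/

namespace Vale.Agent.P237.Quant.TailUniform

open TailCert TailTuple Four.Checker Set

theorem midPieces_two {f g : PieceR → ℕ × ℕ → ℕ × ℕ → Bool} {D : ℤ} {R R' : Rows} :
    ∀ {c : ℤ} {L : List ℤ} {a b : List (ℕ × ℕ)},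
      piecesWith f (midPieces D R (c :: L)) a b = true →
      piecesWith g (midPieces D R' (c :: L)) a b = true → ∀ {x y : ℤ}, (x, y) ∈ List.zip (c :: L) L →
        ∃ M N, f (mkPiece D R x y) M N = true ∧ g (mkPiece D R' x y) M N = true
  | c, [], a, b, _, _, x, y, h => by simp at h
  | c, d :: L, a, b, hf, hg, x, y, h => by
      simp only [midPieces, piecesWith, Bool.and_eq_true] at hf hg
      simp only [List.zip_cons_cons, List.mem_cons, Prod.mk.injEq] at h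
      rcases h with ⟨rfl, rfl⟩ | h
      · exact ⟨_, _, hf.1, hg.1⟩
      · exact midPieces_two hf.2 hg.2 h

/-- The rows at `ε` after the square of one piece is taken off. -/
noncomputable def squareV (V : RV) (nu : ℕ) (τ ς : ℝ) (Dr : ℤ) : RV :=
  { V with
    a0 := V.a0 + nu * ς ^ 2
    a1b := V.a1b + 2 * nu * τ * ς
    a1u := V.a1u + 2 * nu * τ * ς
    b0 := V.b0 - 2 * nu * ς * Dr
    a2b := V.a2b + nu * τ ^ 2
    a2u := V.a2u + nu * τ ^ 2
    b1 := V.b1 - 2 * nu * τ * Dr - 2 * nu * ς * Dr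
    b2b := V.b2b - 2 * nu * τ * Dr
    b2u := V.b2u - 2 * nu * τ * Dr
    g := V.g - nu * (Dr : ℝ) ^ 2 }

/-- The conclusion of one end on a segment. -/
def EndBound (C : Cfg) (I : Ival) (s : Seg) (ε k A U X v R : ℝ) (x₀ x₁ : ℤ) (M N : ℕ × ℕ) : Prop :=
  let V := I.rowsV C ε k A
  (s.below = true → 3 * V.below v R + padVal C I ε A R U X v x₀ x₁ M ≤ 0) ∧
    (s.below = false → 0 ≤ s.major v →
      (C.Dc : ℝ) * V.above v R 0 + padVal C I ε A R U X v x₀ x₁ M ≤ 0 ∧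
      (C.Dc : ℝ) * V.above v R (s.major v / C.Dc) + padVal C I ε A R U X v x₀ x₁ N ≤ 0)

/-- One piece at one end. -/
theorem end_piece {C : Cfg} {I : Ival} {s : Seg} {U X A v R ε : ℝ} {e : ℤ × ℤ} {kl x₀ x₁ : ℤ}
    {q : PieceR} {M N : ℕ × ℕ} (H : Head C) (w : Wt I U X A) (he : (e.1 : ℝ) = e.2 * ε)
    (hed : (0 : ℝ) < e.2) (hlt : s.V0 < s.V1) (h0 : (s.V0 : ℝ) / C.Dv ≤ v)
    (h1 : v ≤ (s.V1 : ℝ) / C.Dv) (hR : q.Holds C.Dr R)
    (hsign : q.Signed (I.rowsV C ε kl A) R) (hskip : q.first = true ∨ q.R0 < s.R ∨ q.R0 = s.R)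
    (h : ((!q.first && decide (s.R < q.R0)) ||
      pieceTest C (s.rowsFor C.Dr e.2 (I.rows C e kl) q) (I.pads C e x₀ x₁) s q M N) = true) :
    EndBound C I s ε kl A U X v R x₀ x₁ M N := by
  simp only [Bool.or_eq_true, Bool.and_eq_true, Bool.not_eq_true', decide_eq_true_eq] at h
  have ht : pieceTest C (s.rowsFor C.Dr e.2 (I.rows C e kl) q) (I.pads C e x₀ x₁) s q M N = true := by
    refine h.resolve_left fun hh => ?_
    rcases hskip with h' | h' | h'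
    · rw [h'] at hh; exact absurd hh.1 (by simp)
    · exact absurd hh.2 (not_lt.2 h'.le)
    · exact absurd hh.2 (not_lt.2 h'.le)
  have hr := rows_rep (C := C) w he kl
  obtain ⟨nu, tau, sg, hrow⟩ : ∃ (nu : ℕ) (tau sg : ℤ), s.rowsFor C.Dr e.2 (I.rows C e kl) q =
      (I.rows C e kl).square C.Dr e.2 nu tau s.dtau sg s.dsig := by
    rw [Seg.rowsFor]
    by_cases hq : q.right = true
    · exact ⟨s.nu1, s.tau1, s.sig1, if_pos hq⟩
    · exact ⟨s.nu0, s.tau0, s.sig0, if_neg hq⟩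
  rw [hrow] at ht
  set V := I.rowsV C ε kl A with hV
  set τ : ℝ := (tau : ℝ) * U + ((tau : ℝ) + s.dtau) * X
  set ς : ℝ := (sg : ℝ) * U + ((sg : ℝ) + s.dsig) * X
  have key := piece_sound H w he hed (V := squareV V nu τ ς C.Dr) (square_rep (ε := ε) w hr rfl nu tau s.dtau sg s.dsig rfl rfl) hlt h0 h1
    hR hsign ht
  have hs : 0 ≤ (nu : ℝ) * ((C.Dr : ℝ) * (1 + v) * R - τ * v - ς) ^ 2 :=
    mul_nonneg (Nat.cast_nonneg _) (sq_nonneg _)
  constructor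
  · intro hb
    have := key.1 hb
    rw [squareV, square_below] at this
    rw [← hV]
    linarith
  · intro hb hmaj
    obtain ⟨a, b⟩ := key.2 hb hmaj
    rw [squareV, square_above] at a b
    rw [← hV]
    have := mul_nonneg H.Dc.le hs
    constructor <;> linarith

/-- The two ends as fractions. -/
theorem ends_eps {C : Cfg} (H : Head C) :
    ((C.end0.1 : ℝ) = C.end0.2 * (C.e0 : ℝ) ∧ (0 : ℝ) < C.end0.2) ∧
      ((C.end1.1 : ℝ) = C.end1.2 * (C.e1 : ℝ) ∧ (0 : ℝ) < C.end1.2) := by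
  have hlo : (7 : ℝ) ≤ C.lo := by exact_mod_cast H.lo
  refine ⟨?_, ?_⟩
  · unfold Cfg.end0 Cfg.e0
    by_cases h : C.hi = 0
    · rw [if_pos h, if_pos h]; simp
    · rw [if_neg h, if_neg h]
      simp only [cast_ofNat']
      push_cast
      exact ⟨(mul_one_div_cancel (Nat.cast_ne_zero.2 h)).symm,
        Nat.cast_pos.2 (Nat.pos_of_ne_zero h)⟩
  · unfold Cfg.end1 Cfg.e1
    simp only [cast_ofNat']
    push_cast
    exact ⟨(mul_one_div_cancel (by linarith)).symm, by linarith⟩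

/-- Both ends on one segment with the same multipliers. -/
theorem two_ends {C : Cfg} {I : Ival} {s : Seg} {U X A v R : ℝ} (H : Head C) (w : Wt I U X A)
    (hcut : cutChain I.segs I.cuts = true) (hcell : I.cellsOK C = true) (hs : s ∈ I.segs)
    (hlt : s.V0 < s.V1) (h0 : (s.V0 : ℝ) / C.Dv ≤ v) (h1 : v ≤ (s.V1 : ℝ) / C.Dv)
    (hRs : R ≤ (s.R : ℝ) / C.Dr) :
    ∃ M N, EndBound C I s C.e0 I.kl0 A U X v R I.ex00 I.ex01 M N ∧
      EndBound C I s C.e1 I.kl1 A U X v R I.ex10 I.ex11 M N := by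
  obtain ⟨⟨he0, hd0⟩, he1, hd1⟩ := ends_eps H
  simp only [Ival.cellsOK, Ival.cellsAt, Bool.and_eq_true, List.all_eq_true] at hcell
  have hA := hcell.1 s hs
  have hB := hcell.2 s hs
  rcases hc : I.cuts with - | ⟨c, L⟩
  · simp [hc, cutChain] at hcut
  rw [hc] at hcut hA hB
  simp only [segCells, pieces, piecesWith, Bool.and_eq_true] at hA hB
  have r0 := rows_rep (C := C) w he0 I.kl0
  have r1 := rows_rep (C := C) w he1 I.kl1
  rcases pieces_sound hs H.Dr hRs hcut with hR | ⟨a, b, hab, hlt', haR, hR0, hR1⟩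
  · have hh : ∀ Rw, (mkFirst C.Dr Rw c).Holds C.Dr R := fun Rw => by
      simp only [PieceR.Holds, mkFirst, if_true]; exact hR
    exact ⟨_, _, end_piece H w he0 hd0 hlt h0 h1 (hh _) (first_signed w.hU w.hX r0 hd0 H.Dr hR)
        (.inl rfl) hA.1,
      end_piece H w he1 hd1 hlt h0 h1 (hh _) (first_signed w.hU w.hX r1 hd1 H.Dr hR) (.inl rfl) hB.1⟩
  · obtain ⟨M, N, hf, hg⟩ := midPieces_two hA.2 hB.2 hab
    have hh : ∀ Rw, (mkPiece C.Dr Rw a b).Holds C.Dr R := fun Rw => by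
      simp only [PieceR.Holds, mkPiece, Bool.false_eq_true, if_false]; exact ⟨hlt', hR0, hR1⟩
    exact ⟨M, N, end_piece H w he0 hd0 hlt h0 h1 (hh _)
        (mid_signed w.hU w.hX r0 hd0 H.Dr hR0 hR1) (.inr (.inl haR)) hf,
      end_piece H w he1 hd1 hlt h0 h1 (hh _)
        (mid_signed w.hU w.hX r1 hd1 H.Dr hR0 hR1) (.inr (.inl haR)) hg⟩

/-- The rows are nonpositive between the ends. -/
theorem rows_nonpos {C : Cfg} {I : Ival} {s : Seg} {U X A v R l ε : ℝ} (H : Head C)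
    {x₀₀ x₀₁ x₁₀ x₁₁ : ℤ} {M N : ℕ × ℕ} (hl0 : 0 ≤ l) (hl1 : l ≤ 1)
    (hε : ε = (1 - l) * (C.e0 : ℝ) + l * C.e1) (he : (C.e0 : ℝ) ≤ C.e1)
    (hk : (I.kl0 : ℝ) ≤ I.kl1)
    (hA : EndBound C I s C.e0 I.kl0 A U X v R x₀₀ x₀₁ M N)
    (hB : EndBound C I s C.e1 I.kl1 A U X v R x₁₀ x₁₁ M N)
    (hμ : 0 ≤ slopeCons C I ε A R)
    (hν : 0 ≤ (1 - l) * chordCons C x₀₀ x₀₁ U X v + l * chordCons C x₁₀ x₁₁ U X v) :
    let V := I.rowsV C ε ((1 - l) * I.kl0 + l * I.kl1) A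
    (s.below = true → V.below v R ≤ 0) ∧
      (s.below = false → ∀ G, 0 ≤ G → G ≤ s.major v / C.Dc → V.above v R G ≤ 0) := by
  subst hε
  intro V
  set V0 := I.rowsV C C.e0 I.kl0 A
  set V1 := I.rowsV C C.e1 I.kl1 A
  obtain ⟨hc, hg⟩ := rowsV_comb (C := C) (I := I) (e₀ := (C.e0 : ℝ)) (e₁ := (C.e1 : ℝ))
    (k₀ := (I.kl0 : ℝ)) (k₁ := (I.kl1 : ℝ)) (l := l) (A := A)
  have pad : ∀ M : ℕ × ℕ, 0 ≤ (1 - l) * padVal C I C.e0 A R U X v x₀₀ x₀₁ M +
      l * padVal C I C.e1 A R U X v x₁₀ x₁₁ M := fun M => by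
    have h1 := mul_nonneg (Nat.cast_nonneg (α := ℝ) M.1) hμ
    have h2 := mul_nonneg (Nat.cast_nonneg (α := ℝ) M.2) hν
    simp only [padVal, slopeCons] at h1 h2 ⊢
    linarith
  have hgle : (1 - l) * V0.g + l * V1.g ≤ V.g := by
    rw [hg]
    have : 0 ≤ (C.nd : ℝ) * C.et * (C.Dt : ℝ) ^ 2 *
        (l * (1 - l) * ((C.e1 : ℝ) - C.e0) * ((I.kl1 : ℝ) - I.kl0)) :=
      mul_nonneg (mul_nonneg (mul_nonneg H.nd.le H.et) (sq_nonneg _))
        (mul_nonneg (mul_nonneg (mul_nonneg hl0 (by linarith)) (by linarith)) (by linarith))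
    linarith
  have hq := mul_le_mul_of_nonneg_right (mul_le_mul_of_nonneg_right hgle (sq_nonneg (1 + v)))
    (sq_nonneg R)
  constructor
  · intro hb
    have a := mul_le_mul_of_nonneg_left (hA.1 hb) (sub_nonneg.2 hl1)
    have b := mul_le_mul_of_nonneg_left (hB.1 hb) hl0
    have e := RV.below_comb (1 - l) l V0 V1 v R
    rw [hc] at e
    have := pad M
    simp only [RV.below] at e a b ⊢
    linarith
  · intro hb G hG0 hG1
    have hDc := H.Dc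
    obtain ⟨z0, f0⟩ := hA.2 hb (nonneg_of_mul_nonneg_left
      (show 0 ≤ s.major v * (1 / (C.Dc : ℝ)) by rw [mul_one_div]; linarith) (by positivity))
    obtain ⟨z1, f1⟩ := hB.2 hb (nonneg_of_mul_nonneg_left
      (show 0 ≤ s.major v * (1 / (C.Dc : ℝ)) by rw [mul_one_div]; linarith) (by positivity))
    have key : ∀ G' : ℝ, ∀ M : ℕ × ℕ,
        (C.Dc : ℝ) * V0.above v R G' + padVal C I C.e0 A R U X v x₀₀ x₀₁ M ≤ 0 →
        (C.Dc : ℝ) * V1.above v R G' + padVal C I C.e1 A R U X v x₁₀ x₁₁ M ≤ 0 →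
        V.above v R G' ≤ 0 := fun G' M a b => by
      have a' := mul_le_mul_of_nonneg_left a (sub_nonneg.2 hl1)
      have b' := mul_le_mul_of_nonneg_left b hl0
      have e := RV.above_comb (1 - l) l V0 V1 v R G'
      rw [hc] at e
      have := pad M
      refine le_of_mul_le_mul_left ?_ hDc
      have h3 : V.above v R G' ≤ (1 - l) * V0.above v R G' + l * V1.above v R G' := by
        rw [← e]
        simp only [RV.above]
        linarith
      have := mul_le_mul_of_nonneg_left h3 hDc.le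
      linarith
    have k0 := key 0 M z0 z1
    have k1 := key _ N f0 f1
    set P := s.major v / (C.Dc : ℝ)
    have e : V.above v R G = V.above v R 0 + G * (V.V0 + R * V.V1) := by
      simp only [RV.above]; ring
    have e' : V.above v R P = V.above v R 0 + P * (V.V0 + R * V.V1) := by
      simp only [RV.above]; ring
    rcases le_total 0 (V.V0 + R * V.V1) with hs | hs
    · linarith [mul_le_mul_of_nonneg_right hG1 hs]
    · linarith [mul_nonpos_of_nonneg_of_nonpos hG0 hs]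

/-- The flux part against the rows, an identity. -/
theorem flux_rows {m n w t p2 ε A R v x G F F' Φ Dt Dc N al al' be be' ga ga' si si' ρ : ℝ}
    (hw : w ≠ 0) (hDc : Dc ≠ 0) (hn : n = w ^ 2) (hm : m = n - 1) (hp : p2 = 1 - t ^ 2)
    (hε : ε = 1 / n) (hA : A = Dt * w * t) (hR : R = w * ρ) (hG : G = n * F) (hx : x = 1 + v)
    (hΦ : Φ = m / 2 * x * F') :
    2 * N * Dt ^ 2 * Dc * n *
      (p2 * ((al' / Dc * (Dt * w) + be' / Dc * (Dt * w) * v + ga' / Dc * (Dt * w) * v ^ 2) / w ^ 3 +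
          si' / Dc * (Dt * w) / w * F) +
        m / 2 * x * ρ * ((be / Dc + ga / Dc * (2 * v)) / w ^ 3 + si / Dc / w * F') -
        n * t * ((al / Dc + be / Dc * v + ga / Dc * v ^ 2) / w ^ 3 + si / Dc / w * F)) =
      2 * N * Dt * ((Dt ^ 2 - ε * A ^ 2) * al' - A * al) +
        v * (2 * N * Dt * ((Dt ^ 2 - ε * A ^ 2) * be' - A * be)) +
        v ^ 2 * (2 * N * Dt * ((Dt ^ 2 - ε * A ^ 2) * ga' - A * ga)) +
        G * (2 * N * Dt * ((Dt ^ 2 - ε * A ^ 2) * si' - A * si)) +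
        R * (N * Dt ^ 2 * (1 - ε) * be + v * (N * Dt ^ 2 * (1 - ε) * (be + 2 * ga)) +
          v ^ 2 * (2 * N * Dt ^ 2 * (1 - ε) * ga)) +
        R * (2 * N * Dt ^ 2 * si * Φ) := by
  subst hn hm hp hε hA hR hG hx hΦ
  field_simp
  ring

/-- The clearing factor. -/
noncomputable def Cfg.M0 (C : Cfg) : ℝ := 2 * C.N * (C.Dt : ℝ) ^ 2 * C.Dc

theorem Head.N_eq {C : Cfg} : (C.N : ℝ) = C.nd * C.Dw := by rw [Cfg.N, cast_mul']

theorem Head.M0_pos {C : Cfg} (H : Head C) : 0 < C.M0 := by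
  have := H.nd; have := H.Dw; have := H.Dt; have := H.Dc
  rw [Cfg.M0, Head.N_eq]
  positivity

/-- What a potential must pay. -/
def Cfg.Pays (C : Cfg) (m : ℕ) (W : ℝ → ℝ) : Prop :=
  ∀ t ∈ Ioo (0 : ℝ) 1, max ((C.a : ℝ) / C.Dw)
    ((C.f : ℝ) / C.Dw * (weightPoly (ballShape t) * (((m : ℝ) + 1) * t ^ 2))) / m +
      (C.lam : ℝ) / C.Dw / ((m : ℝ) + 1) ≤ W t

/-- The potential against its row. -/
theorem pot_row {C : Cfg} {m : ℕ} {t l k : ℝ} {wb : Bool} {W : ℝ → ℝ} (H : Head C) (P : Pos C m l)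
    (ht : t ∈ Ioo (0 : ℝ) 1) (hW : C.Pays m W) (hk : k / C.Dc ≤ weightPoly (ballShape t)) :
    C.M0 * ((1 + (C.t3 : ℝ) / C.Dw) * (2 * ((m : ℝ) + 1) / m) - ((m : ℝ) + 1) * W t) ≤
      2 * (C.Dt : ℝ) ^ 2 * C.Dc * C.nd * C.t2 - wRow C wb k (C.Dt * rootN m * t) := by
  have hm : (3 : ℝ) ≤ m := by exact_mod_cast P.m3
  set n := (m : ℝ) + 1 with hn
  have hε : 1 / n ≤ C.e1 := P.mem.2
  have hnm : n / (m : ℝ) = 1 / (1 - 1 / n) := by
    rw [show 1 - 1 / n = (m : ℝ) / n by rw [hn]; field_simp; ring, one_div_div]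
  have h1e : 0 < 1 - 1 / n := by linarith [P.e1]
  have hDw := H.Dw
  have hnd := H.nd
  have hnn : (C.nn : ℝ) / C.nd ≤ n / m := by
    rw [hnm, le_div_iff₀ h1e]
    exact (mul_le_mul_of_nonneg_left (by linarith [P.mem.1]) (div_nonneg H.nn hnd.le)).trans H.nnd
  have ht3 : 2 * ((C.t3 : ℝ) / C.Dw) * (n / m) ≤ (C.t2 : ℝ) / C.Dw := by
    refine le_trans ?_ H.t2
    rw [hnm, mul_one_div]
    exact div_le_div_of_nonneg_left (mul_nonneg two_pos.le (div_nonneg (H.t1.trans H.t13) hDw.le))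
      (by linarith [P.e1]) (by linarith)
  have hT : ((C.Dt : ℝ) * rootN m * t) ^ 2 = (C.Dt : ℝ) ^ 2 * (n * t ^ 2) := by
    rw [mul_pow, mul_pow, rootN_sq]; ring
  set Mx := max ((C.a : ℝ) / C.Dw)
    ((C.f : ℝ) / C.Dw * (weightPoly (ballShape t) * (n * t ^ 2))) with hMx
  have hM2 : 0 ≤ Mx - 2 := by
    have : 2 ≤ (C.a : ℝ) / C.Dw := (le_div_iff₀ hDw).2 (by linarith [H.a])
    linarith [le_max_left ((C.a : ℝ) / C.Dw)
      ((C.f : ℝ) / C.Dw * (weightPoly (ballShape t) * (n * t ^ 2)))]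
  have hw := mul_le_mul_of_nonneg_left (hW t ht) (show 0 ≤ n by linarith)
  rw [← hn, ← hMx, mul_add, mul_div_cancel₀ _ (show n ≠ 0 by linarith)] at hw
  have key : (1 + (C.t3 : ℝ) / C.Dw) * (2 * n / m) - n * W t ≤
      (C.t2 : ℝ) / C.Dw - ((C.nn : ℝ) / C.nd * (Mx - 2) + (C.lam : ℝ) / C.Dw) := by
    have := mul_le_mul_of_nonneg_right hnn hM2
    have e : n * (Mx / m) = n / m * Mx := by ring
    have e' : 2 * n / (m : ℝ) = 2 * (n / m) := by ring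
    rw [e] at hw
    rw [e']
    linarith
  refine (mul_le_mul_of_nonneg_left key H.M0_pos.le).trans ?_
  have hbr : (if wb then (C.f : ℝ) / C.Dw * (k / C.Dc * (n * t ^ 2)) else (C.a : ℝ) / C.Dw) ≤ Mx := by
    split
    · exact le_max_of_le_right (mul_le_mul_of_nonneg_left (mul_le_mul_of_nonneg_right hk
        (by positivity)) (div_nonneg H.f hDw.le))
    · exact le_max_left _ _
  have hb := mul_le_mul_of_nonneg_left (sub_le_sub_right hbr 2) (div_nonneg H.nn hnd.le)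
  refine le_trans (mul_le_mul_of_nonneg_left (sub_le_sub_left (add_le_add_left hb _) _)
    H.M0_pos.le) (le_of_eq ?_)
  have := H.Dc.ne'
  rw [Cfg.M0, Head.N_eq, wRow, hT]
  cases wb <;> simp only [Bool.false_eq_true, if_false, if_true] <;> field_simp <;> ring

/-- The gain against its row. -/
theorem gain_row {C : Cfg} {m : ℕ} {t x ρ θ η k : ℝ} (H : Head C) (hm : 1 ≤ m)
    (ht : t ∈ Ioo (0 : ℝ) 1) (hρ : ρ ∈ Icc (-1 : ℝ) 1)
    (hθ : 0 < θ + (C.t1 : ℝ) / C.Dw) (hη : (C.et : ℝ) / C.Dw ≤ θ * η + (C.t1 : ℝ) / C.Dw)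
    (hk0 : 0 ≤ k) (hk : k / C.Dc ≤ weightPoly (ballShape t)) :
    (C.nd * C.et * (1 - 1 / ((m : ℝ) + 1)) * k * (C.Dt : ℝ) ^ 2) * x ^ 2 * (rootN m * ρ) ^ 2 ≤
      C.M0 * ((m : ℝ) + 1) * (θ * tailGain m (bregPoly m) η t x ρ +
        (C.t1 : ℝ) / C.Dw * tailGain m (bregPoly m) 1 t x ρ) := by
  rw [Vale.Agent.P237.Quant.mult_gain hθ.ne']
  set η' := (θ * η + (C.t1 : ℝ) / C.Dw) / (θ + (C.t1 : ℝ) / C.Dw) with hη'
  have het : 0 ≤ (C.et : ℝ) / C.Dw := div_nonneg H.et H.Dw.le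
  have hQ : 2 * ((m : ℝ) + 1) * bregPoly m t = ballShape t * weightPoly (ballShape t) := by
    rw [bregPoly]; field_simp
  have h1 := quad_le_tailGain hm (div_nonneg (het.trans hη) hθ.le) ht hρ (x := x) (Q := bregPoly m)
    (l := k / C.Dc) (fun t ht r hr => bregPoly_mul_le hm ht hr)
    (hQ ▸ mul_le_mul_of_nonneg_left hk (ball_pos (sub01 ht)).le)
  rw [← hη'] at h1
  have h2 := mul_le_mul_of_nonneg_left h1 hθ.le
  have e : (θ + (C.t1 : ℝ) / C.Dw) *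
      ((m : ℝ) / ((m : ℝ) + 1) * x ^ 2 * (η' * (k / C.Dc) / 2 * ρ ^ 2)) =
      (θ * η + (C.t1 : ℝ) / C.Dw) * ((m : ℝ) / ((m : ℝ) + 1) * x ^ 2 * (k / C.Dc / 2 * ρ ^ 2)) := by
    rw [hη']; field_simp
  rw [e] at h2
  have hDc := H.Dc
  have h3 := mul_le_mul_of_nonneg_right hη
    (show 0 ≤ (m : ℝ) / ((m : ℝ) + 1) * x ^ 2 * (k / C.Dc / 2 * ρ ^ 2) by positivity)
  refine le_trans (le_of_eq ?_) (mul_le_mul_of_nonneg_left (h3.trans h2)
    (mul_nonneg H.M0_pos.le (by positivity)))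
  have := H.Dw.ne'
  rw [Cfg.M0, Head.N_eq, mul_pow, rootN_sq]
  field_simp
  ring

/-- The left side minus the right side of the tail inequality. -/
noncomputable def gapAt (C : Cfg) (m : ℕ) (W : ℝ → ℝ) (θ η t x z : ℝ) : ℝ :=
  ballShape t ^ 2 * (sepU C.Dt C.Dc C.flux m).Dt t x z +
    (m : ℝ) / 2 * x * ((t - z) / (1 - t * z)) * (sepU C.Dt C.Dc C.flux m).Dx t x z -
    ((m : ℝ) + 1) * t * (sepU C.Dt C.Dc C.flux m).D t x z + tailLoss m x +
    multLoss m ((C.K : ℝ) / C.Dw / ((m : ℝ) + 1)) ((C.t1 : ℝ) / C.Dw) ((C.t3 : ℝ) / C.Dw) t x -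
    (W t * (x - 1) ^ 2 + θ * tailGain m (bregPoly m) η t x ((t - z) / (1 - t * z)) +
      (C.t1 : ℝ) / C.Dw * tailGain m (bregPoly m) 1 t x ((t - z) / (1 - t * z)))

theorem rho_mem {t z : ℝ} (ht : t ∈ Ioo (0 : ℝ) 1) (hz : z ∈ Icc (0 : ℝ) 1) :
    (t - z) / (1 - t * z) ∈ Icc (-1 : ℝ) 1 := by
  have hden : 0 < 1 - t * z := by nlinarith [ht.1, ht.2, hz.2]
  constructor
  · rw [le_div_iff₀ hden]
    nlinarith [mul_nonneg (show (0 : ℝ) ≤ 1 + t by linarith [ht.1]) (sub_nonneg.2 hz.2)]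
  · rw [div_le_one hden]
    nlinarith [mul_nonneg (show (0 : ℝ) ≤ 1 + z by linarith [hz.1]) (sub_nonneg.2 ht.2.le)]

/-- The clearing of the flux at a point of an interval. -/
theorem flux_at {C : Cfg} {I : Ival} {m : ℕ} {t : ℝ} (H : Head C) (h : At C I m t)
    (fa : kinkFree I.A0 I.A1 C.flux.al.kinks = true)
    (fb : kinkFree I.A0 I.A1 C.flux.be.kinks = true)
    (fg : kinkFree I.A0 I.A1 C.flux.ga.kinks = true)
    (fs : kinkFree I.A0 I.A1 C.flux.si.kinks = true) (x z k : ℝ) :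
    let A := C.Dt * rootN m * t
    let R := rootN m * ((t - z) / (1 - t * z))
    let V := I.rowsV C (1 / ((m : ℝ) + 1)) k A
    C.M0 * ((m : ℝ) + 1) * (ballShape t ^ 2 * (sepU C.Dt C.Dc C.flux m).Dt t x z +
        (m : ℝ) / 2 * x * ((t - z) / (1 - t * z)) * (sepU C.Dt C.Dc C.flux m).Dx t x z -
        ((m : ℝ) + 1) * t * (sepU C.Dt C.Dc C.flux m).D t x z) =
      acoefV C (1 / ((m : ℝ) + 1)) A (C.flux.al.line I.A0) +
        (x - 1) * acoefV C (1 / ((m : ℝ) + 1)) A (C.flux.be.line I.A0) +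
        (x - 1) ^ 2 * acoefV C (1 / ((m : ℝ) + 1)) A (C.flux.ga.line I.A0) +
        ((m : ℝ) + 1) * cubicF m x * acoefV C (1 / ((m : ℝ) + 1)) A (C.flux.si.line I.A0) +
        R * (V.b0 + (x - 1) * V.b1 + (x - 1) ^ 2 * V.b2b) +
        R * (2 * C.N * (C.Dt : ℝ) ^ 2 * (C.flux.si.line I.A0).val A *
          ((m : ℝ) / 2 * x * cubicF' m x)) := by
  intro A R V
  obtain ⟨ea, ea'⟩ := scaled_line C.Dt C.Dc C.flux.al fa h.lo h.hi
  obtain ⟨eb, eb'⟩ := scaled_line C.Dt C.Dc C.flux.be fb h.lo h.hi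
  obtain ⟨eg, eg'⟩ := scaled_line C.Dt C.Dc C.flux.ga fg h.lo h.hi
  obtain ⟨es, es'⟩ := scaled_line C.Dt C.Dc C.flux.si fs h.lo h.hi
  rw [Dt_eq, Dx_eq, D_eq, ea, eb, eg, es, ea', eb', eg', es', Cfg.M0]
  refine Eq.trans ?_ ((flux_rows (m := (m : ℝ)) (n := (m : ℝ) + 1) (w := rootN m) (t := t)
    (p2 := ballShape t ^ 2) (ε := 1 / ((m : ℝ) + 1)) (A := A) (R := R) (v := x - 1) (x := x)
    (ρ := (t - z) / (1 - t * z))
    (G := ((m : ℝ) + 1) * cubicF m x) (F := cubicF m x) (F' := cubicF' m x)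
    (Φ := (m : ℝ) / 2 * x * cubicF' m x) (Dt := (C.Dt : ℝ)) (Dc := (C.Dc : ℝ)) (N := (C.N : ℝ))
    (al := (C.flux.al.line I.A0).val A) (al' := (C.flux.al.line I.A0).slope A)
    (be := (C.flux.be.line I.A0).val A) (be' := (C.flux.be.line I.A0).slope A)
    (ga := (C.flux.ga.line I.A0).val A) (ga' := (C.flux.ga.line I.A0).slope A)
    (si := (C.flux.si.line I.A0).val A) (si' := (C.flux.si.line I.A0).slope A)
    (rootN_pos m).ne' H.Dc.ne' (rootN_sq m).symm (by ring)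
    (ball_sq (Ioo_subset_Icc_self (sub01 h.ht))) rfl rfl rfl rfl (by ring) rfl).trans ?_)
  · simp only [Quad.val, Quad.slope, A]
  · simp only [V, acoefV, Ival.rowsV]

/-- The losses times the clearing factor. -/
theorem loss_eq {C : Cfg} {m : ℕ} (H : Head C) (hm : 3 ≤ m) (t x : ℝ) :
    C.M0 * ((m : ℝ) + 1) * (tailLoss m x +
      multLoss m ((C.K : ℝ) / C.Dw / ((m : ℝ) + 1)) ((C.t1 : ℝ) / C.Dw) ((C.t3 : ℝ) / C.Dw) t x) =
      C.M0 * (((C.t3 : ℝ) - C.t1) / C.Dw) *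
          (((m : ℝ) + 1) * (ballRatio m * ballShape t - 1)) * (2 * (x - 1) + (x - 1) ^ 2) +
        C.M0 * (1 + (C.t3 : ℝ) / C.Dw) * (2 * ((m : ℝ) + 1) / m * (x - 1) ^ 2 +
          ((m : ℝ) + 1) * (2 / tailExp m * tailCubic m x)) -
        2 * (C.Dt : ℝ) ^ 2 * C.Dc * C.nd * C.K * (x - 1) := by
  have := H.Dw.ne'
  have hn0 : (m : ℝ) + 1 ≠ 0 := by positivity
  rw [multLoss, tailLoss_eq hm, Cfg.M0, Head.N_eq]
  field_simp
  ring

/-- The gap against the rows, the loss and the ratio still exact. -/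
theorem gap_base {C : Cfg} {I : Ival} {m : ℕ} {t l : ℝ} {W : ℝ → ℝ} {θ η x z : ℝ} (H : Head C)
    (P : Pos C m l) (h : At C I m t)
    (fa : kinkFree I.A0 I.A1 C.flux.al.kinks = true)
    (fb : kinkFree I.A0 I.A1 C.flux.be.kinks = true)
    (fg : kinkFree I.A0 I.A1 C.flux.ga.kinks = true)
    (fs : kinkFree I.A0 I.A1 C.flux.si.kinks = true) (hW : C.Pays m W)
    (hθ : 0 < θ + (C.t1 : ℝ) / C.Dw) (hη : (C.et : ℝ) / C.Dw ≤ θ * η + (C.t1 : ℝ) / C.Dw)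
    (hz : z ∈ Icc (0 : ℝ) 1) {k : ℝ} (hk0 : 0 ≤ k)
    (hk : k / C.Dc ≤ weightPoly (ballShape t)) :
    let A := C.Dt * rootN m * t
    let R := rootN m * ((t - z) / (1 - t * z))
    let V := I.rowsV C (1 / ((m : ℝ) + 1)) k A
    C.M0 * ((m : ℝ) + 1) * gapAt C m W θ η t x z ≤
      acoefV C (1 / ((m : ℝ) + 1)) A (C.flux.al.line I.A0) +
        (x - 1) * acoefV C (1 / ((m : ℝ) + 1)) A (C.flux.be.line I.A0) +
        (x - 1) ^ 2 * acoefV C (1 / ((m : ℝ) + 1)) A (C.flux.ga.line I.A0) +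
        ((m : ℝ) + 1) * cubicF m x * acoefV C (1 / ((m : ℝ) + 1)) A (C.flux.si.line I.A0) +
        R * (V.b0 + (x - 1) * V.b1 + (x - 1) ^ 2 * V.b2b) +
        R * (2 * C.N * (C.Dt : ℝ) ^ 2 * (C.flux.si.line I.A0).val A *
          ((m : ℝ) / 2 * x * cubicF' m x)) +
        C.M0 * (((C.t3 : ℝ) - C.t1) / C.Dw) *
          (((m : ℝ) + 1) * (ballRatio m * ballShape t - 1)) * (2 * (x - 1) + (x - 1) ^ 2) +
        C.M0 * (1 + (C.t3 : ℝ) / C.Dw) * (((m : ℝ) + 1) * (2 / tailExp m * tailCubic m x)) -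
        2 * (C.Dt : ℝ) ^ 2 * C.Dc * C.nd * C.K * (x - 1) +
        (2 * (C.Dt : ℝ) ^ 2 * C.Dc * C.nd * C.t2 - wRow C I.wb k A) * (x - 1) ^ 2 -
        V.g * (1 + (x - 1)) ^ 2 * R ^ 2 := by
  intro A R V
  have hgain := gain_row (x := x) H (Nat.le_trans (by norm_num) P.m3) h.ht (rho_mem h.ht hz) hθ hη
    hk0 hk
  have hpot := mul_le_mul_of_nonneg_right (pot_row (wb := I.wb) H P h.ht hW hk) (sq_nonneg (x - 1))
  have hflux := flux_at H h fa fb fg fs x z k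
  have hloss := loss_eq H P.m3 t x
  have eg2 : V.g = C.nd * C.et * (1 - 1 / ((m : ℝ) + 1)) * k * (C.Dt : ℝ) ^ 2 := rfl
  rw [eg2, add_sub_cancel]
  rw [gapAt]
  simp only [] at hflux
  linarith

/-- The cubic loss below one against its row. -/
theorem cube_row {C : Cfg} {m : ℕ} (H : Head C) (hm : 3 ≤ m) {x : ℝ} (hx : 0 < x) (hx1 : x ≤ 1) :
    C.M0 * (1 + (C.t3 : ℝ) / C.Dw) * (((m : ℝ) + 1) * (2 / tailExp m * tailCubic m x)) ≤
      (x - 1) ^ 3 * (4 * (C.N : ℝ) * (C.Dt : ℝ) ^ 2 * C.Dc * (1 - 3 * (1 / ((m : ℝ) + 1))) / 3) := by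
  have hm' : (3 : ℝ) ≤ m := by exact_mod_cast hm
  have hn : (0 : ℝ) ≤ (m : ℝ) + 1 := by positivity
  have hq1 := (tailExp_mem hm).1
  have htc : 2 / tailExp m * tailCubic m x ≤ 0 := mul_nonpos_of_nonneg_of_nonpos
    (div_nonneg two_pos.le (by linarith)) (tailCubic_nonpos hm hx hx1)
  have h1 : C.M0 * (1 + (C.t3 : ℝ) / C.Dw) * (((m : ℝ) + 1) * (2 / tailExp m * tailCubic m x)) ≤
      C.M0 * (((m : ℝ) + 1) * (2 / tailExp m * tailCubic m x)) :=
    mul_le_mul_of_nonpos_right (le_mul_of_one_le_right H.M0_pos.le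
      (by linarith [div_nonneg (H.t1.trans H.t13) H.Dw.le]))
      (mul_nonpos_of_nonneg_of_nonpos hn htc)
  have h2 := mul_le_mul_of_nonneg_left (tailCubic_le_cube hm hx) hn
  have h3 : ((m : ℝ) + 1) * (2 * ((m : ℝ) - 2) / (3 * (m : ℝ) ^ 2) * (x - 1) ^ 3) ≤
      2 / 3 * (1 - 3 * (1 / ((m : ℝ) + 1))) * (x - 1) ^ 3 := by
    rw [← mul_assoc]
    refine mul_le_mul_of_nonpos_right ?_ (Odd.pow_nonpos (by decide) (by linarith))
    field_simp
    nlinarith [sq_nonneg ((m : ℝ) - 2), mul_nonneg (sub_nonneg.2 hm') (sq_nonneg (m : ℝ))]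
  refine h1.trans ((mul_le_mul_of_nonneg_left (h2.trans h3) H.M0_pos.le).trans (le_of_eq ?_))
  rw [Cfg.M0]
  ring

/-- The brackets against their rows. -/
theorem bracket_row {C : Cfg} {I : Ival} {m : ℕ} {t l x : ℝ} (H : Head C) (P : Pos C m l)
    (h : At C I m t) (h0 : 0 ≤ I.A0) (hbd : I.boundsOK C = true) (hx : 0 < x) :
    (x ≤ 1 → C.M0 * (((C.t3 : ℝ) - C.t1) / C.Dw) *
        (((m : ℝ) + 1) * (ballRatio m * ballShape t - 1)) * (2 * (x - 1) + (x - 1) ^ 2) ≤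
        bRow C I.dc I.dq (C.Dt * rootN m * t) * (2 * (x - 1) + (x - 1) ^ 2)) ∧
      (1 ≤ x → C.M0 * (((C.t3 : ℝ) - C.t1) / C.Dw) *
        (((m : ℝ) + 1) * (ballRatio m * ballShape t - 1)) * (2 * (x - 1) + (x - 1) ^ 2) ≤
        bRow C I.uc I.uq (C.Dt * rootN m * t) * (2 * (x - 1) + (x - 1) ^ 2)) := by
  obtain ⟨bu, bl⟩ := brackets H P h h0 hbd
  have hM : 0 ≤ C.M0 * (((C.t3 : ℝ) - C.t1) / C.Dw) :=
    mul_nonneg H.M0_pos.le (div_nonneg (by linarith [H.t13]) H.Dw.le)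
  have hbr : ∀ c q : ℤ, C.M0 * (((C.t3 : ℝ) - C.t1) / C.Dw) *
      ((c : ℝ) / C.Dc - (q : ℝ) / C.Dc * (rootN m * t) ^ 2) =
      bRow C c q (C.Dt * rootN m * t) := fun c q => by
    have := H.Dw.ne'; have := H.Dc.ne'
    rw [Cfg.M0, Head.N_eq, bRow]
    field_simp
  constructor <;> intro hx1
  · rw [← hbr]
    exact mul_le_mul_of_nonpos_right (mul_le_mul_of_nonneg_left bl hM) (by nlinarith)
  · rw [← hbr]
    exact mul_le_mul_of_nonneg_right (mul_le_mul_of_nonneg_left bu hM) (by nlinarith)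

/-- The term of `si` that is not affine in `1 / n`. -/
theorem pen_row {C : Cfg} {I : Ival} {m : ℕ} {l U X A ρ : ℝ} (H : Head C) (P : Pos C m l)
    (w : Wt I U X A) (sb1 : (I.siBound C 1).nn 8 = true) (sb2 : (I.siBound C (-1)).nn 8 = true)
    (hρ : ρ ∈ Icc (-1 : ℝ) 1) :
    rootN m * ρ * (2 * C.N * (C.Dt : ℝ) ^ 2 * (C.flux.si.line I.A0).val A *
        (((m : ℝ) - 2) / m - (1 - 2 * (1 / ((m : ℝ) + 1))))) ≤
      2 * (C.Dt : ℝ) ^ 2 * C.nd * C.pen * I.sA := by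
  have hm' : (3 : ℝ) ≤ m := by exact_mod_cast P.m3
  set σ := (C.flux.si.line I.A0).val A
  set ε := 1 / ((m : ℝ) + 1) with hε
  have hσ := si_bound w sb1 sb2
  have hε0 : 0 ≤ ε := by positivity
  have h1e : 0 < 1 - ε := by linarith [P.e1, P.mem.2]
  have hcoef : rootN m * (2 * ε ^ 2) / (1 - ε) ≤ (C.pen : ℝ) / C.Dw := by
    rw [div_le_iff₀ h1e]
    refine le_trans ?_ (mul_le_mul_of_nonneg_left (show 1 - (C.e1 : ℝ) ≤ 1 - ε by linarith [P.mem.2])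
      (div_nonneg H.pen0 H.Dw.le))
    refine le_of_pow_le_pow_left₀ two_ne_zero (mul_nonneg (div_nonneg H.pen0 H.Dw.le)
      (by linarith [P.e1])) (le_trans ?_ H.pen)
    rw [mul_pow, rootN_sq,
      show ((m : ℝ) + 1) * (2 * ε ^ 2) ^ 2 = 4 * ε ^ 3 by rw [hε]; field_simp; ring]
    exact mul_le_mul_of_nonneg_left (pow_le_pow_left₀ hε0 P.mem.2 3) (by norm_num)
  have e2 : ((m : ℝ) - 2) / m - (1 - 2 * ε) = -(2 * ε ^ 2 / (1 - ε)) := by
    rw [hε]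
    have : (m : ℝ) + 1 - 1 ≠ 0 := by linarith
    field_simp
    ring
  rw [e2]
  have h3 : -(ρ * σ) ≤ (I.sA : ℝ) := by
    refine (neg_le_abs _).trans ?_
    rw [abs_mul]
    exact (mul_le_of_le_one_left (abs_nonneg _) (abs_le.2 hρ)).trans hσ
  have hN : 0 ≤ (C.N : ℝ) := by rw [Head.N_eq]; exact mul_nonneg H.nd.le H.Dw.le
  have hw := rootN_pos m
  have h4 := mul_le_mul_of_nonneg_left h3
    (show 0 ≤ rootN m * (2 * (C.N : ℝ) * (C.Dt : ℝ) ^ 2 * (2 * ε ^ 2 / (1 - ε))) by positivity)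
  have h5 := mul_le_mul_of_nonneg_left hcoef
    (show 0 ≤ 2 * (C.N : ℝ) * (C.Dt : ℝ) ^ 2 * I.sA by
      have : (0 : ℝ) ≤ I.sA := (abs_nonneg _).trans hσ
      positivity)
  have e3 : 2 * (C.N : ℝ) * (C.Dt : ℝ) ^ 2 * I.sA * ((C.pen : ℝ) / C.Dw) =
      2 * (C.Dt : ℝ) ^ 2 * C.nd * C.pen * I.sA := by
    have := H.Dw.ne'
    rw [Head.N_eq]; field_simp
  rw [e3] at h5
  refine le_trans (le_of_eq ?_) (h4.trans ((le_of_eq ?_).trans h5)) <;> ring

/-- The gap below one. -/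
theorem gap_below {C : Cfg} {I : Ival} {m : ℕ} {t l : ℝ} {W : ℝ → ℝ} {θ η x z : ℝ} (H : Head C)
    (P : Pos C m l) (h : At C I m t)
    (fa : kinkFree I.A0 I.A1 C.flux.al.kinks = true)
    (fb : kinkFree I.A0 I.A1 C.flux.be.kinks = true)
    (fg : kinkFree I.A0 I.A1 C.flux.ga.kinks = true)
    (fs : kinkFree I.A0 I.A1 C.flux.si.kinks = true) (h0 : 0 ≤ I.A0) (hbd : I.boundsOK C = true)
    (hW : C.Pays m W) (hθ : 0 < θ + (C.t1 : ℝ) / C.Dw)
    (hη : (C.et : ℝ) / C.Dw ≤ θ * η + (C.t1 : ℝ) / C.Dw)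
    (hx : 0 < x) (hx1 : x ≤ 1) (hz : z ∈ Icc (0 : ℝ) 1) {k : ℝ} (hk0 : 0 ≤ k)
    (hk : k / C.Dc ≤ weightPoly (ballShape t)) :
    C.M0 * ((m : ℝ) + 1) * gapAt C m W θ η t x z ≤
      (I.rowsV C (1 / ((m : ℝ) + 1)) k (C.Dt * rootN m * t)).below (x - 1)
        (rootN m * ((t - z) / (1 - t * z))) := by
  have hF : cubicF m x = 0 ∧ cubicF' m x = 0 := by
    rcases hx1.eq_or_lt with e | e
    · subst e
      simp [cubicF, cubicF', tailCubicPos, tailCubicPos', (tailCubic_one m).1, (tailCubic_one m).2]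
    · simp [cubicF, cubicF', tailCubicPos, tailCubicPos', e.not_ge]
  refine (gap_base H P h fa fb fg fs hW hθ hη hz hk0 hk).trans ?_
  rw [hF.1, hF.2]
  have hb := (bracket_row H P h h0 hbd hx).1 hx1
  have hc := cube_row H P.m3 hx hx1
  simp only [RV.below, Ival.rowsV]
  linarith

/-- The gap above one. -/
theorem gap_above {C : Cfg} {I : Ival} {m : ℕ} {t l U X : ℝ} {W : ℝ → ℝ} {θ η x z : ℝ} (H : Head C)
    (P : Pos C m l) (h : At C I m t) (w : Wt I U X (C.Dt * rootN m * t))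
    (fa : kinkFree I.A0 I.A1 C.flux.al.kinks = true)
    (fb : kinkFree I.A0 I.A1 C.flux.be.kinks = true)
    (fg : kinkFree I.A0 I.A1 C.flux.ga.kinks = true)
    (fs : kinkFree I.A0 I.A1 C.flux.si.kinks = true) (h0 : 0 ≤ I.A0) (hbd : I.boundsOK C = true)
    (sb1 : (I.siBound C 1).nn 8 = true) (sb2 : (I.siBound C (-1)).nn 8 = true)
    (hW : C.Pays m W) (hθ : 0 < θ + (C.t1 : ℝ) / C.Dw)
    (hη : (C.et : ℝ) / C.Dw ≤ θ * η + (C.t1 : ℝ) / C.Dw)
    (hx1 : 1 ≤ x) (hz : z ∈ Icc (0 : ℝ) 1) {k : ℝ} (hk0 : 0 ≤ k)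
    (hk : k / C.Dc ≤ weightPoly (ballShape t)) :
    C.M0 * ((m : ℝ) + 1) * gapAt C m W θ η t x z ≤
      (I.rowsV C (1 / ((m : ℝ) + 1)) k (C.Dt * rootN m * t)).above (x - 1)
        (rootN m * ((t - z) / (1 - t * z))) (((m : ℝ) + 1) * cubicF m x) := by
  refine (gap_base H P h fa fb fg fs hW hθ hη hz hk0 hk).trans ?_
  have hm' : (3 : ℝ) ≤ m := by exact_mod_cast P.m3
  have hb := (bracket_row H P h h0 hbd (by linarith)).2 hx1
  have hp := mul_le_mul_of_nonneg_right (pen_row H P w sb1 sb2 (rho_mem h.ht hz)) (sq_nonneg (x - 1))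
  have e : 2 / tailExp m * tailCubic m x = cubicF m x := by
    rw [cubicF, tailCubicPos, if_pos hx1]
  have e4 : ((m : ℝ) - 1) * cubicF m x =
      (1 - 2 * (1 / ((m : ℝ) + 1))) * (((m : ℝ) + 1) * cubicF m x) := by
    field_simp; ring
  have e5 : C.M0 * (1 + (C.t3 : ℝ) / C.Dw) * (((m : ℝ) + 1) * cubicF m x) =
      ((m : ℝ) + 1) * cubicF m x * (2 * (C.Dt : ℝ) ^ 2 * C.Dc * C.nd * (C.Dw + C.t3)) := by
    have := H.Dw.ne'
    rw [Cfg.M0, Head.N_eq]; field_simp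
  rw [TailCert.cubic_deriv P.m3 hx1, e, e4, e5]
  simp only [RV.above, Ival.rowsV]
  linarith

end Vale.Agent.P237.Quant.TailUniform
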