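import Mathlib
import Vale.Agent.P237.Quant.TailUniformFar
import Vale.Agent.P237.Quant.TailUniformRows

/-!
Soundness of the checker on a range of dimensions: a passed check gives the tail inequality for every
`n` of the range and every profile below the nodes, with the far zone from a row of conditions.
-/

namespace Vale.Agent.P237.Quant.TailUniform

open TailCert TailTuple Four.Checker Set MeasureTheory Filter Topology

/-- What a node tells about the value and the state at a time. -/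
def Node.Holds (C : Cfg) (N : Node) (m : ℕ) (t x z : ℝ) : Prop :=
  (N.Z : ℝ) ≤ C.Dt * rootN m * t →
    x ^ 2 * ballShape t ^ m ≤ (N.K : ℝ) / C.Dc *
        Real.exp (-((C.Dt * rootN m * t / N.Z - 1) * ((N.L : ℝ) / C.Dc))) ∧
      (N.sig : ℝ) / C.Dt ≤ z * rootN m

/-- The constraint of the slope holds after a node. -/
theorem slopeCons_nonneg {C : Cfg} {I : Ival} {m : ℕ} {t : ℝ} (H : Head C) (ht : t ∈ Ioo (0 : ℝ) 1)
    (hs0 : 0 ≤ I.node.sig) {z : ℝ} (hz : z ∈ Icc (0 : ℝ) 1)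
    (hσ : (I.node.sig : ℝ) / C.Dt ≤ z * rootN m) :
    0 ≤ slopeCons C I (1 / ((m : ℝ) + 1)) (C.Dt * rootN m * t)
      (rootN m * ((t - z) / (1 - t * z))) := by
  set w := rootN m with hw
  have hw0 : 0 < w := rootN_pos m
  have hw2 : w ^ 2 = (m : ℝ) + 1 := rootN_sq m
  have hD := H.Dt
  set s := (I.node.sig : ℝ) / C.Dt / w with hs
  have hs' : 0 ≤ s := div_nonneg (div_nonneg (Int.cast_nonneg hs0) hD.le) hw0.le
  have hsz : s ≤ z := (div_le_iff₀ hw0).2 hσ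
  have hden : 0 < 1 - t * s := by nlinarith [ht.1, ht.2, hz.2]
  have h1 := shift_anti ht ⟨hs', hsz.trans hz.2⟩ hz hsz
  have h2 : 0 ≤ (t - s) - (t - z) / (1 - t * z) * (1 - t * s) := by
    rw [sub_nonneg]; exact (le_div_iff₀ hden).1 h1
  have e : slopeCons C I (1 / ((m : ℝ) + 1)) (C.Dt * w * t) (w * ((t - z) / (1 - t * z))) =
      (C.Dt : ℝ) ^ 2 * w * ((t - s) - (t - z) / (1 - t * z) * (1 - t * s)) := by
    rw [slopeCons, hs, ← hw2]
    field_simp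
    ring
  rw [e]
  positivity

/-- The pointwise inequality on an interval. -/
theorem ival_pointwise {C : Cfg} {I : Ival} {m : ℕ} {t l : ℝ} {W : ℝ → ℝ} {θ η x z : ℝ} (H : Head C)
    (P : Pos C m l) (hmem : C.Mem m) (hside : I.sideOK C = true) (hcell : I.cellsOK C = true)
    (h : At C I m t) (hW : C.Pays m W) (hθ : 0 < θ + (C.t1 : ℝ) / C.Dw)
    (hη : (C.et : ℝ) / C.Dw ≤ θ * η + (C.t1 : ℝ) / C.Dw)
    (hx : 0 < x) (hz : z ∈ Icc (0 : ℝ) 1) (hN : I.node.Holds C m t x z)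
    (hc : (C.b0 : ℝ) / C.Dc * (1 - t * z) ^ m ≤ ballShape t ^ m * x ^ 2) :
    gapAt C m W θ η t x z ≤ 0 := by
  simp only [Ival.sideOK, Bool.and_eq_true, decide_eq_true_eq, List.all_eq_true] at hside
  obtain ⟨⟨⟨⟨⟨⟨⟨⟨⟨⟨⟨⟨⟨⟨⟨⟨h0, hlt⟩, fa⟩, fb⟩, fg⟩, fs⟩, hbd⟩, henv⟩, sb1⟩, sb2⟩, hch⟩, r00⟩, r01⟩, r10⟩,
    r11⟩, hcut⟩, hseg⟩ := hside
  obtain ⟨U, X, w⟩ : ∃ U X, Wt I U X (C.Dt * rootN m * t) := by
    obtain ⟨U, X, hU, hX, hs, e⟩ := exists_weights (D := 1) (t := C.Dt * rootN m * t) hlt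
      (by rw [Int.cast_one, mul_one]; exact h.lo) (by rw [Int.cast_one, mul_one]; exact h.hi.le)
    exact ⟨U, X, hU, hX, hs, by rw [Int.cast_one, mul_one] at e; exact e⟩
  have hb := hbd
  simp only [Ival.boundsOK, Bool.and_eq_true, decide_eq_true_eq] at hb
  obtain ⟨⟨⟨-, -, hZ, -, hsg⟩, -⟩, -⟩ := hb
  obtain ⟨hK, hσ⟩ := hN ((Int.cast_le.2 hZ).trans h.lo)
  have hchord := env_chord H P h h0 hlt hbd henv w hx hK
  have hlast : ∀ s, I.segs.getLast? = some s → x - 1 ≤ (s.V1 : ℝ) / C.Dv := fun s hs => by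
    have q : ∀ {e : ℤ}, segReach e I.segs = true → (e : ℝ) ≤ s.V1 := fun hr =>
      Int.cast_le.2 (segReach_last hr hs)
    refine hchord.trans ?_
    rw [mul_div_assoc', mul_div_assoc', ← add_div]
    refine div_le_div_of_nonneg_right ?_ H.Dv.le
    have e0 : U * (I.ex00 : ℝ) + X * I.ex01 ≤ s.V1 := by
      linear_combination mul_le_mul_of_nonneg_left (q r00) w.hU +
        mul_le_mul_of_nonneg_left (q r01) w.hX + (s.V1 : ℝ) * w.hs
    have e1 : U * (I.ex10 : ℝ) + X * I.ex11 ≤ s.V1 := by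
      linear_combination mul_le_mul_of_nonneg_left (q r10) w.hU +
        mul_le_mul_of_nonneg_left (q r11) w.hX + (s.V1 : ℝ) * w.hs
    linear_combination mul_le_mul_of_nonneg_left e0 (sub_nonneg.2 P.l1) +
      mul_le_mul_of_nonneg_left e1 P.l0
  obtain ⟨s, hsm, hslt, hs0, hs1⟩ := segChain_sound H.Dv hch (v := x - 1) (by
    rw [Int.cast_neg, neg_div, div_self H.Dv.ne']; linarith) hlast
  obtain ⟨hmaj, hslope⟩ := hseg s hsm
  have hR := seg_slope H P h h0 hbd hslope hx hz rfl hs1 hσ hc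
  obtain ⟨M, N, hA, hB⟩ := two_ends H w hcut hcell hsm hslt hs0 hs1 hR
  obtain ⟨hk0, hk01, hk⟩ := weight_line H P h h0 hbd
  have hν : 0 ≤ (1 - l) * chordCons C I.ex00 I.ex01 U X (x - 1) +
      l * chordCons C I.ex10 I.ex11 U X (x - 1) := by
    rw [mul_div_assoc', mul_div_assoc', ← add_div, le_div_iff₀ H.Dv] at hchord
    simp only [chordCons]
    linarith
  obtain ⟨nb, na⟩ := rows_nonpos H P.l0 P.l1 P.eps P.e01.le hk01 hA hB
    (slopeCons_nonneg H h.ht hsg hz hσ) hν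
  have hpos : 0 < C.M0 * ((m : ℝ) + 1) := mul_pos H.M0_pos (by positivity)
  refine nonpos_of_mul_nonpos_right ?_ hpos
  by_cases hbl : s.below = true
  · have hV : (s.V1 : ℝ) / C.Dv ≤ 0 := by
      simp only [Seg.majOK, hbl, if_true, decide_eq_true_eq] at hmaj
      exact div_nonpos_of_nonpos_of_nonneg (Int.cast_nonpos.2 hmaj) H.Dv.le
    exact (gap_below H P h fa fb fg fs h0 hbd hW hθ hη hx (by linarith) hz hk0 hk).trans (nb hbl)
  · have hbl' : s.below = false := by simpa using hbl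
    obtain ⟨hx1, hG0, hG1⟩ := seg_major H P hmem hmaj hbl' hslt hs0 hs1
    exact (gap_above H P h w fa fb fg fs h0 hbd sb1 sb2 hW hθ hη hx1 hz hk0 hk).trans
      (na hbl' _ hG0 hG1)

/-- The link of a calibration to a row of the far zone. -/
structure Cfg.FarLink (C : Cfg) (R : TailFar.FarRow) (m : ℕ) (θ η : ℝ) (W : ℝ → ℝ) : Prop where
  good : R.Good
  dim : R.N ≤ (m : ℝ) + 1
  k : R.k = (C.k : ℝ) * C.Dt / C.Dc
  E : R.E = (C.E : ℝ) / C.Dc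
  A : R.A = (C.Aq : ℝ) * C.Dt / C.Dc
  K : (C.K : ℝ) / C.Dw ≤ R.K
  t3 : (C.t3 : ℝ) / C.Dw ≤ R.t3
  dl : (C.t3 : ℝ) / C.Dw - (C.t1 : ℝ) / C.Dw ≤ R.dl
  th : R.th ≤ θ + (C.t1 : ℝ) / C.Dw
  es : R.es ≤ θ * η + (C.t1 : ℝ) / C.Dw
  pays : ∀ t ∈ Ioo (0 : ℝ) 1, R.fw * weightPoly (ballShape t) * t ^ 2 ≤ W t
  Af : 8 ≤ (C.Af : ℝ) / C.Dt
  b0 : 3 / 5 ≤ (C.b0 : ℝ) / C.Dc

/-- The pointwise inequality beyond the last interval. -/
theorem far_pointwise {C : Cfg} {R : TailFar.FarRow} {m : ℕ} {t : ℝ} {W : ℝ → ℝ} {θ η x z : ℝ}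
    (H : Head C) (L : C.FarLink R m θ η W) (ht : t ∈ Ioo (0 : ℝ) 1)
    (hA : (C.Af : ℝ) ≤ C.Dt * rootN m * t) (hx : 0 < x) (hz : z ∈ Icc (0 : ℝ) 1)
    (henv : x ^ 2 * ballShape t ^ m ≤ 267 / 100) (hsg : R.sg ≤ z * rootN m)
    (hc : (C.b0 : ℝ) / C.Dc * (1 - t * z) ^ m ≤ ballShape t ^ m * x ^ 2) :
    gapAt C m W θ η t x z ≤ 0 := by
  obtain ⟨ht0, ht1⟩ := ht
  set w := rootN m with hw
  have hw0 : 0 < w := rootN_pos m
  have hw2 : w ^ 2 = (m : ℝ) + 1 := rootN_sq m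
  have hden : 0 < 1 - t * z := by nlinarith [hz.2]
  have hρ : (t - z) / (1 - t * z) ∈ Icc (-1 : ℝ) t := by
    refine ⟨(rho_mem ⟨ht0, ht1⟩ hz).1, ?_⟩
    rw [div_le_iff₀ hden]
    nlinarith [mul_nonneg hz.1 (show 0 ≤ 1 - t * t by nlinarith)]
  have hT : 8 ≤ t * √((m : ℝ) + 1) := by
    have := L.Af
    rw [le_div_iff₀ H.Dt] at this
    refine le_of_mul_le_mul_right ?_ H.Dt
    calc 8 * (C.Dt : ℝ) ≤ C.Af := this
      _ ≤ C.Dt * w * t := hA
      _ = t * √((m : ℝ) + 1) * C.Dt := by rw [hw, rootN]; ring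
  have hm1 : 1 ≤ m := by
    have h1 : ((1 : ℕ) : ℝ) ≤ m := by push_cast; linarith [L.good.N0, L.dim]
    exact_mod_cast h1
  have hp := ball_pos (sub01 ⟨ht0, ht1⟩)
  have hcentre : 3 / 5 * (ballShape t / (1 - t * ((t - z) / (1 - t * z)))) ^ m ≤ x ^ 2 := by
    have e : ballShape t / (1 - t * ((t - z) / (1 - t * z))) = (1 - t * z) / ballShape t := by
      rw [show 1 - t * ((t - z) / (1 - t * z)) = ballShape t ^ 2 / (1 - t * z) by
        rw [ball_sq (Ioo_subset_Icc_self (sub01 ⟨ht0, ht1⟩))]; field_simp; ring]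
      field_simp
    rw [e, div_pow, mul_div_assoc', div_le_iff₀ (pow_pos hp _), mul_comm (x ^ 2)]
    exact (mul_le_mul_of_nonneg_right L.b0 (pow_nonneg hden.le _)).trans hc
  have hsg0 : 0 ≤ R.sg / √((m : ℝ) + 1) :=
    div_nonneg (by linarith [L.good.sg0]) (Real.sqrt_nonneg _)
  have hsz : R.sg / √((m : ℝ) + 1) ≤ z := (div_le_iff₀ hw0).2 hsg
  have key := L.good.le (κ := (C.K : ℝ) / C.Dw / ((m : ℝ) + 1)) (t₁ := (C.t1 : ℝ) / C.Dw)
    (t₃ := (C.t3 : ℝ) / C.Dw) (W := W t) L.dim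
    (div_nonneg (div_nonneg H.K H.Dw.le) (by positivity))
    (by rw [div_mul_cancel₀ _ (by positivity)]; exact L.K) (div_nonneg H.t1 H.Dw.le)
    (div_le_div_of_nonneg_right H.t13 H.Dw.le) L.t3 L.dl ⟨ht0, ht1⟩ hT hx hρ hcentre henv
    (shift_anti ⟨ht0, ht1⟩ ⟨hsg0, hsz.trans hz.2⟩ hz hsz) (L.pays t ⟨ht0, ht1⟩)
  have hmono := TailFar.gain_mono (x := x) L.good hm1 L.th L.es ⟨ht0, ht1⟩ hρ
  have hθ0 : 0 < θ + (C.t1 : ℝ) / C.Dw := L.good.th0.trans_le L.th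
  rw [← mult_gain hθ0.ne'] at hmono
  have hfar := H.far
  simp only [Cfg.farOK, Bool.and_eq_true, decide_eq_true_eq] at hfar
  obtain ⟨⟨⟨⟨a1, a2⟩, b1, b2⟩, g1, g2⟩, s1, s2⟩ := hfar
  obtain ⟨ea, ea'⟩ := scaled_far C.Dt C.Dc C.flux.al a1 a2 hA
  obtain ⟨eb, eb'⟩ := scaled_far C.Dt C.Dc C.flux.be b1 b2 hA
  obtain ⟨eg, eg'⟩ := scaled_far C.Dt C.Dc C.flux.ga g1 g2 hA
  obtain ⟨es, es'⟩ := scaled_far C.Dt C.Dc C.flux.si s1 s2 hA
  have hD : ballShape t ^ 2 * (sepU C.Dt C.Dc C.flux m).Dt t x z +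
      (m : ℝ) / 2 * x * ((t - z) / (1 - t * z)) * (sepU C.Dt C.Dc C.flux m).Dx t x z -
      ((m : ℝ) + 1) * t * (sepU C.Dt C.Dc C.flux m).D t x z + tailLoss m x +
      multLoss m ((C.K : ℝ) / C.Dw / ((m : ℝ) + 1)) ((C.t1 : ℝ) / C.Dw) ((C.t3 : ℝ) / C.Dw) t x =
      TailFar.farLHS R m ((C.K : ℝ) / C.Dw / ((m : ℝ) + 1)) ((C.t1 : ℝ) / C.Dw)
        ((C.t3 : ℝ) / C.Dw) t x ((t - z) / (1 - t * z)) := by
    rw [Dt_eq, Dx_eq, D_eq, ea, eb, eg, es, ea', eb', eg', es', TailFar.farLHS, L.k, L.E, L.A,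
      show √((m : ℝ) + 1) = w from rfl, ← hw2]
    simp only [← hw]
    have := H.Dc.ne'
    push_cast
    field_simp
    ring
  rw [gapAt, hD]
  linarith

/-- The flux is nonpositive at the centre. -/
theorem centre_sound {C : Cfg} {m : ℕ} {l : ℝ} (H : Head C) (P : Pos C m l) (hmem : C.Mem m)
    (h : C.centreOK = true) {x z : ℝ} (hx : 0 < x) (hlo : (C.b0 : ℝ) / C.Dc ≤ x ^ 2)
    (hhi : x ^ 2 ≤ (C.Kc : ℝ) / C.Dc) : (sepU C.Dt C.Dc C.flux m).D 0 x z ≤ 0 := by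
  simp only [Cfg.centreOK, Bool.and_eq_true] at h
  obtain ⟨⟨⟨⟨⟨⟨⟨ka, kb⟩, kg⟩, ks⟩, hst⟩, hch⟩, hend⟩, hall⟩ := h
  rcases hcs : C.csegs with - | ⟨s₀, rest⟩
  · simp [hcs] at hst
  rw [hcs] at hst hch hend hall
  simp only [Bool.or_eq_true, decide_eq_true_eq] at hst
  have hD := H.Dv
  have hv0 : (s₀.V0 : ℝ) / C.Dv ≤ x - 1 := by
    rcases hst with h1 | h1
    · rw [div_le_iff₀ hD]
      have : (s₀.V0 : ℝ) ≤ ((-C.Dv : ℤ) : ℝ) := Int.cast_le.2 h1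
      push_cast at this
      nlinarith
    · have h1' := (Rat.cast_le (K := ℝ)).2 h1
      push_cast at h1'
      have := abs_le_abs_of_sq_le (h1'.trans hlo) hx
      linarith
  have hlast : ∀ s, (s₀ :: rest).getLast? = some s → x - 1 ≤ (s.V1 : ℝ) / C.Dv := fun s hs => by
    obtain ⟨e1, e2⟩ := segEnd_last hend hs
    have e1' := (Rat.cast_nonneg (K := ℝ)).2 e1
    have e2' := (Rat.cast_le (K := ℝ)).2 e2
    push_cast at e1' e2'
    linarith [le_of_pow_le_pow_left₀ two_ne_zero e1' (hhi.trans e2')]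
  obtain ⟨s, hsm, hslt, hs0, hs1⟩ := segChain_sound hD hch hv0 hlast
  have hs := List.all_eq_true.1 hall s hsm
  simp only [centreSeg, Bool.and_eq_true, decide_eq_true_eq] at hs
  obtain ⟨⟨⟨⟨hmaj, c0⟩, c1⟩, c2⟩, c3⟩ := hs
  have d0 := (Int.cast_le (R := ℝ)).2 c0
  have d1 := (Int.cast_le (R := ℝ)).2 c1
  have d2 := (Int.cast_le (R := ℝ)).2 c2
  have d3 := (Int.cast_le (R := ℝ)).2 c3
  rw [D_eq, scaled_zero _ _ _ ka, scaled_zero _ _ _ kb, scaled_zero _ _ _ kg, scaled_zero _ _ _ ks]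
  have hw := rootN_pos m
  have hDc := H.Dc
  have e : ((C.flux.al.e0 : ℝ) / C.Dc + C.flux.be.e0 / C.Dc * (x - 1) +
        C.flux.ga.e0 / C.Dc * (x - 1) ^ 2) / rootN m ^ 3 +
      C.flux.si.e0 / C.Dc / rootN m * cubicF m x =
      ((C.flux.al.e0 : ℝ) + (x - 1) * C.flux.be.e0 + (x - 1) ^ 2 * C.flux.ga.e0 +
        C.flux.si.e0 * (((m : ℝ) + 1) * cubicF m x)) / (C.Dc * rootN m ^ 3) := by
    rw [← rootN_sq]
    field_simp
  rw [e]
  refine div_nonpos_of_nonpos_of_nonneg ?_ (by positivity)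
  by_cases hb : s.below = true
  · simp only [hb, if_true] at d0 d1 d2 d3
    push_cast at d0 d1 d2 d3
    have hV : (s.V1 : ℝ) / C.Dv ≤ 0 := by
      simp only [Seg.majOK, hb, if_true, decide_eq_true_eq] at hmaj
      exact div_nonpos_of_nonpos_of_nonneg (Int.cast_nonpos.2 hmaj) hD.le
    have hF : cubicF m x = 0 := by
      rcases (show x ≤ 1 by linarith).eq_or_lt with e | e
      · subst e; simp [cubicF, tailCubicPos, (tailCubic_one m).1]
      · simp [cubicF, tailCubicPos, e.not_ge]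
    have key := seg_cubic hD hslt hs0 hs1
      (c := ![-(C.flux.al.e0 : ℝ), -(C.flux.be.e0 : ℝ), -(C.flux.ga.e0 : ℝ), 0]) fun k => by
        fin_cases k <;> simp only [ctrlAt, Matrix.cons_val, V4.app] <;> push_cast <;> linarith
    simp only [cubicAt, Matrix.cons_val] at key
    rw [hF]
    linarith
  · have hb' : s.below = false := by simpa using hb
    obtain ⟨-, hG0, hG1⟩ := seg_major H P hmem hmaj hb' hslt hs0 hs1
    simp only [hb', Bool.false_eq_true, if_false] at d0 d1 d2 d3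
    set σ := max C.flux.si.e0 0 with hσ
    push_cast at d0 d1 d2 d3
    have key := seg_cubic hD hslt hs0 hs1
      (c := ![-((C.Dc : ℝ) * C.flux.al.e0 + σ * s.g0), -((C.Dc : ℝ) * C.flux.be.e0 + σ * s.g1),
        -((C.Dc : ℝ) * C.flux.ga.e0 + σ * s.g2), -((σ : ℝ) * s.g3)]) fun k => by
        fin_cases k <;> simp only [ctrlAt, Matrix.cons_val, V4.app] <;> push_cast <;> linarith
    simp only [cubicAt, Matrix.cons_val] at key
    refine le_of_mul_le_mul_left ?_ hDc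
    rw [mul_zero]
    have h1 : (C.flux.si.e0 : ℝ) * (((m : ℝ) + 1) * cubicF m x) ≤
        (σ : ℝ) * (((m : ℝ) + 1) * cubicF m x) :=
      mul_le_mul_of_nonneg_right (Int.cast_le.2 (le_max_left _ _)) hG0
    rw [le_div_iff₀ hDc] at hG1
    have h2 := mul_le_mul_of_nonneg_left hG1
      (Int.cast_nonneg (le_max_right C.flux.si.e0 0) : (0 : ℝ) ≤ (σ : ℝ))
    have h3 := mul_le_mul_of_nonneg_left h1 hDc.le
    linarith

/-- The tail lemma from a passed check, at every dimension of the range. -/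
theorem Cfg.excess_le {C : Cfg} (hC : C.check = true) {m : ℕ} (hmem : C.Mem m) {φ : ℝ → ℝ}
    (hφ : IsShape φ) (hx1 : powRatio m φ ≤ 1) (hV : convexVal m (pureG m) φ ≤ 0) {θ η : ℝ}
    (hθ : 0 < θ + (C.t1 : ℝ) / C.Dw) (hη : (C.et : ℝ) / C.Dw ≤ θ * η + (C.t1 : ℝ) / C.Dw)
    {W : ℝ → ℝ} (hWm : Measurable W) {B : ℝ} (hWb : ∀ t ∈ Ioo (0 : ℝ) 1, |W t| ≤ B)
    (hW : C.Pays m W) {R : TailFar.FarRow} (L : C.FarLink R m θ η W)
    (hlo : (C.b0 : ℝ) / C.Dc * specM m φ ^ 2 ≤ φ 0 ^ m)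
    (hhi : φ 0 ^ m ≤ (C.Kc : ℝ) / C.Dc * specM m φ ^ 2)
    (hN : ∀ I ∈ C.ivals, ∀ t ∈ Ioo (0 : ℝ) 1,
      I.node.Holds C m t (specU m φ t / specM m φ) (shapeZ φ t))
    (hfar : ∀ t ∈ Ioo (0 : ℝ) 1, (C.Af : ℝ) ≤ C.Dt * rootN m * t →
      (specU m φ t / specM m φ) ^ 2 * ballShape t ^ m ≤ 267 / 100 ∧
        R.sg ≤ shapeZ φ t * rootN m) :
    specExcess m φ ≤ specQuad m W (specV m φ) + θ * (specSurplus m (bregPoly m) φ +
      η * specEnergy m (bregPoly m) (fun t => specU' m φ t / specM m φ)) := by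
  simp only [Cfg.check, Bool.and_eq_true, List.all_eq_true] at hC
  obtain ⟨⟨hhead, hcentre⟩, hI⟩ := hC
  have H := head_of_check hhead
  obtain ⟨l, P⟩ := pos_of_mem H hmem
  have hm2 : 2 ≤ m := le_trans (by norm_num) P.m3
  have hm1 : 1 ≤ m := by omega
  have hM := specM_pos hm1 hφ
  have hp0 : (0 : ℝ) ∈ Ioo (-1 : ℝ) 1 := by norm_num
  have hU0 : specU m φ 0 ^ 2 = φ 0 ^ m := by rw [specU_sq hφ hp0]; simp [ballShape]
  have hx0 : 0 < specU m φ 0 / specM m φ := div_pos (specU_pos hφ hp0) hM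
  refine excess_le_of_sepFlux_mult (S := fun t x z =>
      (∀ I ∈ C.ivals, I.node.Holds C m t x z) ∧
      ((C.Af : ℝ) ≤ C.Dt * rootN m * t →
        x ^ 2 * ballShape t ^ m ≤ 267 / 100 ∧ R.sg ≤ z * rootN m) ∧
      (C.b0 : ℝ) / C.Dc * (1 - t * z) ^ m ≤ ballShape t ^ m * x ^ 2)
    hm2 hφ hx1 hV (fun t _ => bregPoly_nonneg m t) (measurable_bregPoly m)
    (fun t ht r hr => bregPoly_mul_le hm1 ht hr) hWm hWb θ
    (κ := (C.K : ℝ) / C.Dw / ((m : ℝ) + 1)) (t₁ := (C.t1 : ℝ) / C.Dw) (t₃ := (C.t3 : ℝ) / C.Dw)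
    (div_nonneg H.t1 H.Dw.le) (div_nonneg (H.t1.trans H.t13) H.Dw.le)
    (regular C.Dt C.Dc C.flux P.m3 (by exact_mod_cast H.Dt.le))
    (fun _ _ _ _ _ => fun _ _ _ _ _ => by simp only [D_eq, le_refl]) ?_ (lower C.Dt C.Dc C.flux P.m3) ?_ ?_
  · refine centre_sound H P hmem hcentre hx0 ?_ ?_
    · rw [div_pow, le_div_iff₀ (pow_pos hM 2), hU0]; exact hlo
    · rw [div_pow, div_le_iff₀ (pow_pos hM 2), hU0]; exact hhi
  · intro t ht
    refine ⟨fun I hI' => hN I hI' t ht, hfar t ht, ?_⟩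
    have hp := ball_pos (sub01 ht)
    have hz := shapeZ_mem hφ ht
    have h1 : 0 ≤ 1 - t * shapeZ φ t := by nlinarith [ht.1, ht.2, hz.2]
    rw [div_pow, specU_sq hφ (sub01 ht), div_pow, ← mul_div_assoc,
      mul_div_cancel₀ _ (pow_ne_zero _ hp.ne'), le_div_iff₀ (pow_pos hM 2)]
    calc (C.b0 : ℝ) / C.Dc * (1 - t * shapeZ φ t) ^ m * specM m φ ^ 2
        = (1 - t * shapeZ φ t) ^ m * ((C.b0 : ℝ) / C.Dc * specM m φ ^ 2) := by ring
      _ ≤ (1 - t * shapeZ φ t) ^ m * φ 0 ^ m := mul_le_mul_of_nonneg_left hlo (pow_nonneg h1 _)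
      _ = (φ 0 * (1 - t * shapeZ φ t)) ^ m := by rw [mul_pow]; ring
      _ ≤ φ t ^ m := pow_le_pow_left₀ (mul_nonneg hφ.centre.le h1) (centre_chord hφ ht) _
  · intro t ht x hx z hz hS
    have key : gapAt C m W θ η t x z ≤ 0 := by
      by_cases hA : (C.Af : ℝ) ≤ C.Dt * rootN m * t
      · exact far_pointwise H L ht hA hx hz (hS.2.1 hA).1 (hS.2.1 hA).2 hS.2.2
      · obtain ⟨I, hIm, hI0, hI1⟩ := ivalChain_sound H.cover (A := C.Dt * rootN m * t)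
          (by rw [Int.cast_zero]; exact mul_nonneg (mul_nonneg H.Dt.le (rootN_pos m).le) ht.1.le)
          (not_le.1 hA)
        obtain ⟨hs, hc⟩ := hI I hIm
        exact ival_pointwise H P hmem hs hc ⟨ht, hI0, hI1⟩ hW hθ hη hx hz (hS.1 I hIm) hS.2.2
    rw [gapAt] at key
    linarith

end Vale.Agent.P237.Quant.TailUniform
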