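import Mathlib
import Vale.Agent.P237.Quant.TailUniformSound
import Vale.Agent.P237.Quant.EnvelopeBinTable
import Vale.Agent.P237.Quant.GeneralAssembly

/-!
A checked calibration on a range of dimensions gives the tail inequality of one bin at every
dimension of the range: each node of the calibration follows from the bound of the centre or from
nodes of the envelope table of the range, and so does the state at the start of the far zone.
-/

namespace Vale.Agent.P237.Quant.TailUniform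

open Set MeasureTheory

/-- The state `σ` follows from a node before `Z` where the value is a share `exp (-L / m)` of the
centre, at every `n ≥ n₀`. -/
def sigCovered (n₀ : ℕ) (nodes : List RangeBinNode) (Z σ : ℚ) : Bool :=
  decide (σ ≤ 0) || nodes.any fun B =>
    let c := σ * B.Z / B.L
    let m : ℚ := (n₀ : ℚ) - 1
    decide (B.Z ≤ Z ∧ 0 < B.L ∧ c ≤ 1 ∧
      c * (2 * m ^ 2 + 2 * m * B.L + B.L ^ 2) ≤ (m + 1) * (2 * m + B.L) ∧
      c * (4 * m + 2 * B.L) ≤ 4 * m + 2 + B.L)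

/-- The data of a node follow from the centre or from the nodes of a bin. -/
def nodeCovered (C : Cfg) (nodes : List RangeBinNode) (N : Node) : Bool :=
  let Z : ℚ := (N.Z : ℚ) / C.Dt
  decide (0 ≤ N.Z) &&
    (decide ((C.Kc : ℚ) / C.Dc ≤ (N.K : ℚ) / C.Dc) || nodes.any fun B =>
      decide (B.Z ≤ Z ∧ 281 / 250 * B.K ≤ (N.K : ℚ) / C.Dc)) &&
    (decide (N.L = 0) || (decide (0 < N.Z ∧ 0 ≤ N.L) && nodes.any fun B =>
      decide (B.Z ≤ Z ∧ (N.L : ℚ) / C.Dc ≤ B.L))) &&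
    sigCovered C.lo nodes Z ((N.sig : ℚ) / C.Dt)

/-- The relation of a calibration to a bin of a row, with an envelope table of a range. -/
def binLink (C : Cfg) (R : EnvRange) (bins : List (ℚ × ℚ × List RangeBinNode))
    (lo hi sg : ℚ) : Bool :=
  decide (R.lo ≤ C.lo ∧ (R.hi = 0 ∨ (C.hi ≠ 0 ∧ C.hi ≤ R.hi))) &&
  decide (0 ≤ lo ∧ 0 ≤ hi ∧ (C.b0 : ℚ) / C.Dc ≤ lo ∧
    min (281 / 250 * hi) (1540 / 1000 * (1540 / 1000)) ≤ (C.Kc : ℚ) / C.Dc) &&
  bins.any fun b => decide (b.1 ≤ lo ∧ hi ≤ b.2.1) &&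
    sigCovered C.lo b.2.2 ((C.Af : ℚ) / C.Dt) sg &&
    C.ivals.all fun I => nodeCovered C b.2.2 I.node

variable {m : ℕ} {φ : ℝ → ℝ}

/-- The value falls exponentially past a node. -/
theorem pow_chord_decay (hφ : IsShape φ) (hm : 1 ≤ m) {T t L : ℝ} (hT : 0 < T) (hTt : T ≤ t)
    (ht : t < 1) (hL : 0 ≤ L) (h : φ T ^ m ≤ Real.exp (-L) * φ 0 ^ m) :
    φ t ^ m ≤ φ T ^ m * Real.exp (-((t / T - 1) * L)) := by
  have hm' : (0 : ℝ) < m := by exact_mod_cast hm
  have hφT : 0 ≤ φ T := hφ.nonneg _ ⟨by linarith, hTt.trans ht.le⟩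
  have hφt : 0 ≤ φ t := hφ.nonneg _ ⟨by linarith, ht.le⟩
  have hX : (0 : ℝ) < 1 / (1 + L / m) := by positivity
  have hc := envelope_chord hφ hT hTt ht.le hX (range_node_ratio hm hL hφT hφ.centre h)
  rw [div_div_eq_mul_div, div_one] at hc
  have h1 : φ t ≤ φ T * Real.exp (-((t / T - 1) * L / m)) := by
    refine hc.trans (mul_le_mul_of_nonneg_left ?_ hφT)
    have e := Real.add_one_le_exp (-((t / T - 1) * L / m))
    have e2 : t / T - (t / T - 1) * (1 + L / m) = -((t / T - 1) * L / m) + 1 := by ring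
    rw [e2]
    exact e
  refine (pow_le_pow_left₀ hφt h1 m).trans_eq ?_
  rw [mul_pow, ← Real.exp_nat_mul]
  congr 2
  field_simp

/-- The state past a node where the power is a share `exp (-L)` of the one of the centre. -/
theorem shapeZ_node (hφ : IsShape φ) (hm : 1 ≤ m) {T t L : ℝ} (hT : 0 < T) (hTt : T ≤ t)
    (ht : t ∈ Ioo (0 : ℝ) 1) (hL : 0 ≤ L) (h : φ T ^ m ≤ Real.exp (-L) * φ 0 ^ m) :
    L * (2 * m + L) / (2 * (m : ℝ) ^ 2 + 2 * m * L + L ^ 2) / T ≤ shapeZ φ t := by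
  have hm' : (0 : ℝ) < m := by exact_mod_cast hm
  have hD : 0 < 2 * (m : ℝ) ^ 2 + 2 * m * L + L ^ 2 := by positivity
  have hφT : 0 ≤ φ T := hφ.nonneg _ ⟨by linarith, hTt.trans ht.2.le⟩
  have hq : φ T ≤ 2 * (m : ℝ) ^ 2 / (2 * (m : ℝ) ^ 2 + 2 * m * L + L ^ 2) * φ 0 := by
    have h1 : Real.exp (-L) * φ 0 ^ m = (Real.exp (-L / m) * φ 0) ^ m := by
      rw [mul_pow, ← Real.exp_nat_mul]
      congr 2
      field_simp
    rw [h1] at h
    refine ((pow_le_pow_iff_left₀ hφT (mul_nonneg (Real.exp_pos _).le hφ.centre.le)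
      (by omega)).1 h).trans (mul_le_mul_of_nonneg_right ?_ hφ.centre.le)
    have e := Real.quadratic_le_exp_of_nonneg (div_nonneg hL hm'.le)
    rw [show (1 : ℝ) + L / m + (L / m) ^ 2 / 2 =
      (2 * (m : ℝ) ^ 2 + 2 * m * L + L ^ 2) / (2 * (m : ℝ) ^ 2) by field_simp] at e
    rw [neg_div, Real.exp_neg]
    refine (inv_anti₀ (by positivity) e).trans_eq ?_
    rw [inv_div]
  refine le_trans (le_of_eq ?_) (shapeZ_ge_node hφ hT hTt ht hq)
  congr 1
  field_simp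
  ring

/-- The bound of a node of the envelope from the bin of a profile. -/
theorem node_power {R : EnvRange} {bins : List (ℚ × ℚ × List RangeBinNode)}
    (hbins : R.check = true ∧ (bins.all fun b => b.2.2.all fun N => N.check R b.1 b.2.1) = true)
    {b : ℚ × ℚ × List RangeBinNode} (hb : b ∈ bins) {B : RangeBinNode} (hB : B ∈ b.2.2)
    (hR : R.Mem (m + 1)) {lo hi : ℝ} (hst : BinState m lo hi φ) (hblo : (b.1 : ℝ) ≤ lo)
    (hbhi : hi ≤ (b.2.1 : ℝ)) {T : ℝ} (hT : (B.Z : ℝ) / rootN m ≤ T) (hT1 : T ≤ 1) :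
    0 < B.Z ∧ φ T ^ m ≤ 281 / 250 * (B.K : ℝ) * specM m φ ^ 2 ∧
      φ T ^ m ≤ Real.exp (-(B.L : ℝ)) * φ 0 ^ m := by
  have hmass : 0 ≤ mass m φ 1 := intervalIntegral.integral_nonneg zero_le_one fun u hu =>
    pow_nonneg (hst.shape.nonneg _ ⟨by linarith [hu.1], hu.2⟩) _
  have h1 := (mul_le_mul_of_nonneg_right hblo hmass).trans hst.relLow
  have h2 := hst.relUp.trans (mul_le_mul_of_nonneg_right hbhi hmass)
  have hchk := List.all_eq_true.1 (List.all_eq_true.1 hbins.2 b hb) B hB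
  refine ⟨?_, envelope_bins_range hst.shape hst.power hbins hR hb hB hst.massUp h1 h2 hT hT1,
    (envelope_bin_range hst.shape hst.power hbins.1 hR hchk h1 h2 hT hT1).2⟩
  simp only [RangeBinNode.check, Bool.and_eq_true, decide_eq_true_eq] at hchk
  exact hchk.1.1

/-- The state past a covered time. -/
theorem sigCovered_sound {R : EnvRange} {bins : List (ℚ × ℚ × List RangeBinNode)}
    (hbins : R.check = true ∧ (bins.all fun b => b.2.2.all fun N => N.check R b.1 b.2.1) = true)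
    {b : ℚ × ℚ × List RangeBinNode} (hb : b ∈ bins) (hR : R.Mem (m + 1)) {n₀ : ℕ}
    (hn₀ : 2 ≤ n₀) (hn : n₀ ≤ m + 1) {lo hi : ℝ} (hst : BinState m lo hi φ)
    (hblo : (b.1 : ℝ) ≤ lo) (hbhi : hi ≤ (b.2.1 : ℝ)) {Z σ : ℚ}
    (h : sigCovered n₀ b.2.2 Z σ = true) {t : ℝ} (ht : t ∈ Ioo (0 : ℝ) 1)
    (hZ : (Z : ℝ) ≤ rootN m * t) : (σ : ℝ) ≤ shapeZ φ t * rootN m := by
  have hw := rootN_pos m
  simp only [sigCovered, Bool.or_eq_true, decide_eq_true_eq, List.any_eq_true] at h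
  rcases h with h | ⟨B, hB, hBZ, hL, hc1, hc2, hc3⟩
  · exact (Rat.cast_nonpos.2 h).trans (mul_nonneg (shapeZ_mem hst.shape ht).1 hw.le)
  have hBt : (B.Z : ℝ) / rootN m ≤ t := by
    rw [div_le_iff₀ hw]
    linarith [(Rat.cast_le (K := ℝ)).2 hBZ]
  have hBpos : 0 < B.Z := (node_power hbins hb hB hR hst hblo hbhi hBt ht.2.le).1
  have hZ0 : (0 : ℝ) < B.Z := Rat.cast_pos.2 hBpos
  have hL' : (0 : ℝ) < B.L := Rat.cast_pos.2 hL
  obtain ⟨-, -, hdec⟩ := node_power hbins hb hB hR hst hblo hbhi le_rfl (hBt.trans ht.2.le)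
  have hz := shapeZ_node hst.shape (by omega : 1 ≤ m) (div_pos hZ0 hw) hBt ht hL'.le hdec
  set mr : ℝ := (m : ℝ) with hmr
  have hm0 : (n₀ : ℝ) - 1 ≤ mr := by
    have : (n₀ : ℝ) ≤ ((m + 1 : ℕ) : ℝ) := by exact_mod_cast hn
    push_cast at this
    linarith
  have hn1 : (2 : ℝ) ≤ n₀ := by exact_mod_cast hn₀
  have hc1' := (Rat.cast_le (K := ℝ)).2 hc1
  have hc2' := (Rat.cast_le (K := ℝ)).2 hc2
  have hc3' := (Rat.cast_le (K := ℝ)).2 hc3
  push_cast at hc1' hc2' hc3'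
  set c : ℝ := (σ : ℝ) * B.Z / B.L with hc
  have key : c * (2 * mr ^ 2 + 2 * mr * B.L + (B.L : ℝ) ^ 2) ≤ (mr + 1) * (2 * mr + B.L) := by
    nlinarith [mul_nonneg (sub_nonneg.2 hc3') (sub_nonneg.2 hm0),
      mul_nonneg (sub_nonneg.2 hc1') (sq_nonneg (mr - ((n₀ : ℝ) - 1)))]
  have hm1 : 0 < mr := by linarith
  have hD : 0 < 2 * mr ^ 2 + 2 * mr * B.L + (B.L : ℝ) ^ 2 := by positivity
  calc (σ : ℝ) = (B.L : ℝ) / B.Z * c := by rw [hc]; field_simp
    _ ≤ (B.L : ℝ) / B.Z *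
        ((mr + 1) * (2 * mr + B.L) / (2 * mr ^ 2 + 2 * mr * B.L + (B.L : ℝ) ^ 2)) :=
      mul_le_mul_of_nonneg_left ((le_div_iff₀ hD).2 key) (by positivity)
    _ = (B.L : ℝ) * (2 * mr + B.L) / (2 * mr ^ 2 + 2 * mr * B.L + (B.L : ℝ) ^ 2) /
        ((B.Z : ℝ) / rootN m) * rootN m := by
      rw [hmr, ← rootN_sq m]
      field_simp
    _ ≤ shapeZ φ t * rootN m := mul_le_mul_of_nonneg_right hz hw.le

/-- The nodes of a linked calibration hold. -/
theorem nodeCovered_sound {C : Cfg} (hDt : 0 < C.Dt) (hDc : 0 < C.Dc) {R : EnvRange}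
    {bins : List (ℚ × ℚ × List RangeBinNode)}
    (hbins : R.check = true ∧ (bins.all fun b => b.2.2.all fun N => N.check R b.1 b.2.1) = true)
    {b : ℚ × ℚ × List RangeBinNode} (hb : b ∈ bins) (hR : R.Mem (m + 1)) (hn₀ : 2 ≤ C.lo)
    (hn : C.lo ≤ m + 1) {lo hi : ℝ} (hst : BinState m lo hi φ) (hblo : (b.1 : ℝ) ≤ lo)
    (hbhi : hi ≤ (b.2.1 : ℝ)) (hc : φ 0 ^ m ≤ (C.Kc : ℝ) / C.Dc * specM m φ ^ 2) {N : Node}
    (h : nodeCovered C b.2.2 N = true) {t : ℝ} (ht : t ∈ Ioo (0 : ℝ) 1) :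
    N.Holds C m t (specU m φ t / specM m φ) (shapeZ φ t) := by
  intro hA
  have hw := rootN_pos m
  have hD : (0 : ℝ) < C.Dt := Int.cast_pos.2 hDt
  have hDc' : (0 : ℝ) < C.Dc := Int.cast_pos.2 hDc
  have hm1 : 1 ≤ m := by omega
  have hM := specM_pos hm1 hst.shape
  have hp := ball_pos (sub01 ht)
  simp only [nodeCovered, Bool.and_eq_true, Bool.or_eq_true, decide_eq_true_eq,
    List.any_eq_true] at h
  obtain ⟨⟨⟨hZ0, hK⟩, hL⟩, hσ⟩ := h
  have hZt : (N.Z : ℝ) / C.Dt ≤ rootN m * t := by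
    rw [div_le_iff₀ hD]
    linarith
  refine ⟨?_, ?_⟩
  swap
  · have := sigCovered_sound hbins hb hR hn₀ hn hst hblo hbhi hσ ht (by push_cast; exact hZt)
    push_cast at this
    exact this
  rw [div_pow, specU_sq hst.shape (sub01 ht), div_pow, div_mul_eq_mul_div,
    div_mul_cancel₀ _ (pow_ne_zero _ hp.ne'), div_le_iff₀ (pow_pos hM 2)]
  have hpow : ∀ u, (N.Z : ℝ) / C.Dt ≤ rootN m * u → 0 ≤ u → u ≤ 1 →
      φ u ^ m ≤ (N.K : ℝ) / C.Dc * specM m φ ^ 2 := by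
    intro u hu hu0 hu1
    rcases hK with h | ⟨B, hB, hBZ, hBK⟩
    · have h' := (Rat.cast_le (K := ℝ)).2 h
      push_cast at h'
      exact ((pow_le_pow_left₀ (hst.shape.nonneg _ ⟨by linarith, hu1⟩)
        (shape_le_centre hst.shape ⟨by linarith, hu1⟩) m).trans hc).trans
        (mul_le_mul_of_nonneg_right h' (sq_nonneg _))
    · have hBZ' := (Rat.cast_le (K := ℝ)).2 hBZ
      have hBK' := (Rat.cast_le (K := ℝ)).2 hBK
      push_cast at hBZ' hBK'
      refine (node_power hbins hb hB hR hst hblo hbhi ?_ hu1).2.1.trans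
        (mul_le_mul_of_nonneg_right hBK' (sq_nonneg _))
      rw [div_le_iff₀ hw]
      linarith
  rcases hL with h0 | ⟨⟨hZ, hL0⟩, B, hB, hBZ, hBL⟩
  · rw [h0]
    simpa using hpow t hZt ht.1.le ht.2.le
  have hBZ' := (Rat.cast_le (K := ℝ)).2 hBZ
  have hBL' := (Rat.cast_le (K := ℝ)).2 hBL
  push_cast at hBZ' hBL'
  set T : ℝ := (N.Z : ℝ) / C.Dt / rootN m with hT
  have hT0 : 0 < T := div_pos (div_pos (Int.cast_pos.2 hZ) hD) hw
  have hTt : T ≤ t := by
    rw [hT, div_le_iff₀ hw]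
    linarith
  have hT1 : T ≤ 1 := hTt.trans ht.2.le
  have hTw : rootN m * T = (N.Z : ℝ) / C.Dt := by
    rw [hT]
    field_simp
  have hdec : φ T ^ m ≤ Real.exp (-((N.L : ℝ) / C.Dc)) * φ 0 ^ m := by
    refine (node_power hbins hb hB hR hst hblo hbhi ?_ hT1).2.2.trans
      (mul_le_mul_of_nonneg_right (Real.exp_le_exp.2 (neg_le_neg hBL'))
        (pow_nonneg hst.shape.centre.le m))
    exact (div_le_div_of_nonneg_right hBZ' hw.le)
  refine (pow_chord_decay hst.shape hm1 hT0 hTt ht.2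
    (div_nonneg (Int.cast_nonneg hL0) hDc'.le) hdec).trans ?_
  have e : t / T = (C.Dt : ℝ) * rootN m * t / N.Z := by
    rw [hT]
    field_simp
  rw [e]
  calc φ T ^ m * _ ≤ (N.K : ℝ) / C.Dc * specM m φ ^ 2 * _ :=
      mul_le_mul_of_nonneg_right (hpow T hTw.ge hT0.le hT1) (Real.exp_pos _).le
    _ = _ := by ring

/-- A checked calibration linked to a bin gives its tail inequality at every dimension of the
range. -/
theorem tailBin_uniform {C : Cfg} (hC : C.check = true) {R : EnvRange}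
    {bins : List (ℚ × ℚ × List RangeBinNode)}
    (hbins : R.check = true ∧ (bins.all fun b => b.2.2.all fun N => N.check R b.1 b.2.1) = true)
    {sg lo hi : ℚ} (hl : binLink C R bins lo hi sg = true) (hm : C.Mem m) {W : ℝ → ℝ}
    (hWc : Continuous W) (hW : C.Pays m W) {θ η : ℝ} (hθ : 0 < θ)
    (hη : (C.et : ℝ) / C.Dw ≤ η + (C.t1 : ℝ) / C.Dw) {F : TailFar.FarRow}
    (hF : C.FarLink F m θ (η / θ) W) (hsg : F.sg ≤ sg) : TailBin m W θ η lo hi := by
  intro φ hst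
  have hhead : C.headOK = true := by
    simp only [Cfg.check, Bool.and_eq_true] at hC
    exact hC.1.1
  have H := head_of_check hhead
  obtain ⟨h7, hDt, hDc⟩ : 7 ≤ C.lo ∧ 0 < C.Dt ∧ 0 < C.Dc := by
    simp only [Cfg.headOK, Bool.and_eq_true, decide_eq_true_eq] at hhead
    exact ⟨hhead.1.1.1.1.1.1.1.1.1, hhead.1.1.1.1.1.1.1.2.1, hhead.1.1.1.1.1.1.1.2.2.1⟩
  have hn := hm.1
  have hm1 : 1 ≤ m := by omega
  simp only [binLink, Bool.and_eq_true, decide_eq_true_eq, List.any_eq_true,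
    List.all_eq_true] at hl
  obtain ⟨⟨⟨hRlo, hRhi⟩, hlo, hhi, hb0, hcen⟩, b, hb, ⟨⟨hblo, hbhi⟩, hfarσ⟩, hcov⟩ := hl
  have hR : R.Mem (m + 1) := ⟨hRlo.trans hn, hRhi.imp_right fun h => by
    have := hm.2.resolve_left h.1
    omega⟩
  have hlo' : (0 : ℝ) ≤ lo := Rat.cast_nonneg.2 hlo
  have hhi' : (0 : ℝ) ≤ hi := Rat.cast_nonneg.2 hhi
  have hb0' := (Rat.cast_le (K := ℝ)).2 hb0
  have hcen' := (Rat.cast_le (K := ℝ)).2 hcen
  push_cast at hb0' hcen'
  have hsq := sq_nonneg (specM m φ)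
  have hc : φ 0 ^ m ≤ (C.Kc : ℝ) / C.Dc * specM m φ ^ 2 := by
    refine le_trans ?_ (mul_le_mul_of_nonneg_right hcen' hsq)
    rw [min_mul_of_nonneg _ _ hsq]
    exact le_min (hst.centre_high hhi') (hst.centreUp.trans_eq (by ring))
  have hblo' : (b.1 : ℝ) ≤ lo := Rat.cast_le.2 hblo
  have hbhi' : (hi : ℝ) ≤ b.2.1 := Rat.cast_le.2 hbhi
  obtain ⟨B, -, hB⟩ := bounded_unit hWc
  have key := C.excess_le hC hm hst.shape hst.power hst.value
    (θ := θ) (η := η / θ) (by linarith [div_nonneg H.t1 H.Dw.le])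
    (by rw [mul_div_cancel₀ _ hθ.ne']; exact hη) hWc.measurable
    (fun t ht => hB t (Ioo_subset_Icc_self ht)) hW hF
    ((mul_le_mul_of_nonneg_right hb0' hsq).trans (hst.centre_low hlo')) hc
    (fun I hI t ht => nodeCovered_sound hDt hDc hbins hb hR (by omega) hn hst hblo' hbhi' hc
      (hcov I hI) ht)
    fun t ht hA => by
      refine ⟨?_, hsg.trans (sigCovered_sound hbins hb hR (by omega) hn hst hblo' hbhi' hfarσ ht ?_)⟩
      · rw [div_pow, specU_sq hst.shape (sub01 ht), div_pow, div_mul_eq_mul_div,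
          div_mul_cancel₀ _ (pow_ne_zero _ (ball_pos (sub01 ht)).ne'),
          div_le_iff₀ (pow_pos (specM_pos hm1 hst.shape) 2)]
        refine ((pow_le_pow_left₀ (hst.shape.nonneg _ ⟨by linarith [ht.1], ht.2.le⟩)
          (shape_le_centre hst.shape ⟨by linarith [ht.1], ht.2.le⟩) m).trans hst.centreUp).trans ?_
        rw [mul_pow]
        exact mul_le_mul_of_nonneg_right (by norm_num) hsq
      · push_cast
        rw [div_le_iff₀ H.Dt]
        linarith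
  rw [mul_add, ← mul_assoc, mul_div_cancel₀ _ hθ.ne', ← add_assoc] at key
  exact key

end Vale.Agent.P237.Quant.TailUniform
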