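import Mathlib
import Vale.Agent.P237.Quant.TailUniformGlue
import Vale.Agent.P237.Quant.TailUniformFarRows

/-!
Rational checks that link a calibration on a range of dimensions to a bin of a row of either side,
with the row of the far zone chosen by the check, and the tail inequalities of a row from its bins.
-/

namespace Vale.Agent.P237.Quant.TailUniform

open Set

/-- The constants that a row of the far zone fixes in a calibration. -/
structure FarQ where
  k : ℚ
  E : ℚ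
  A : ℚ
  K : ℚ
  t3 : ℚ
  th : ℚ
  dl : ℚ
  es : ℚ
  sg : ℚ

/-- A row of the far zone has these constants. -/
structure FarQ.Of (q : FarQ) (F : TailFar.FarRow) : Prop where
  k : F.k = q.k
  E : F.E = q.E
  A : F.A = q.A
  K : F.K = q.K
  t3 : F.t3 = q.t3
  th : F.th = q.th
  dl : F.dl = q.dl
  es : F.es = q.es
  sg : F.sg = q.sg
  N : F.N = 100

/-- The positive side on the bin of the ball. -/
def farQPosLow : FarQ := ⟨3 / 10, 0, 0, 0, 11 / 50, 129 / 100, 0, 63 / 200, 13 / 10⟩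

/-- The positive side above the ball. -/
def farQPosUp : FarQ :=
  ⟨67 / 200, 1 / 2, 1 / 100, 1 / 10, 11 / 50, 5 / 4, 1 / 25, 27 / 100, 61 / 50⟩

/-- The negative side on the bin of the ball. -/
def farQNegLow : FarQ := ⟨3 / 10, 0, 0, 0, 3 / 50, 3 / 4, 0, 1 / 50, 13 / 10⟩

/-- The negative side above the ball. -/
def farQNegUp : FarQ :=
  ⟨31 / 100, 1 / 2, 1 / 100, 1 / 20, 7 / 100, 3 / 4, 1 / 40, 1 / 50, 61 / 50⟩

theorem farQPosLow_of : farQPosLow.Of TailFar.farPosLow := by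
  constructor <;> norm_num [farQPosLow, TailFar.farPosLow]

theorem farQPosUp_of : farQPosUp.Of TailFar.farPosUp := by
  constructor <;> norm_num [farQPosUp, TailFar.farPosUp]

theorem farQNegLow_of : farQNegLow.Of TailFar.farNegLow := by
  constructor <;> norm_num [farQNegLow, TailFar.farNegLow]

theorem farQNegUp_of : farQNegUp.Of TailFar.farNegUp := by
  constructor <;> norm_num [farQNegUp, TailFar.farNegUp]

/-- A calibration fits a row of the far zone, with surplus weight `θ` and energy share `η`. -/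
def farCheck (C : Cfg) (q : FarQ) (θ η : ℚ) : Bool :=
  let t1 : ℚ := (C.t1 : ℚ) / C.Dw
  decide (q.k = (C.k : ℚ) * C.Dt / C.Dc ∧ q.E = (C.E : ℚ) / C.Dc ∧
    q.A = (C.Aq : ℚ) * C.Dt / C.Dc) &&
  decide ((C.K : ℚ) / C.Dw ≤ q.K ∧ (C.t3 : ℚ) / C.Dw ≤ q.t3 ∧
    (C.t3 : ℚ) / C.Dw - t1 ≤ q.dl ∧ q.th ≤ θ + t1 ∧ q.es ≤ η + t1) &&
  decide (100 ≤ C.lo ∧ 8 ≤ (C.Af : ℚ) / C.Dt ∧ 3 / 5 ≤ (C.b0 : ℚ) / C.Dc) &&
  decide (0 < θ ∧ (C.et : ℚ) / C.Dw ≤ η + t1)

theorem farLink_of_check {C : Cfg} {q : FarQ} {θ η : ℚ} (h : farCheck C q θ η = true)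
    {F : TailFar.FarRow} (hF : F.Good) (hq : q.Of F) {m : ℕ} (hm : C.Mem m) {W : ℝ → ℝ}
    (hW : ∀ t ∈ Ioo (0 : ℝ) 1, F.fw * weightPoly (ballShape t) * t ^ 2 ≤ W t) :
    C.FarLink F m θ ((η : ℝ) / θ) W ∧ (0 : ℝ) < θ ∧
      (C.et : ℝ) / C.Dw ≤ η + (C.t1 : ℝ) / C.Dw := by
  simp only [farCheck, Bool.and_eq_true, decide_eq_true_eq] at h
  obtain ⟨⟨⟨⟨k, E, A⟩, K, t3, dl, th, es⟩, lo, Af, b0⟩, hθ, het⟩ := h
  have k' := congrArg (Rat.cast : ℚ → ℝ) k
  have E' := congrArg (Rat.cast : ℚ → ℝ) E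
  have A' := congrArg (Rat.cast : ℚ → ℝ) A
  have K' := (Rat.cast_le (K := ℝ)).2 K
  have t3' := (Rat.cast_le (K := ℝ)).2 t3
  have dl' := (Rat.cast_le (K := ℝ)).2 dl
  have th' := (Rat.cast_le (K := ℝ)).2 th
  have es' := (Rat.cast_le (K := ℝ)).2 es
  have Af' := (Rat.cast_le (K := ℝ)).2 Af
  have b0' := (Rat.cast_le (K := ℝ)).2 b0
  have het' := (Rat.cast_le (K := ℝ)).2 het
  push_cast at k' E' A' K' t3' dl' th' es' Af' b0' het'
  have hθ' : (0 : ℝ) < θ := Rat.cast_pos.2 hθ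
  refine ⟨⟨hF, ?_, hq.k ▸ k', hq.E ▸ E', hq.A ▸ A', hq.K ▸ K', hq.t3 ▸ t3', hq.dl ▸ dl',
    hq.th ▸ th', ?_, hW, Af', b0'⟩, hθ', het'⟩
  · have : (100 : ℝ) ≤ ((m + 1 : ℕ) : ℝ) := by exact_mod_cast lo.trans hm.1
    push_cast at this
    rw [hq.N]
    exact this
  · rw [hq.es, mul_div_cancel₀ _ hθ'.ne']
    exact es'

/-- The potential of the calibration lies below the one of a row of the positive side. -/
def posPays (C : Cfg) (R : PosRow) : Bool :=
  decide (0 < C.Dw ∧ (C.a : ℚ) / C.Dw ≤ R.a ∧ (C.f : ℚ) / C.Dw ≤ R.f / 2 ∧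
    (C.lam : ℚ) / C.Dw ≤ R.lam ∧ 0 ≤ R.lam ∧ 0 ≤ R.cy ∧ 31 / 40 ≤ R.f)

/-- The potential of the calibration lies below the one of the negative side. -/
def negPays (C : Cfg) : Bool :=
  decide (0 < C.Dw ∧ (C.a : ℚ) / C.Dw ≤ 49 / 20 ∧ (C.f : ℚ) / C.Dw ≤ 977 / 2000 ∧
    (C.lam : ℚ) / C.Dw ≤ 21 / 100)

/-- A calibration linked to a bin of a row of the positive side. -/
def posLink (C : Cfg) (R : PosRow) (E : EnvRange) (bins : List (ℚ × ℚ × List RangeBinNode))
    (lo hi : ℚ) : Bool :=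
  posPays C R &&
    ((farCheck C farQPosLow (1 + R.mu * R.e2) R.eta && binLink C E bins lo hi farQPosLow.sg) ||
      (farCheck C farQPosUp (1 + R.mu * R.e2) R.eta && binLink C E bins lo hi farQPosUp.sg))

/-- A calibration linked to a bin of the negative side. -/
def negLink (C : Cfg) (E : EnvRange) (bins : List (ℚ × ℚ × List RangeBinNode))
    (lo hi : ℚ) : Bool :=
  negPays C &&
    ((farCheck C farQNegLow (2500 / 3417) 0 && binLink C E bins lo hi farQNegLow.sg) ||
      (farCheck C farQNegUp (2500 / 3417) 0 && binLink C E bins lo hi farQNegUp.sg))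

theorem posPays_sound {C : Cfg} {R : PosRow} (h : posPays C R = true) (m : ℕ) :
    C.Pays m (R.W m) := by
  simp only [posPays, decide_eq_true_eq] at h
  obtain ⟨-, ha, hf, hlam, -, hcy, -⟩ := h
  have ha' := (Rat.cast_le (K := ℝ)).2 ha
  have hf' := (Rat.cast_le (K := ℝ)).2 hf
  have hlam' := (Rat.cast_le (K := ℝ)).2 hlam
  have hcy' : (0 : ℝ) ≤ R.cy := Rat.cast_nonneg.2 hcy
  push_cast at ha' hf' hlam'
  intro t ht
  have hs : 0 ≤ weightPoly (ballShape t) * (((m : ℝ) + 1) * t ^ 2) :=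
    mul_nonneg (weightPoly_mem (ball_mem_Icc t)).1 (by positivity)
  have hb : 0 ≤ (R.cy : ℝ) * (((m : ℝ) + 1) * (1 - ballShape t)) :=
    mul_nonneg hcy' (mul_nonneg (by positivity) (sub_nonneg.2 (ball_le_one t)))
  unfold PosRow.W
  refine add_le_add (div_le_div_of_nonneg_right (max_le_max ha' ?_) (Nat.cast_nonneg m))
    (div_le_div_of_nonneg_right (by linarith) (by positivity))
  rw [mul_assoc ((R.f : ℝ) / 2)]
  exact mul_le_mul_of_nonneg_right hf' hs

theorem negPays_sound {C : Cfg} (h : negPays C = true) (m : ℕ) : C.Pays m (negW m) := by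
  simp only [negPays, decide_eq_true_eq] at h
  obtain ⟨-, ha, hf, hlam⟩ := h
  have ha' := (Rat.cast_le (K := ℝ)).2 ha
  have hf' := (Rat.cast_le (K := ℝ)).2 hf
  have hlam' := (Rat.cast_le (K := ℝ)).2 hlam
  push_cast at ha' hf' hlam'
  intro t ht
  have hs : 0 ≤ weightPoly (ballShape t) * (((m : ℝ) + 1) * t ^ 2) :=
    mul_nonneg (weightPoly_mem (ball_mem_Icc t)).1 (by positivity)
  unfold negW
  refine add_le_add (div_le_div_of_nonneg_right (max_le_max ha' ?_) (Nat.cast_nonneg m)) ?_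
  · rw [mul_assoc (977 / 2000 : ℝ)]
    exact mul_le_mul_of_nonneg_right hf' hs
  · rw [← div_div (21 : ℝ) 100]
    exact div_le_div_of_nonneg_right hlam' (by positivity)

/-- The tail inequality of a bin of a row of the positive side. -/
theorem tailBin_pos {C : Cfg} (hC : C.check = true) {R : PosRow} {E : EnvRange}
    {bins : List (ℚ × ℚ × List RangeBinNode)}
    (hbins : E.check = true ∧ (bins.all fun b => b.2.2.all fun N => N.check E b.1 b.2.1) = true)
    {lo hi : ℚ} (hl : posLink C R E bins lo hi = true) {m : ℕ} (hm : C.Mem m) :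
    TailBin m (R.W m) (1 + (R.mu : ℝ) * R.e2) R.eta lo hi := by
  simp only [posLink, Bool.and_eq_true, Bool.or_eq_true] at hl
  obtain ⟨hp, hl⟩ := hl
  have hp' := hp
  simp only [posPays, decide_eq_true_eq] at hp'
  obtain ⟨-, -, -, -, hlam, hcy, hf⟩ := hp'
  have e : ((1 + R.mu * R.e2 : ℚ) : ℝ) = 1 + (R.mu : ℝ) * R.e2 := by push_cast; ring
  have hm1 : 1 ≤ m := by
    have hlo : 100 ≤ C.lo := by
      rcases hl with ⟨h, -⟩ | ⟨h, -⟩ <;>
      · simp only [farCheck, Bool.and_eq_true, decide_eq_true_eq] at h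
        exact h.1.2.1
    have := hm.1
    omega
  rw [← e]
  rcases hl with ⟨hfar, hbin⟩ | ⟨hfar, hbin⟩
  · obtain ⟨hF, hθ, hη⟩ := farLink_of_check hfar TailFar.farPosLow_good farQPosLow_of hm
      (W := R.W m) fun t _ => TailFar.farPos_weight hlam hcy hf hm1 t
    exact tailBin_uniform hC hbins hbin hm (R.continuous_W m) (posPays_sound hp m) hθ hη hF
      farQPosLow_of.sg.le
  · obtain ⟨hF, hθ, hη⟩ := farLink_of_check hfar TailFar.farPosUp_good farQPosUp_of hm
      (W := R.W m) fun t _ => TailFar.farPos_weight hlam hcy hf hm1 t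
    exact tailBin_uniform hC hbins hbin hm (R.continuous_W m) (posPays_sound hp m) hθ hη hF
      farQPosUp_of.sg.le

/-- The tail inequality of a bin of the negative side. -/
theorem tailBin_neg {C : Cfg} (hC : C.check = true) {E : EnvRange}
    {bins : List (ℚ × ℚ × List RangeBinNode)}
    (hbins : E.check = true ∧ (bins.all fun b => b.2.2.all fun N => N.check E b.1 b.2.1) = true)
    {lo hi : ℚ} (hl : negLink C E bins lo hi = true) {m : ℕ} (hm : C.Mem m) :
    TailBin m (negW m) (2500 / 3417) 0 lo hi := by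
  simp only [negLink, Bool.and_eq_true, Bool.or_eq_true] at hl
  obtain ⟨hp, hl⟩ := hl
  have hm1 : 1 ≤ m := by
    have hlo : 100 ≤ C.lo := by
      rcases hl with ⟨h, -⟩ | ⟨h, -⟩ <;>
      · simp only [farCheck, Bool.and_eq_true, decide_eq_true_eq] at h
        exact h.1.2.1
    have := hm.1
    omega
  rw [show (2500 / 3417 : ℝ) = ((2500 / 3417 : ℚ) : ℝ) by norm_num,
    show (0 : ℝ) = ((0 : ℚ) : ℝ) by norm_num]
  rcases hl with ⟨hfar, hbin⟩ | ⟨hfar, hbin⟩
  · obtain ⟨hF, hθ, hη⟩ := farLink_of_check hfar TailFar.farNegLow_good farQNegLow_of hm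
      (W := negW m) fun t _ => TailFar.farNeg_weight hm1 t
    exact tailBin_uniform hC hbins hbin hm (continuous_negW m) (negPays_sound hp m) hθ hη hF
      farQNegLow_of.sg.le
  · obtain ⟨hF, hθ, hη⟩ := farLink_of_check hfar TailFar.farNegUp_good farQNegUp_of hm
      (W := negW m) fun t _ => TailFar.farNeg_weight hm1 t
    exact tailBin_uniform hC hbins hbin hm (continuous_negW m) (negPays_sound hp m) hθ hη hF
      farQNegUp_of.sg.le

/-- Adjacent bins make one bin. -/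
theorem tailBin_union {m : ℕ} {W : ℝ → ℝ} {θ η a b c : ℝ} (h₁ : TailBin m W θ η a b)
    (h₂ : TailBin m W θ η b c) : TailBin m W θ η a c := by
  intro φ h
  by_cases hb : mass m ballShape 1 * φ 0 ^ m ≤ b * mass m φ 1
  · exact h₁ φ { h with relUp := hb }
  · exact h₂ φ { h with relLow := (not_le.1 hb).le }

/-- The dimensions of a row lie in the range of a calibration. -/
def rangeIn (C : Cfg) (D : DimRange) : Bool :=
  decide (C.lo ≤ D.lo ∧ (C.hi = 0 ∨ (D.hi ≠ 0 ∧ D.hi ≤ C.hi)))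

theorem mem_of_rangeIn {C : Cfg} {D : DimRange} (h : rangeIn C D = true) {m : ℕ}
    (hm : D.Mem (m + 1)) : C.Mem m := by
  simp only [rangeIn, decide_eq_true_eq] at h
  exact ⟨h.1.trans hm.1, h.2.imp_right fun h' => (hm.2.resolve_left h'.1).trans h'.2⟩

/-- A row of the positive side from its bins. -/
theorem pos_tail_of_bins {R : PosRow} (h : (binsOf R.cuts).Forall fun P => ∀ m : ℕ,
    R.dims.Mem (m + 1) → TailBin m (R.W m) (1 + (R.mu : ℝ) * R.e2) R.eta P.1 P.2) : R.Tail :=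
  fun m _ hm P hP => List.forall_iff_forall_mem.1 h P hP m hm

/-- A row of the negative side from its bins. -/
theorem neg_tail_of_bins {R : NegRow} (h : (binsOf R.cuts).Forall fun P => ∀ m : ℕ,
    R.dims.Mem (m + 1) → TailBin m (negW m) (2500 / 3417) 0 P.1 P.2) : R.Tail :=
  fun m _ hm P hP => List.forall_iff_forall_mem.1 h P hP m hm

end Vale.Agent.P237.Quant.TailUniform
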