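import Mathlib
import Vale.Agent.P237.Quant.TailUniformLink
import Vale.Agent.P237.Quant.NegRowsMid

/-!
The negative side for `n ≥ 100` from one calibration for each of the four ranges of dimensions and
each bin.
-/

namespace Vale.Agent.P237.Quant.TailUniform

/-- The four ranges of dimensions from `100` on. -/
def uniformDims : List DimRange := [⟨100, 135⟩, ⟨136, 210⟩, ⟨211, 450⟩, ⟨451, 0⟩]

theorem uniformDims_cover : coverDims 100 uniformDims = true := by decide

/-- The negative side for `n ≥ 100` from its bins on the four ranges. -/
theorem negRow100_tail_of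
    (h : uniformDims.Forall fun D => (binsOf negRow100.cuts).Forall fun P => ∀ m : ℕ,
      D.Mem (m + 1) → TailBin m (negW m) (2500 / 3417) 0 P.1 P.2) : negRow100.Tail := by
  intro m _ hm P hP
  obtain ⟨D, hD, hDm⟩ := coverDims_sound uniformDims 100 uniformDims_cover (m + 1) hm.1
  exact List.forall_iff_forall_mem.1 (List.forall_iff_forall_mem.1 h D hD) P hP m hDm

end Vale.Agent.P237.Quant.TailUniform
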