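import Vale.Agent.P237.Quant.TailUniformCheck

/-!
A calibration assembled from parts of its intervals: the check of the whole from the head and from
the parts.
-/

namespace Vale.Agent.P237.Quant.TailUniform

/-- The calibration with the intervals `L`. -/
def Cfg.withIvals (C : Cfg) (L : List Ival) : Cfg := { C with ivals := L }

/-- The check from the head, the centre and the intervals checked against the base. -/
theorem check_withIvals {C : Cfg} {L : List Ival}
    (h : ((C.withIvals L).headOK && (C.withIvals L).centreOK) = true)
    (hL : (L.all fun I => I.sideOK C && I.cellsOK C) = true) : (C.withIvals L).check = true := by
  unfold Cfg.check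
  rw [h, Bool.true_and]
  exact hL

end Vale.Agent.P237.Quant.TailUniform
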