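import Vale.Agent.P237.Quant.TailUniformCheck
import Vale.Agent.P237.Quant.TailDecode

/-!
Packed data for the calibrations on ranges of dimensions: an interval is one natural, its segments
nested streams, in the format of `TailDecode`.
-/

namespace Vale.Agent.P237.Quant.TailUniform.Decode

open TailCert.Decode (rdN rdZ rdB rdList rdSub)

/-- Reads a pair of multipliers. -/
noncomputable def rdPair {α : Type} (N p : ℕ) (k : ℕ × ℕ → ℕ → α) : α :=
  rdN N p fun a p => rdN N p fun b p => k (a, b) p

/-- A segment from its stream. -/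
noncomputable def seg (N : ℕ) : Seg :=
  rdZ N 64 fun V0 p => rdZ N p fun V1 p => rdB N p fun below p => rdB N p fun taylor p =>
    rdZ N p fun ll p => rdZ N p fun lu p => rdZ N p fun g0 p => rdZ N p fun g1 p =>
    rdZ N p fun g2 p => rdZ N p fun g3 p => rdZ N p fun R p => rdN N p fun nu0 p =>
    rdZ N p fun tau0 p => rdN N p fun nu1 p => rdZ N p fun tau1 p =>
    rdList rdPair N p fun m0 p => rdList rdPair N p fun m1 p => rdZ N p fun dtau p =>
    rdZ N p fun sig0 p => rdZ N p fun sig1 p => rdZ N p fun dsig _ =>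
      ⟨V0, V1, below, taylor, ll, lu, g0, g1, g2, g3, R, nu0, tau0, nu1, tau1, m0, m1, dtau,
        sig0, sig1, dsig⟩

/-- An interval from its packed form. -/
noncomputable def ival (N : ℕ) : Ival :=
  rdZ N 64 fun A0 p => rdZ N p fun A1 p => rdB N p fun wb p => rdZ N p fun kl0 p =>
    rdZ N p fun kl1 p => rdZ N p fun sA p => rdZ N p fun ph p => rdZ N p fun pl p =>
    rdZ N p fun uc p => rdZ N p fun uq p => rdZ N p fun dc p => rdZ N p fun dq p =>
    rdZ N p fun x00 p => rdZ N p fun x01 p => rdZ N p fun x10 p => rdZ N p fun x11 p =>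
    rdZ N p fun Z p => rdZ N p fun K p => rdZ N p fun L p => rdZ N p fun sig p =>
    rdList rdZ N p fun cuts p => rdList (rdSub seg) N p fun segs _ =>
      ⟨A0, A1, wb, kl0, kl1, sA, ph, pl, uc, uq, dc, dq, x00, x01, x10, x11, ⟨Z, K, L, sig⟩,
        cuts, segs⟩

end Vale.Agent.P237.Quant.TailUniform.Decode
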