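import Mathlib
import Vale.Agent.P237.Quant.Calc

/-!
Two-piece profiles are extremal for pointwise questions: every shape has, for each interior point,
a companion made of two segments with the same value and the same two masses at that point and no
larger power integral.
-/

namespace Vale.Agent.P237.Quant

open MeasureTheory Set Filter Topology

variable {φ : ℝ → ℝ}

/-- A profile with one segment on each half of the slab. -/
noncomputable def lineShape (A k : ℝ) (t : ℝ) : ℝ := A - k * |t|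

/-- A profile with two segments on each half, the second reaching zero at the end of the slab. -/
noncomputable def kinkShape (A k M : ℝ) (t : ℝ) : ℝ := min (A - k * |t|) (M * (1 - |t|))

/-- The two-parameter family (up to scale) of extremal profiles. -/
def IsTwoLine (ψ : ℝ → ℝ) : Prop :=
  ∃ A k, 0 ≤ k ∧ k ≤ A ∧ 0 < A ∧
    (ψ = lineShape A k ∨ ∃ M, A ≤ M ∧ ψ = kinkShape A k M)

private lemma concaveOn_lineShape {A k : ℝ} (hk : 0 ≤ k) :
    ConcaveOn ℝ (Icc (-1 : ℝ) 1) (lineShape A k) := by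
  refine ⟨convex_Icc _ _, fun x _ y _ a b ha hb hab => ?_⟩
  simp only [lineShape, smul_eq_mul]
  have h := mul_le_mul_of_nonneg_left
    ((abs_add_le (a * x) (b * y)).trans_eq (by rw [abs_mul, abs_mul, abs_of_nonneg ha,
      abs_of_nonneg hb])) hk
  calc a * (A - k * |x|) + b * (A - k * |y|)
      = (a + b) * A - k * (a * |x| + b * |y|) := by ring
    _ ≤ A - k * |a * x + b * y| := by rw [hab]; linarith

theorem IsTwoLine.isShape {ψ : ℝ → ℝ} (h : IsTwoLine ψ) : IsShape ψ := by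
  obtain ⟨A, k, hk, hkA, hA, rfl | ⟨M, hM, rfl⟩⟩ := h
  · exact ⟨concaveOn_lineShape hk, fun t => by simp [lineShape],
      fun t ht => by
        have := mul_le_mul_of_nonneg_left (abs_le.2 ⟨ht.1, ht.2⟩) hk
        simp only [lineShape]
        linarith,
      by simpa [lineShape] using hA⟩
  · refine ⟨?_, fun t => by simp [kinkShape], fun t ht => ?_, ?_⟩
    · have e : kinkShape A k M = lineShape A k ⊓ lineShape M M := by
        funext t
        simp [kinkShape, lineShape, mul_sub]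
      rw [e]
      exact (concaveOn_lineShape hk).inf (concaveOn_lineShape (hA.le.trans hM))
    · have := mul_le_mul_of_nonneg_left (abs_le.2 ⟨ht.1, ht.2⟩) hk
      exact le_min (by linarith) (mul_nonneg (hA.le.trans hM) (sub_nonneg.2 (abs_le.2 ht)))
    · simpa [kinkShape] using lt_min hA (hA.trans_le hM)

private lemma amgm (k : ℕ) {f g : ℝ} (hf : 0 ≤ f) (hg : 0 ≤ g) :
    ((k : ℝ) + 1) * f ^ k * g ≤ k * f ^ (k + 1) + g ^ (k + 1) := by
  induction k with
  | zero => simp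
  | succ k ih =>
    have h1 := mul_le_mul_of_nonneg_left ih hf
    have h2 : 0 ≤ (f - g) * (f ^ (k + 1) - g ^ (k + 1)) := by
      rcases le_total f g with h | h
      · exact mul_nonneg_of_nonpos_of_nonpos (sub_nonpos.2 h)
          (sub_nonpos.2 (pow_le_pow_left₀ hf h _))
      · exact mul_nonneg (sub_nonneg.2 h) (sub_nonneg.2 (pow_le_pow_left₀ hg h _))
    simp only [pow_succ] at h1 h2 ⊢
    push_cast
    nlinarith

/-- One crossing at a level of the decreasing function: the more spread one has the smaller lower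
power. -/
private lemma power_le_of_crossing (k : ℕ) {f g : ℝ → ℝ} {a b c γ : ℝ} (hab : a ≤ b) (hγ : 0 < γ)
    (hf : ∀ t ∈ Ioo a b, 0 ≤ f t) (hg : ∀ t ∈ Ioo a b, 0 < g t)
    (hl : ∀ t ∈ Ioo a b, t < c → g t ≤ f t ∧ γ ≤ g t)
    (hr : ∀ t ∈ Ioo a b, c < t → f t ≤ g t ∧ g t ≤ γ)
    (if₀ : IntervalIntegrable (fun t => f t ^ k) volume a b)
    (ig₀ : IntervalIntegrable (fun t => g t ^ k) volume a b)
    (if₁ : IntervalIntegrable (fun t => f t ^ (k + 1)) volume a b)
    (ig₁ : IntervalIntegrable (fun t => g t ^ (k + 1)) volume a b)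
    (he : (∫ t in a..b, f t ^ (k + 1)) = ∫ t in a..b, g t ^ (k + 1)) :
    (∫ t in a..b, f t ^ k) ≤ ∫ t in a..b, g t ^ k := by
  have key : ∀ᵐ t ∂volume.restrict (Icc a b), ((k : ℝ) + 1) * γ * (f t ^ k - g t ^ k) ≤
      k * (f t ^ (k + 1) - g t ^ (k + 1)) := by
    rw [← restrict_Ioo_eq_restrict_Icc]
    filter_upwards [ae_restrict_mem measurableSet_Ioo,
      ae_restrict_of_ae (Measure.ae_ne volume c)] with t ht htc
    have ha := amgm k (hf t ht) (hg t ht).le
    have hd : ((k : ℝ) + 1) * g t * (f t ^ k - g t ^ k) ≤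
        k * (f t ^ (k + 1) - g t ^ (k + 1)) := by
      rw [pow_succ (g t)] at ha ⊢
      nlinarith
    rcases lt_or_gt_of_ne htc with h | h
    · obtain ⟨h1, h2⟩ := hl t ht h
      have := pow_le_pow_left₀ (hg t ht).le h1 k
      refine le_trans ?_ hd
      exact mul_le_mul_of_nonneg_right (mul_le_mul_of_nonneg_left h2 (by positivity))
        (sub_nonneg.2 this)
    · obtain ⟨h1, h2⟩ := hr t ht h
      have := pow_le_pow_left₀ (hf t ht) h1 k
      refine le_trans ?_ hd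
      exact mul_le_mul_of_nonpos_right (mul_le_mul_of_nonneg_left h2 (by positivity))
        (sub_nonpos.2 this)
  have h := intervalIntegral.integral_mono_ae_restrict hab ((if₀.sub ig₀).const_mul _)
    ((if₁.sub ig₁).const_mul _) key
  rw [intervalIntegral.integral_const_mul, intervalIntegral.integral_const_mul,
    intervalIntegral.integral_sub if₀ ig₀, intervalIntegral.integral_sub if₁ ig₁, he, sub_self,
    mul_zero] at h
  have : 0 < ((k : ℝ) + 1) * γ := by positivity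
  nlinarith

/-- Equal top powers of ordered functions give equal lower powers. -/
private lemma power_eq_of_le (k : ℕ) {f g : ℝ → ℝ} {a b : ℝ} (hab : a ≤ b)
    (hg : ∀ t ∈ Ioo a b, 0 ≤ g t) (hle : ∀ t ∈ Ioo a b, g t ≤ f t)
    (if₁ : IntervalIntegrable (fun t => f t ^ (k + 1)) volume a b)
    (ig₁ : IntervalIntegrable (fun t => g t ^ (k + 1)) volume a b)
    (he : (∫ t in a..b, f t ^ (k + 1)) = ∫ t in a..b, g t ^ (k + 1)) :
    (∫ t in a..b, f t ^ k) = ∫ t in a..b, g t ^ k := by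
  have h0 : (∫ t in a..b, (f t ^ (k + 1) - g t ^ (k + 1))) = 0 := by
    rw [intervalIntegral.integral_sub if₁ ig₁, he, sub_self]
  have hnn : 0 ≤ᵐ[volume.restrict (Ioc a b)] fun t => f t ^ (k + 1) - g t ^ (k + 1) := by
    rw [← restrict_Ioo_eq_restrict_Ioc]
    filter_upwards [ae_restrict_mem measurableSet_Ioo] with t ht
    exact sub_nonneg.2 (pow_le_pow_left₀ (hg t ht) (hle t ht) _)
  have hz := (intervalIntegral.integral_eq_zero_iff_of_le_of_nonneg_ae hab hnn (if₁.sub ig₁)).1 h0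
  refine intervalIntegral.integral_congr_ae ?_
  rw [uIoc_of_le hab, ← ae_restrict_iff' measurableSet_Ioc]
  rw [← restrict_Ioo_eq_restrict_Ioc] at hz ⊢
  filter_upwards [hz, ae_restrict_mem measurableSet_Ioo] with t h ht
  rw [(pow_left_inj₀ ((hg t ht).trans (hle t ht)) (hg t ht) (Nat.succ_ne_zero k)).1
    (sub_eq_zero.1 h)]

/-- Concavity between three points. -/
private lemma three_point (hφ : IsShape φ) {x y z : ℝ} (hx : -1 ≤ x) (hxy : x ≤ y) (hyz : y ≤ z)
    (hz : z ≤ 1) : (z - y) * φ x + (y - x) * φ z ≤ (z - x) * φ y := by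
  rcases (hxy.trans hyz).eq_or_lt with h | h
  · obtain rfl : x = y := le_antisymm hxy (hyz.trans h.ge)
    obtain rfl : x = z := h
    simp
  have := hφ.concave.2 (show x ∈ Icc (-1 : ℝ) 1 from ⟨hx, h.le.trans hz⟩)
    (show z ∈ Icc (-1 : ℝ) 1 from ⟨hx.trans h.le, hz⟩)
    (show 0 ≤ (z - y) / (z - x) from div_nonneg (sub_nonneg.2 hyz) (sub_pos.2 h).le)
    (show 0 ≤ (y - x) / (z - x) from div_nonneg (sub_nonneg.2 hxy) (sub_pos.2 h).le)
    (by rw [← add_div, show z - y + (y - x) = z - x by ring, div_self (sub_pos.2 h).ne'])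
  simp only [smul_eq_mul] at this
  rw [show (z - y) / (z - x) * x + (y - x) / (z - x) * z = y by
    field_simp [(sub_pos.2 h).ne']; ring, div_mul_eq_mul_div, div_mul_eq_mul_div, ← add_div,
    div_le_iff₀ (sub_pos.2 h)] at this
  linarith

private lemma shape_pow_integrable (hφ : IsShape φ) (k : ℕ) {a b : ℝ} (ha : 0 ≤ a) (hab : a ≤ b)
    (hb : b ≤ 1) : IntervalIntegrable (fun t => φ t ^ k) volume a b :=
  (intervalIntegrable_shape_pow hφ k).mono_set (by
    rw [uIcc_of_le hab, uIcc_of_le (by norm_num : (-1 : ℝ) ≤ 1)]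
    exact Icc_subset_Icc (by linarith) hb)

/-- The head line. -/
private lemma exists_head (hφ : IsShape φ) (k : ℕ) {s : ℝ} (hs : s ∈ Ioo (0 : ℝ) 1) :
    ∃ d, 0 ≤ d ∧ d * (1 - s) ≤ φ s - φ 1 ∧
      (∀ t ∈ Icc s 1, φ t ≤ φ s + d * (s - t)) ∧
      (∫ t in (0 : ℝ)..s, (φ s + d * (s - t)) ^ (k + 1)) = mass (k + 1) φ s ∧
      (∫ t in (0 : ℝ)..s, (φ s + d * (s - t)) ^ k) ≤ mass k φ s := by
  obtain ⟨hs0, hs1⟩ := hs
  have hapos : 0 < φ s := shape_pos hφ ⟨by linarith, hs1⟩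
  have hanti := shape_antitoneOn hφ
  have hφ1 : φ 1 ≤ φ s := hanti ⟨hs0.le, hs1.le⟩ ⟨zero_le_one, le_rfl⟩ hs1.le
  set d₁ := (φ s - φ 1) / (1 - s) with hd₁
  have hd₁0 : 0 ≤ d₁ := div_nonneg (sub_nonneg.2 hφ1) (by linarith)
  have hupper : ∀ t ∈ Icc 0 s, φ t ≤ φ s + d₁ * (s - t) := fun t ht => by
    have := three_point hφ (show -1 ≤ t by linarith [ht.1]) ht.2 hs1.le le_rfl
    rw [hd₁, div_mul_eq_mul_div, ← sub_le_iff_le_add', le_div_iff₀ (by linarith)]
    nlinarith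
  have hc : Continuous fun d => ∫ t in (0 : ℝ)..s, (φ s + d * (s - t)) ^ (k + 1) :=
    intervalIntegral.continuous_parametric_intervalIntegral_of_continuous'
      (by fun_prop) 0 s
  have hcl : ∀ d j, IntervalIntegrable (fun t => (φ s + d * (s - t)) ^ j) volume 0 s := fun d j =>
    (by fun_prop : Continuous fun t => (φ s + d * (s - t)) ^ j).intervalIntegrable _ _
  have hI := shape_pow_integrable hφ (k + 1) le_rfl hs0.le hs1.le
  have hsub : Icc 0 s ⊆ Icc (0 : ℝ) 1 := Icc_subset_Icc le_rfl hs1.le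
  have hmem : mass (k + 1) φ s ∈ Icc (∫ t in (0 : ℝ)..s, (φ s + 0 * (s - t)) ^ (k + 1))
      (∫ t in (0 : ℝ)..s, (φ s + d₁ * (s - t)) ^ (k + 1)) := by
    refine ⟨intervalIntegral.integral_mono_on hs0.le (hcl 0 _) hI fun t ht => ?_,
      intervalIntegral.integral_mono_on hs0.le hI (hcl d₁ _) fun t ht => ?_⟩
    · simpa using pow_le_pow_left₀ hapos.le (hanti (hsub ht) ⟨hs0.le, hs1.le⟩ ht.2) (k + 1)
    · exact pow_le_pow_left₀ (hφ.nonneg t ⟨by linarith [ht.1], by linarith [ht.2]⟩) (hupper t ht) _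
  obtain ⟨d, hd, hde⟩ := intermediate_value_Icc hd₁0 hc.continuousOn hmem
  have hline : ∀ t ∈ Icc 0 s, 0 ≤ φ s + d * (s - t) := fun t ht =>
    add_nonneg hapos.le (mul_nonneg hd.1 (by linarith [ht.2]))
  set C := {t | t ∈ Icc 0 s ∧ φ s + d * (s - t) ≤ φ t} with hC
  have hex : ∃ t₀ ∈ C, t₀ < s := by
    by_contra! hno
    have hlt : ∀ t ∈ Ico 0 s, φ t < φ s + d * (s - t) := fun t ht => by
      by_contra! h
      exact (hno t ⟨⟨ht.1, ht.2.le⟩, h⟩).not_gt ht.2
    refine absurd hde.symm (ne_of_lt ?_)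
    refine intervalIntegral.integral_lt_integral_of_continuousOn_of_le_of_exists_lt hs0
      (((shape_continuousOn hφ).mono fun t ht => ⟨by linarith [ht.1], by linarith [ht.2]⟩).pow _)
      (by fun_prop : Continuous fun t => (φ s + d * (s - t)) ^ (k + 1)).continuousOn
      (fun t ht => ?_) ⟨0, left_mem_Icc.2 hs0.le, ?_⟩
    · rcases ht.2.eq_or_lt with h | h
      · simp [h]
      · exact pow_le_pow_left₀ (hφ.nonneg t ⟨by linarith [ht.1], by linarith⟩)
          (hlt t ⟨ht.1.le, h⟩).le _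
    · exact pow_lt_pow_left₀ (hlt 0 ⟨le_rfl, hs0⟩) (hφ.nonneg 0 (by norm_num)) (Nat.succ_ne_zero k)
  obtain ⟨t₀, ⟨ht₀, ht₀'⟩, ht₀s⟩ := hex
  refine ⟨d, hd.1, (le_div_iff₀ (by linarith)).1 hd.2, fun t ht => ?_, hde, ?_⟩
  · have := three_point hφ (show -1 ≤ t₀ by linarith [ht₀.1]) ht₀.2 ht.1 ht.2
    have h2 := mul_le_mul_of_nonneg_left ht₀' (sub_nonneg.2 ht.1)
    nlinarith
  have hne : C.Nonempty := ⟨t₀, ht₀, ht₀'⟩
  have hbdd : BddBelow C := ⟨0, fun t ht => ht.1.1⟩
  set c := sInf C with hcdef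
  have hc0 : 0 ≤ c := le_csInf hne fun t ht => ht.1.1
  have hcs : c ≤ s := (csInf_le hbdd ⟨ht₀, ht₀'⟩).trans ht₀.2
  have hc1 : c ∈ Icc (0 : ℝ) 1 := ⟨hc0, hcs.trans hs1.le⟩
  refine power_le_of_crossing k (c := c) hs0.le
    (shape_pos hφ (t := c) ⟨by linarith, by linarith⟩)
    (fun t ht => hline t (Ioo_subset_Icc_self ht))
    (fun t ht => shape_pos hφ ⟨by linarith [ht.1], by linarith [ht.2]⟩)
    (fun t ht htc => ⟨le_of_not_gt fun h => ?_, hanti (hsub (Ioo_subset_Icc_self ht)) hc1 htc.le⟩)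
    (fun t ht htc => ⟨?_, hanti hc1 (hsub (Ioo_subset_Icc_self ht)) htc.le⟩)
    (hcl d k) (shape_pow_integrable hφ k le_rfl hs0.le hs1.le) (hcl d _) hI hde
  · exact (csInf_le hbdd ⟨Ioo_subset_Icc_self ht, h.le⟩).not_gt htc
  · obtain ⟨t', ⟨ht', htle⟩, htt⟩ := exists_lt_of_csInf_lt hne htc
    have := three_point hφ (show -1 ≤ t' by linarith [ht'.1]) htt.le ht.2.le hs1.le
    have h2 := mul_le_mul_of_nonneg_left htle (sub_nonneg.2 ht.2.le)
    nlinarith [ht.2]

/-- The tail: a kink, unless the profile already is a line there. -/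
private lemma exists_tail (hφ : IsShape φ) (k : ℕ) {s d : ℝ} (hs : s ∈ Ioo (0 : ℝ) 1) (hd : 0 ≤ d)
    (hd1 : d * (1 - s) ≤ φ s - φ 1) (hle : ∀ t ∈ Icc s 1, φ t ≤ φ s + d * (s - t)) :
    ((∫ t in s..1, (φ s + d * (s - t)) ^ (k + 1)) = (∫ t in s..1, φ t ^ (k + 1)) ∧
        (∫ t in s..1, (φ s + d * (s - t)) ^ k) ≤ ∫ t in s..1, φ t ^ k) ∨
      ∃ M, φ s ≤ M * (1 - s) ∧ d ≤ M ∧
        (∫ t in s..1, min (φ s + d * (s - t)) (M * (1 - t)) ^ (k + 1)) =
          (∫ t in s..1, φ t ^ (k + 1)) ∧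
        (∫ t in s..1, min (φ s + d * (s - t)) (M * (1 - t)) ^ k) ≤ ∫ t in s..1, φ t ^ k := by
  obtain ⟨hs0, hs1⟩ := hs
  have hapos : 0 < φ s := shape_pos hφ ⟨by linarith, hs1⟩
  have hanti := shape_antitoneOn hφ
  have hsub : Icc s 1 ⊆ Icc (0 : ℝ) 1 := Icc_subset_Icc hs0.le le_rfl
  have hφ0 : ∀ t ∈ Icc s 1, 0 ≤ φ t := fun t ht => hφ.nonneg t ⟨by linarith [ht.1], ht.2⟩
  have hℓ : ∀ t ∈ Icc s 1, 0 ≤ φ s + d * (s - t) := fun t ht => (hφ0 t ht).trans (hle t ht)
  have hcl : ∀ j, IntervalIntegrable (fun t => (φ s + d * (s - t)) ^ j) volume s 1 := fun j =>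
    (by fun_prop : Continuous fun t => (φ s + d * (s - t)) ^ j).intervalIntegrable _ _
  have hcm : ∀ (M : ℝ) (j : ℕ),
      Continuous fun t => min (φ s + d * (s - t)) (M * (1 - t)) ^ j := fun M j => by fun_prop
  have hci := fun M j => (hcm M j).intervalIntegrable (μ := volume) s 1
  have hI := fun j => shape_pow_integrable hφ j hs0.le hs1.le le_rfl
  have hG : Continuous fun M : ℝ =>
      ∫ t in s..1, min (φ s + d * (s - t)) (M * (1 - t)) ^ (k + 1) :=
    intervalIntegral.continuous_parametric_intervalIntegral_of_continuous' (by fun_prop) s 1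
  by_cases heq : (∫ t in s..1, (φ s + d * (s - t)) ^ (k + 1)) = ∫ t in s..1, φ t ^ (k + 1)
  · exact Or.inl ⟨heq, (power_eq_of_le k hs1.le (fun t ht => hφ0 t (Ioo_subset_Icc_self ht))
      (fun t ht => hle t (Ioo_subset_Icc_self ht)) (hcl _) (hI _) heq).le⟩
  right
  set R := ∫ t in s..1, φ t ^ (k + 1) with hR
  set L := ∫ t in s..1, (φ s + d * (s - t)) ^ (k + 1) with hL
  have hRL : R < L := lt_of_le_of_ne (intervalIntegral.integral_mono_on hs1.le (hI _) (hcl _)
    fun t ht => pow_le_pow_left₀ (hφ0 t ht) (hle t ht) _) (Ne.symm heq)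
  set δ := min (1 - s) ((L - R) / φ s ^ (k + 1)) with hδ
  have hδ0 : 0 < δ := lt_min (by linarith) (div_pos (sub_pos.2 hRL) (pow_pos hapos _))
  have hδs : δ ≤ 1 - s := min_le_left _ _
  set M₀ := φ s / (1 - s) with hM₀
  have hM : M₀ ≤ φ s / δ := div_le_div_of_nonneg_left hapos.le hδ0 hδs
  have hM₀0 : 0 < M₀ := div_pos hapos (by linarith)
  have hlow : (∫ t in s..1, min (φ s + d * (s - t)) (M₀ * (1 - t)) ^ (k + 1)) ≤ R := by
    refine intervalIntegral.integral_mono_on hs1.le (hci _ _) (hI _) fun t ht => ?_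
    refine pow_le_pow_left₀ (le_min (hℓ t ht) (mul_nonneg hM₀0.le (sub_nonneg.2 ht.2)))
      ((min_le_right _ _).trans ?_) _
    have := three_point hφ (show -1 ≤ s by linarith) ht.1 ht.2 le_rfl
    have h2 := mul_nonneg (sub_nonneg.2 ht.1) (hφ.nonneg 1 (by norm_num))
    rw [hM₀, div_mul_eq_mul_div, div_le_iff₀ (by linarith)]
    nlinarith
  have hhigh : R ≤ ∫ t in s..1, min (φ s + d * (s - t)) (φ s / δ * (1 - t)) ^ (k + 1) := by
    have hb : 1 - δ ∈ Icc s 1 := ⟨by linarith, by linarith⟩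
    have hsplit := intervalIntegral.integral_add_adjacent_intervals
      ((hcm (φ s / δ) (k + 1)).intervalIntegrable (μ := volume) s (1 - δ))
      ((hcm (φ s / δ) (k + 1)).intervalIntegrable (1 - δ) 1)
    have hsplit' : (∫ t in s..(1 - δ), (φ s + d * (s - t)) ^ (k + 1)) +
        (∫ t in (1 - δ)..1, (φ s + d * (s - t)) ^ (k + 1)) = L :=
      intervalIntegral.integral_add_adjacent_intervals
      ((by fun_prop : Continuous fun t => (φ s + d * (s - t)) ^ (k + 1)).intervalIntegrable _ _)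
      ((by fun_prop : Continuous fun t => (φ s + d * (s - t)) ^ (k + 1)).intervalIntegrable _ _)
    have h1 : (∫ t in s..(1 - δ), min (φ s + d * (s - t)) (φ s / δ * (1 - t)) ^ (k + 1)) =
        ∫ t in s..(1 - δ), (φ s + d * (s - t)) ^ (k + 1) := by
      refine intervalIntegral.integral_congr fun t ht => ?_
      rw [uIcc_of_le hb.1] at ht
      rw [min_eq_left]
      calc φ s + d * (s - t) ≤ φ s :=
            add_le_of_nonpos_right (mul_nonpos_of_nonneg_of_nonpos hd (by linarith [ht.1]))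
        _ = φ s / δ * δ := (div_mul_cancel₀ _ hδ0.ne').symm
        _ ≤ φ s / δ * (1 - t) :=
            mul_le_mul_of_nonneg_left (by linarith [ht.2]) (div_pos hapos hδ0).le
    have h2 : 0 ≤ ∫ t in (1 - δ)..1, min (φ s + d * (s - t)) (φ s / δ * (1 - t)) ^ (k + 1) :=
      intervalIntegral.integral_nonneg hb.2 fun t ht => pow_nonneg
        (le_min (hℓ t ⟨hb.1.trans ht.1, ht.2⟩)
          (mul_nonneg (div_pos hapos hδ0).le (sub_nonneg.2 ht.2))) _
    have h3 : (∫ t in (1 - δ)..1, (φ s + d * (s - t)) ^ (k + 1)) ≤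
        ∫ _ in (1 - δ)..1, φ s ^ (k + 1) :=
      intervalIntegral.integral_mono_on hb.2
        ((by fun_prop : Continuous fun t => (φ s + d * (s - t)) ^ (k + 1)).intervalIntegrable _ _)
        intervalIntegrable_const fun t ht => pow_le_pow_left₀ (hℓ t ⟨hb.1.trans ht.1, ht.2⟩)
          (add_le_of_nonpos_right
            (mul_nonpos_of_nonneg_of_nonpos hd (by linarith [hb.1, ht.1]))) _
    rw [intervalIntegral.integral_const, smul_eq_mul, show 1 - (1 - δ) = δ by ring] at h3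
    have h4 : δ * φ s ^ (k + 1) ≤ L - R :=
      (le_div_iff₀ (pow_pos hapos _)).1 (min_le_right _ _)
    linarith
  obtain ⟨M, hMmem, hMe⟩ := intermediate_value_Icc hM hG.continuousOn ⟨hlow, hhigh⟩
  have hMs : φ s ≤ M * (1 - s) := (div_le_iff₀ (by linarith)).1 hMmem.1
  have hdM : d ≤ M := by
    have := hφ.nonneg 1 (by norm_num)
    exact le_of_mul_le_mul_right (by linarith) (sub_pos.2 hs1)
  have hM0 : 0 ≤ M := hd.trans hdM
  refine ⟨M, hMs, hdM, hMe, ?_⟩
  set D := {t | t ∈ Ioo s 1 ∧ M * (1 - t) < φ t} with hD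
  have hmin0 : ∀ t ∈ Ioo s 1, 0 ≤ min (φ s + d * (s - t)) (M * (1 - t)) := fun t ht =>
    le_min (hℓ t (Ioo_subset_Icc_self ht)) (mul_nonneg hM0 (sub_nonneg.2 ht.2.le))
  rcases D.eq_empty_or_nonempty with hempty | hne
  · refine (power_eq_of_le k hs1.le (fun t ht => hφ0 t (Ioo_subset_Icc_self ht))
      (fun t ht => le_min (hle t (Ioo_subset_Icc_self ht)) (le_of_not_gt fun h => ?_))
      (hci M _) (hI _) hMe).le
    exact (Set.eq_empty_iff_forall_notMem.1 hempty) t ⟨ht, h⟩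
  have hbdd : BddBelow D := ⟨s, fun t ht => ht.1.1.le⟩
  set c := sInf D with hcdef
  have hcs : s ≤ c := le_csInf hne fun t ht => ht.1.1.le
  have hc1 : c < 1 := by
    obtain ⟨t, ht⟩ := hne
    exact (csInf_le hbdd ht).trans_lt ht.1.2
  have hcm1 : c ∈ Icc (0 : ℝ) 1 := ⟨hs0.le.trans hcs, hc1.le⟩
  refine power_le_of_crossing k (c := c) hs1.le
    (shape_pos hφ (t := c) ⟨by linarith, hc1⟩) hmin0
    (fun t ht => shape_pos hφ ⟨by linarith [ht.1], ht.2⟩)
    (fun t ht htc => ⟨le_min (hle t (Ioo_subset_Icc_self ht)) (le_of_not_gt fun h => ?_),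
      hanti (hsub (Ioo_subset_Icc_self ht)) hcm1 htc.le⟩)
    (fun t ht htc => ⟨(min_le_right _ _).trans ?_,
      hanti hcm1 (hsub (Ioo_subset_Icc_self ht)) htc.le⟩)
    (hci M k) (hI k) (hci M _) (hI _) hMe
  · exact (csInf_le hbdd ⟨ht, h⟩).not_gt htc
  · obtain ⟨t', ⟨ht', htle⟩, htt⟩ := exists_lt_of_csInf_lt hne htc
    have := three_point hφ (show -1 ≤ t' by linarith [ht'.1]) htt.le ht.2.le le_rfl
    have h2 := mul_le_mul_of_nonneg_left htle.le (sub_nonneg.2 ht.2.le)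
    have h3 := mul_nonneg (sub_nonneg.2 htt.le) (hφ.nonneg 1 (by norm_num))
    nlinarith [ht'.2]

private lemma mass_split (hφ : IsShape φ) (j : ℕ) {s : ℝ} (hs : s ∈ Icc (0 : ℝ) 1) :
    mass j φ 1 = mass j φ s + ∫ t in s..1, φ t ^ j :=
  (intervalIntegral.integral_add_adjacent_intervals (shape_pow_integrable hφ j le_rfl hs.1 hs.2)
    (shape_pow_integrable hφ j hs.1 hs.2 le_rfl)).symm

/-- Every shape has a two-piece companion at each interior point. -/
theorem exists_twoLine {m : ℕ} (hm : 1 ≤ m) (hφ : IsShape φ) {s : ℝ} (hs : s ∈ Ioo (0 : ℝ) 1) :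
    ∃ ψ, IsTwoLine ψ ∧ ψ s = φ s ∧ mass m ψ s = mass m φ s ∧ mass m ψ 1 = mass m φ 1 ∧
      mass (m - 1) ψ 1 ≤ mass (m - 1) φ 1 := by
  obtain ⟨k, rfl⟩ : ∃ k, m = k + 1 := ⟨m - 1, by omega⟩
  rw [Nat.add_sub_cancel]
  obtain ⟨d, hd, hd1, hle, hhe, hhl⟩ := exists_head hφ k hs
  have hsI : s ∈ Icc (0 : ℝ) 1 := Ioo_subset_Icc_self hs
  have hapos : 0 < φ s := shape_pos hφ ⟨by linarith [hs.1], hs.2⟩
  have hA : 0 < φ s + d * s := add_pos_of_pos_of_nonneg hapos (mul_nonneg hd hs.1.le)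
  have hkA : d ≤ φ s + d * s := by
    have := hφ.nonneg 1 (by norm_num)
    linarith
  rcases exists_tail hφ k hs hd hd1 hle with ⟨he, hl⟩ | ⟨M, hMs, hdM, he, hl⟩
  · have hψ : IsTwoLine (lineShape (φ s + d * s) d) := ⟨_, _, hd, hkA, hA, Or.inl rfl⟩
    have hform : ∀ t, 0 ≤ t → lineShape (φ s + d * s) d t = φ s + d * (s - t) := fun t ht => by
      rw [lineShape, abs_of_nonneg ht]; ring
    have h1 : ∀ j, mass j (lineShape (φ s + d * s) d) s =
        ∫ t in (0 : ℝ)..s, (φ s + d * (s - t)) ^ j := fun j =>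
      intervalIntegral.integral_congr fun t ht => by
        rw [uIcc_of_le hs.1.le] at ht; simp only [hform t ht.1]
    have h2 : ∀ j, (∫ t in s..1, lineShape (φ s + d * s) d t ^ j) =
        ∫ t in s..1, (φ s + d * (s - t)) ^ j := fun j =>
      intervalIntegral.integral_congr fun t ht => by
        rw [uIcc_of_le hs.2.le] at ht; simp only [hform t (hs.1.le.trans ht.1)]
    refine ⟨_, hψ, by rw [hform s hs.1.le]; ring, (h1 _).trans hhe, ?_, ?_⟩
    · rw [mass_split hψ.isShape _ hsI, mass_split hφ _ hsI, h1, h2, hhe, he]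
    · rw [mass_split hψ.isShape _ hsI, mass_split hφ _ hsI, h1, h2]
      exact add_le_add hhl hl
  · have hAM : φ s + d * s ≤ M := by
      have := mul_le_mul_of_nonneg_right hdM hs.1.le
      linarith
    have hψ : IsTwoLine (kinkShape (φ s + d * s) d M) :=
      ⟨_, _, hd, hkA, hA, Or.inr ⟨M, hAM, rfl⟩⟩
    have hform : ∀ t, 0 ≤ t → kinkShape (φ s + d * s) d M t =
        min (φ s + d * (s - t)) (M * (1 - t)) := fun t ht => by
      rw [kinkShape, abs_of_nonneg ht]; congr 1; ring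
    have hhead : ∀ t ∈ Icc 0 s, min (φ s + d * (s - t)) (M * (1 - t)) = φ s + d * (s - t) :=
      fun t ht => min_eq_left (by
        have := mul_le_mul_of_nonneg_right hdM (sub_nonneg.2 ht.2)
        linarith)
    have h1 : ∀ j, mass j (kinkShape (φ s + d * s) d M) s =
        ∫ t in (0 : ℝ)..s, (φ s + d * (s - t)) ^ j := fun j =>
      intervalIntegral.integral_congr fun t ht => by
        rw [uIcc_of_le hs.1.le] at ht; simp only [hform t ht.1, hhead t ht]
    have h2 : ∀ j, (∫ t in s..1, kinkShape (φ s + d * s) d M t ^ j) =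
        ∫ t in s..1, min (φ s + d * (s - t)) (M * (1 - t)) ^ j := fun j =>
      intervalIntegral.integral_congr fun t ht => by
        rw [uIcc_of_le hs.2.le] at ht; simp only [hform t (hs.1.le.trans ht.1)]
    refine ⟨_, hψ, ?_, (h1 _).trans hhe, ?_, ?_⟩
    · rw [hform s hs.1.le, hhead s (right_mem_Icc.2 hs.1.le)]; ring
    · rw [mass_split hψ.isShape _ hsI, mass_split hφ _ hsI, h1, h2, hhe, he]
    · rw [mass_split hψ.isShape _ hsI, mass_split hφ _ hsI, h1, h2]
      exact add_le_add hhl hl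

/-- The same in the normalisation of the lemma. -/
theorem exists_twoLine_powRatio {m : ℕ} (hm : 1 ≤ m) (hφ : IsShape φ) {s : ℝ}
    (hs : s ∈ Ioo (0 : ℝ) 1) :
    ∃ ψ, IsTwoLine ψ ∧ ψ s = φ s ∧ mass m ψ s = mass m φ s ∧ mass m ψ 1 = mass m φ 1 ∧
      powRatio m ψ ≤ powRatio m φ := by
  obtain ⟨ψ, hψ, hv, hh, ht, hl⟩ := exists_twoLine hm hφ hs
  refine ⟨ψ, hψ, hv, hh, ht, ?_⟩
  have nn : ∀ {f : ℝ → ℝ} (j : ℕ), (∀ t ∈ Icc (-1 : ℝ) 1, 0 ≤ f t) → 0 ≤ mass j f 1 :=
    fun j hf => intervalIntegral.integral_nonneg zero_le_one fun t ht =>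
      pow_nonneg (hf t ⟨by linarith [ht.1], ht.2⟩) j
  have hb : ∀ t ∈ Icc (-1 : ℝ) 1, (0 : ℝ) ≤ ballShape t := fun t _ => Real.sqrt_nonneg _
  refine div_le_div_of_nonneg_right ?_ (div_nonneg (pow_nonneg (nn _ hb) _)
    (pow_nonneg (nn _ hb) _))
  unfold powVal
  rw [ht]
  exact div_le_div_of_nonneg_right (pow_le_pow_left₀ (nn _ hψ.isShape.nonneg) hl m)
    (pow_nonneg (nn _ hφ.nonneg) _)

end Vale.Agent.P237.Quant
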