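import Vale.Agent.P237.Quant.CertPoly
import Vale.Agent.P237.Quant.FourPolySound

/-!
Polynomial expressions in two variables and a fast test that one is nonnegative on a rectangle. The
kernel never forms coefficients: it runs over the expression twice, first for degrees, denominator
and a bound of the coefficients of the pullback to the quadrant, then for the packed value of that
pullback, whose signs are read from one mask.
-/

namespace Vale.Agent.P237.Quant

open Four.Checker Packed Set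

/-- An expression in two variables; `const a b` stands for `a / (b + 1)`. -/
inductive UE where
  | const (a : ℤ) (b : ℕ)
  | X
  | Y
  | add (A B : UE)
  | mul (A B : UE)
  | neg (A : UE)

namespace UE

/-- Difference. -/
def sub (A B : UE) : UE := A.add B.neg

/-- Evaluation. -/
noncomputable def val : UE → ℝ → ℝ → ℝ
  | .const a b, _, _ => a / ((b : ℝ) + 1)
  | .X, x, _ => x
  | .Y, _, y => y
  | .add A B, x, y => A.val x y + B.val x y
  | .mul A B, x, y => A.val x y * B.val x y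
  | .neg A, x, y => -A.val x y

theorem val_const (a : ℤ) (b : ℕ) (x y : ℝ) : (const a b).val x y = a / ((b : ℝ) + 1) := rfl

theorem val_X (x y : ℝ) : X.val x y = x := rfl

theorem val_Y (x y : ℝ) : Y.val x y = y := rfl

theorem val_add (A B : UE) (x y : ℝ) : (A.add B).val x y = A.val x y + B.val x y := rfl

theorem val_mul (A B : UE) (x y : ℝ) : (A.mul B).val x y = A.val x y * B.val x y := rfl

theorem val_neg (A : UE) (x y : ℝ) : A.neg.val x y = -A.val x y := rfl

theorem val_sub (A B : UE) (x y : ℝ) : (A.sub B).val x y = A.val x y - B.val x y :=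
  (sub_eq_add_neg _ _).symm

theorem continuous_val : ∀ A : UE, Continuous fun p : ℝ × ℝ => A.val p.1 p.2
  | .const a b => by simpa [val] using continuous_const
  | .X => by simpa [val] using continuous_fst
  | .Y => by simpa [val] using continuous_snd
  | .add A B => (continuous_val A).add (continuous_val B)
  | .mul A B => (continuous_val A).mul (continuous_val B)
  | .neg A => (continuous_val A).neg

/-- Degrees, denominator and coefficient bound of a pullback. -/
structure Size where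
  dx : ℕ
  dy : ℕ
  den : ℕ
  b : ℕ

/-- The size of a sum. -/
def Size.add (D : ℕ) (p q : Size) : Size :=
  ⟨Nat.add p.dx (Nat.sub q.dx p.dx), Nat.add p.dy (Nat.sub q.dy p.dy), Nat.lcm p.den q.den,
    Nat.add
      (Nat.mul (Nat.mul (Nat.div (Nat.lcm p.den q.den) p.den)
        (Nat.pow (Nat.mul 2 D) (Nat.add (Nat.sub q.dx p.dx) (Nat.sub q.dy p.dy)))) p.b)
      (Nat.mul (Nat.mul (Nat.div (Nat.lcm p.den q.den) q.den)
        (Nat.pow (Nat.mul 2 D) (Nat.add (Nat.sub p.dx q.dx) (Nat.sub p.dy q.dy)))) q.b)⟩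

/-- The size of a product. -/
def Size.mul (p q : Size) : Size :=
  ⟨Nat.add p.dx q.dx, Nat.add p.dy q.dy, Nat.mul p.den q.den, Nat.mul p.b q.b⟩

/-- The size of the pullback of an expression to the quadrant. The recursor keeps the kernel's
work low. -/
noncomputable def size (Z : Box) (A : UE) : Size :=
  UE.rec (motive := fun _ => Size) (fun a b => ⟨0, 0, Nat.succ b, a.natAbs⟩)
    ⟨1, 0, 1, Nat.add Z.ta.natAbs Z.tb.natAbs⟩ ⟨0, 1, 1, Nat.add Z.ya.natAbs Z.yb.natAbs⟩
    (fun _ _ p q => Size.add Z.D.natAbs p q) (fun _ _ p q => Size.mul p q) (fun _ p => p) A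

/-- The factor that lifts a term of a sum. -/
def lift (Z : Box) (X₀ Y₀ s i j : ℕ) : ℤ :=
  Int.ofNat (Nat.mul s (Nat.mul (Nat.pow (Nat.mul Z.D.natAbs (Nat.succ X₀)) i)
    (Nat.pow (Nat.mul Z.D.natAbs (Nat.succ Y₀)) j)))

/-- The value of a sum of pullbacks. -/
def sumPv (Z : Box) (X₀ Y₀ : ℕ) (p q : Size) (u v : ℤ) : ℤ :=
  Int.add
    (Int.mul (lift Z X₀ Y₀ (Nat.div (Nat.lcm p.den q.den) p.den) (Nat.sub q.dx p.dx)
      (Nat.sub q.dy p.dy)) u)
    (Int.mul (lift Z X₀ Y₀ (Nat.div (Nat.lcm p.den q.den) q.den) (Nat.sub p.dx q.dx)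
      (Nat.sub p.dy q.dy)) v)

/-- The value of the pullback at `(X₀, Y₀)`. -/
noncomputable def pv (Z : Box) (X₀ Y₀ : ℕ) (A : UE) : ℤ :=
  UE.rec (motive := fun _ => ℤ) (fun a _ => a)
    (Int.add Z.ta (Int.mul Z.tb (Int.ofNat X₀))) (Int.add Z.ya (Int.mul Z.yb (Int.ofNat Y₀)))
    (fun A B u v => sumPv Z X₀ Y₀ (size Z A) (size Z B) u v) (fun _ _ u v => Int.mul u v)
    (fun _ u => Int.neg u) A

/-- `size` as compiled. -/
def sizeEval (Z : Box) : UE → Size
  | .const a b => ⟨0, 0, Nat.succ b, a.natAbs⟩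
  | .X => ⟨1, 0, 1, Nat.add Z.ta.natAbs Z.tb.natAbs⟩
  | .Y => ⟨0, 1, 1, Nat.add Z.ya.natAbs Z.yb.natAbs⟩
  | .add A B => Size.add Z.D.natAbs (sizeEval Z A) (sizeEval Z B)
  | .mul A B => Size.mul (sizeEval Z A) (sizeEval Z B)
  | .neg A => sizeEval Z A

@[csimp] theorem size_eq_eval : @size = @sizeEval := by
  funext Z A
  induction A with
  | const | X | Y => rfl
  | add A B hA hB => simp only [sizeEval, ← hA, ← hB]; rfl
  | mul A B hA hB => simp only [sizeEval, ← hA, ← hB]; rfl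
  | neg A hA => simp only [sizeEval, ← hA]; rfl

/-- `pv` as compiled. -/
def pvEval (Z : Box) (X₀ Y₀ : ℕ) : UE → ℤ
  | .const a _ => a
  | .X => Int.add Z.ta (Int.mul Z.tb (Int.ofNat X₀))
  | .Y => Int.add Z.ya (Int.mul Z.yb (Int.ofNat Y₀))
  | .add A B => sumPv Z X₀ Y₀ (sizeEval Z A) (sizeEval Z B) (pvEval Z X₀ Y₀ A) (pvEval Z X₀ Y₀ B)
  | .mul A B => Int.mul (pvEval Z X₀ Y₀ A) (pvEval Z X₀ Y₀ B)
  | .neg A => Int.neg (pvEval Z X₀ Y₀ A)

@[csimp] theorem pv_eq_eval : @pv = @pvEval := by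
  funext Z X₀ Y₀ A
  induction A with
  | const | X | Y => rfl
  | add A B hA hB =>
      simp only [pvEval, ← hA, ← hB, ← congrFun (congrFun size_eq_eval Z)]; rfl
  | mul A B hA hB => simp only [pvEval, ← hA, ← hB]; rfl
  | neg A hA => simp only [pvEval, ← hA]; rfl

/-- The test on one rectangle. -/
def fast (Z : Box) (A : UE) : Bool :=
  let s := size Z A
  let k := Nat.succ (Nat.log2 s.b)
  decide (0 < Z.D) && FourPoly.signs k (Nat.mul (Nat.succ s.dx) (Nat.succ s.dy))
    (pv Z (Nat.pow 2 (Nat.mul (Nat.succ k) (Nat.succ s.dy))) (Nat.pow 2 (Nat.succ k)) A)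

theorem size_const (Z : Box) (a : ℤ) (b : ℕ) :
    size Z (const a b) = ⟨0, 0, Nat.succ b, a.natAbs⟩ := rfl

theorem size_X (Z : Box) : size Z X = ⟨1, 0, 1, Nat.add Z.ta.natAbs Z.tb.natAbs⟩ := rfl

theorem size_Y (Z : Box) : size Z Y = ⟨0, 1, 1, Nat.add Z.ya.natAbs Z.yb.natAbs⟩ := rfl

theorem size_add (Z : Box) (A B : UE) :
    size Z (A.add B) = Size.add Z.D.natAbs (size Z A) (size Z B) := rfl

theorem size_mul (Z : Box) (A B : UE) : size Z (A.mul B) = Size.mul (size Z A) (size Z B) := rfl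

theorem size_neg (Z : Box) (A : UE) : size Z A.neg = size Z A := rfl

theorem pv_add (Z : Box) (X₀ Y₀ : ℕ) (A B : UE) : pv Z X₀ Y₀ (A.add B) =
    sumPv Z X₀ Y₀ (size Z A) (size Z B) (pv Z X₀ Y₀ A) (pv Z X₀ Y₀ B) := rfl

theorem pv_mul (Z : Box) (X₀ Y₀ : ℕ) (A B : UE) :
    pv Z X₀ Y₀ (A.mul B) = Int.mul (pv Z X₀ Y₀ A) (pv Z X₀ Y₀ B) := rfl

theorem pv_neg (Z : Box) (X₀ Y₀ : ℕ) (A : UE) : pv Z X₀ Y₀ A.neg = Int.neg (pv Z X₀ Y₀ A) := rfl

/-- A power of `1 + X` as a polynomial in two variables. -/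
def liftX (D : ℤ) (i : ℕ) : P2 := (qpow D i).map fun c => [c]

theorem ev2_col : ∀ (l : P1) (x y : ℝ), ev2 (l.map fun c => [c]) x y = ev l x
  | [], x, y => by simp [ev2, ev]
  | c :: l, x, y => by simp [ev2, ev, ev2_col l x y]

theorem n2_col : ∀ l : P1, n2 (l.map fun c => [c]) = n1 l
  | [] => by simp [n2, n1]
  | c :: l => by simp [n2, n1, n2_col l]

theorem width_col : ∀ l : P1, width (l.map fun c => [c]) ≤ 1
  | [] => by simp [width]
  | c :: l => by simp [width, width_col l]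

/-- A lifted term. -/
def liftTerm (D : ℤ) (s i j : ℕ) (R : P2) : P2 :=
  mul2 (smul2 (s : ℤ) (mul2 (liftX D i) [qpow D j])) R

theorem liftTerm_spec (D : ℤ) (s i j : ℕ) (R : P2) {lx ly b : ℕ} (hl : R.length ≤ lx + 1)
    (hw : width R ≤ ly + 1) (hb : n2 R ≤ b) :
    (liftTerm D s i j R).length ≤ lx + i + 1 ∧ width (liftTerm D s i j R) ≤ ly + j + 1 ∧
      n2 (liftTerm D s i j R) ≤ s * (2 * D.natAbs) ^ (i + j) * b ∧
      ∀ x y : ℝ, ev2 (liftTerm D s i j R) x y =
        (s : ℝ) * (((D : ℝ) * (1 + x)) ^ i * ((D : ℝ) * (1 + y)) ^ j) * ev2 R x y := by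
  refine ⟨?_, ?_, ?_, fun x y => ?_⟩
  · refine (QP.length_mul2_sharp _ _).trans ?_
    have h := QP.length_mul2_sharp (liftX D i) [qpow D j]
    simp only [Packed.length_smul2, liftX, List.length_map, length_qpow, List.length_cons,
      List.length_nil] at h ⊢
    omega
  · refine (QP.width_mul2_sharp _ _).trans ?_
    have h := QP.width_mul2_sharp (liftX D i) [qpow D j]
    have := width_col (qpow D i)
    simp only [Packed.width_smul2, liftX, width, length_qpow] at h ⊢
    omega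
  · refine (n2_mul2 _ _).trans (Nat.mul_le_mul ?_ hb)
    rw [n2_smul2, Int.natAbs_natCast, pow_add]
    refine Nat.mul_le_mul_left _ ((n2_mul2 _ _).trans (Nat.mul_le_mul ?_ ?_))
    · rw [liftX, n2_col]; exact n1_qpow D i
    · simpa [n2] using n1_qpow D j
  · simp [liftTerm, ev2_mul2, ev2_smul2, liftX, ev2_col, ev2, ev_qpow]

/-- The pullback of an expression. -/
theorem exists_pullback (Z : Box) (hD : 0 ≤ Z.D) : ∀ A : UE, ∃ R : P2,
    R.length ≤ (size Z A).dx + 1 ∧ width R ≤ (size Z A).dy + 1 ∧ n2 R ≤ (size Z A).b ∧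
      0 < (size Z A).den ∧ (∀ X₀ Y₀ : ℕ, pv Z X₀ Y₀ A = ev2z R X₀ Y₀) ∧
      ∀ x y t u : ℝ, t * ((Z.D : ℝ) * (1 + x)) = Z.ta + Z.tb * x →
        u * ((Z.D : ℝ) * (1 + y)) = Z.ya + Z.yb * y →
        ev2 R x y = ((size Z A).den : ℝ) * ((Z.D : ℝ) * (1 + x)) ^ (size Z A).dx *
          ((Z.D : ℝ) * (1 + y)) ^ (size Z A).dy * A.val t u
  | .const a b => ⟨[[a]], by simp [size_const], by simp [size_const, width], by simp [size_const, n2, n1],
      Nat.succ_pos _, fun _ _ => by simp [pv, ev2z, evz], fun x y t u _ _ => by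
        simp only [size_const, ev2, ev, val, pow_zero, mul_one, mul_zero, add_zero, Nat.cast_succ]
        field_simp⟩
  | .X => ⟨[[Z.ta], [Z.tb]], by simp [size_X], by simp [size_X, width], by simp [size_X, n2, n1],
      Nat.one_pos, fun _ _ => by simp [pv, ev2z, evz]; ring, fun x y t u h _ => by
        simp only [size_X, ev2, ev, val, pow_zero, pow_one, Nat.cast_one, one_mul, mul_one]
        linear_combination -h⟩
  | .Y => ⟨[[Z.ya, Z.yb]], by simp [size_Y], by simp [size_Y, width], by simp [size_Y, n2, n1],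
      Nat.one_pos, fun _ _ => by simp [pv, ev2z, evz]; ring, fun x y t u _ h => by
        simp only [size_Y, ev2, ev, val, pow_zero, pow_one, Nat.cast_one, one_mul]
        linear_combination -h⟩
  | .neg A => by
      obtain ⟨R, h1, h2, h3, h4, h5, h6⟩ := exists_pullback Z hD A
      refine ⟨smul2 (-1) R, by simpa [size_neg, Packed.length_smul2] using h1,
        by simpa [size_neg, Packed.width_smul2] using h2, by simpa [size_neg, n2_smul2] using h3, h4,
        fun X₀ Y₀ => by simp only [pv_neg, h5, ev2z_smul2, neg_one_mul]; rfl, fun x y t u hx hy => ?_⟩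
      simp only [size_neg, ev2_smul2, h6 x y t u hx hy, val]
      push_cast
      ring
  | .mul A B => by
      obtain ⟨R, a1, a2, a3, a4, a5, a6⟩ := exists_pullback Z hD A
      obtain ⟨S, b1, b2, b3, b4, b5, b6⟩ := exists_pullback Z hD B
      refine ⟨mul2 R S, ?_, ?_, (n2_mul2 _ _).trans (Nat.mul_le_mul a3 b3), Nat.mul_pos a4 b4,
        fun X₀ Y₀ => by simp [pv_mul, a5, b5, ev2z_mul2], fun x y t u hx hy => ?_⟩
      · have := QP.length_mul2_sharp R S
        simp only [size_mul, Size.mul, Nat.add_eq]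
        omega
      · have := QP.width_mul2_sharp R S
        simp only [size_mul, Size.mul, Nat.add_eq]
        omega
      · simp only [size_mul, Size.mul, Nat.add_eq, Nat.mul_eq, ev2_mul2, a6 x y t u hx hy, b6 x y t u hx hy, val,
          pow_add, Nat.cast_mul]
        ring
  | .add A B => by
      obtain ⟨R, a1, a2, a3, a4, a5, a6⟩ := exists_pullback Z hD A
      obtain ⟨S, b1, b2, b3, b4, b5, b6⟩ := exists_pullback Z hD B
      set p := size Z A with hp
      set q := size Z B with hq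
      set L := Nat.lcm p.den q.den with hL
      obtain ⟨u1, u2, u3, u4⟩ :=
        liftTerm_spec Z.D (L / p.den) (q.dx - p.dx) (q.dy - p.dy) R a1 a2 a3
      obtain ⟨v1, v2, v3, v4⟩ :=
        liftTerm_spec Z.D (L / q.den) (p.dx - q.dx) (p.dy - q.dy) S b1 b2 b3
      refine ⟨add2 (liftTerm Z.D (L / p.den) (q.dx - p.dx) (q.dy - p.dy) R)
        (liftTerm Z.D (L / q.den) (p.dx - q.dx) (p.dy - q.dy) S), ?_, ?_, ?_,
        Nat.lcm_pos a4 b4, fun X₀ Y₀ => ?_, fun x y t w hx hy => ?_⟩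
      · simp only [size_add, Size.add, ← hp, ← hq, Nat.add_eq, Nat.sub_eq, Packed.length_add2]
        omega
      · refine (width_add2 _ _).trans ?_
        simp only [size_add, Size.add, ← hp, ← hq, Nat.add_eq, Nat.sub_eq]
        omega
      · simp only [size_add, Size.add, ← hp, ← hq, Nat.add_eq, Nat.sub_eq, Nat.mul_eq, Nat.pow_eq]
        exact (n2_add2 _ _).trans (Nat.add_le_add u3 v3)
      · have hD' : ((Z.D.natAbs : ℕ) : ℤ) = Z.D := Int.natAbs_of_nonneg hD
        apply Int.cast_injective (α := ℝ)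
        simp only [pv_add, sumPv, ← hp, ← hq, ← hL, a5, b5, lift, Int.add_def, Int.mul_def, Int.ofNat_eq_natCast,
          Nat.mul_eq, Nat.pow_eq, Nat.sub_eq, Nat.succ_eq_add_one]
        push_cast [cast_ev2z, ev2_add2, u4, v4]
        rw [abs_of_nonneg (show (0 : ℝ) ≤ Z.D by exact_mod_cast hD)]
        simp only [show ∀ a b : ℕ, Nat.div a b = a / b from fun _ _ => rfl]
        ring
      · have ea : ((L / p.den : ℕ) : ℝ) * p.den = (L : ℝ) := by
          exact_mod_cast Nat.div_mul_cancel (Nat.dvd_lcm_left p.den q.den)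
        have eb : ((L / q.den : ℕ) : ℝ) * q.den = (L : ℝ) := by
          exact_mod_cast Nat.div_mul_cancel (Nat.dvd_lcm_right p.den q.den)
        rw [ev2_add2, u4, v4, a6 x y t w hx hy, b6 x y t w hx hy]
        simp only [size_add, Size.add, ← hp, ← hq, ← hL, Nat.add_eq, Nat.sub_eq, val]
        have e1 : p.dx + (q.dx - p.dx) = q.dx + (p.dx - q.dx) := by omega
        have e2 : p.dy + (q.dy - p.dy) = q.dy + (p.dy - q.dy) := by omega
        rw [mul_add (_ * _) (A.val t w)]
        congr 1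
        · rw [← ea, pow_add, pow_add]
          ring
        · rw [← eb, e1, e2, pow_add, pow_add]
          ring

theorem fast_sound {Z : Box} {A : UE} (h : fast Z A = true) {t y : ℝ} (hm : memC Z t y) :
    0 ≤ A.val t y := by
  simp only [fast, Bool.and_eq_true, decide_eq_true_eq, Nat.succ_eq_add_one, Nat.mul_eq,
    Nat.pow_eq] at h
  obtain ⟨hD0, hs⟩ := h
  obtain ⟨R, h1, h2, h3, h4, h5, h6⟩ := exists_pullback Z hD0.le A
  set s := size Z A with hs'
  set k := Nat.log2 s.b + 1 with hk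
  have hbQ : 2 * (s.b : ℤ) < 2 ^ (k + 1) := by
    have : (s.b : ℤ) < 2 ^ k := by exact_mod_cast Nat.lt_log2_self
    rw [pow_succ']
    omega
  have hn : nonneg2 R = true := by
    rw [h5] at hs
    push_cast at hs
    rw [pow_mul, ← FourPoly.evz_flat (s.dy + 1) _ R h2] at hs
    rw [← FourPoly.nonneg1_flat (s.dy + 1) R]
    generalize hv : evz (FourPoly.flat (s.dy + 1) R) (2 ^ (k + 1)) = v at hs
    cases v with
    | negSucc w => simp [FourPoly.signs] at hs
    | ofNat v =>
        simp only [FourPoly.signs, Nat.beq_eq] at hs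
        rw [FourPoly.maskFast_eq] at hs
        refine FourPoly.signs_sound k ((s.dx + 1) * (s.dy + 1)) _ v ?_ ?_ hv.symm hs
        · rw [FourPoly.length_flat _ _ h2]
          exact Nat.mul_le_mul_right _ h1
        · rw [FourPoly.n1_flat]
          exact lt_of_le_of_lt (by exact_mod_cast Nat.mul_le_mul_left 2 h3) hbQ
  obtain ⟨hD, htt, hyy, m1, m2, m3, m4⟩ := hm
  have half : ∀ t y : ℝ, (Z.ta : ℝ) ≤ t * Z.D → t * Z.D < Z.tb → (Z.ya : ℝ) ≤ y * Z.D →
      y * Z.D < Z.yb → 0 ≤ A.val t y := by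
    intro t y a1 a2 a3 a4
    have hx : (0 : ℝ) < Z.tb - t * Z.D := by linarith
    have hy : (0 : ℝ) < Z.yb - y * Z.D := by linarith
    set x := (t * Z.D - Z.ta) / (Z.tb - t * Z.D) with hx'
    set u := (y * Z.D - Z.ya) / (Z.yb - y * Z.D) with hu'
    have ex : t * ((Z.D : ℝ) * (1 + x)) = Z.ta + Z.tb * x := by rw [hx']; field_simp; ring
    have eu : y * ((Z.D : ℝ) * (1 + u)) = Z.ya + Z.yb * u := by rw [hu']; field_simp; ring
    have hx0 : 0 ≤ x := div_nonneg (by linarith) hx.le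
    have hu0 : 0 ≤ u := div_nonneg (by linarith) hy.le
    have h0 := ev2_nonneg R x u hx0 hu0 hn
    rw [h6 x u t y ex eu] at h0
    exact nonneg_of_mul_nonneg_right h0
      (mul_pos (mul_pos (Nat.cast_pos.2 h4) (by positivity)) (by positivity))
  have key : Ico ((Z.ta : ℝ) / Z.D) (Z.tb / Z.D) ×ˢ Ico ((Z.ya : ℝ) / Z.D) (Z.yb / Z.D) ⊆
      {p : ℝ × ℝ | 0 ≤ A.val p.1 p.2} := fun p hp => by
    obtain ⟨⟨a1, a2⟩, a3, a4⟩ := hp
    exact half _ _ ((div_le_iff₀ hD).1 a1) ((lt_div_iff₀ hD).1 a2) ((div_le_iff₀ hD).1 a3)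
      ((lt_div_iff₀ hD).1 a4)
  have hcl := closure_minimal key (isClosed_le continuous_const (continuous_val A))
  have ne : ∀ {a b : ℤ}, a < b → (a : ℝ) / Z.D ≠ (b : ℝ) / Z.D := fun h =>
    ne_of_lt (div_lt_div_of_pos_right (Int.cast_lt.2 h) hD)
  rw [closure_prod_eq, closure_Ico (ne htt), closure_Ico (ne hyy)] at hcl
  exact hcl (a := (t, y)) ⟨⟨(div_le_iff₀ hD).2 m1, (le_div_iff₀ hD).2 m2⟩,
    (div_le_iff₀ hD).2 m3, (le_div_iff₀ hD).2 m4⟩

/-- The checks on a subdivided closed rectangle. -/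
def checkTree (A : UE) (B : Box) : WeightCert.Tree → Bool
  | .leaf => fast B A
  | .cutT m a b => decide (B.ta < m ∧ m < B.tb) &&
      (checkTree A { B with tb := m } a && checkTree A { B with ta := m } b)
  | .cutY m a b => decide (B.ya < m ∧ m < B.yb) &&
      (checkTree A { B with yb := m } a && checkTree A { B with ya := m } b)

/-- Certified nonnegativity on a subdivided rectangle. -/
theorem val_nonneg {A : UE} : ∀ {T : WeightCert.Tree} {B : Box}, checkTree A B T = true →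
    ∀ {t y : ℝ}, memC B t y → 0 ≤ A.val t y
  | .leaf, _, h, _, _, hm => fast_sound h hm
  | .cutT m a b, B, h, t, y, hm => by
      simp only [checkTree, Bool.and_eq_true, decide_eq_true_eq] at h
      obtain ⟨hD, h0, h0', h1, h2, h3, h4⟩ := hm
      rcases le_total (t * B.D) (m : ℝ) with hc | hc
      · exact val_nonneg h.2.1 ⟨hD, h.1.1, h0', h1, hc, h3, h4⟩
      · exact val_nonneg h.2.2 ⟨hD, h.1.2, h0', hc, h2, h3, h4⟩
  | .cutY m a b, B, h, t, y, hm => by
      simp only [checkTree, Bool.and_eq_true, decide_eq_true_eq] at h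
      obtain ⟨hD, h0, h0', h1, h2, h3, h4⟩ := hm
      rcases le_total (y * B.D) (m : ℝ) with hc | hc
      · exact val_nonneg h.2.1 ⟨hD, h0, h.1.1, h1, h2, h3, hc⟩
      · exact val_nonneg h.2.2 ⟨hD, h0, h.1.2, h1, h2, hc, h4⟩

end UE

end Vale.Agent.P237.Quant
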